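import Vale.Agent.P347Zero.Field
import Vale.Agent.P347.Quad
import Vale.Agent.P347.Smooth

/-!
P347, accuracy of every order: combinations of correlation operators that vanish on low degrees
are small on functions with small derivatives of high order, and the smoothed field satisfies the
hypotheses on fields.
-/

open MeasureTheory ProbabilityTheory Real Filter
open scoped RealInnerProductSpace Topology

namespace Vale.Agent.P347.TailAux

open Quad

variable {d : ℕ} {F : Type*} [NormedAddCommGroup F] [NormedSpace ℝ F]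

/-- Polynomial growth. -/
def PolyB (f : E d → F) : Prop :=
  ∃ (K : ℝ) (k : ℕ), 0 ≤ K ∧ ∀ x, ‖f x‖ ≤ K * (1 + ‖x‖) ^ k

omit [NormedSpace ℝ F] in
lemma PolyB.of_bound {f : E d → F} {K : ℝ} (h : ∀ x, ‖f x‖ ≤ K) : PolyB f :=
  ⟨K, 0, (norm_nonneg _).trans (h 0), fun x => by simpa using h x⟩

omit [NormedSpace ℝ F] in
lemma PolyB.integrable {f : E d → F} [SecondCountableTopology F] (h : PolyB f)
    (hc : Continuous f) : Integrable f (gau (Fin d)) :=
  let ⟨_, _, _, hk⟩ := h
  integrable_of_poly hc.aestronglyMeasurable hk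

omit [NormedSpace ℝ F] in
lemma PolyB.memLp {f : E d → F} [SecondCountableTopology F] (h : PolyB f) (hc : Continuous f) :
    MemLp f 2 (gau (Fin d)) := by
  obtain ⟨K, k, hK, hk⟩ := h
  refine (memLp_two_iff_integrable_sq_norm hc.aestronglyMeasurable).2
    (integrable_of_poly (K := K ^ 2) (k := 2 * k) (by fun_prop) fun x => ?_)
  rw [norm_pow, norm_norm, pow_mul', ← mul_pow]
  exact pow_le_pow_left₀ (norm_nonneg _) (hk x) 2

lemma one_add_norm_comb_le {a b : ℝ} (ha : |a| ≤ 1) (hb : |b| ≤ 1) (x y : E d) (k : ℕ) :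
    (1 + ‖a • x + b • y‖) ^ k ≤ (1 + ‖x‖) ^ k * (1 + ‖y‖) ^ k := by
  rw [← mul_pow]
  refine pow_le_pow_left₀ (by positivity) ?_ k
  have h1 : ‖a • x + b • y‖ ≤ ‖x‖ + ‖y‖ := by
    refine (norm_add_le _ _).trans (add_le_add ?_ ?_) <;> rw [norm_smul, Real.norm_eq_abs]
    · exact mul_le_of_le_one_left (norm_nonneg _) ha
    · exact mul_le_of_le_one_left (norm_nonneg _) hb
  nlinarith [norm_nonneg x, norm_nonneg y]

lemma abs_le_one_of_sq {ρ : ℝ} (h : ρ ^ 2 ≤ 1) : |ρ| ≤ 1 ∧ |√(1 - ρ ^ 2)| ≤ 1 := by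
  refine ⟨(sq_le_one_iff_abs_le_one ρ).1 h, ?_⟩
  rw [abs_of_nonneg (Real.sqrt_nonneg _), Real.sqrt_le_one]
  nlinarith [sq_nonneg ρ]

omit [NormedSpace ℝ F] in
lemma PolyB.slice {f : E d → F} [SecondCountableTopology F] (h : PolyB f) (hc : Continuous f)
    {ρ : ℝ} (hρ : ρ ^ 2 ≤ 1) (x : E d) :
    Integrable (fun w => f (mix ρ (x, w))) (gau (Fin d)) := by
  obtain ⟨K, k, hK, hk⟩ := h
  refine integrable_of_poly (K := K * (1 + ‖x‖) ^ k) (k := k)
    (hc.comp ((continuous_mix ρ).comp (by fun_prop))).aestronglyMeasurable fun w => ?_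
  refine (hk _).trans ?_
  rw [mul_assoc]
  exact mul_le_mul_of_nonneg_left
    (one_add_norm_comb_le (abs_le_one_of_sq hρ).1 (abs_le_one_of_sq hρ).2 x w k) hK

omit [NormedSpace ℝ F] in
lemma PolyB.prod {f : E d → F} [SecondCountableTopology F] (h : PolyB f) (hc : Continuous f) :
    Integrable (fun p : E d × E d => ‖f p.1 - f p.2‖ ^ 2) ((gau (Fin d)).prod (gau (Fin d))) := by
  have hm := integrable_sq_of_memLp (h.memLp hc)
  refine (((hm.comp_fst (gau (Fin d))).add (hm.comp_snd (gau (Fin d)))).const_mul 2).mono'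
    (by fun_prop) (ae_of_all _ fun p => ?_)
  rw [norm_pow, norm_norm]
  simp only [Pi.add_apply]
  nlinarith [norm_sub_le (f p.1) (f p.2), norm_nonneg (f p.1 - f p.2),
    sq_nonneg (‖f p.1‖ - ‖f p.2‖)]

lemma integral_ou [CompleteSpace F] [SecondCountableTopology F] {ρ : ℝ} (hρ : ρ ^ 2 ≤ 1)
    {f : E d → F} (hf : Integrable f (gau (Fin d))) :
    ∫ x, ou ρ f x ∂gau (Fin d) = ∫ x, f x ∂gau (Fin d) := by
  simp only [ou_eq]
  rw [← integral_prod _ (integrable_comp_mix hρ hf)]
  conv_rhs => rw [← map_mix (ι := Fin d) hρ]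
  rw [integral_map (continuous_mix ρ).measurable.aemeasurable (by rw [map_mix hρ]; exact hf.1)]

/-- The operator commutes with the derivative up to the correlation. -/
lemma hasFDerivAt_ou [CompleteSpace F] [SecondCountableTopology F] {ρ : ℝ} (hρ : ρ ^ 2 ≤ 1)
    {f : E d → F} (hf : ContDiff ℝ 1 f) (hb : PolyB f) (hd : PolyB (fderiv ℝ f)) (x : E d) :
    HasFDerivAt (ou ρ f) (ρ • ou ρ (fderiv ℝ f) x) x := by
  obtain ⟨K, k, hK, hk⟩ := hd
  obtain ⟨ha, hs⟩ := abs_le_one_of_sq hρ
  have hfc := hf.continuous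
  have hc' : Continuous (fderiv ℝ f) := hf.continuous_fderiv one_ne_zero
  have key := hasFDerivAt_integral_of_dominated_of_fderiv_le (μ := gau (Fin d)) (x₀ := x)
    (F := fun y w => f (ρ • y + √(1 - ρ ^ 2) • w))
    (F' := fun y w => ρ • fderiv ℝ f (ρ • y + √(1 - ρ ^ 2) • w))
    (bound := fun w => K * (2 + ‖x‖) ^ k * (1 + ‖w‖) ^ k)
    (Metric.ball_mem_nhds x zero_lt_one)
    (.of_forall fun y => (by fun_prop)) (hb.slice hf.continuous hρ x) (by fun_prop)
    (ae_of_all _ fun w y hy => by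
      rw [norm_smul, Real.norm_eq_abs]
      refine (mul_le_of_le_one_left (norm_nonneg _) ha).trans ((hk _).trans ?_)
      rw [mul_assoc]
      refine mul_le_mul_of_nonneg_left ((one_add_norm_comb_le ha hs y w k).trans ?_) hK
      refine mul_le_mul_of_nonneg_right (pow_le_pow_left₀ (by positivity) ?_ k) (by positivity)
      rw [Metric.mem_ball, dist_eq_norm] at hy
      have := norm_le_insert' y x
      linarith)
    (integrable_of_poly (K := K * (2 + ‖x‖) ^ k) (k := k) (by fun_prop) fun w => by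
      rw [Real.norm_eq_abs, abs_of_nonneg (by positivity)])
    (ae_of_all _ fun w y _ => by
      have e : HasFDerivAt (fun y : E d => ρ • y + √(1 - ρ ^ 2) • w)
          (ρ • ContinuousLinearMap.id ℝ (E d)) y :=
        ((hasFDerivAt_id y).const_smul ρ).add_const _
      refine ((hf.differentiable one_ne_zero _).hasFDerivAt.comp y e).congr_fderiv ?_
      ext v
      simp)
  rw [integral_smul] at key
  exact key

lemma continuous_ou_poly [CompleteSpace F] [SecondCountableTopology F] {ρ : ℝ} (hρ : ρ ^ 2 ≤ 1)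
    {f : E d → F} (hc : Continuous f) (hb : PolyB f) : Continuous (ou ρ f) := by
  obtain ⟨K, k, hK, hk⟩ := hb
  obtain ⟨ha, hs⟩ := abs_le_one_of_sq hρ
  refine continuous_iff_continuousAt.2 fun x => ?_
  refine continuousAt_of_dominated (bound := fun w => K * (2 + ‖x‖) ^ k * (1 + ‖w‖) ^ k)
    (Eventually.of_forall fun y => (by fun_prop)) ?_ ?_ (ae_of_all _ fun w => (by fun_prop))
  · filter_upwards [Metric.ball_mem_nhds x zero_lt_one] with y hy
    refine ae_of_all _ fun w => (hk _).trans ?_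
    rw [mul_assoc]
    refine mul_le_mul_of_nonneg_left ((one_add_norm_comb_le ha hs y w k).trans ?_) hK
    refine mul_le_mul_of_nonneg_right (pow_le_pow_left₀ (by positivity) ?_ k) (by positivity)
    rw [Metric.mem_ball, dist_eq_norm] at hy
    have := norm_le_insert' y x
    linarith
  · exact integrable_of_poly (K := K * (2 + ‖x‖) ^ k) (k := k) (by fun_prop) fun w => by
      rw [Real.norm_eq_abs, abs_of_nonneg (by positivity)]

lemma PolyB.ou [CompleteSpace F] [SecondCountableTopology F] {ρ : ℝ} (hρ : ρ ^ 2 ≤ 1)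
    {f : E d → F} (hb : PolyB f) : PolyB (ou ρ f) := by
  obtain ⟨K, k, hK, hk⟩ := hb
  obtain ⟨ha, hs⟩ := abs_le_one_of_sq hρ
  have hi : Integrable (fun w : E d => (1 + ‖w‖) ^ k) (gau (Fin d)) :=
    integrable_of_poly (K := 1) (k := k) (by fun_prop) fun w => by
      rw [Real.norm_eq_abs, abs_of_nonneg (by positivity), one_mul]
  refine ⟨K * ∫ w, (1 + ‖w‖) ^ k ∂gau (Fin d), k,
    mul_nonneg hK (integral_nonneg fun w => by positivity), fun x => ?_⟩
  rw [mul_assoc, mul_comm (∫ w, (1 + ‖w‖) ^ k ∂gau (Fin d)), ← mul_assoc, ← integral_const_mul]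
  refine norm_integral_le_of_norm_le (hi.const_mul _) (ae_of_all _ fun w => (hk _).trans ?_)
  rw [mul_assoc]
  exact mul_le_mul_of_nonneg_left (one_add_norm_comb_le ha hs x w k) hK

section values

variable {f : E d → E d}

/-- The Hilbert–Schmidt norm as a Gaussian average. -/
lemma integral_gau_apply_sq (A : E d →L[ℝ] E d) :
    ∫ y, ‖A y‖ ^ 2 ∂gau (Fin d) = ∑ i, ‖A (EuclideanSpace.single i 1)‖ ^ 2 := by
  set e : Fin d → E d := fun i => EuclideanSpace.single i (1 : ℝ)
  have hy : ∀ y, ‖A y‖ ^ 2 = ∑ i, ∑ j, ⟪A (e i), A (e j)⟫ * (⟪y, e i⟫ * ⟪y, e j⟫) := by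
    intro y
    have : A y = ∑ i, ⟪y, e i⟫ • A (e i) := by
      conv_lhs => rw [← (EuclideanSpace.basisFun (Fin d) ℝ).sum_repr' y]
      simp [map_sum, e, real_inner_comm]
    rw [← real_inner_self_eq_norm_sq, this, sum_inner]
    refine Finset.sum_congr rfl fun i _ => ?_
    rw [inner_sum]
    refine Finset.sum_congr rfl fun j _ => ?_
    rw [real_inner_smul_left, real_inner_smul_right]
    ring
  have hi : ∀ i j, Integrable (fun y => ⟪A (e i), A (e j)⟫ * (⟪y, e i⟫ * ⟪y, e j⟫))
      (gau (Fin d)) := fun i j =>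
    (integrable_of_poly (K := 1) (k := 2) (by fun_prop) fun y => by
      have h : ∀ l, |⟪y, e l⟫| ≤ 1 + ‖y‖ := fun l =>
        (abs_real_inner_le_norm _ _).trans (by simp [e])
      rw [norm_mul, Real.norm_eq_abs, Real.norm_eq_abs, one_mul, sq]
      exact mul_le_mul (h i) (h j) (abs_nonneg _) (by positivity)).const_mul _
  simp only [hy]
  rw [integral_finsetSum _ fun i _ => integrable_finsetSum _ fun j _ => hi i j]
  refine Finset.sum_congr rfl fun i _ => ?_
  rw [integral_finsetSum _ fun j _ => hi i j]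
  simp only [integral_const_mul, integral_gau_inner_mul]
  simp [e, EuclideanSpace.inner_single_left]

/-- A centred function is dominated by the differences of its values. -/
lemma integral_sq_le_pair (hc : Continuous f) (hb : PolyB f)
    (h0 : ∫ x, f x ∂gau (Fin d) = 0) :
    ∫ x, ‖f x‖ ^ 2 ∂gau (Fin d) ≤
      ∫ p, ‖f p.1 - f p.2‖ ^ 2 ∂(gau (Fin d)).prod (gau (Fin d)) := by
  have hi := hb.prod hc
  rw [integral_prod _ hi]
  refine integral_mono_ae (integrable_sq_of_memLp (hb.memLp hc)) hi.integral_prod_left ?_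
  filter_upwards [hi.prod_right_ae] with x hx
  have h1 : Integrable (fun y => f x - f y) (gau (Fin d)) :=
    (integrable_const _).sub (hb.integrable hc)
  have := norm_sq_integral_le h1 hx
  rw [integral_sub (integrable_const _) (hb.integrable hc), h0] at this
  simpa using this

/-- The difference of two values along the circle through them. -/
lemma sq_sub_le_curve (hf : ContDiff ℝ 1 f) (p : E d × E d) :
    ‖f p.1 - f p.2‖ ^ 2 ≤ (π / 2) ^ 2 * ∫ u in Set.Ioc (0 : ℝ) 1,
      ‖fderiv ℝ f (rot (cos (π / 2 * u)) (sin (π / 2 * u)) p).1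
        (rot (cos (π / 2 * u)) (sin (π / 2 * u)) p).2‖ ^ 2 := by
  have hfc := hf.continuous
  have hc' : Continuous (fderiv ℝ f) := hf.continuous_fderiv one_ne_zero
  have : IsProbabilityMeasure (volume.restrict (Set.Ioc (0 : ℝ) 1)) := ⟨by simp⟩
  set φ : ℝ → E d := fun u =>
    fderiv ℝ f (cos (π / 2 * u) • p.1 + sin (π / 2 * u) • p.2)
      (-sin (π / 2 * u) • p.1 + cos (π / 2 * u) • p.2) with hφ
  have hφc : Continuous φ := by fun_prop
  have hder : ∀ u, HasDerivAt (fun u => f (cos (π / 2 * u) • p.1 + sin (π / 2 * u) • p.2))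
      ((π / 2) • φ u) u := by
    intro u
    have h1 : HasDerivAt (fun u : ℝ => π / 2 * u) (π / 2) u := by
      simpa using (hasDerivAt_id u).const_mul (π / 2)
    have h2 := (h1.cos.smul_const p.1).add (h1.sin.smul_const p.2)
    refine ((hf.differentiable one_ne_zero _).hasFDerivAt.comp_hasDerivAt u h2).congr_deriv ?_
    simp only [hφ, ← map_smul]
    congr 1
    module
  have hftc := intervalIntegral.integral_eq_sub_of_hasDerivAt (fun u _ => hder u)
    ((hφc.const_smul (π / 2)).intervalIntegrable 0 1)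
  rw [intervalIntegral.integral_smul, intervalIntegral.integral_of_le zero_le_one] at hftc
  simp only [mul_one, mul_zero, Real.cos_pi_div_two, Real.sin_pi_div_two, Real.cos_zero,
    Real.sin_zero, one_smul, zero_smul, zero_add, add_zero] at hftc
  rw [norm_sub_rev, ← hftc, norm_smul, mul_pow, Real.norm_eq_abs, sq_abs]
  exact mul_le_mul_of_nonneg_left
    (norm_sq_integral_le hφc.integrableOn_Ioc (hφc.norm.pow 2).integrableOn_Ioc) (sq_nonneg _)

/-- Averages along the circle are averages at a point. -/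
lemma integral_curve {G : E d × E d → ℝ} (hG : Continuous G) (hG0 : ∀ p, 0 ≤ G p) {K : ℝ} {k : ℕ}
    (hK : ∀ a b : ℝ, |a| ≤ 1 → |b| ≤ 1 → ∀ p, G (rot a b p) ≤
      K * ((1 + ‖p.1‖) ^ k * (1 + ‖p.2‖) ^ k)) :
    Integrable (fun p => ∫ u in Set.Ioc (0 : ℝ) 1,
        G (rot (cos (π / 2 * u)) (sin (π / 2 * u)) p)) ((gau (Fin d)).prod (gau (Fin d))) ∧
      ∫ p, (∫ u in Set.Ioc (0 : ℝ) 1, G (rot (cos (π / 2 * u)) (sin (π / 2 * u)) p))
          ∂(gau (Fin d)).prod (gau (Fin d))
        = ∫ p, G p ∂(gau (Fin d)).prod (gau (Fin d)) := by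
  have : IsProbabilityMeasure (volume.restrict (Set.Ioc (0 : ℝ) 1)) := ⟨by simp⟩
  have hw : Integrable (fun x : E d => (1 + ‖x‖) ^ k) (gau (Fin d)) :=
    integrable_of_poly (K := 1) (k := k) (by fun_prop) fun w => by
      rw [Real.norm_eq_abs, abs_of_nonneg (by positivity), one_mul]
  have hi : Integrable (fun q : (E d × E d) × ℝ =>
      G (rot (cos (π / 2 * q.2)) (sin (π / 2 * q.2)) q.1))
      (((gau (Fin d)).prod (gau (Fin d))).prod (volume.restrict (Set.Ioc (0 : ℝ) 1))) := by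
    refine (((hw.mul_prod hw).const_mul K).comp_fst _).mono'
      (hG.comp (by unfold rot; fun_prop)).aestronglyMeasurable (ae_of_all _ fun q => ?_)
    rw [Real.norm_eq_abs, abs_of_nonneg (hG0 _)]
    exact hK _ _ (abs_cos_le_one _) (abs_sin_le_one _) q.1
  refine ⟨hi.integral_prod_left, ?_⟩
  rw [integral_integral_swap hi]
  have hrot : ∀ u, ∫ p, G (rot (cos (π / 2 * u)) (sin (π / 2 * u)) p)
      ∂(gau (Fin d)).prod (gau (Fin d)) = ∫ p, G p ∂(gau (Fin d)).prod (gau (Fin d)) := fun u =>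
    integral_rot (cos_sq_add_sin_sq _) hG.aestronglyMeasurable
  simp only [hrot, integral_const, probReal_univ, one_smul]

/-- A Poincaré inequality with constant `4`. -/
lemma gau_poincare (hf : ContDiff ℝ 1 f) (hb : PolyB f) (hd : PolyB (fderiv ℝ f))
    (h0 : ∫ x, f x ∂gau (Fin d) = 0) :
    ∫ x, ‖f x‖ ^ 2 ∂gau (Fin d) ≤
      4 * ∑ i, ∫ x, ‖fderiv ℝ f x (EuclideanSpace.single i 1)‖ ^ 2 ∂gau (Fin d) := by
  have hc' : Continuous (fderiv ℝ f) := hf.continuous_fderiv one_ne_zero
  obtain ⟨K, k, hK, hk⟩ := hd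
  set G : E d × E d → ℝ := fun p => ‖fderiv ℝ f p.1 p.2‖ ^ 2 with hG
  have hGc : Continuous G := by fun_prop
  have hbd : ∀ a b : ℝ, |a| ≤ 1 → |b| ≤ 1 → ∀ p, G (rot a b p) ≤
      K ^ 2 * ((1 + ‖p.1‖) ^ (2 * k + 2) * (1 + ‖p.2‖) ^ (2 * k + 2)) := by
    intro a b ha hb' p
    have h1 : ‖fderiv ℝ f (a • p.1 + b • p.2)‖ ≤ K * ((1 + ‖p.1‖) ^ k * (1 + ‖p.2‖) ^ k) :=
      (hk _).trans (mul_le_mul_of_nonneg_left (one_add_norm_comb_le ha hb' _ _ k) hK)
    have h2 : ‖-b • p.1 + a • p.2‖ ≤ (1 + ‖p.1‖) * (1 + ‖p.2‖) := by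
      have h3 : |(-b)| ≤ 1 := by rwa [abs_neg]
      have := one_add_norm_comb_le h3 ha p.1 p.2 1
      simp only [pow_one] at this
      linarith
    simp only [hG, rot]
    refine (pow_le_pow_left₀ (norm_nonneg _) ((ContinuousLinearMap.le_opNorm _ _).trans
      (mul_le_mul h1 h2 (norm_nonneg _) (by positivity))) 2).trans_eq ?_
    ring
  obtain ⟨hi, heq⟩ := integral_curve hGc (fun p => sq_nonneg _) hbd
  have hGi : Integrable G ((gau (Fin d)).prod (gau (Fin d))) := by
    have hw : Integrable (fun x : E d => (1 + ‖x‖) ^ (2 * k + 2)) (gau (Fin d)) :=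
      integrable_of_poly (K := 1) (k := 2 * k + 2) (by fun_prop) fun w => by
        rw [Real.norm_eq_abs, abs_of_nonneg (by positivity), one_mul]
    refine ((hw.mul_prod hw).const_mul (K ^ 2)).mono' hGc.aestronglyMeasurable
      (ae_of_all _ fun p => ?_)
    rw [Real.norm_eq_abs, abs_of_nonneg (sq_nonneg _)]
    have := hbd 1 0 (by simp) (by simp) p
    simpa [rot] using this
  have hval : ∫ p, G p ∂(gau (Fin d)).prod (gau (Fin d)) =
      ∑ i, ∫ x, ‖fderiv ℝ f x (EuclideanSpace.single i 1)‖ ^ 2 ∂gau (Fin d) := by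
    rw [integral_prod _ hGi]
    simp only [hG, integral_gau_apply_sq]
    rw [integral_finsetSum]
    intro i _
    refine integrable_of_poly (K := K ^ 2) (k := 2 * k) (by fun_prop) fun x => ?_
    rw [norm_pow, norm_norm, pow_mul', ← mul_pow]
    refine pow_le_pow_left₀ (norm_nonneg _) ?_ 2
    refine (ContinuousLinearMap.le_opNorm _ _).trans ?_
    simpa using hk x
  refine (integral_sq_le_pair hf.continuous hb h0).trans ((integral_mono (hb.prod hf.continuous)
    (hi.const_mul ((π / 2) ^ 2)) fun p => sq_sub_le_curve hf p).trans ?_)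
  rw [integral_const_mul, heq, hval]
  refine mul_le_mul_of_nonneg_right ?_
    (Finset.sum_nonneg fun i _ => integral_nonneg fun x => sq_nonneg _)
  nlinarith [pi_le_four, pi_pos]

/-- The part of degree one is the mean derivative. -/
lemma chaosOne_eq (hf : ContDiff ℝ 1 f) (hb : PolyB f) (hd : PolyB (fderiv ℝ f)) :
    chaosOne f = fun x => (∫ w, fderiv ℝ f w ∂gau (Fin d)) x := by
  funext x
  obtain ⟨K, k, hK, hk⟩ := hb
  obtain ⟨K', k', hK', hk'⟩ := id hd
  have grow : ∀ (C : ℝ) (j : ℕ) (w : E d), 0 ≤ C → j ≤ k + k' →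
      C * (1 + ‖w‖) ^ j ≤ C * exp (0 * ‖w‖ ^ 2 + ((k + k' : ℕ) : ℝ) * ‖w‖) := by
    intro C j w hC hj
    refine mul_le_mul_of_nonneg_left ?_ hC
    rw [zero_mul, zero_add, Real.exp_nat_mul]
    refine (pow_le_pow_right₀ (by linarith [norm_nonneg w]) hj).trans
      (pow_le_pow_left₀ (by positivity) ?_ _)
    linarith [Real.add_one_le_exp ‖w‖]
  have h := gau_ibp_smul hf (K := K + K') (a := 0) (b := ((k + k' : ℕ) : ℝ)) (by norm_num)
    (fun w => ((hk w).trans (mul_le_mul_of_nonneg_right (le_add_of_nonneg_right hK')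
      (by positivity))).trans (grow _ k w (by positivity) (by omega)))
    (fun w => ((hk' w).trans (mul_le_mul_of_nonneg_right (le_add_of_nonneg_left hK)
      (by positivity))).trans (grow _ k' w (by positivity) (by omega))) x
  rw [ContinuousLinearMap.integral_apply (hd.integrable (hf.continuous_fderiv one_ne_zero)), ← h]
  simp only [chaosOne, real_inner_comm x]

end values

section iterate

variable {f : E d → E d}

/-- The square sum of the coordinate derivatives of order `n`. -/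
noncomputable def coordSq (n : ℕ) (f : E d → E d) (x : E d) : ℝ :=
  ∑ a : Fin n → Fin d, ‖iteratedFDeriv ℝ n f x fun i => EuclideanSpace.single (a i) (1 : ℝ)‖ ^ 2

/-- One coordinate derivative is moved into the function. -/
lemma coordSq_succ {n : ℕ} (hf : ContDiff ℝ (n + 1 : ℕ) f) (x : E d) :
    coordSq (n + 1) f x =
      ∑ i, coordSq n (fun y => fderiv ℝ f y (EuclideanSpace.single i 1)) x := by
  have hd : ContDiffAt ℝ (n : ℕ) (fderiv ℝ f) x := (hf.fderiv_right (by norm_cast)).contDiffAt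
  unfold coordSq
  rw [← (Fin.snocEquiv fun _ : Fin (n + 1) => Fin d).sum_comp, Fintype.sum_prod_type]
  refine Finset.sum_congr rfl fun i _ => Finset.sum_congr rfl fun a _ => ?_
  rw [show (fun y => fderiv ℝ f y (EuclideanSpace.single i (1 : ℝ))) =
      ContinuousLinearMap.apply ℝ (E d) (EuclideanSpace.single i (1 : ℝ)) ∘ fderiv ℝ f from rfl,
    (ContinuousLinearMap.apply ℝ (E d) (EuclideanSpace.single i (1 : ℝ))).iteratedFDeriv_comp_left
      hd le_rfl, iteratedFDeriv_succ_apply_right]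
  simp only [Fin.snocEquiv, Equiv.coe_fn_mk, Fin.snoc_last, Fin.init_def, Fin.snoc_castSucc,
    ContinuousLinearMap.compContinuousMultilinearMap_coe, Function.comp_apply,
    ContinuousLinearMap.apply_apply]

lemma coordSq_zero (f : E d → E d) (x : E d) : coordSq 0 f x = ‖f x‖ ^ 2 := by
  simp [coordSq]

lemma coordSq_nonneg (n : ℕ) (f : E d → E d) (x : E d) : 0 ≤ coordSq n f x :=
  Finset.sum_nonneg fun _ _ => sq_nonneg _

lemma PolyB.of_fderiv (hf : Differentiable ℝ f)
    (h : ∀ i, PolyB fun y => fderiv ℝ f y (EuclideanSpace.single i 1)) :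
    PolyB f ∧ PolyB (fderiv ℝ f) := by
  choose K k hK hk using h
  set C := ∑ i, K i
  set m := ∑ i, k i
  have hC : 0 ≤ C := Finset.sum_nonneg fun i _ => hK i
  have hd : ∀ y, ‖fderiv ℝ f y‖ ≤ C * (1 + ‖y‖) ^ m := by
    intro y
    refine ContinuousLinearMap.opNorm_le_bound _ (by positivity) fun v => ?_
    conv_lhs => rw [← (EuclideanSpace.basisFun (Fin d) ℝ).sum_repr v]
    rw [map_sum, Finset.sum_mul, Finset.sum_mul]
    refine (norm_sum_le _ _).trans (Finset.sum_le_sum fun i _ => ?_)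
    rw [map_smul, norm_smul, mul_comm]
    simp only [EuclideanSpace.basisFun_apply, EuclideanSpace.basisFun_repr]
    refine mul_le_mul ((hk i y).trans (mul_le_mul_of_nonneg_left
      (pow_le_pow_right₀ (by linarith [norm_nonneg y])
        (Finset.single_le_sum (fun j _ => Nat.zero_le (k j)) (Finset.mem_univ i))) (hK i)))
      (PiLp.norm_apply_le (p := 2) v i) (norm_nonneg _) (mul_nonneg (hK i) (by positivity))
  refine ⟨⟨‖f 0‖ + C, m + 1, by positivity, fun x => ?_⟩, ⟨C, m, hC, hd⟩⟩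
  have h := Convex.norm_image_sub_le_of_norm_fderiv_le (𝕜 := ℝ) (C := C * (1 + ‖x‖) ^ m)
    (fun y _ => hf y) (fun y (hy : y ∈ Metric.closedBall (0 : E d) ‖x‖) => (hd y).trans (by
      gcongr; simpa using hy)) (convex_closedBall _ _)
    (Metric.mem_closedBall_self (norm_nonneg x)) (show x ∈ Metric.closedBall (0 : E d) ‖x‖ by simp)
  rw [sub_zero] at h
  have h' := norm_le_insert' (f x) (f 0)
  have h1 : (1 : ℝ) ≤ (1 + ‖x‖) ^ (m + 1) := one_le_pow₀ (by linarith [norm_nonneg x])
  have h2 : C * (1 + ‖x‖) ^ m * ‖x‖ ≤ C * (1 + ‖x‖) ^ (m + 1) := by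
    rw [pow_succ, ← mul_assoc]
    exact mul_le_mul_of_nonneg_left (by linarith) (by positivity)
  nlinarith [mul_le_mul_of_nonneg_left h1 (norm_nonneg (f 0))]

lemma PolyB.of_coordSq {B : ℝ} : ∀ {n : ℕ} {f : E d → E d}, ContDiff ℝ (n : ℕ) f →
    (∀ x, coordSq n f x ≤ B ^ 2) → PolyB f
  | 0, f, _, h => PolyB.of_bound (K := |B|) fun x => by
      have := h x
      rw [coordSq_zero, ← sq_abs B] at this
      exact le_of_pow_le_pow_left₀ two_ne_zero (abs_nonneg _) this
  | n + 1, f, hf, h => by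
      refine (PolyB.of_fderiv (hf.differentiable (by simp)) fun i =>
        PolyB.of_coordSq (B := B) (n := n) ((hf.fderiv_right (by norm_cast)).clm_apply contDiff_const)
          fun x => ?_).1
      refine le_trans ?_ ((coordSq_succ hf x).symm.trans_le (h x))
      exact Finset.single_le_sum (f := fun i =>
        coordSq n (fun y => fderiv ℝ f y (EuclideanSpace.single i 1)) x)
        (fun j _ => coordSq_nonneg _ _ _) (Finset.mem_univ i)

variable {κ : Type} [Fintype κ] {c ρ : κ → ℝ}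

lemma PolyB.combo [CompleteSpace F] [SecondCountableTopology F] {f : E d → F} (hb : PolyB f)
    (hρ : ∀ k, ρ k ^ 2 ≤ 1) : PolyB (combo c ρ f) := by
  choose K k hK hk using fun j => hb.ou (hρ j)
  refine ⟨∑ j, |c j| * K j, ∑ j, k j,
    Finset.sum_nonneg fun j _ => mul_nonneg (abs_nonneg _) (hK j), fun x => ?_⟩
  rw [Finset.sum_mul]
  refine (norm_sum_le _ _).trans (Finset.sum_le_sum fun j _ => ?_)
  rw [norm_smul, Real.norm_eq_abs, mul_assoc]
  refine mul_le_mul_of_nonneg_left ((hk j x).trans (mul_le_mul_of_nonneg_left ?_ (hK j)))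
    (abs_nonneg _)
  exact pow_le_pow_right₀ (by linarith [norm_nonneg x])
    (Finset.single_le_sum (fun i _ => Nat.zero_le (k i)) (Finset.mem_univ j))

lemma continuous_combo [CompleteSpace F] [SecondCountableTopology F] {f : E d → F}
    (hρ : ∀ k, ρ k ^ 2 ≤ 1) (hc : Continuous f) (hb : PolyB f) : Continuous (combo c ρ f) :=
  continuous_finsetSum _ fun k _ => (continuous_ou_poly (hρ k) hc hb).const_smul (c k)

lemma hasFDerivAt_combo (hρ : ∀ k, ρ k ^ 2 ≤ 1) (hf : ContDiff ℝ 1 f) (hb : PolyB f)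
    (hd : PolyB (fderiv ℝ f)) (x : E d) :
    HasFDerivAt (combo c ρ f) (combo (fun k => c k * ρ k) ρ (fderiv ℝ f) x) x := by
  have h := HasFDerivAt.fun_sum (u := Finset.univ) fun k _ =>
    (hasFDerivAt_ou (hρ k) hf hb hd x).fun_const_smul (c k)
  refine h.congr_fderiv ?_
  simp only [combo, smul_smul]

lemma contDiff_combo (hρ : ∀ k, ρ k ^ 2 ≤ 1) (hf : ContDiff ℝ 1 f) (hb : PolyB f)
    (hd : PolyB (fderiv ℝ f)) : ContDiff ℝ 1 (combo c ρ f) := by
  refine contDiff_one_iff_fderiv.2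
    ⟨fun x => (hasFDerivAt_combo hρ hf hb hd x).differentiableAt, ?_⟩
  rw [funext fun x => (hasFDerivAt_combo (c := c) hρ hf hb hd x).fderiv]
  exact continuous_combo hρ (hf.continuous_fderiv one_ne_zero) hd

lemma fderiv_combo_apply (hρ : ∀ k, ρ k ^ 2 ≤ 1) (hf : ContDiff ℝ 1 f) (hb : PolyB f)
    (hd : PolyB (fderiv ℝ f)) (x v : E d) :
    fderiv ℝ (combo c ρ f) x v =
      combo (fun k => c k * ρ k) ρ (fun y => fderiv ℝ f y v) x := by
  rw [(hasFDerivAt_combo hρ hf hb hd x).fderiv]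
  simp only [combo, FunLike.coe_sum, Finset.sum_apply, FunLike.coe_smul, Pi.smul_apply]
  refine Finset.sum_congr rfl fun k _ => congrArg _ ?_
  exact ContinuousLinearMap.integral_apply
    (hd.slice (hf.continuous_fderiv one_ne_zero) (hρ k) x) v

lemma integral_combo (hρ : ∀ k, ρ k ^ 2 ≤ 1) (hc : Continuous f) (hb : PolyB f) :
    ∫ x, combo c ρ f x ∂gau (Fin d) = (∑ k, c k) • ∫ x, f x ∂gau (Fin d) := by
  unfold Quad.combo
  rw [integral_finsetSum _ fun k _ =>
    ((hb.ou (hρ k)).integrable (continuous_ou_poly (hρ k) hc hb)).fun_smul (c k), Finset.sum_smul]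
  exact Finset.sum_congr rfl fun k _ => by rw [integral_smul, integral_ou (hρ k) (hb.integrable hc)]

/-- Without vanishing moments a combination costs the sum of the absolute weights. -/
lemma combo_sq_le (hρ : ∀ k, ρ k ^ 2 ≤ 1) (hc : Continuous f) (hb : PolyB f) :
    ∫ x, ‖combo c ρ f x‖ ^ 2 ∂gau (Fin d) ≤
      (∑ k, |c k|) ^ 2 * ∫ x, ‖f x‖ ^ 2 ∂gau (Fin d) := by
  have hm := hb.memLp hc
  have hk : ∀ k, Integrable (fun x => |c k| * ‖ou (ρ k) f x‖ ^ 2) (gau (Fin d)) := fun k =>
    (integrable_sq_of_memLp (ou_contract (hρ k) hm).1).const_mul _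
  have hS : 0 ≤ ∑ k, |c k| := Finset.sum_nonneg fun k _ => abs_nonneg _
  have hpt : ∀ x, ‖combo c ρ f x‖ ^ 2 ≤ (∑ k, |c k|) * ∑ k, |c k| * ‖ou (ρ k) f x‖ ^ 2 := by
    intro x
    have h1 : ‖combo c ρ f x‖ ≤ ∑ k, |c k| * ‖ou (ρ k) f x‖ :=
      (norm_sum_le _ _).trans_eq
        (Finset.sum_congr rfl fun k _ => by rw [norm_smul, Real.norm_eq_abs])
    refine (pow_le_pow_left₀ (norm_nonneg _) h1 2).trans ?_
    refine Finset.sum_sq_le_sum_mul_sum_of_sq_le_mul _ (fun k _ => abs_nonneg _)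
      (fun k _ => mul_nonneg (abs_nonneg _) (sq_nonneg _)) fun k _ => le_of_eq ?_
    ring
  refine (integral_mono (integrable_sq_of_memLp ((combo_contract c hρ hm).1))
    ((integrable_finsetSum _ fun k _ => hk k).const_mul _) hpt).trans ?_
  rw [integral_const_mul, integral_finsetSum _ fun k _ => hk k, sq, mul_assoc]
  refine mul_le_mul_of_nonneg_left ?_ hS
  rw [Finset.sum_mul]
  refine Finset.sum_le_sum fun k _ => ?_
  rw [integral_const_mul]
  exact mul_le_mul_of_nonneg_left (ou_contract (hρ k) hm).2 (abs_nonneg _)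

/-- Combinations vanishing on degrees below `N`, for a family. -/
lemma combo_tail_fam (hρ : ∀ k, ρ k ^ 2 ≤ 1) {B : ℝ} (hB : 0 ≤ B) :
    ∀ (N : ℕ) (J : Type) [Fintype J] (f : J → E d → E d) (c : κ → ℝ),
      (∀ j, ContDiff ℝ (N : ℕ) (f j)) → (∀ x, ∑ j, coordSq N (f j) x ≤ B ^ 2) →
      (∀ n, n < N → ∑ k, c k * ρ k ^ n = 0) →
        ∑ j, ∫ x, ‖combo c ρ (f j) x‖ ^ 2 ∂gau (Fin d) ≤ (2 ^ N * (∑ k, |c k|) * B) ^ 2
  | 0, J, _, f, c, hf, h, _ => by
      simp only [coordSq_zero] at h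
      have hb : ∀ j, PolyB (f j) := fun j => PolyB.of_coordSq (B := B) (hf j) fun x => by
        rw [coordSq_zero]
        exact le_trans (Finset.single_le_sum (f := fun j => ‖f j x‖ ^ 2)
          (fun i _ => sq_nonneg _) (Finset.mem_univ j)) (h x)
      have hi : ∀ j, Integrable (fun x => ‖f j x‖ ^ 2) (gau (Fin d)) := fun j =>
        integrable_sq_of_memLp ((hb j).memLp (hf j).continuous)
      refine (Finset.sum_le_sum fun j _ => combo_sq_le hρ (hf j).continuous (hb j)).trans ?_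
      rw [← Finset.mul_sum, pow_zero, one_mul, mul_pow]
      refine mul_le_mul_of_nonneg_left ?_ (sq_nonneg _)
      rw [← integral_finsetSum _ fun j _ => hi j]
      exact (integral_mono (integrable_finsetSum _ fun j _ => hi j) (integrable_const _) h).trans
        (by simp)
  | N + 1, J, _, f, c, hf, h, hc => by
      have h1 : ∀ j x, coordSq (N + 1) (f j) x ≤ B ^ 2 := fun j x =>
        le_trans (Finset.single_le_sum (f := fun j => coordSq (N + 1) (f j) x)
          (fun i _ => coordSq_nonneg _ _ _) (Finset.mem_univ j)) (h x)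
      have hf1 : ∀ j, ContDiff ℝ 1 (f j) := fun j => (hf j).of_le (by norm_cast; omega)
      have hb : ∀ j, PolyB (f j) := fun j => PolyB.of_coordSq (hf j) (h1 j)
      have hfi : ∀ j i, ContDiff ℝ (N : ℕ) fun y => fderiv ℝ (f j) y (EuclideanSpace.single i 1) :=
        fun j i => ((hf j).fderiv_right (by norm_cast)).clm_apply contDiff_const
      have hd : ∀ j, PolyB (fderiv ℝ (f j)) := fun j =>
        (PolyB.of_fderiv ((hf1 j).differentiable one_ne_zero) fun i =>
          PolyB.of_coordSq (hfi j i) fun x => by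
            refine le_trans ?_ ((coordSq_succ (hf j) x).symm.trans_le (h1 j x))
            exact Finset.single_le_sum (f := fun i =>
              coordSq N (fun y => fderiv ℝ (f j) y (EuclideanSpace.single i 1)) x)
              (fun i _ => coordSq_nonneg _ _ _) (Finset.mem_univ i)).2
      have ih := combo_tail_fam hρ hB N (J × Fin d)
        (fun p y => fderiv ℝ (f p.1) y (EuclideanSpace.single p.2 1)) (fun k => c k * ρ k)
        (fun p => hfi p.1 p.2) (fun x => by
          rw [Fintype.sum_prod_type]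
          exact (Finset.sum_le_sum fun j _ => (coordSq_succ (hf j) x).ge).trans (h x))
        (fun n hn => by
          rw [← hc (n + 1) (by omega)]
          exact Finset.sum_congr rfl fun k _ => by ring)
      have hP : ∀ j, ∫ x, ‖combo c ρ (f j) x‖ ^ 2 ∂gau (Fin d) ≤
          4 * ∑ i, ∫ x, ‖combo (fun k => c k * ρ k) ρ
            (fun y => fderiv ℝ (f j) y (EuclideanSpace.single i 1)) x‖ ^ 2 ∂gau (Fin d) := by
        intro j
        have hp := gau_poincare (contDiff_combo (c := c) hρ (hf1 j) (hb j) (hd j))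
          ((hb j).combo hρ)
          (by
            rw [funext fun x => (hasFDerivAt_combo (c := c) hρ (hf1 j) (hb j) (hd j) x).fderiv]
            exact (hd j).combo hρ)
          (by
            rw [integral_combo hρ (hf1 j).continuous (hb j)]
            have := hc 0 (Nat.succ_pos N)
            simp only [pow_zero, mul_one] at this
            rw [this, zero_smul])
        simpa only [fderiv_combo_apply hρ (hf1 j) (hb j) (hd j)] using hp
      refine (Finset.sum_le_sum fun j _ => hP j).trans ?_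
      rw [← Finset.mul_sum]
      have hS : ∑ k, |c k * ρ k| ≤ ∑ k, |c k| := Finset.sum_le_sum fun k _ => by
        rw [abs_mul]
        exact mul_le_of_le_one_right (abs_nonneg _) (abs_le_one_of_sq (hρ k)).1
      rw [Fintype.sum_prod_type] at ih
      refine (mul_le_mul_of_nonneg_left (ih.trans ?_) zero_le_four).trans
        (le_of_eq (b := (2 ^ (N + 1) * (∑ k, |c k|) * B) ^ 2)
          (a := 4 * (2 ^ N * (∑ k, |c k|) * B) ^ 2) (by ring))
      refine pow_le_pow_left₀ (mul_nonneg (mul_nonneg (by positivity)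
        (Finset.sum_nonneg fun k _ => abs_nonneg _)) hB) ?_ 2
      gcongr

/-- A combination vanishing on degrees below `N` is small on functions with small derivatives of
order `N`. -/
theorem combo_tail (hρ : ∀ k, ρ k ^ 2 ≤ 1) {N : ℕ} (hc : ∀ n, n < N → ∑ k, c k * ρ k ^ n = 0)
    {B : ℝ} (hB : 0 ≤ B) (hf : ContDiff ℝ (N : ℕ) f) (h : ∀ x, coordSq N f x ≤ B ^ 2) :
    ∫ x, ‖combo c ρ f x‖ ^ 2 ∂gau (Fin d) ≤ (2 ^ N * (∑ k, |c k|) * B) ^ 2 := by
  simpa using combo_tail_fam hρ hB N Unit (fun _ => f) c (fun _ => hf)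
    (fun x => by simpa using h x) hc

/-- A combination extracting the part of degree one up to degree `N`. -/
theorem combo_tail_one (hρ : ∀ k, ρ k ^ 2 ≤ 1) {N : ℕ} (hN : 1 ≤ N)
    (hc : ∀ n, n < N → ∑ k, c k * ρ k ^ n = if n = 1 then 1 else 0)
    {B : ℝ} (hB : 0 ≤ B) (hf : ContDiff ℝ (N : ℕ) f) (h : ∀ x, coordSq N f x ≤ B ^ 2) :
    ∫ x, ‖combo c ρ f x - chaosOne f x‖ ^ 2 ∂gau (Fin d) ≤
      (2 ^ N * (1 + ∑ k, |c k|) * B) ^ 2 := by
  obtain ⟨M, rfl⟩ : ∃ M, N = M + 1 := ⟨N - 1, by omega⟩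
  have hf1 : ContDiff ℝ 1 f := hf.of_le (by simp)
  have hb : PolyB f := PolyB.of_coordSq hf h
  have hfi : ∀ i, ContDiff ℝ (M : ℕ) fun y => fderiv ℝ f y (EuclideanSpace.single i 1) :=
    fun i => (hf.fderiv_right (by norm_cast)).clm_apply contDiff_const
  have hd : PolyB (fderiv ℝ f) :=
    (PolyB.of_fderiv (hf1.differentiable one_ne_zero) fun i =>
      PolyB.of_coordSq (hfi i) fun x => by
        refine le_trans ?_ ((coordSq_succ hf x).symm.trans_le (h x))
        exact Finset.single_le_sum (f := fun i =>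
          coordSq M (fun y => fderiv ℝ f y (EuclideanSpace.single i 1)) x)
          (fun i _ => coordSq_nonneg _ _ _) (Finset.mem_univ i)).2
  have hcd : Continuous (fderiv ℝ f) := hf1.continuous_fderiv one_ne_zero
  set L := ∫ w, fderiv ℝ f w ∂gau (Fin d)
  have hL : chaosOne f = fun x => L x := chaosOne_eq hf1 hb hd
  set c' : Option κ → ℝ := fun o => o.elim (-1) fun k => c k * ρ k
  set ρ' : Option κ → ℝ := fun o => o.elim 0 ρ
  have hρ' : ∀ o, ρ' o ^ 2 ≤ 1 := fun o => by cases o <;> simp [ρ', hρ]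
  have hg : ContDiff ℝ 1 fun x => combo c ρ f x - chaosOne f x :=
    (contDiff_combo hρ hf1 hb hd).sub (by rw [hL]; exact L.contDiff)
  have hgd : ∀ x, fderiv ℝ (fun x => combo c ρ f x - chaosOne f x) x =
      combo (fun k => c k * ρ k) ρ (fderiv ℝ f) x - L := fun x => by
    rw [hL]
    exact ((hasFDerivAt_combo hρ hf1 hb hd x).fun_sub L.hasFDerivAt).fderiv
  have hgb : PolyB fun x => combo c ρ f x - chaosOne f x := by
    obtain ⟨K, k, hK, hk⟩ := hb.combo (c := c) hρ
    refine ⟨K + ‖L‖, k + 1, by positivity, fun x => ?_⟩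
    rw [hL, add_mul]
    refine (norm_sub_le _ _).trans (add_le_add ((hk x).trans (mul_le_mul_of_nonneg_left
      (pow_le_pow_right₀ (by linarith [norm_nonneg x]) (Nat.le_succ k)) hK)) ?_)
    refine (L.le_opNorm x).trans (mul_le_mul_of_nonneg_left ?_ (norm_nonneg L))
    calc ‖x‖ ≤ (1 + ‖x‖) ^ 1 := by simp
      _ ≤ _ := pow_le_pow_right₀ (by linarith [norm_nonneg x]) (by omega)
  have hgdb : PolyB (fderiv ℝ fun x => combo c ρ f x - chaosOne f x) := by
    obtain ⟨K, k, hK, hk⟩ := hd.combo (c := fun k => c k * ρ k) hρ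
    refine ⟨K + ‖L‖, k, by positivity, fun x => ?_⟩
    rw [hgd, add_mul]
    exact (norm_sub_le _ _).trans (add_le_add (hk x)
      (le_mul_of_one_le_right (norm_nonneg L) (one_le_pow₀ (by linarith [norm_nonneg x]))))
  have hmean : ∫ x, (combo c ρ f x - chaosOne f x) ∂gau (Fin d) = 0 := by
    have hid : Integrable (fun x : E d => x) (gau (Fin d)) := IsGaussian.integrable_id
    rw [hL, integral_sub ((hb.combo hρ).integrable (continuous_combo hρ hf1.continuous hb))
      (L.integrable_comp hid), integral_combo hρ hf1.continuous hb,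
      L.integral_comp_comm hid, integral_id_stdGaussian, map_zero, sub_zero]
    have := hc 0 (Nat.succ_pos M)
    simp only [pow_zero, mul_one, zero_ne_one, if_false] at this
    rw [this, zero_smul]
  have hci : ∀ i x, fderiv ℝ (fun x => combo c ρ f x - chaosOne f x) x
      (EuclideanSpace.single i 1) =
        combo c' ρ' (fun y => fderiv ℝ f y (EuclideanSpace.single i 1)) x := by
    intro i x
    rw [hgd, sub_apply, ← (hasFDerivAt_combo hρ hf1 hb hd x).fderiv,
      fderiv_combo_apply hρ hf1 hb hd]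
    have e : L (EuclideanSpace.single i 1) =
        ou 0 (fun y => fderiv ℝ f y (EuclideanSpace.single i 1)) x := by
      simp only [L, ContinuousLinearMap.integral_apply (hd.integrable hcd), ou, zero_smul,
        zero_add, ne_eq, OfNat.ofNat_ne_zero, not_false_eq_true, zero_pow, sub_zero, Real.sqrt_one,
        one_smul]
    simp only [Quad.combo, Fintype.sum_option, c', ρ', Option.elim, neg_smul, one_smul, e]
    abel
  have hp := gau_poincare hg hgb hgdb hmean
  simp only [hci] at hp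
  have ih := combo_tail_fam hρ' hB M (Fin d)
    (fun i y => fderiv ℝ f y (EuclideanSpace.single i 1)) c' hfi
    (fun x => (coordSq_succ hf x).symm.trans_le (h x)) (fun n hn => by
      have := hc (n + 1) (by omega)
      simp only [Fintype.sum_option, c', ρ', Option.elim]
      rw [show ∑ k, c k * ρ k * ρ k ^ n = ∑ k, c k * ρ k ^ (n + 1) from
        Finset.sum_congr rfl fun k _ => by ring, this]
      rcases n with _ | n <;> simp)
  refine hp.trans ((mul_le_mul_of_nonneg_left (ih.trans ?_) zero_le_four).trans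
    (le_of_eq (b := (2 ^ (M + 1) * (1 + ∑ k, |c k|) * B) ^ 2)
      (a := 4 * (2 ^ M * (1 + ∑ k, |c k|) * B) ^ 2) (by ring)))
  refine pow_le_pow_left₀ (mul_nonneg (mul_nonneg (by positivity)
    (Finset.sum_nonneg fun k _ => abs_nonneg _)) hB) ?_ 2
  gcongr
  simp only [Fintype.sum_option, c', Option.elim, abs_neg, abs_one]
  refine add_le_add le_rfl (Finset.sum_le_sum fun k _ => ?_)
  rw [abs_mul]
  exact mul_le_of_le_one_right (abs_nonneg _) (abs_le_one_of_sq (hρ k)).1

/-- The two tail hypotheses of a field from a bound on its derivatives of order `N`. -/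
theorem _root_.Vale.Agent.P347.tail_of_deriv {h : E d → E d} {N : ℕ} (hN : 1 ≤ N) (hh : ContDiff ℝ (N : ℕ) h)
    {B : ℝ} (hB : 0 ≤ B) (hd : ∀ x, coordSq N h x ≤ B ^ 2) {m : ℕ} (c ρ : Fin m → ℝ)
    (hρ : ∀ k, ρ k ∈ Set.Icc (-1 : ℝ) 1) (q : E d) {τ : ℝ} (hτ : τ ∈ Set.Icc (0 : ℝ) 1) :
    ((∀ n, n < N → ∑ k, c k * ρ k ^ n = 0) →
      ∫ w, ‖∑ k, c k • ou (ρ k) (fun w => h (q + √τ • w)) w‖ ^ 2 ∂gau (Fin d)
        ≤ ((∑ k, |c k|) * (2 ^ N * B)) ^ 2) ∧
    ((∀ n, n < N → ∑ k, c k * ρ k ^ n = if n = 1 then 1 else 0) →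
      ∫ w, ‖(∑ k, c k • ou (ρ k) (fun w => h (q + √τ • w)) w)
          - chaosOne (fun w => h (q + √τ • w)) w‖ ^ 2 ∂gau (Fin d)
        ≤ ((1 + ∑ k, |c k|) * (2 ^ N * B)) ^ 2) := by
  have hsq : ∀ k, ρ k ^ 2 ≤ 1 := fun k => by nlinarith [(hρ k).1, (hρ k).2]
  have hs : ContDiff ℝ (N : ℕ) fun z => h (q + z) := hh.comp (contDiff_const.add contDiff_id)
  set L : E d →L[ℝ] E d := √τ • ContinuousLinearMap.id ℝ (E d)
  have hf : ContDiff ℝ (N : ℕ) fun w => h (q + √τ • w) :=
    hh.comp (contDiff_const.add (contDiff_id.const_smul _))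
  have hb : ∀ x, coordSq N (fun w => h (q + √τ • w)) x ≤ B ^ 2 := fun x => by
    refine le_trans (Finset.sum_le_sum fun a _ => ?_) (hd (q + √τ • x))
    rw [show (fun w => h (q + √τ • w)) = (fun z => h (q + z)) ∘ L from rfl,
      L.iteratedFDeriv_comp_right hs x le_rfl]
    simp only [ContinuousMultilinearMap.compContinuousLinearMap_apply, iteratedFDeriv_comp_add_left]
    have e : (fun i => L (EuclideanSpace.single (a i) (1 : ℝ))) =
        fun i => √τ • EuclideanSpace.single (a i) (1 : ℝ) := rfl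
    rw [e, ContinuousMultilinearMap.map_smul_univ, norm_smul, mul_pow]
    refine mul_le_of_le_one_left (sq_nonneg _) ?_
    rw [Finset.prod_const, norm_pow, Real.norm_eq_abs, abs_of_nonneg (Real.sqrt_nonneg _)]
    exact pow_le_one₀ (pow_nonneg (Real.sqrt_nonneg _) _)
      (pow_le_one₀ (Real.sqrt_nonneg _) (Real.sqrt_le_one.2 hτ.2))
  refine ⟨fun hc => ?_, fun hc => ?_⟩
  · refine (combo_tail hsq hc hB hf hb).trans_eq ?_
    ring
  · refine (combo_tail_one hsq hN hc hB hf hb).trans_eq ?_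
    ring

end iterate
section smoothed

variable {f : E d → E d} {κ : Type} [Fintype κ] {c ρ : κ → ℝ} {ε : ℝ}

lemma PolyB.coord (hb : PolyB f) (i : Fin d) : PolyB fun x => f x i := by
  obtain ⟨K, k, hK, hk⟩ := hb
  exact ⟨K, k, hK, fun x => (PiLp.norm_apply_le (p := 2) (f x) i).trans (hk x)⟩

lemma combo_coord (hρ : ∀ k, ρ k ^ 2 ≤ 1) (hc : Continuous f) (hb : PolyB f) (x : E d) (i : Fin d) :
    combo c ρ f x i = combo c ρ (fun y => f y i) x := by
  unfold Quad.combo
  rw [WithLp.ofLp_sum, Finset.sum_apply]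
  refine Finset.sum_congr rfl fun k _ => ?_
  rw [PiLp.smul_apply]
  congr 1
  exact ((EuclideanSpace.proj i : E d →L[ℝ] ℝ).integral_comp_comm (hb.slice hc (hρ k) x)).symm

/-- A vector field, componentwise. -/
lemma combo_le_poly (hρ : ∀ k, ρ k ^ 2 ≤ 1) (hε : ∀ n : ℕ, |∑ k, c k * ρ k ^ n| ≤ ε)
    (hc : Continuous f) (hb : PolyB f) :
    ∫ x, ‖combo c ρ f x‖ ^ 2 ∂gau (Fin d) ≤ ε ^ 2 * ∫ x, ‖f x‖ ^ 2 ∂gau (Fin d) := by
  have hi : ∀ i : Fin d, MemLp (fun x => f x i) 2 (gau (Fin d)) := fun i =>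
    (hb.coord i).memLp (by fun_prop)
  simp only [EuclideanSpace.real_norm_sq_eq, combo_coord hρ hc hb]
  rw [integral_finsetSum _ fun i _ => (combo_contract c hρ (hi i)).1.integrable_sq,
    integral_finsetSum _ fun i _ => (hi i).integrable_sq, Finset.mul_sum]
  exact Finset.sum_le_sum fun i _ => combo_le_real hρ hε (hi i)

end smoothed

end Vale.Agent.P347.TailAux
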