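import Vale.Agent.P347.Defs
import Vale.Agent.P347.Shortcuts

/-!
P347: the potential and the score of a tilted law smoothed at variance `σ²`.
-/

open MeasureTheory ProbabilityTheory Real

namespace Vale.Agent.P347

/-- The potential of `exp (-R)` smoothed at variance `σ²`. -/
noncomputable def upot {d : ℕ} (σ : ℝ) (R : E d → ℝ) (q : E d) : ℝ :=
  -Real.log (∫ w, exp (-R (q + σ • w)) ∂gau (Fin d))

/-- The score of `exp (-R)` smoothed at variance `σ²`: the mean of `g` under the tilted law. -/
noncomputable def score {d : ℕ} (σ : ℝ) (R : E d → ℝ) (g : E d → E d) (q : E d) : E d :=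
  ∫ w, g (q + σ • w) ∂tilt fun w => R (q + σ • w)

end Vale.Agent.P347
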