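import Vale.Agent.P347Zero.Langevin
import Vale.Agent.P347Zero.Score

/-!
P347: tilted laws by Langevin steps. The Poincaré inequality comes from the decrease of the second
moment along explicit steps, each of which is almost invariant and loses at most the Gaussian
Poincaré amount.
-/

open MeasureTheory ProbabilityTheory Real Set Filter
open scoped RealInnerProductSpace Topology

namespace Vale.Agent.P347

variable {d : ℕ}

namespace TiltAux

noncomputable section

variable {ι : Type*} [Fintype ι] {δ r0 : ℝ} {R : E d → ℝ} {g : E d → E d}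

/-- Jensen for the square. -/
lemma sq_integral_le {α : Type*} [MeasurableSpace α] {μ : Measure α} [IsProbabilityMeasure μ]
    {f : α → ℝ} (hf : Integrable f μ) (hf2 : Integrable (fun x => f x ^ 2) μ) :
    (∫ x, f x ∂μ) ^ 2 ≤ ∫ x, f x ^ 2 ∂μ := by
  set m := ∫ x, f x ∂μ
  have h : 0 ≤ ∫ x, (f x ^ 2 - 2 * m * f x + m ^ 2) ∂μ :=
    integral_nonneg fun x => by
      change 0 ≤ f x ^ 2 - 2 * m * f x + m ^ 2
      nlinarith [sq_nonneg (f x - m)]
  rw [integral_add (hf2.sub' (hf.const_mul _)) (integrable_const _),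
    integral_sub hf2 (hf.const_mul _), integral_const_mul, integral_const, probReal_univ,
    one_smul] at h
  change 0 ≤ (∫ x, f x ^ 2 ∂μ) - 2 * m * m + m ^ 2 at h
  linarith

/-- Bounded functions with bounded continuous derivative. -/
structure BL (u : EuclideanSpace ℝ ι → ℝ) (B L : ℝ) : Prop where
  smooth : ContDiff ℝ 1 u
  bdd : ∀ x, |u x| ≤ B
  dbdd : ∀ x, ‖fderiv ℝ u x‖ ≤ L

variable {u : EuclideanSpace ℝ ι → ℝ} {B L : ℝ}

lemma BL.B_nonneg (h : BL u B L) : 0 ≤ B := (abs_nonneg _).trans (h.bdd 0)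

lemma BL.L_nonneg (h : BL u B L) : 0 ≤ L := (norm_nonneg (fderiv ℝ u 0)).trans (h.dbdd 0)

lemma BL.mono (h : BL u B L) {L' : ℝ} (hL : L ≤ L') : BL u B L' :=
  ⟨h.smooth, h.bdd, fun x => (h.dbdd x).trans hL⟩

lemma BL.lip (h : BL u B L) (a b : EuclideanSpace ℝ ι) : |u a - u b| ≤ L * ‖a - b‖ :=
  Convex.norm_image_sub_le_of_norm_fderiv_le (𝕜 := ℝ)
    (fun x _ => h.smooth.differentiable one_ne_zero x) (fun x _ => h.dbdd x) convex_univ
    (mem_univ b) (mem_univ a)

lemma BL.sq (h : BL u B L) : BL (fun x => u x ^ 2) (B ^ 2) (2 * B * L) := by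
  refine ⟨h.smooth.pow 2, fun x => ?_, fun x => ?_⟩
  · rw [abs_pow]; exact pow_le_pow_left₀ (abs_nonneg _) (h.bdd x) 2
  · rw [((h.smooth.differentiable one_ne_zero x).hasFDerivAt.pow 2).fderiv, norm_smul]
    refine mul_le_mul ?_ (h.dbdd x) (norm_nonneg _) (by have := h.B_nonneg; positivity)
    simpa using h.bdd x

lemma BL.affine (h : BL u B L) (c : EuclideanSpace ℝ ι) {r : ℝ} (hr : 0 ≤ r) :
    BL (fun y => u (c + r • y)) B (r * L) ∧
      ∀ y, ‖fderiv ℝ (fun y => u (c + r • y)) y‖ = r * ‖fderiv ℝ u (c + r • y)‖ := by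
  have hd : ∀ y, HasFDerivAt (fun y => u (c + r • y)) (r • fderiv ℝ u (c + r • y)) y := fun y => by
    refine ((h.smooth.differentiable one_ne_zero _).hasFDerivAt.comp y
      (((hasFDerivAt_id y).const_smul r).const_add c)).congr_fderiv ?_
    ext v
    simp
  have e : ∀ y, ‖fderiv ℝ (fun y => u (c + r • y)) y‖ = r * ‖fderiv ℝ u (c + r • y)‖ := fun y => by
    rw [(hd y).fderiv, norm_smul, norm_eq_abs, abs_of_nonneg hr]
  exact ⟨⟨h.smooth.comp (by fun_prop), fun y => h.bdd _, fun y =>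
    (e y).trans_le (mul_le_mul_of_nonneg_left (h.dbdd _) hr)⟩, e⟩

/-- The Poincaré inequality of the standard Gaussian law. -/
theorem gau_poincare (h : BL u B L) :
    ∫ x, u x ^ 2 ∂gau ι - (∫ x, u x ∂gau ι) ^ 2 ≤ ∫ x, ‖fderiv ℝ u x‖ ^ 2 ∂gau ι := by
  have hc : Continuous u := h.smooth.continuous
  have hc' : Continuous (fderiv ℝ u) := h.smooth.continuous_fderiv one_ne_zero
  have hB := h.B_nonneg
  have hL := h.L_nonneg
  set M := ∫ x, ‖fderiv ℝ u x‖ ^ 2 ∂gau ι with hM
  set H : ℝ → ℝ := fun θ => ∫ p, u p.1 * u (cos θ • p.1 + sin θ • p.2) ∂(gau ι).prod (gau ι)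
    with hH
  set H' : ℝ → ℝ := fun θ => ∫ p, u p.1 *
    fderiv ℝ u (cos θ • p.1 + sin θ • p.2) (-sin θ • p.1 + cos θ • p.2) ∂(gau ι).prod (gau ι)
    with hH'
  have hn : Integrable (fun p : EuclideanSpace ℝ ι × EuclideanSpace ℝ ι => ‖p.1‖ + ‖p.2‖)
      ((gau ι).prod (gau ι)) :=
    (integrable_gau_nrm.comp_fst _).add (integrable_gau_nrm.comp_snd _)
  have hder : ∀ θ, HasDerivAt H (H' θ) θ := fun θ => by
    refine (hasDerivAt_integral_of_dominated_loc_of_deriv_le
      (F := fun θ (p : EuclideanSpace ℝ ι × EuclideanSpace ℝ ι) =>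
        u p.1 * u (cos θ • p.1 + sin θ • p.2))
      (F' := fun θ p => u p.1 *
        fderiv ℝ u (cos θ • p.1 + sin θ • p.2) (-sin θ • p.1 + cos θ • p.2))
      (bound := fun p => B * (L * (‖p.1‖ + ‖p.2‖))) Filter.univ_mem
      (.of_forall fun θ => (Continuous.aestronglyMeasurable (by fun_prop))) ?_ (Continuous.aestronglyMeasurable (by fun_prop)) (ae_of_all _ fun p θ _ => ?_)
      ((hn.const_mul L).const_mul B) (ae_of_all _ fun p θ _ => ?_)).2
    · exact Integrable.of_bound (Continuous.aestronglyMeasurable (by fun_prop)) (B * B) (ae_of_all _ fun p => by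
        rw [norm_mul]
        exact mul_le_mul (h.bdd _) (h.bdd _) (norm_nonneg _) hB)
    · rw [norm_mul]
      exact mul_le_mul (h.bdd _) ((ContinuousLinearMap.le_opNorm _ _).trans
        (mul_le_mul (h.dbdd _) (norm_rot_le θ p.1 p.2).2 (norm_nonneg _) hL)) (norm_nonneg _) hB
    · have e : HasDerivAt (fun θ => cos θ • p.1 + sin θ • p.2) (-sin θ • p.1 + cos θ • p.2) θ :=
        ((Real.hasDerivAt_cos θ).smul_const p.1).add ((Real.hasDerivAt_sin θ).smul_const p.2)
      exact ((h.smooth.differentiable one_ne_zero _).hasFDerivAt.comp_hasDerivAt θ e).const_mul _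
  have hbound : ∀ θ ∈ Icc (0 : ℝ) (π / 2), ‖H' θ‖ ≤ sin θ * M := fun θ hθ => by
    have hs : 0 ≤ sin θ :=
      Real.sin_nonneg_of_nonneg_of_le_pi hθ.1 (by linarith [hθ.2, Real.pi_pos])
    have hcs : cos θ ^ 2 + sin θ ^ 2 = 1 := Real.cos_sq_add_sin_sq θ
    set F : EuclideanSpace ℝ ι × EuclideanSpace ℝ ι → ℝ := fun r =>
      u (cos θ • r.1 + -sin θ • r.2) * fderiv ℝ u r.1 r.2 with hF
    set G : EuclideanSpace ℝ ι × EuclideanSpace ℝ ι → ℝ := fun r =>
      sin θ * ((‖fderiv ℝ u (cos θ • r.1 + -sin θ • r.2)‖ ^ 2 + ‖fderiv ℝ u r.1‖ ^ 2) / 2) with hG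
    have hrot : H' θ = ∫ r, F r ∂(gau ι).prod (gau ι) := by
      conv_rhs => rw [← gau_rotate (ι := ι) hcs]
      rw [integral_map (by fun_prop) (by fun_prop)]
      refine integral_congr_ae (ae_of_all _ fun p => ?_)
      simp only [hF]
      rw [show cos θ • (cos θ • p.1 + sin θ • p.2) + -sin θ • (-sin θ • p.1 + cos θ • p.2)
          = (cos θ ^ 2 + sin θ ^ 2) • p.1 by module, hcs, one_smul]
    have hFi : Integrable F ((gau ι).prod (gau ι)) :=
      (((integrable_gau_nrm (ι := ι)).comp_snd _).const_mul L |>.const_mul B).mono'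
        (Continuous.aestronglyMeasurable (by simp only [hF]; fun_prop)) (ae_of_all _ fun r => by
        rw [norm_mul]
        exact mul_le_mul (h.bdd _) (((fderiv ℝ u r.1).le_opNorm _).trans
          (mul_le_mul_of_nonneg_right (h.dbdd _) (norm_nonneg _))) (norm_nonneg _) hB)
    have hq : Integrable (fun x => ‖fderiv ℝ u x‖ ^ 2) (gau ι) :=
      Integrable.of_bound (Continuous.aestronglyMeasurable (by fun_prop)) (L ^ 2) (ae_of_all _ fun x => by
        rw [norm_pow, norm_norm]; exact pow_le_pow_left₀ (norm_nonneg _) (h.dbdd x) 2)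
    have hq1 : Integrable (fun r : EuclideanSpace ℝ ι × EuclideanSpace ℝ ι =>
        ‖fderiv ℝ u (cos θ • r.1 + -sin θ • r.2)‖ ^ 2) ((gau ι).prod (gau ι)) :=
      Integrable.of_bound (Continuous.aestronglyMeasurable (by fun_prop)) (L ^ 2) (ae_of_all _ fun x => by
        rw [norm_pow, norm_norm]; exact pow_le_pow_left₀ (norm_nonneg _) (h.dbdd _) 2)
    have hq2 : Integrable (fun r : EuclideanSpace ℝ ι × EuclideanSpace ℝ ι =>
        ‖fderiv ℝ u r.1‖ ^ 2) ((gau ι).prod (gau ι)) := hq.comp_fst _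
    have hGi : Integrable G ((gau ι).prod (gau ι)) :=
      ((hq1.add hq2).div_const 2).const_mul _
    have hGe : ∫ r, G r ∂(gau ι).prod (gau ι) = sin θ * M := by
      have e1 := integral_comb (ι := ι) (c := cos θ) (s := -sin θ) (by rw [neg_sq, hcs])
        (f := fun x => ‖fderiv ℝ u x‖ ^ 2) (by fun_prop)
      have e2 : ∫ r, ‖fderiv ℝ u r.1‖ ^ 2 ∂(gau ι).prod (gau ι) = M := by
        simpa using integral_fun_fst (μ := gau ι) (ν := gau ι) fun x => ‖fderiv ℝ u x‖ ^ 2
      simp only [hG]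
      rw [integral_const_mul, integral_div, integral_add hq1 hq2, e1, e2, ← hM, add_self_div_two]
    rw [hrot, ← hGe, integral_prod _ hFi, integral_prod _ hGi]
    refine norm_integral_le_of_norm_le hGi.integral_prod_left (ae_of_all _ fun a => ?_)
    set v := (InnerProductSpace.toDual ℝ (EuclideanSpace ℝ ι)).symm (fderiv ℝ u a) with hv
    have hvn : ‖v‖ = ‖fderiv ℝ u a‖ := LinearIsometryEquiv.norm_map _ _
    have hva : ∀ b, fderiv ℝ u a b = ⟪b, v⟫ := fun b => by
      rw [real_inner_comm, hv, InnerProductSpace.toDual_symm_apply]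
    set f : EuclideanSpace ℝ ι → ℝ := fun b => u (cos θ • a + -sin θ • b)
    have hfd : ∀ b, HasFDerivAt f (-sin θ • fderiv ℝ u (cos θ • a + -sin θ • b)) b := fun b => by
      refine ((h.smooth.differentiable one_ne_zero _).hasFDerivAt.comp b
        (((hasFDerivAt_id b).const_smul (-sin θ)).const_add (cos θ • a))).congr_fderiv ?_
      ext w
      simp
    have hib := gau_ibp (f := f) (h.smooth.comp (by fun_prop)) (a := 0) (by norm_num)
      (B + L) 0 0
      (fun b => by simpa using (h.bdd _).trans (le_add_of_nonneg_right hL))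
      (fun b => by
        rw [(hfd b).fderiv, norm_smul]
        simpa using (mul_le_mul (abs_sin_le_one θ) (h.dbdd _) (norm_nonneg _) zero_le_one).trans
          ((one_mul L).trans_le (le_add_of_nonneg_left hB))) v
    simp only [hF, hva, f] at hib ⊢
    simp_rw [mul_comm (u _) ⟪_, v⟫]
    rw [hib]
    refine norm_integral_le_of_norm_le (Integrable.of_bound (Continuous.aestronglyMeasurable (by fun_prop)) (sin θ * L ^ 2)
      (ae_of_all _ fun b => ?_)) (ae_of_all _ fun b => ?_)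
    · simp only [hG]
      rw [norm_eq_abs, abs_of_nonneg (by positivity)]
      refine mul_le_mul_of_nonneg_left ?_ hs
      linarith [pow_le_pow_left₀ (norm_nonneg _) (h.dbdd (cos θ • a + -sin θ • b)) 2,
        pow_le_pow_left₀ (norm_nonneg _) (h.dbdd a) 2]
    · have hf' := (hfd b).fderiv
      simp only [f] at hf'
      rw [hf', smul_apply, norm_smul, norm_neg, norm_eq_abs,
        abs_of_nonneg hs]
      refine mul_le_mul_of_nonneg_left ?_ hs
      refine (ContinuousLinearMap.le_opNorm _ _).trans ?_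
      rw [hvn]
      nlinarith [sq_nonneg (‖fderiv ℝ u (cos θ • a + -sin θ • b)‖ - ‖fderiv ℝ u a‖)]
  have hfence := image_norm_le_of_norm_deriv_right_le_deriv_boundary (f := fun θ => H θ - H 0)
    (f' := H') (a := 0) (b := π / 2) (B := fun θ => (1 - cos θ) * M)
    (B' := fun θ => sin θ * M)
    (continuousOn_of_forall_continuousAt fun θ _ => (hder θ).continuousAt.sub continuousAt_const)
    (fun θ _ => ((hder θ).sub_const _).hasDerivWithinAt) (by simp)
    (fun θ => by simpa using ((Real.hasDerivAt_cos θ).const_sub 1).mul_const M)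
    (fun θ hθ => hbound θ (Set.Ico_subset_Icc_self hθ))
    (show π / 2 ∈ Set.Icc 0 (π / 2) from ⟨by positivity, le_rfl⟩)
  have h0 : H 0 = ∫ x, u x ^ 2 ∂gau ι := by
    simp only [hH, Real.cos_zero, Real.sin_zero, one_smul, zero_smul, add_zero]
    simpa [sq] using integral_fun_fst (μ := gau ι) (ν := gau ι) fun x => u x * u x
  have h1 : H (π / 2) = (∫ x, u x ∂gau ι) ^ 2 := by
    simp only [hH, Real.cos_pi_div_two, Real.sin_pi_div_two, one_smul, zero_smul, zero_add]
    rw [integral_prod_mul, sq]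
  simp only [h0, h1, Real.cos_pi_div_two, sub_zero, one_mul, norm_eq_abs] at hfence
  linarith [(abs_le.1 hfence).1]

/-- The Poincaré inequality of a smoothing. -/
lemma psm_poincare (h : BL u B L) {t : ℝ} (ht : 0 ≤ t) (x : EuclideanSpace ℝ ι) :
    Psm t (fun y => u y ^ 2) x - Psm t u x ^ 2 ≤ t * Psm t (fun y => ‖fderiv ℝ u y‖ ^ 2) x := by
  obtain ⟨h', e⟩ := h.affine x (sqrt_nonneg t)
  have := gau_poincare h'
  simp only [e, mul_pow, sq_sqrt ht, integral_const_mul] at this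
  exact this

/-! ## Explicit steps -/

/-- The mean of one step. -/
def stp (g : E d → E d) (τ : ℝ) (z : E d) : E d := z - τ • (z + g z)

/-- One step on a test function. -/
def op (g : E d → E d) (τ : ℝ) (u : E d → ℝ) (z : E d) : ℝ := Psm (2 * τ) u (stp g τ z)

/-- The contraction rate of one step. -/
def rate (δ τ : ℝ) : ℝ := 1 - τ * (1 - δ)

section steps

variable (hP : Pot d δ r0 R g) {τ : ℝ} (hτ : 0 < τ) (hτ1 : τ ≤ 1 / 2)

include hP hτ hτ1

lemma rate_bounds : 0 ≤ rate δ τ ∧ rate δ τ ≤ 1 ∧ τ ≤ 1 - rate δ τ ^ 2 ∧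
    τ * (1 / 2) ≤ 1 - rate δ τ := by
  have h1 := hP.pos
  have h2 := hP.le_eighth
  unfold rate
  refine ⟨?_, ?_, ?_, ?_⟩ <;> nlinarith [mul_nonneg hτ.le h1.le,
    mul_nonneg (sq_nonneg τ) h1.le, mul_le_mul_of_nonneg_left hτ1 hτ.le]

lemma hasFDerivAt_stp (z : E d) : HasFDerivAt (stp g τ)
      (ContinuousLinearMap.id ℝ (E d) - τ • (ContinuousLinearMap.id ℝ (E d) + fderiv ℝ g z)) z ∧
    ‖ContinuousLinearMap.id ℝ (E d) - τ • (ContinuousLinearMap.id ℝ (E d) + fderiv ℝ g z)‖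
      ≤ rate δ τ := by
  refine ⟨(hasFDerivAt_id z).sub (((hasFDerivAt_id z).add
    (hP.smooth.differentiable one_ne_zero z).hasFDerivAt).const_smul τ), ?_⟩
  refine ContinuousLinearMap.opNorm_le_bound _ (rate_bounds hP hτ hτ1).1 fun v => ?_
  have e : (ContinuousLinearMap.id ℝ (E d)
      - τ • (ContinuousLinearMap.id ℝ (E d) + fderiv ℝ g z)) v
      = (1 - τ) • v - τ • fderiv ℝ g z v := by
    simp only [sub_apply, smul_apply, add_apply, ContinuousLinearMap.id_apply]
    module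
  rw [e]
  refine (norm_sub_le _ _).trans ?_
  rw [norm_smul, norm_smul, norm_eq_abs, norm_eq_abs, abs_of_nonneg (by linarith : (0 : ℝ) ≤ 1 - τ),
    abs_of_pos hτ]
  have := mul_le_mul_of_nonneg_left (((fderiv ℝ g z).le_opNorm v).trans
    (mul_le_mul_of_nonneg_right (hP.norm_fderiv_g z) (norm_nonneg v))) hτ.le
  unfold rate
  linarith

lemma hasFDerivAt_op {u : E d → ℝ} {B L : ℝ} (h : BL u B L) (z : E d) :
    HasFDerivAt (op g τ u) ((Psm (2 * τ) (fderiv ℝ u) (stp g τ z)).comp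
      (ContinuousLinearMap.id ℝ (E d) - τ • (ContinuousLinearMap.id ℝ (E d) + fderiv ℝ g z))) z :=
  (hasFDerivAt_Psm_comm (h.smooth.differentiable one_ne_zero) h.dbdd _).comp z
    (hasFDerivAt_stp hP hτ hτ1 z).1

lemma norm_fderiv_op {u : E d → ℝ} {B L : ℝ} (h : BL u B L) (z : E d) :
    ‖fderiv ℝ (op g τ u) z‖ ≤ rate δ τ * ‖Psm (2 * τ) (fderiv ℝ u) (stp g τ z)‖ := by
  rw [(hasFDerivAt_op hP hτ hτ1 h z).fderiv, mul_comm (rate δ τ)]
  exact (ContinuousLinearMap.opNorm_comp_le _ _).trans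
    (mul_le_mul_of_nonneg_left (hasFDerivAt_stp hP hτ hτ1 z).2 (norm_nonneg _))

lemma bl_op {u : E d → ℝ} {B L : ℝ} (h : BL u B L) : BL (op g τ u) B (rate δ τ * L) := by
  refine ⟨?_, fun z => abs_Psm_le h.bdd _, fun z => ?_⟩
  · refine ((contDiff_Psm (by linarith) h.smooth.continuous.measurable (K := B)
      fun x => by simpa using h.bdd x).of_le one_le_two).comp ?_
    have := hP.smooth
    unfold stp
    fun_prop
  · refine (norm_fderiv_op hP hτ hτ1 h z).trans
      (mul_le_mul_of_nonneg_left ?_ (rate_bounds hP hτ hτ1).1)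
    refine (norm_integral_le_of_norm_le_const (C := L) (ae_of_all _ fun x => h.dbdd _)).trans_eq ?_
    simp

lemma bl_iter {u : E d → ℝ} {B L : ℝ} (h : BL u B L) : ∀ k,
    BL ((op g τ)^[k] u) B (rate δ τ ^ k * L)
  | 0 => by simpa using h
  | k + 1 => by
    rw [Function.iterate_succ_apply', pow_succ', mul_assoc]
    exact bl_op hP hτ hτ1 (bl_iter h k)

lemma iter_le {u : E d → ℝ} {B L : ℝ} (h : BL u B L) : ∀ k,
    |(∫ z, (op g τ)^[k] u z ∂tilt R) - ∫ z, u z ∂tilt R| ≤ k * (4 * L * √(d : ℝ) * (τ * √τ))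
  | 0 => by simp
  | k + 1 => by
    obtain ⟨h0, h1, -⟩ := rate_bounds hP hτ hτ1
    have hk := (bl_iter hP hτ hτ1 h k).mono
      (mul_le_of_le_one_left h.L_nonneg (pow_le_one₀ h0 h1))
    have hs := Asm0.tilt_step_le hP hk.smooth hk.bdd hk.dbdd hτ.le
    rw [Function.iterate_succ_apply']
    refine (abs_sub_le _ (∫ z, (op g τ)^[k] u z ∂tilt R) _).trans ?_
    push_cast
    rw [add_mul, one_mul, add_comm]
    exact add_le_add (iter_le h k) hs

/-- Second moments decrease by at most the Gaussian amount at every step. -/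
lemma decrement {φ w : E d → ℝ} {B L H L' : ℝ} (hφ : BL φ B L) (hw : BL w H L')
    (hdom : ∀ x, ‖fderiv ℝ φ x‖ ^ 2 ≤ w x) {n : ℕ} : ∀ k ≤ n,
    (∀ z, ‖fderiv ℝ ((op g τ)^[k] φ) z‖ ^ 2 ≤ rate δ τ ^ (2 * k) * (op g τ)^[k] w z) ∧
    ∫ z, φ z ^ 2 ∂tilt R ≤ ∫ z, (op g τ)^[k] φ z ^ 2 ∂tilt R
      + 2 * (1 - rate δ τ ^ (2 * k))
          * (∫ z, w z ∂tilt R + n * (4 * L' * √(d : ℝ) * (τ * √τ)))
      + k * (4 * (2 * B * L) * √(d : ℝ) * (τ * √τ))
  | 0, _ => by simpa using hdom
  | k + 1, hk => by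
    have := hP.isProb
    obtain ⟨hd, ih⟩ := decrement hφ hw hdom (n := n) k (by omega)
    obtain ⟨h0, h1, h2, -⟩ := rate_bounds hP hτ hτ1
    set a := (op g τ)^[k] φ
    set b := (op g τ)^[k] w with hb
    set ρ := rate δ τ
    have ha := bl_iter hP hτ hτ1 hφ k
    have hbb := bl_iter hP hτ hτ1 hw k
    have hac : Continuous (fderiv ℝ a) := ha.smooth.continuous_fderiv one_ne_zero
    have key : ∀ y, Psm (2 * τ) (fun x => ‖fderiv ℝ a x‖ ^ 2) y
        ≤ ρ ^ (2 * k) * Psm (2 * τ) b y := fun y => by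
      have hbc := hbb.smooth.continuous
      simp only [Psm]
      rw [← integral_const_mul]
      refine integral_mono (Integrable.of_bound (Continuous.aestronglyMeasurable (by fun_prop)) ((ρ ^ k * L) ^ 2)
        (ae_of_all _ fun x => ?_)) ((Integrable.of_bound (Continuous.aestronglyMeasurable (by fun_prop)) H
        (ae_of_all _ fun x => hbb.bdd _)).const_mul _) fun x => hd _
      rw [norm_pow, norm_norm]
      exact pow_le_pow_left₀ (norm_nonneg _) (ha.dbdd _) 2
    refine ⟨fun z => ?_, ?_⟩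
    · rw [Function.iterate_succ_apply', Function.iterate_succ_apply']
      refine (pow_le_pow_left₀ (norm_nonneg _) (norm_fderiv_op hP hτ hτ1 ha z) 2).trans ?_
      rw [mul_pow, show 2 * (k + 1) = 2 + 2 * k by ring, pow_add, mul_assoc]
      refine mul_le_mul_of_nonneg_left (le_trans ?_ (key _)) (sq_nonneg _)
      refine (pow_le_pow_left₀ (norm_nonneg _) (norm_integral_le_integral_norm _) 2).trans ?_
      refine sq_integral_le (Integrable.of_bound (Continuous.aestronglyMeasurable (by fun_prop)) (ρ ^ k * L)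
        (ae_of_all _ fun x => ?_)) (Integrable.of_bound (Continuous.aestronglyMeasurable (by fun_prop)) ((ρ ^ k * L) ^ 2)
        (ae_of_all _ fun x => ?_))
      · rw [norm_norm]; exact ha.dbdd _
      · rw [norm_pow, norm_norm]; exact pow_le_pow_left₀ (norm_nonneg _) (ha.dbdd _) 2
    · have hsq := (ha.mono (mul_le_of_le_one_left hφ.L_nonneg (pow_le_one₀ h0 h1))).sq
      have hs := (abs_le.1 (Asm0.tilt_step_le hP hsq.smooth hsq.bdd hsq.dbdd hτ.le)).1
      have hb1 := bl_iter hP hτ hτ1 hw (k + 1)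
      have ha1 := bl_iter hP hτ hτ1 hφ (k + 1)
      have ic : ∀ {f : E d → ℝ} {B L : ℝ}, BL f B L → Integrable f (tilt R) := fun {f B L} hf =>
        Integrable.of_bound hf.smooth.continuous.aestronglyMeasurable B (ae_of_all _ hf.bdd)
      have hw1 := (abs_le.1 (iter_le hP hτ hτ1 hw (k + 1))).2
      rw [Function.iterate_succ_apply'] at hb1 ha1 hw1
      have h3 : ∫ z, Psm (2 * τ) (fun x => a x ^ 2) (z - τ • (z + g z)) ∂tilt R
          ≤ ∫ z, (op g τ a z ^ 2 + 2 * τ * ρ ^ (2 * k) * op g τ b z) ∂tilt R := by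
        refine integral_mono ?_ ((ic ha1.sq).add ((ic hb1).const_mul _)) fun z => ?_
        · exact ic (bl_op hP hτ hτ1 hsq)
        · have p1 := psm_poincare ha (show 0 ≤ 2 * τ by linarith) (stp g τ z)
          have p2 := mul_le_mul_of_nonneg_left (key (stp g τ z)) (show 0 ≤ 2 * τ by linarith)
          simp only [op, stp] at p1 p2 ⊢
          linarith
      rw [integral_add (ic ha1.sq) ((ic hb1).const_mul _), integral_const_mul] at h3
      rw [Function.iterate_succ_apply' (op g τ) k φ]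
      change _ ≤ ∫ z, op g τ a z ^ 2 ∂tilt R + _ + _
      set e := 4 * L' * √(d : ℝ) * (τ * √τ) with he
      have he0 : 0 ≤ e := by have := hw.L_nonneg; positivity
      set I := ∫ z, w z ∂tilt R
      have hI : 0 ≤ I := integral_nonneg fun z => (sq_nonneg _).trans (hdom z)
      have hw2 : ∫ z, op g τ b z ∂tilt R ≤ I + n * e := by
        have : ((k + 1 : ℕ) : ℝ) * e ≤ n * e :=
          mul_le_mul_of_nonneg_right (by exact_mod_cast hk) he0
        linarith
      have hpk : 0 ≤ ρ ^ (2 * k) := pow_nonneg h0 _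
      have h4 : 2 * τ * ρ ^ (2 * k) * ∫ z, op g τ b z ∂tilt R
          ≤ 2 * (ρ ^ (2 * k) - ρ ^ (2 * (k + 1))) * (I + n * e) := by
        refine (mul_le_mul_of_nonneg_left hw2 (by positivity)).trans
          (mul_le_mul_of_nonneg_right ?_ (by positivity))
        rw [show 2 * (k + 1) = 2 * k + 2 by ring, pow_add]
        nlinarith [mul_le_mul_of_nonneg_left h2 hpk]
      push_cast
      linarith

end steps

/-- The inequality for bounded tests with a smooth majorant of the squared gradient. -/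
lemma poincare_bl (hP : Pot d δ r0 R g) {φ w : E d → ℝ} {B L H L' : ℝ} (hφ : BL φ B L)
    (hw : BL w H L') (hdom : ∀ x, ‖fderiv ℝ φ x‖ ^ 2 ≤ w x) :
    ∫ x, φ x ^ 2 ∂tilt R - (∫ x, φ x ∂tilt R) ^ 2 ≤ 2 * ∫ x, w x ∂tilt R := by
  have := hP.isProb
  have hB := hφ.B_nonneg
  have hL := hφ.L_nonneg
  have hL' := hw.L_nonneg
  have i1 : Integrable (fun x : E d => ‖x‖) (tilt R) :=
    hP.integrable_tilt (by fun_prop) 1 1 fun x => by simp
  have i2 : Integrable (fun x : E d => ‖x‖ ^ 2) (tilt R) :=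
    hP.integrable_tilt (by fun_prop) 1 2 fun x => by
      rw [norm_pow, norm_norm, one_mul]
      exact pow_le_pow_left₀ (norm_nonneg _) (by linarith) 2
  set M2 := ∫ x, ‖x‖ ^ 2 ∂tilt R
  have hM2 : 0 ≤ M2 := integral_nonneg fun x => sq_nonneg _
  set s := √(d : ℝ)
  set C := 8 * L' * s + 16 * (B * L) * s
  have key : ∀ m : ℕ, 2 ≤ m →
      ∫ x, φ x ^ 2 ∂tilt R - (∫ x, φ x ∂tilt R) ^ 2 ≤ 2 * ∫ x, w x ∂tilt R
        + (C * (1 / √(m : ℝ)) + 4 * L ^ 2 * M2 * (1 / (m : ℝ))) := by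
    intro m hm
    have hm2 : (2 : ℝ) ≤ m := by exact_mod_cast hm
    have hm0 : (0 : ℝ) < m := by linarith
    set τ := 1 / (m : ℝ) ^ 3 with hτd
    have hτ : 0 < τ := by positivity
    have hτ1 : τ ≤ 1 / 2 :=
      one_div_le_one_div_of_le two_pos (hm2.trans (le_self_pow₀ (by linarith) (by norm_num)))
    set n := m ^ 4
    obtain ⟨h0, h1, -, h3⟩ := rate_bounds hP hτ hτ1
    set ρ := rate δ τ
    have hnτ : (n : ℝ) * τ = m := by simp only [n, hτd, Nat.cast_pow]; field_simp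
    have hsm : √τ = 1 / ((m : ℝ) * √m) := by
      rw [hτd, sqrt_eq_iff_mul_self_eq (by positivity) (by positivity)]
      field_simp
      rw [sq_sqrt hm0.le]
    have hstep : ∀ c, (n : ℝ) * (c * (τ * √τ)) = c * (1 / √(m : ℝ)) := fun c => by
      calc (n : ℝ) * (c * (τ * √τ)) = c * ((n * τ) * √τ) := by ring
        _ = _ := by rw [hnτ, hsm]; field_simp
    have hdecay : ρ ^ n ≤ 2 * (1 / (m : ℝ)) := by
      have hh : ρ ≤ exp (-(τ * (1 / 2))) := by linarith [add_one_le_exp (-(τ * (1 / 2)))]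
      refine (pow_le_pow_left₀ h0 hh n).trans ?_
      rw [← exp_nat_mul, mul_neg, ← mul_assoc, hnτ, exp_neg, mul_one_div,
        inv_le_comm₀ (exp_pos _) (by positivity), mul_one_div, inv_div]
      linarith [add_one_le_exp ((m : ℝ) / 2)]
    obtain ⟨-, hdec⟩ := decrement hP hτ hτ1 hφ hw hdom (n := n) n le_rfl
    have hit := iter_le hP hτ hτ1 hφ n
    set a := (op g τ)^[n] φ
    have ha := bl_iter hP hτ hτ1 hφ n
    have hac := ha.smooth.continuous
    have ia : Integrable a (tilt R) :=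
      Integrable.of_bound hac.aestronglyMeasurable B (ae_of_all _ ha.bdd)
    have ia2 : Integrable (fun x => a x ^ 2) (tilt R) :=
      Integrable.of_bound ha.sq.smooth.continuous.aestronglyMeasurable _ (ae_of_all _ ha.sq.bdd)
    set A := ∫ x, a x ∂tilt R
    set P := ∫ x, φ x ∂tilt R
    rw [hstep] at hit
    have hAP : A ^ 2 ≤ P ^ 2 + 2 * B * (4 * L * s * (1 / √(m : ℝ))) := by
      have hb : ∀ {f : E d → ℝ}, (∀ x, |f x| ≤ B) → |∫ x, f x ∂tilt R| ≤ B := fun {f} hf =>
        (norm_integral_le_of_norm_le_const (μ := tilt R) (f := f) (C := B)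
          (ae_of_all _ fun x => (norm_eq_abs (f x)).trans_le (hf x))).trans_eq
          (by rw [probReal_univ, mul_one])
      have e1 : |A - P| * |A + P| ≤ (4 * L * s * (1 / √(m : ℝ))) * (2 * B) :=
        mul_le_mul hit ((abs_add_le _ _).trans (by linarith [hb ha.bdd, hb hφ.bdd]))
          (abs_nonneg _) (by positivity)
      have e2 : A ^ 2 - P ^ 2 ≤ |A - P| * |A + P| := by
        rw [← abs_mul]; exact le_trans (le_of_eq (by ring)) (le_abs_self _)
      linarith
    have hosc : ∫ x, a x ^ 2 ∂tilt R ≤ A ^ 2 + ρ ^ n * L ^ 2 * M2 := by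
      set c := a 0
      have ib : Integrable (fun x => a x ^ 2 - 2 * c * a x) (tilt R) := ia2.sub' (ia.const_mul _)
      have h4 : ∫ x, (a x ^ 2 - 2 * c * a x + c ^ 2) ∂tilt R
          ≤ ∫ x, ρ ^ n * L ^ 2 * ‖x‖ ^ 2 ∂tilt R := by
        refine integral_mono (ib.add (integrable_const _)) (i2.const_mul _) fun x => ?_
        have h5 := pow_le_pow_left₀ (abs_nonneg _) (ha.lip x 0) 2
        rw [sq_abs, sub_zero] at h5
        calc a x ^ 2 - 2 * c * a x + c ^ 2 = (a x - c) ^ 2 := by ring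
          _ ≤ (ρ ^ n * L * ‖x‖) ^ 2 := h5
          _ ≤ _ := by
              rw [mul_pow, mul_pow]
              exact mul_le_mul_of_nonneg_right (mul_le_mul_of_nonneg_right
                (pow_le_of_le_one (pow_nonneg h0 n) (pow_le_one₀ h0 h1) two_ne_zero)
                (sq_nonneg L)) (sq_nonneg _)
      rw [integral_add ib (integrable_const _), integral_sub ia2 (ia.const_mul _),
        integral_const_mul, integral_const_mul, integral_const, probReal_univ, one_smul] at h4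
      nlinarith [sq_nonneg (A - c)]
    rw [hstep, hstep] at hdec
    have hI : 0 ≤ ∫ x, w x ∂tilt R + 4 * L' * s * (1 / √(m : ℝ)) :=
      add_nonneg (integral_nonneg fun z => (sq_nonneg _).trans (hdom z)) (by positivity)
    have h6 := mul_le_mul_of_nonneg_right
      (show 2 * (1 - ρ ^ (2 * n)) ≤ 2 by linarith [pow_nonneg h0 (2 * n)]) hI
    have h7 := mul_le_mul_of_nonneg_right hdecay (mul_nonneg (sq_nonneg L) hM2)
    have h8 : 0 ≤ L ^ 2 * M2 * (1 / (m : ℝ)) := by positivity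
    simp only [C]
    linarith
  have hlim : Tendsto (fun m : ℕ => 2 * ∫ x, w x ∂tilt R
      + (C * (1 / √(m : ℝ)) + 4 * L ^ 2 * M2 * (1 / (m : ℝ)))) atTop
      (𝓝 (2 * ∫ x, w x ∂tilt R)) := by
    have h1 : Tendsto (fun m : ℕ => 1 / √(m : ℝ)) atTop (𝓝 0) :=
      tendsto_const_nhds.div_atTop (tendsto_sqrt_atTop.comp tendsto_natCast_atTop_atTop)
    simpa using tendsto_const_nhds.add
      ((h1.const_mul C).add (tendsto_one_div_atTop_nhds_zero_nat.const_mul (4 * L ^ 2 * M2)))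
  exact ge_of_tendsto hlim (eventually_atTop.2 ⟨2, key⟩)

/-- Passing to the limit in the inequality. -/
lemma poincare_limit (hP : Pot d δ r0 R g) {f : ℕ → E d → ℝ} {φ : E d → ℝ}
    (hf : ∀ j, ContDiff ℝ 1 (f j)) {K : ℝ} {k : ℕ}
    (hb : ∀ j x, |f j x| ≤ K * (1 + ‖x‖) ^ k)
    (hb' : ∀ j x, ‖fderiv ℝ (f j) x‖ ≤ K * (1 + ‖x‖) ^ k)
    (hl : ∀ x, Tendsto (fun j => f j x) atTop (𝓝 (φ x)))
    (hl' : ∀ x, Tendsto (fun j => fderiv ℝ (f j) x) atTop (𝓝 (fderiv ℝ φ x)))
    (hineq : ∀ j, ∫ x, f j x ^ 2 ∂tilt R - (∫ x, f j x ∂tilt R) ^ 2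
      ≤ 2 * ∫ x, ‖fderiv ℝ (f j) x‖ ^ 2 ∂tilt R) :
    ∫ x, φ x ^ 2 ∂tilt R - (∫ x, φ x ∂tilt R) ^ 2 ≤ 2 * ∫ x, ‖fderiv ℝ φ x‖ ^ 2 ∂tilt R := by
  have i1 : Integrable (fun x : E d => K * (1 + ‖x‖) ^ k) (tilt R) :=
    hP.integrable_tilt (by fun_prop) |K| k fun x => by
      rw [norm_eq_abs, abs_mul, abs_of_nonneg (by positivity : (0 : ℝ) ≤ (1 + ‖x‖) ^ k)]
  have i2 : Integrable (fun x : E d => K ^ 2 * (1 + ‖x‖) ^ (k * 2)) (tilt R) :=
    hP.integrable_tilt (by fun_prop) (K ^ 2) (k * 2) fun x => by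
      rw [norm_eq_abs, abs_of_nonneg (by positivity)]
  have hsq : ∀ {y : ℝ} (x : E d), |y| ≤ K * (1 + ‖x‖) ^ k →
      ‖y ^ 2‖ ≤ K ^ 2 * (1 + ‖x‖) ^ (k * 2) := fun x hy => by
    rw [norm_pow, norm_eq_abs, pow_mul, ← mul_pow]
    exact pow_le_pow_left₀ (abs_nonneg _) hy 2
  have t1 := tendsto_integral_of_dominated_convergence (μ := tilt R) _
    (F := fun j x => f j x ^ 2) (fun j => ((hf j).continuous.pow 2).aestronglyMeasurable) i2
    (fun j => ae_of_all _ fun x => hsq x (hb j x)) (ae_of_all _ fun x => (hl x).pow 2)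
  have t2 := tendsto_integral_of_dominated_convergence (μ := tilt R) _
    (F := fun j x => f j x) (fun j => (hf j).continuous.aestronglyMeasurable) i1
    (fun j => ae_of_all _ fun x => hb j x) (ae_of_all _ hl)
  have t3 := tendsto_integral_of_dominated_convergence (μ := tilt R) _
    (F := fun j x => ‖fderiv ℝ (f j) x‖ ^ 2)
    (fun j => (((hf j).continuous_fderiv one_ne_zero).norm.pow 2).aestronglyMeasurable) i2
    (fun j => ae_of_all _ fun x => hsq x (by rw [abs_norm]; exact hb' j x))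
    (ae_of_all _ fun x => (hl' x).norm.pow 2)
  exact le_of_tendsto_of_tendsto' (t1.sub (t2.pow 2)) (t3.const_mul 2) hineq

/-- The inequality for bounded tests with bounded gradient. -/
lemma poincare_bdd (hP : Pot d δ r0 R g) {φ : E d → ℝ} {B L : ℝ} (hφ : BL φ B L) :
    ∫ x, φ x ^ 2 ∂tilt R - (∫ x, φ x ∂tilt R) ^ 2 ≤ 2 * ∫ x, ‖fderiv ℝ φ x‖ ^ 2 ∂tilt R := by
  have hB := hφ.B_nonneg
  have hL := hφ.L_nonneg
  have hc := hφ.smooth.continuous
  have hc' : Continuous (fderiv ℝ φ) := hφ.smooth.continuous_fderiv one_ne_zero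
  have hd := hφ.smooth.differentiable one_ne_zero
  set t : ℕ → ℝ := fun j => 1 / ((j : ℝ) + 1)
  have ht : ∀ j, 0 < t j := fun j => by positivity
  have htl : Tendsto (fun j => √(t j)) atTop (𝓝 0) := by
    simpa [t] using (tendsto_one_div_add_atTop_nhds_zero_nat (𝕜 := ℝ)).sqrt
  have e : ∀ j, fderiv ℝ (Psm (t j) φ) = Psm (t j) (fderiv ℝ φ) := fun j =>
    funext (fderiv_Psm_comm hd hφ.dbdd)
  have hn : ∀ j x, ‖Psm (t j) (fderiv ℝ φ) x‖ ≤ L := fun j x =>
    (norm_integral_le_of_norm_le_const (C := L) (ae_of_all _ fun z => hφ.dbdd _)).trans_eq (by simp)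
  refine poincare_limit hP (f := fun j => Psm (t j) φ) (K := B + L) (k := 0)
    (fun j => (contDiff_Psm (ht j) hc.measurable (K := B) fun x => by
      simpa using hφ.bdd x).of_le one_le_two) (fun j x => ?_) (fun j x => ?_) (fun x => ?_)
    (fun x => ?_) fun j => ?_
  · simpa using (abs_Psm_le hφ.bdd x).trans (le_add_of_nonneg_right hL)
  · simpa [e j] using (hn j x).trans (le_add_of_nonneg_left hB)
  · have := tendsto_integral_of_dominated_convergence (μ := gau (Fin d)) (fun _ => B)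
      (F := fun j z => φ (x + √(t j) • z)) (fun j => (by fun_prop)) (integrable_const B)
      (fun j => ae_of_all _ fun z => hφ.bdd _)
      (ae_of_all _ fun z => (hc.tendsto x).comp
        (by simpa using (htl.smul_const z).const_add x))
    simpa [Psm] using this
  · simp only [e]
    have := tendsto_integral_of_dominated_convergence (μ := gau (Fin d)) (fun _ => L)
      (F := fun j z => fderiv ℝ φ (x + √(t j) • z)) (fun j => (by fun_prop)) (integrable_const L)
      (fun j => ae_of_all _ fun z => hφ.dbdd _)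
      (ae_of_all _ fun z => (hc'.tendsto x).comp
        (by simpa using (htl.smul_const z).const_add x))
    simpa [Psm] using this
  · set Φ := Psm (t j) φ
    set D := (InnerProductSpace.toDual ℝ (E d)).symm.toContinuousLinearEquiv.toContinuousLinearMap
    have hD : ∀ l, ‖D l‖ = ‖l‖ := fun l => LinearIsometryEquiv.norm_map _ _
    have hm : Measurable (fderiv ℝ φ) := hc'.measurable
    have hF : ContDiff ℝ 1 (fderiv ℝ Φ) := by
      rw [e j]
      exact (contDiff_Psm (ht j) hm hφ.dbdd).of_le one_le_two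
    have hΦ : BL Φ B L := ⟨(contDiff_Psm (ht j) hc.measurable (K := B) fun x => by
      simpa using hφ.bdd x).of_le one_le_two, abs_Psm_le hφ.bdd,
      fun x => by rw [e j]; exact hn j x⟩
    set C := L / √(t j)
    have hC : ∀ x, ‖fderiv ℝ (fderiv ℝ Φ) x‖ ≤ C := fun x => by
      rw [e j]; exact norm_fderiv_Psm_le (ht j) hm hφ.dbdd x
    have hw : BL (fun x => ‖D (fderiv ℝ Φ x)‖ ^ 2) (L ^ 2) (2 * L * C) := by
      refine ⟨(D.contDiff.comp hF).norm_sq ℝ, fun x => ?_, fun x => ?_⟩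
      · rw [abs_pow, abs_norm, hD]; exact pow_le_pow_left₀ (norm_nonneg _) (hΦ.dbdd x) 2
      · have h1 := (D.hasFDerivAt.comp x
          (hF.differentiable one_ne_zero x).hasFDerivAt).norm_sq
        simp only [Function.comp_def] at h1
        rw [h1.fderiv]
        refine ContinuousLinearMap.opNorm_le_bound _
          (mul_nonneg (by positivity) ((norm_nonneg (fderiv ℝ (fderiv ℝ Φ) x)).trans (hC x))) fun v => ?_
        simp only [smul_apply, ContinuousLinearMap.comp_apply, innerSL_apply_apply, nsmul_eq_mul,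
          norm_mul, Nat.cast_ofNat, norm_ofNat]
        rw [mul_assoc 2 L, mul_assoc 2 (L * C)]
        refine mul_le_mul_of_nonneg_left ?_ zero_le_two
        refine (norm_inner_le_norm _ _).trans ?_
        rw [mul_assoc L, hD]
        refine mul_le_mul (hΦ.dbdd x) ?_ (norm_nonneg _) hL
        rw [hD]
        exact ((fderiv ℝ (fderiv ℝ Φ) x).le_opNorm v).trans
          (mul_le_mul_of_nonneg_right (hC x) (norm_nonneg _))
    have := poincare_bl hP hΦ hw fun x => le_of_eq (by rw [hD])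
    simpa only [hD] using this

end

end TiltAux

open TiltAux in
/-- The Poincaré inequality of tilted laws. -/
theorem tilt_poincare : ∀ (d : ℕ) (δ r0 : ℝ) (R : E d → ℝ) (g : E d → E d),
    Pot d δ r0 R g → ∀ (φ : E d → ℝ) (K : ℝ) (k : ℕ), ContDiff ℝ 1 φ →
    (∀ x, |φ x| ≤ K * (1 + ‖x‖) ^ k) → (∀ x, ‖fderiv ℝ φ x‖ ≤ K * (1 + ‖x‖) ^ k) →
    ∫ x, (φ x - ∫ y, φ y ∂tilt R) ^ 2 ∂tilt R ≤ 2 * ∫ x, ‖fderiv ℝ φ x‖ ^ 2 ∂tilt R := by
  intro d δ r0 R g hP φ K k hφ h0 h1
  have := hP.isProb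
  have hK : 0 ≤ K := by simpa using (abs_nonneg _).trans (h0 0)
  set ε : ℕ → ℝ := fun j => 1 / ((j : ℝ) + 1)
  have hε : ∀ j, 0 < ε j := fun j => by positivity
  have hεl : Tendsto ε atTop (𝓝 0) := tendsto_one_div_add_atTop_nhds_zero_nat
  set q : ℕ → E d → ℝ := fun j x => (((1 + ε j * ‖x‖ ^ 2) ^ k)⁻¹)
  set f : ℕ → E d → ℝ := fun j x => q j x * φ x
  have hp : ∀ j (x : E d), 1 ≤ 1 + ε j * ‖x‖ ^ 2 := fun j x => by
    have := hε j; nlinarith [sq_nonneg ‖x‖]
  have hq0 : ∀ j x, 0 < q j x := fun j x =>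
    inv_pos.2 (pow_pos (by linarith [hp j x]) _)
  have hq1 : ∀ j x, q j x ≤ 1 := fun j x => inv_le_one_of_one_le₀ (one_le_pow₀ (hp j x))
  have hqs : ∀ j, ContDiff ℝ 1 (q j) := fun j =>
    ((contDiff_const.add (contDiff_const.mul (contDiff_norm_sq ℝ))).pow k).inv fun x =>
      (pow_pos (by linarith [hp j x]) _).ne'
  have hqd : ∀ j x, ‖fderiv ℝ (q j) x‖ ≤ k * √(ε j) * q j x := fun j x => by
    have hb : HasFDerivAt (fun x : E d => 1 + ε j * ‖x‖ ^ 2) ((ε j) • (2 • innerSL ℝ x)) x :=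
      ((hasFDerivAt_id x).norm_sq.const_mul (ε j)).const_add 1
    have hpos : 0 < 1 + ε j * ‖x‖ ^ 2 := by linarith [hp j x]
    have hd : HasFDerivAt (q j) ((-(((1 + ε j * ‖x‖ ^ 2) ^ k) ^ 2)⁻¹) •
        (((k : ℝ) * (1 + ε j * ‖x‖ ^ 2) ^ (k - 1)) • ((ε j) • (2 • innerSL ℝ x)))) x :=
      ((hasDerivAt_inv (pow_pos hpos k).ne').comp_hasFDerivAt x (hb.pow k)).congr_fderiv
        (by rw [nsmul_eq_mul])
    rw [hd.fderiv, norm_smul, norm_smul, norm_smul, norm_mul, norm_neg, norm_inv,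
      norm_pow, norm_pow, norm_pow, RCLike.norm_natCast, norm_eq_abs, norm_eq_abs,
      abs_of_pos hpos, abs_of_pos (hε j)]
    have h2 : ‖(2 : ℕ) • innerSL ℝ x‖ ≤ 2 * ‖x‖ := by
      simpa [two_nsmul, two_mul] using norm_add_le (innerSL ℝ x) (innerSL ℝ x)
    set p := 1 + ε j * ‖x‖ ^ 2 with hpdef
    have h3 : ε j * ‖(2 : ℕ) • innerSL ℝ x‖ ≤ √(ε j) * p := by
      have hs := sq_sqrt (hε j).le
      refine (mul_le_mul_of_nonneg_left h2 (hε j).le).trans ?_
      rw [hpdef]
      have key : √(ε j) ^ 2 * (2 * ‖x‖) ≤ √(ε j) * (1 + √(ε j) ^ 2 * ‖x‖ ^ 2) := by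
        nlinarith [mul_nonneg (sqrt_nonneg (ε j)) (sq_nonneg (√(ε j) * ‖x‖ - 1))]
      rw [hs] at key
      exact key
    calc ((p ^ k) ^ 2)⁻¹ * ((k : ℝ) * p ^ (k - 1) * (ε j * ‖(2 : ℕ) • innerSL ℝ x‖))
        ≤ ((p ^ k) ^ 2)⁻¹ * ((k : ℝ) * p ^ (k - 1) * (√(ε j) * p)) := by gcongr
      _ = (k : ℝ) * √(ε j) * q j x := by
          rcases k with _ | n
          · simp
          · change _ = _ * (p ^ (n + 1))⁻¹
            simp only [Nat.add_sub_cancel]
            field_simp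
            ring
  have hfd : ∀ j x, HasFDerivAt (f j) (q j x • fderiv ℝ φ x + φ x • fderiv ℝ (q j) x) x :=
    fun j x => ((hqs j).differentiable one_ne_zero x).hasFDerivAt.mul
      (hφ.differentiable one_ne_zero x).hasFDerivAt
  have hfn : ∀ j x, ‖fderiv ℝ (f j) x‖ ≤ (1 + k) * (q j x * (K * (1 + ‖x‖) ^ k)) := fun j x => by
    rw [(hfd j x).fderiv]
    refine (norm_add_le _ _).trans ?_
    rw [norm_smul, norm_smul, norm_eq_abs, norm_eq_abs, abs_of_pos (hq0 j x)]
    have hs : √(ε j) ≤ 1 := sqrt_le_one.2 ((div_le_one (by positivity)).2 (by simp))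
    have e1 := mul_le_mul_of_nonneg_left (h1 x) (hq0 j x).le
    have e2 : |φ x| * ‖fderiv ℝ (q j) x‖ ≤ K * (1 + ‖x‖) ^ k * (k * 1 * q j x) :=
      mul_le_mul (h0 x) ((hqd j x).trans (mul_le_mul_of_nonneg_right
        (mul_le_mul_of_nonneg_left hs (Nat.cast_nonneg k)) (hq0 j x).le)) (norm_nonneg _)
        (by positivity)
    linarith
  have hbl : ∀ j, ∃ B L, BL (f j) B L := fun j => by
    have hr : ∀ x, q j x * (K * (1 + ‖x‖) ^ k) ≤ K * (1 + 1 / √(ε j)) ^ k := fun x => by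
      rw [mul_left_comm]
      refine mul_le_mul_of_nonneg_left ?_ hK
      rw [inv_mul_le_iff₀ (pow_pos (by linarith [hp j x]) _), ← mul_pow]
      refine pow_le_pow_left₀ (by positivity) ?_ k
      have hs := sq_sqrt (hε j).le
      have hs0 := sqrt_pos.2 (hε j)
      have : ‖x‖ ≤ (1 + ε j * ‖x‖ ^ 2) * (1 / √(ε j)) := by
        rw [mul_one_div, le_div_iff₀ hs0]
        nlinarith [sq_nonneg (√(ε j) * ‖x‖ - 1), mul_nonneg hs0.le (norm_nonneg x)]
      nlinarith [hp j x]
    refine ⟨K * (1 + 1 / √(ε j)) ^ k, (1 + k) * (K * (1 + 1 / √(ε j)) ^ k), (hqs j).mul hφ,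
      fun x => ?_, fun x =>
      (hfn j x).trans (mul_le_mul_of_nonneg_left (hr x) (by positivity))⟩
    rw [abs_mul, abs_of_pos (hq0 j x)]
    exact (mul_le_mul_of_nonneg_left (h0 x) (hq0 j x).le).trans (hr x)
  have hql : ∀ x, Tendsto (fun j => q j x) atTop (𝓝 1) := fun x => by
    simpa [q] using ((((hεl.mul_const (‖x‖ ^ 2)).const_add 1).pow k).inv₀ (by simp))
  have hlim := poincare_limit hP (f := f) (φ := φ) (fun j => (hqs j).mul hφ)
    (K := (1 + k) * K) (k := k)
    (fun j x => by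
      rw [abs_mul, abs_of_pos (hq0 j x)]
      refine (mul_le_mul (hq1 j x) (h0 x) (abs_nonneg _) zero_le_one).trans ?_
      rw [one_mul, mul_assoc]
      exact le_mul_of_one_le_left (by positivity) (by linarith [(Nat.cast_nonneg k : (0 : ℝ) ≤ k)]))
    (fun j x => by
      refine (hfn j x).trans ?_
      rw [mul_assoc (1 + (k : ℝ))]
      exact mul_le_mul_of_nonneg_left (mul_le_of_le_one_left (by positivity) (hq1 j x))
        (by positivity))
    (fun x => by simpa [f] using (hql x).mul_const (φ x))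
    (fun x => by
      simp only [(hfd _ x).fderiv]
      have hz : Tendsto (fun j => φ x • fderiv ℝ (q j) x) atTop (𝓝 0) := by
        have h2 : Tendsto (fun j => fderiv ℝ (q j) x) atTop (𝓝 0) :=
          squeeze_zero_norm (fun j => (hqd j x).trans
            (mul_le_of_le_one_right (by positivity) (hq1 j x)))
            (by simpa using hεl.sqrt.const_mul (k : ℝ))
        simpa using h2.const_smul (φ x)
      simpa using ((hql x).smul_const (fderiv ℝ φ x)).add hz)
    (fun j => by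
      obtain ⟨B, L, h⟩ := hbl j
      exact poincare_bdd hP h)
  have i1 : Integrable φ (tilt R) := hP.integrable_tilt hφ.continuous K k h0
  have i2 : Integrable (fun x => φ x ^ 2) (tilt R) :=
    hP.integrable_tilt (hφ.continuous.pow 2) (K ^ 2) (k * 2) fun x => by
      rw [norm_pow, norm_eq_abs, pow_mul, ← mul_pow]
      exact pow_le_pow_left₀ (abs_nonneg _) (h0 x) 2
  set m := ∫ x, φ x ∂tilt R with hm
  refine le_trans (le_of_eq ?_) hlim
  have e : ∀ x, (φ x - m) ^ 2 = φ x ^ 2 - 2 * m * φ x + m ^ 2 := fun x => by ring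
  simp only [e]
  rw [integral_add (i2.sub' (i1.const_mul _)) (integrable_const _),
    integral_sub i2 (i1.const_mul _), integral_const_mul, integral_const, probReal_univ, one_smul,
    ← hm]
  ring


namespace TiltAux

noncomputable section

variable {δ r0 : ℝ} {R : E d → ℝ} {g : E d → E d}

/-! ## Smoothed potentials and scores -/

/-- The Gaussian average around `p` at scale `σ`. -/
def savg {F : Type*} [NormedAddCommGroup F] [NormedSpace ℝ F] (σ : ℝ) (f : E d → F) (p : E d) : F :=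
  ∫ w, f (p + σ • w) ∂gau (Fin d)

lemma pot_affine (h : Pot d δ r0 R g) {σ : ℝ} (hσ : 0 ≤ σ) (hσ1 : σ ≤ 1) (q : E d) :
    Pot d δ (δ * ‖q‖ + r0) (fun w => R (q + σ • w)) (fun w => σ • g (q + σ • w)) where
  pos := h.pos
  le_eighth := h.le_eighth
  r0_nonneg := add_nonneg (mul_nonneg h.pos.le (norm_nonneg _)) h.r0_nonneg
  hasGrad w := by
    refine ((h.hasGrad (q + σ • w)).comp w
      (((hasFDerivAt_id w).const_smul σ).const_add q)).congr_fderiv ?_
    ext v
    simp
  smooth := by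
    have := h.smooth
    fun_prop
  lip a b := by
    rw [← smul_sub, norm_smul, norm_eq_abs, abs_of_nonneg hσ]
    refine (mul_le_of_le_one_left (norm_nonneg _) hσ1).trans
      ((h.lip _ _).trans (mul_le_mul_of_nonneg_left ?_ h.pos.le))
    rw [add_sub_add_left_eq_sub, ← smul_sub, norm_smul, norm_eq_abs, abs_of_nonneg hσ]
    exact mul_le_of_le_one_left (norm_nonneg _) hσ1
  at_zero := by
    rw [smul_zero, add_zero, norm_smul, norm_eq_abs, abs_of_nonneg hσ]
    exact (mul_le_of_le_one_left (norm_nonneg _) hσ1).trans (h.norm_le q)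

section savg

variable {F : Type*} [NormedAddCommGroup F] [NormedSpace ℝ F] {f : E d → F} {K b a σ : ℝ} {k : ℕ}

omit [NormedSpace ℝ F] in
lemma norm_le_domin_affine (hf : Grows f K k b a) (hσ : 0 ≤ σ) (hσ1 : σ ≤ 1) {p : E d} {r : ℝ}
    (hp : ‖p‖ ≤ r) (w : E d) : ‖f (p + σ • w)‖ ≤ domin K k b a r w := by
  have hr : 0 ≤ r := (norm_nonneg p).trans hp
  set y := p + σ • w
  have hy : ‖y‖ ≤ r + ‖w‖ := by
    refine (norm_add_le _ _).trans (add_le_add hp ?_)
    rw [norm_smul, norm_eq_abs, abs_of_nonneg hσ]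
    exact mul_le_of_le_one_left (norm_nonneg _) hσ1
  have h1 : (1 + ‖y‖) ^ k ≤ (1 + r) ^ k * (1 + ‖w‖) ^ k := by
    rw [← mul_pow]
    exact pow_le_pow_left₀ (by positivity) (by nlinarith [norm_nonneg w]) k
  have h2 : exp (b * ‖y‖) ≤ exp (|b| * r) * exp (|b| * ‖w‖) := by
    rw [← Real.exp_add, Real.exp_le_exp, ← mul_add]
    exact (mul_le_mul_of_nonneg_right (le_abs_self b) (norm_nonneg _)).trans
      (mul_le_mul_of_nonneg_left hy (abs_nonneg b))
  have h3 : exp (a * ‖y‖ ^ 2) ≤ exp (2 * |a| * r ^ 2) * exp (2 * |a| * ‖w‖ ^ 2) := by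
    rw [← Real.exp_add, Real.exp_le_exp]
    have : ‖y‖ ^ 2 ≤ 2 * r ^ 2 + 2 * ‖w‖ ^ 2 := by
      nlinarith [norm_nonneg y, sq_nonneg (r - ‖w‖)]
    nlinarith [mul_le_mul_of_nonneg_right (le_abs_self a) (sq_nonneg ‖y‖), abs_nonneg a]
  calc ‖f y‖ ≤ |K| * (1 + ‖y‖) ^ k * exp (b * ‖y‖) * exp (a * ‖y‖ ^ 2) := by
        refine (hf y).trans ?_
        have h0 : 0 ≤ (1 + ‖y‖) ^ k := by positivity
        exact mul_le_mul_of_nonneg_right (mul_le_mul_of_nonneg_right
          (mul_le_mul_of_nonneg_right (le_abs_self K) h0) (exp_pos _).le) (exp_pos _).le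
    _ ≤ |K| * ((1 + r) ^ k * (1 + ‖w‖) ^ k) * (exp (|b| * r) * exp (|b| * ‖w‖)) *
          (exp (2 * |a| * r ^ 2) * exp (2 * |a| * ‖w‖ ^ 2)) := by gcongr
    _ = _ := by rw [domin]; ring

omit [NormedSpace ℝ F] in
lemma integrable_savg [SecondCountableTopology F] (hc : Continuous f) (hf : Grows f K k b a)
    (ha : |a| < 1 / 4) (hσ : 0 ≤ σ) (hσ1 : σ ≤ 1) (p : E d) :
    Integrable (fun w => f (p + σ • w)) (gau (Fin d)) :=
  (integrable_domin ha K k b ‖p‖).mono' (hc.comp (by fun_prop)).aestronglyMeasurable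
    (ae_of_all _ (norm_le_domin_affine hf hσ hσ1 le_rfl))

lemma continuous_savg [SecondCountableTopology F] (hc : Continuous f) (hf : Grows f K k b a)
    (ha : |a| < 1 / 4) (hσ : 0 ≤ σ) (hσ1 : σ ≤ 1) : Continuous (savg σ f) := by
  refine continuous_iff_continuousAt.2 fun p => continuousAt_of_dominated
    (bound := domin K k b a (‖p‖ + 1))
    (Eventually.of_forall fun q => (hc.comp (by fun_prop)).aestronglyMeasurable) ?_
    (integrable_domin ha K k b _) (ae_of_all _ fun w => (hc.comp (by fun_prop)).continuousAt)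
  filter_upwards [(continuous_norm.tendsto p).eventually (eventually_le_nhds (lt_add_one ‖p‖))]
    with q hq
  exact ae_of_all _ (norm_le_domin_affine hf hσ hσ1 hq)

lemma hasFDerivAt_savg [CompleteSpace F] [SecondCountableTopology F] (hs : ContDiff ℝ 1 f)
    (hf : Grows f K k b a) {K' : ℝ} (hf' : Grows (fderiv ℝ f) K' k b a) (ha : |a| < 1 / 4)
    (hσ : 0 ≤ σ) (hσ1 : σ ≤ 1) (p : E d) :
    HasFDerivAt (savg σ f) (savg σ (fderiv ℝ f) p) p := by
  refine hasFDerivAt_integral_of_dominated_of_fderiv_le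
    (F' := fun p w => fderiv ℝ f (p + σ • w)) (bound := domin K' k b a (‖p‖ + 1))
    (Metric.ball_mem_nhds p one_pos)
    (Eventually.of_forall fun q => (hs.continuous.comp (by fun_prop)).aestronglyMeasurable)
    (integrable_savg hs.continuous hf ha hσ hσ1 p)
    ((hs.continuous_fderiv one_ne_zero).comp (by fun_prop)).aestronglyMeasurable ?_
    (integrable_domin ha K' k b _) (ae_of_all _ fun w y _ => ?_)
  · refine ae_of_all _ fun w y hy => norm_le_domin_affine hf' hσ hσ1 ?_ w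
    rw [Metric.mem_ball, dist_eq_norm] at hy
    linarith [norm_le_norm_add_norm_sub' y p]
  · exact (hasFDerivAt_comp_add_right _).2 (hs.differentiable one_ne_zero _).hasFDerivAt

lemma contDiff_savg [CompleteSpace F] [SecondCountableTopology F] (hs : ContDiff ℝ 1 f)
    (hf : Grows f K k b a) {K' : ℝ} (hf' : Grows (fderiv ℝ f) K' k b a) (ha : |a| < 1 / 4)
    (hσ : 0 ≤ σ) (hσ1 : σ ≤ 1) : ContDiff ℝ 1 (savg σ f) := by
  rw [contDiff_one_iff_fderiv]
  refine ⟨fun p => (hasFDerivAt_savg hs hf hf' ha hσ hσ1 p).differentiableAt, ?_⟩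
  rw [show fderiv ℝ (savg σ f) = savg σ (fderiv ℝ f) from
    funext fun p => (hasFDerivAt_savg hs hf hf' ha hσ hσ1 p).fderiv]
  exact continuous_savg (hs.continuous_fderiv one_ne_zero) hf' ha hσ hσ1

end savg

section score

variable (h : Pot d δ r0 R g) {σ : ℝ} (hσ : 0 ≤ σ) (hσ1 : σ ≤ 1)

include h hσ hσ1

lemma savg_wexp_pos (p : E d) : 0 < savg σ (wexp R) p := (pot_affine h hσ hσ1 p).mass_pos

lemma score_eq (p : E d) :
    score σ R g p = (savg σ (wexp R) p)⁻¹ • savg σ (wgrad R g) p := by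
  rw [score, (pot_affine h hσ hσ1 p).integral_tilt]
  rfl

lemma hasFDerivAt_upot (p : E d) :
    HasFDerivAt (upot σ R) (innerSL ℝ (score σ R g p)) p := by
  have hZ := hasFDerivAt_savg h.smooth_wexp h.grows_wexp h.grows_wexp' h.abs_delta_lt hσ hσ1 p
  have hpos := savg_wexp_pos h hσ hσ1 p
  refine (hZ.log hpos.ne').neg.congr_fderiv ?_
  ext v
  have e : savg σ (fderiv ℝ (wexp R)) p v = -⟪savg σ (wgrad R g) p, v⟫ := by
    rw [savg, savg, ContinuousLinearMap.integral_apply (integrable_savg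
      (h.smooth_wexp.continuous_fderiv one_ne_zero) h.grows_wexp' h.abs_delta_lt hσ hσ1 p),
      real_inner_comm, ← integral_inner (integrable_savg h.smooth_wgrad.continuous h.grows_wgrad
        h.abs_delta_lt hσ hσ1 p), ← integral_neg]
    refine integral_congr_ae (ae_of_all _ fun w => ?_)
    simp [(h.hasFDerivAt_wexp _).fderiv, wgrad, real_inner_smul_right, real_inner_comm v]
  simp only [neg_apply, smul_apply, smul_eq_mul, e, innerSL_apply_apply, score_eq h hσ hσ1,
    real_inner_smul_left]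
  ring

lemma contDiff_score : ContDiff ℝ 1 (score σ R g) := by
  rw [show score σ R g = fun p => (savg σ (wexp R) p)⁻¹ • savg σ (wgrad R g) p from
    funext (score_eq h hσ hσ1)]
  exact ((contDiff_savg h.smooth_wexp h.grows_wexp h.grows_wexp' h.abs_delta_lt hσ hσ1).inv
    fun p => (savg_wexp_pos h hσ hσ1 p).ne').smul
      (contDiff_savg h.smooth_wgrad h.grows_wgrad h.grows_wgrad' h.abs_delta_lt hσ hσ1)

lemma norm_fderiv_score_le (p : E d) : ‖fderiv ℝ (score σ R g) p‖ ≤ δ + 2 * δ ^ 2 := by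
  have hA := pot_affine h hσ hσ1 p
  have := hA.isProb
  have hδ := h.pos
  set μ := tilt fun w => R (p + σ • w) with hμ
  set Z := savg σ (wexp R) p with hZdef
  have hpos := savg_wexp_pos h hσ hσ1 p
  set DN := savg σ (fderiv ℝ (wgrad R g)) p
  set DZ := savg σ (fderiv ℝ (wexp R)) p
  set N := savg σ (wgrad R g) p
  have hZ := hasFDerivAt_savg h.smooth_wexp h.grows_wexp h.grows_wexp' h.abs_delta_lt hσ hσ1 p
  have hN := hasFDerivAt_savg h.smooth_wgrad h.grows_wgrad h.grows_wgrad' h.abs_delta_lt hσ hσ1 p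
  have hD : HasFDerivAt (score σ R g)
      (Z⁻¹ • DN + ((-(Z ^ 2)⁻¹) • DZ).smulRight N) p := by
    rw [show score σ R g = fun p => (savg σ (wexp R) p)⁻¹ • savg σ (wgrad R g) p from
      funext (score_eq h hσ hσ1)]
    exact ((hasDerivAt_inv hpos.ne').comp_hasFDerivAt p hZ).smul hN
  rw [hD.fderiv]
  refine ContinuousLinearMap.opNorm_le_of_unit_norm (by positivity) fun v hv => ?_
  set D := (Z⁻¹ • DN + ((-(Z ^ 2)⁻¹) • DZ).smulRight N) v
  rcases eq_or_ne ‖D‖ 0 with h0 | h0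
  · rw [h0]; positivity
  set u := ‖D‖⁻¹ • D with hudef
  have hu : ‖u‖ = 1 := by rw [norm_smul, norm_inv, norm_norm, inv_mul_cancel₀ h0]
  have hDu : ⟪u, D⟫ = ‖D‖ := by
    rw [hudef, real_inner_smul_left, real_inner_self_eq_norm_sq]
    field_simp
  rw [← hDu]
  set Y : E d → E d := fun w => g (p + σ • w) with hY
  set K := δ * ‖p‖ + r0 + δ
  have hr := h.r0_nonneg
  have hK : 0 ≤ K := by positivity
  have hYb : ∀ w, ‖Y w‖ ≤ K * (1 + ‖w‖) ^ 1 := fun w => by
    refine (h.norm_le _).trans ?_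
    have : ‖p + σ • w‖ ≤ ‖p‖ + ‖w‖ := (norm_add_le _ _).trans (add_le_add le_rfl (by
      rw [norm_smul, norm_eq_abs, abs_of_nonneg hσ]
      exact mul_le_of_le_one_left (norm_nonneg _) hσ1))
    have hδp : 0 ≤ δ * ‖p‖ * ‖w‖ := by positivity
    rw [pow_one]
    nlinarith [mul_le_mul_of_nonneg_left this hδ.le, mul_nonneg hr (norm_nonneg w)]
  have hYc : ContDiff ℝ 1 Y := h.smooth.comp (by fun_prop)
  have hDY : ∀ w, HasFDerivAt Y (σ • fderiv ℝ g (p + σ • w)) w := fun w => by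
    refine ((h.smooth.differentiable one_ne_zero _).hasFDerivAt.comp w
      (((hasFDerivAt_id w).const_smul σ).const_add p)).congr_fderiv ?_
    ext x
    simp
  have var : ∀ x : E d, ‖x‖ = 1 →
      ∫ w, (⟪x, Y w⟫ - ∫ w', ⟪x, Y w'⟫ ∂μ) ^ 2 ∂μ ≤ 2 * δ ^ 2 := fun x hx => by
    have hd : ∀ w, HasFDerivAt (fun w => ⟪x, Y w⟫)
        ((innerSL ℝ x).comp (σ • fderiv ℝ g (p + σ • w))) w := fun w =>
      (innerSL ℝ x).hasFDerivAt.comp w (hDY w)
    have hb : ∀ w, ‖fderiv ℝ (fun w => ⟪x, Y w⟫) w‖ ≤ δ := fun w => by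
      rw [(hd w).fderiv]
      refine (ContinuousLinearMap.opNorm_comp_le _ _).trans ?_
      rw [innerSL_apply_norm, hx, one_mul, norm_smul, norm_eq_abs, abs_of_nonneg hσ]
      exact (mul_le_of_le_one_left (norm_nonneg _) hσ1).trans (h.norm_fderiv_g _)
    refine (tilt_poincare d δ _ _ _ hA (fun w => ⟪x, Y w⟫) K 1 (contDiff_const.inner ℝ hYc)
      (fun w => ?_) (fun w => (hb w).trans ?_)).trans ?_
    · refine (abs_real_inner_le_norm _ _).trans ?_
      rw [hx, one_mul]
      exact hYb w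
    · rw [pow_one]
      have h1 : δ ≤ K := le_add_of_nonneg_left (by positivity)
      exact h1.trans (le_mul_of_one_le_right hK (by linarith [norm_nonneg w]))
    · refine mul_le_mul_of_nonneg_left ((Real.le_norm_self _).trans
        ((norm_integral_le_of_norm_le_const (μ := μ) (C := δ ^ 2) (ae_of_all _ fun w => ?_)).trans_eq
          (by rw [probReal_univ, mul_one]))) zero_le_two
      rw [norm_pow, norm_norm]
      exact pow_le_pow_left₀ (norm_nonneg _) (hb w) 2
  have hint : ∀ {G : Type} [NormedAddCommGroup G] [NormedSpace ℝ G] (f : E d → G),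
      ∫ w, f (p + σ • w) ∂μ = Z⁻¹ • savg σ (fun y => exp (-R y) • f y) p := fun f =>
    hA.integral_tilt _
  have iY : ∀ x : E d, Integrable (fun w => ⟪x, Y w⟫) μ := fun x =>
    hA.integrable_tilt (by have := hYc.continuous; fun_prop) (‖x‖ * K) 1 fun w => by
      rw [mul_assoc]
      exact (norm_inner_le_norm _ _).trans (mul_le_mul_of_nonneg_left (hYb w) (norm_nonneg x))
  have iYY : Integrable (fun w => ⟪v, Y w⟫ * ⟪u, Y w⟫) μ :=
    hA.integrable_tilt (by have := hYc.continuous; fun_prop) (K ^ 2) (1 * 2) fun w => by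
      rw [norm_mul, pow_mul, ← mul_pow, sq]
      refine mul_le_mul ?_ ?_ (norm_nonneg _) (by positivity) <;>
        refine (norm_inner_le_norm _ _).trans ?_
      · rw [hv, one_mul]; exact hYb w
      · rw [hu, one_mul]; exact hYb w
  have iDg : Integrable (fun w => ⟪u, fderiv ℝ g (p + σ • w) v⟫) μ :=
    hA.integrable_tilt ((continuous_const.inner (((h.smooth.continuous_fderiv one_ne_zero).comp
      (by fun_prop)).clm_apply continuous_const))) δ 0 fun w => by
      refine (norm_inner_le_norm _ _).trans ?_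
      rw [hu, one_mul, pow_zero, mul_one]
      exact ((fderiv ℝ g _).le_opNorm v).trans_eq' rfl |>.trans (by
        rw [hv, mul_one]; exact h.norm_fderiv_g _)
  have e1 : Z⁻¹ * ⟪u, DN v⟫
      = (∫ w, ⟪u, fderiv ℝ g (p + σ • w) v⟫ ∂μ) - ∫ w, ⟪v, Y w⟫ * ⟪u, Y w⟫ ∂μ := by
    have hi := integrable_savg (h.smooth_wgrad.continuous_fderiv one_ne_zero) h.grows_wgrad'
      h.abs_delta_lt hσ hσ1 p
    rw [← integral_sub iDg iYY, hint fun y => ⟪u, fderiv ℝ g y v⟫ - ⟪v, g y⟫ * ⟪u, g y⟫,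
      smul_eq_mul]
    congr 1
    simp only [DN, savg]
    rw [ContinuousLinearMap.integral_apply hi, ← integral_inner (hi.apply_continuousLinearMap v)]
    refine integral_congr_ae (ae_of_all _ fun w => ?_)
    simp [(h.hasFDerivAt_wgrad _).fderiv, inner_add_right, real_inner_smul_right,
      real_inner_comm v]
    ring
  have e2 : Z⁻¹ * DZ v = -∫ w, ⟪v, Y w⟫ ∂μ := by
    rw [hint fun y => ⟪v, g y⟫, smul_eq_mul, ← mul_neg]
    congr 1
    simp only [DZ, savg]
    rw [ContinuousLinearMap.integral_apply (integrable_savg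
      (h.smooth_wexp.continuous_fderiv one_ne_zero) h.grows_wexp' h.abs_delta_lt hσ hσ1 p),
      ← integral_neg]
    refine integral_congr_ae (ae_of_all _ fun w => ?_)
    simp [(h.hasFDerivAt_wexp _).fderiv, real_inner_comm v]
  have e3 : Z⁻¹ * ⟪u, N⟫ = ∫ w, ⟪u, Y w⟫ ∂μ := by
    rw [hint fun y => ⟪u, g y⟫, smul_eq_mul]
    congr 1
    simp only [N, savg]
    rw [← integral_inner (integrable_savg h.smooth_wgrad.continuous h.grows_wgrad h.abs_delta_lt
      hσ hσ1 p)]
    refine integral_congr_ae (ae_of_all _ fun w => ?_)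
    simp [wgrad, real_inner_smul_right]
  set A := ∫ w, ⟪v, Y w⟫ ∂μ with hAdef
  set B := ∫ w, ⟪u, Y w⟫ ∂μ with hBdef
  have hform : ⟪u, D⟫ = (∫ w, ⟪u, fderiv ℝ g (p + σ • w) v⟫ ∂μ)
      - ((∫ w, ⟪v, Y w⟫ * ⟪u, Y w⟫ ∂μ) - A * B) := by
    simp only [D, add_apply, smul_apply, ContinuousLinearMap.smulRight_apply, smul_eq_mul,
      inner_add_right, real_inner_smul_right]
    rw [show -(Z ^ 2)⁻¹ * DZ v * ⟪u, N⟫ = -((Z⁻¹ * DZ v) * (Z⁻¹ * ⟪u, N⟫)) by
      rw [← inv_pow]; ring, e1, e2, e3]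
    ring
  rw [hform]
  have b1 : ∫ w, ⟪u, fderiv ℝ g (p + σ • w) v⟫ ∂μ ≤ δ := by
    refine (integral_mono iDg (integrable_const δ) fun w => (le_abs_self _).trans
      ((abs_real_inner_le_norm _ _).trans ?_)).trans_eq (by simp)
    rw [hu, one_mul]
    refine ((fderiv ℝ g _).le_opNorm v).trans ?_
    rw [hv, mul_one]
    exact h.norm_fderiv_g _
  have isq : ∀ x : E d, ‖x‖ = 1 → Integrable (fun w => ⟪x, Y w⟫ ^ 2) μ := fun x hx =>
    hA.integrable_tilt (by have := hYc.continuous; fun_prop) (K ^ 2) (1 * 2) fun w => by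
      rw [norm_pow, pow_mul, ← mul_pow]
      refine pow_le_pow_left₀ (norm_nonneg _) ((norm_inner_le_norm _ _).trans ?_) 2
      rw [hx, one_mul]
      exact hYb w
  have isqc : ∀ x : E d, ‖x‖ = 1 → ∀ c, Integrable (fun w => (⟪x, Y w⟫ - c) ^ 2) μ :=
    fun x hx c => (((isq x hx).sub' ((iY x).const_mul (2 * c))).add
      (integrable_const (c ^ 2))).congr (ae_of_all _ fun w => by simp; ring)
  have b2 : -((∫ w, ⟪v, Y w⟫ * ⟪u, Y w⟫ ∂μ) - A * B) ≤ 2 * δ ^ 2 := by
    have i' : Integrable (fun w => ⟪v, Y w⟫ * ⟪u, Y w⟫ - B * ⟪v, Y w⟫ - A * ⟪u, Y w⟫) μ :=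
      (iYY.sub' ((iY v).const_mul B)).sub' ((iY u).const_mul A)
    have e : (∫ w, ⟪v, Y w⟫ * ⟪u, Y w⟫ ∂μ) - A * B
        = ∫ w, (⟪v, Y w⟫ * ⟪u, Y w⟫ - B * ⟪v, Y w⟫ - A * ⟪u, Y w⟫ + A * B) ∂μ := by
      rw [integral_add i' (integrable_const _), integral_sub (iYY.sub' ((iY v).const_mul B))
        ((iY u).const_mul A), integral_sub iYY ((iY v).const_mul B), integral_const_mul,
        integral_const_mul, integral_const, probReal_univ, one_smul, ← hAdef, ← hBdef]
      ring
    rw [e, ← integral_neg]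
    refine (integral_mono (i'.add (integrable_const _)).neg
      (((isqc v hv A).add (isqc u hu B)).div_const 2) fun w => ?_).trans ?_
    · simp only [Pi.neg_apply, Pi.add_apply]
      nlinarith [sq_nonneg ((⟪v, Y w⟫ - A) + (⟪u, Y w⟫ - B))]
    · simp only [Pi.add_apply]
      rw [integral_div, integral_add (isqc v hv A) (isqc u hu B)]
      linarith [var v hv, var u hu]
  linarith

end score

end

end TiltAux

open TiltAux in
/-- The smoothed potential is a potential. -/
theorem pot_upot {δ r0 : ℝ} {R : E d → ℝ} {g : E d → E d} (h : Pot d δ r0 R g) {σ t : ℝ}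
    (hσ : 0 ≤ σ) (hσ1 : σ ≤ 1) (hδ : δ ≤ 1 / 32) (ht : 0 < t) (ht1 : t ≤ 1) (q : E d) :
    ∃ r1, Pot d (2 * δ * t) r1 (fun z => upot σ R (q + √t • z))
      (fun z => √t • score σ R g (q + √t • z)) := by
  have hp := h.pos
  have hs := Real.mul_self_sqrt ht.le
  refine ⟨‖√t • score σ R g q‖, ?_⟩
  refine ⟨by positivity, by nlinarith, norm_nonneg _, fun z => ?_, ?_, fun a b => ?_,
    by simp⟩
  · refine ((hasFDerivAt_upot h hσ hσ1 _).comp z
      (((hasFDerivAt_id z).const_smul √t).const_add q)).congr_fderiv ?_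
    ext v
    simp
  · have := contDiff_score h hσ hσ1
    fun_prop
  · have hl := Convex.norm_image_sub_le_of_norm_fderiv_le (𝕜 := ℝ)
      (fun x _ => (contDiff_score h hσ hσ1).differentiable one_ne_zero x)
      (fun x _ => norm_fderiv_score_le h hσ hσ1 x) convex_univ
      (mem_univ (q + √t • b)) (mem_univ (q + √t • a))
    rw [← smul_sub, norm_smul, norm_eq_abs, abs_of_nonneg (sqrt_nonneg _)]
    refine (mul_le_mul_of_nonneg_left hl (sqrt_nonneg _)).trans ?_
    rw [add_sub_add_left_eq_sub, ← smul_sub, norm_smul, norm_eq_abs,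
      abs_of_nonneg (sqrt_nonneg _)]
    calc √t * ((δ + 2 * δ ^ 2) * (√t * ‖a - b‖)) = (δ + 2 * δ ^ 2) * (√t * √t) * ‖a - b‖ := by ring
      _ ≤ 2 * δ * t * ‖a - b‖ := by
          rw [hs]
          exact mul_le_mul_of_nonneg_right
            (mul_le_mul_of_nonneg_right (by nlinarith) ht.le) (norm_nonneg _)

end Vale.Agent.P347
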