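import Vale.Agent.P347Zero.TMean
import Vale.Agent.P347Zero.Tilt
import Vale.Agent.P347Zero.Tail
import Vale.Agent.P347.ChainBasic

/-!
P347 module M3b: the derivatives of the smoothed score, bounded through Appell polynomials of the
tilted law and its Poincaré inequality.
-/

open MeasureTheory ProbabilityTheory Real
open scoped RealInnerProductSpace Topology ContDiff

namespace Vale.Agent.P347.Appell

variable {d : ℕ}

/-- The `i`-th unit vector. -/
noncomputable abbrev ei (i : Fin d) : E d := EuclideanSpace.single i (1 : ℝ)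

theorem inner_ei (x : E d) (i : Fin d) : ⟪x, ei i⟫ = x i := by
  simp [PiLp.inner_apply, PiLp.single_apply]

theorem hasFDerivAt_inner_left (v q : E d) :
    HasFDerivAt (fun y : E d => ⟪y, v⟫) (innerSL ℝ v) q := by
  rw [show (fun y : E d => ⟪y, v⟫) = innerSL ℝ v from funext fun y => real_inner_comm v y]
  exact (innerSL ℝ v).hasFDerivAt

theorem norm_sq_eq_sum (L : E d →L[ℝ] ℝ) : ‖L‖ ^ 2 = ∑ k, L (ei k) ^ 2 := by
  rw [← norm_formVec, EuclideanSpace.real_norm_sq_eq]
  rfl

/-! ### Variances and covariances -/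

namespace Ctx

variable {σ δ r0 Gb : ℝ} {R : E d → ℝ} {g : E d → E d} (h : Ctx d σ δ r0 Gb R g)
include h

theorem avg_mono {F G : E d → ℝ} (hF : PG F) (hG : PG G) (hle : ∀ x, F x ≤ G x) (q : E d) :
    avg σ R F q ≤ avg σ R G q :=
  integral_mono (h.integrable hF q) (h.integrable hG q) fun _ => hle _

omit h in
theorem avg_nonneg {F : E d → ℝ} (hF : ∀ x, 0 ≤ F x) (q : E d) : 0 ≤ avg σ R F q :=
  integral_nonneg fun _ => hF _

theorem cov_self_eq {F : E d → ℝ} (hF : PG F) (q : E d) :
    cov σ R F F q = avg σ R (fun x => (F x - avg σ R F q) * (F x - avg σ R F q)) q := by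
  generalize hm : avg σ R F q = m
  have e : (fun x => (F x - m) * (F x - m)) = fun x => F x * F x - (2 * m) * F x + m * m :=
    funext fun x => by ring
  rw [cov, hm, e, h.avg_add ((hF.mul hF).sub ((PG.const _).mul hF)) (PG.const _) q,
    h.avg_sub (hF.mul hF) ((PG.const _).mul hF) q, avg_const_mul, h.avg_const, hm]
  ring

theorem cov_self_nonneg {F : E d → ℝ} (hF : PG F) (q : E d) : 0 ≤ cov σ R F F q := by
  rw [h.cov_self_eq hF q]
  exact avg_nonneg (fun x => mul_self_nonneg _) q

/-- Cauchy–Schwarz for the covariance. -/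
theorem sq_cov_le {F G : E d → ℝ} (hF : PG F) (hG : PG G) (q : E d) :
    cov σ R F G q ^ 2 ≤ cov σ R F F q * cov σ R G G q := by
  have hq : ∀ t : ℝ,
      0 ≤ cov σ R G G q * (t * t) + 2 * cov σ R F G q * t + cov σ R F F q := fun t => by
    refine le_of_le_of_eq (h.cov_self_nonneg (hF.add ((PG.const t).mul hG)) q) ?_
    have e : (fun x => (F x + t * G x) * (F x + t * G x))
        = fun x => F x * F x + (2 * t) * (F x * G x) + t * t * (G x * G x) :=
      funext fun x => by ring
    simp only [cov, e]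
    rw [h.avg_add ((hF.mul hF).add ((PG.const _).mul (hF.mul hG))) ((PG.const _).mul (hG.mul hG)),
      h.avg_add (hF.mul hF) ((PG.const _).mul (hF.mul hG)), h.avg_add hF ((PG.const t).mul hG),
      avg_const_mul, avg_const_mul, avg_const_mul]
    ring
  have := discrim_le_zero hq
  rw [discrim] at this
  nlinarith

/-- The Poincaré inequality around a point. -/
theorem poincare {F : E d → ℝ} (hF : ContDiff ℝ 1 F) (h0 : PG F)
    (h1 : PG fun x => ‖fderiv ℝ F x‖) (q : E d) :
    cov σ R F F q ≤ 2 * σ ^ 2 * avg σ R (fun x => ‖fderiv ℝ F x‖ * ‖fderiv ℝ F x‖) q := by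
  obtain ⟨K, k, hK, hb⟩ := h0.exists_nonneg
  obtain ⟨L, l, hL, hc⟩ := h1.exists_nonneg
  have hd : ∀ w, fderiv ℝ (fun u => F (q + σ • u)) w = σ • fderiv ℝ F (q + σ • w) := fun w => by
    refine HasFDerivAt.fderiv ?_
    refine (((hF.differentiable one_ne_zero) _).hasFDerivAt.comp w
      (((hasFDerivAt_id w).const_smul σ).const_add q)).congr_fderiv ?_
    ext u
    simp
  have hs : ∀ (n : ℕ) (w : E d), (1 + ‖q + σ • w‖) ^ n ≤ (1 + ‖q‖) ^ n * (1 + ‖w‖) ^ n := by
    intro n w
    rw [← mul_pow]
    refine pow_le_pow_left₀ (by positivity) ?_ n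
    have hn := norm_add_le q (σ • w)
    rw [norm_smul, Real.norm_eq_abs, abs_of_pos h.σ_pos] at hn
    nlinarith [mul_le_of_le_one_left (norm_nonneg w) h.σ_le, norm_nonneg q, norm_nonneg w]
  have hm : ∀ w : E d, (1 + ‖w‖) ^ k ≤ (1 + ‖w‖) ^ max k l ∧
      (1 + ‖w‖) ^ l ≤ (1 + ‖w‖) ^ max k l := fun w =>
    ⟨pow_le_pow_right₀ (by linarith [norm_nonneg w]) (le_max_left k l),
      pow_le_pow_right₀ (by linarith [norm_nonneg w]) (le_max_right k l)⟩
  have hp := tilt_poincare d δ Gb _ _ (h.pot_shift q) (fun u => F (q + σ • u))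
    (K * (1 + ‖q‖) ^ k + L * (1 + ‖q‖) ^ l) (max k l)
    (hF.comp (contDiff_const.add (contDiff_id.const_smul σ)))
    (fun w => (hb _).trans (by
      calc K * (1 + ‖q + σ • w‖) ^ k ≤ K * ((1 + ‖q‖) ^ k * (1 + ‖w‖) ^ max k l) :=
            mul_le_mul_of_nonneg_left ((hs k w).trans
              (mul_le_mul_of_nonneg_left (hm w).1 (by positivity))) hK
        _ ≤ _ := by
          rw [← mul_assoc]
          exact mul_le_mul_of_nonneg_right (le_add_of_nonneg_right (by positivity)) (by positivity)))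
    (fun w => by
      rw [hd, norm_smul, Real.norm_eq_abs, abs_of_pos h.σ_pos]
      refine (mul_le_of_le_one_left (norm_nonneg _) h.σ_le).trans ?_
      refine ((le_abs_self _).trans (hc _)).trans ?_
      calc L * (1 + ‖q + σ • w‖) ^ l ≤ L * ((1 + ‖q‖) ^ l * (1 + ‖w‖) ^ max k l) :=
            mul_le_mul_of_nonneg_left ((hs l w).trans
              (mul_le_mul_of_nonneg_left (hm w).2 (by positivity))) hL
        _ ≤ _ := by
          rw [← mul_assoc]
          exact mul_le_mul_of_nonneg_right (le_add_of_nonneg_left (by positivity)) (by positivity))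
  rw [h.cov_self_eq h0, ← avg_const_mul]
  refine le_of_eq_of_le ?_ (hp.trans_eq ?_)
  · simp only [avg, ← sq]
  · rw [avg, ← integral_const_mul]
    refine integral_congr_ae (ae_of_all _ fun w => ?_)
    simp only [hd, norm_smul, Real.norm_eq_abs]
    rw [mul_pow, sq_abs]
    ring

end Ctx

/-! ### Polynomials in the variable with coefficients depending on the centre -/

/-- Polynomials in the variable whose coefficients are smooth functions of the centre. -/
inductive QPoly : (E d → E d → ℝ) → Prop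
  | const (c : E d → ℝ) (hc : ContDiff ℝ ∞ c) : QPoly fun q _ => c q
  | add {f g : E d → E d → ℝ} : QPoly f → QPoly g → QPoly fun q x => f q x + g q x
  | mulX (i : Fin d) {f : E d → E d → ℝ} : QPoly f → QPoly fun q x => x i * f q x

/-- The partial derivative in the centre. -/
noncomputable def pdq (i : Fin d) (f : E d → E d → ℝ) (q x : E d) : ℝ :=
  fderiv ℝ (fun y => f y x) q (ei i)

/-- The partial derivative in the variable. -/
noncomputable def pdx (k : Fin d) (f : E d → E d → ℝ) (q x : E d) : ℝ := fderiv ℝ (f q) x (ei k)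

namespace QPoly

variable {f g : E d → E d → ℝ}

theorem congr (hf : QPoly f) (h : ∀ q x, g q x = f q x) : QPoly g := by
  rwa [show g = f from funext fun q => funext (h q)]

theorem zero : QPoly fun _ _ : E d => (0 : ℝ) := const _ contDiff_const

theorem pg (hf : QPoly f) (q : E d) : PG (f q) := by
  induction hf with
  | const c _ => exact PG.const _
  | add _ _ ih ih' => exact ih.add ih'
  | mulX i _ ih => exact (PG.coord i).mul ih

theorem differentiable_q (hf : QPoly f) (x : E d) : Differentiable ℝ fun q => f q x := by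
  induction hf with
  | const c hc => exact hc.differentiable (by simp)
  | add _ _ ih ih' => exact ih.add ih'
  | mulX i _ ih => exact ih.const_mul _

theorem contDiff_x (hf : QPoly f) (q : E d) : ContDiff ℝ 1 (f q) := by
  induction hf with
  | const c _ => exact contDiff_const
  | add _ _ ih ih' => exact ih.add ih'
  | mulX i _ ih => exact (by fun_prop : ContDiff ℝ 1 fun x : E d => x i).mul ih

theorem differentiable_x (hf : QPoly f) (q : E d) : Differentiable ℝ (f q) :=
  (hf.contDiff_x q).differentiable one_ne_zero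

theorem cmul {c : E d → ℝ} (hc : ContDiff ℝ ∞ c) (hf : QPoly f) :
    QPoly fun q x => c q * f q x := by
  induction hf with
  | const c' hc' => exact const _ (hc.mul hc')
  | add _ _ ih ih' => exact (ih.add ih').congr fun q x => by ring
  | mulX i _ ih => exact (ih.mulX i).congr fun q x => by ring

theorem pdq (i : Fin d) (hf : QPoly f) : QPoly (pdq i f) := by
  induction hf with
  | const c hc => exact const _ ((hc.fderiv_right (m := ∞) (by simp)).clm_apply contDiff_const)
  | add h h' ih ih' =>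
    refine (ih.add ih').congr fun q x => ?_
    simp [Appell.pdq, fderiv_fun_add (h.differentiable_q x q) (h'.differentiable_q x q)]
  | mulX j h ih =>
    refine (ih.mulX j).congr fun q x => ?_
    simp [Appell.pdq, fderiv_const_mul (h.differentiable_q x q)]

theorem pdx_add (hf : QPoly f) (hg : QPoly g) (k : Fin d) (q x : E d) :
    Appell.pdx k (fun q x => f q x + g q x) q x = Appell.pdx k f q x + Appell.pdx k g q x := by
  simp [Appell.pdx, fderiv_fun_add (hf.differentiable_x q x) (hg.differentiable_x q x)]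

theorem pdx_mulX (hf : QPoly f) (i k : Fin d) (q x : E d) :
    Appell.pdx k (fun q x => x i * f q x) q x =
      (if i = k then f q x else 0) + x i * Appell.pdx k f q x := by
  have h1 : HasFDerivAt (fun x : E d => x i) (EuclideanSpace.proj (𝕜 := ℝ) i) x :=
    (EuclideanSpace.proj (𝕜 := ℝ) i).hasFDerivAt
  rw [Appell.pdx, (h1.fun_mul (hf.differentiable_x q x).hasFDerivAt).fderiv]
  simp [Appell.pdx, PiLp.single_apply]
  split_ifs <;> ring

theorem pdx (k : Fin d) (hf : QPoly f) : QPoly (pdx k f) := by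
  induction hf with
  | const c hc => exact zero.congr fun q x => by simp [Appell.pdx]
  | add h h' ih ih' => exact (ih.add ih').congr fun q x => pdx_add h h' k q x
  | @mulX i f h ih =>
    by_cases hik : i = k
    · exact (h.add (ih.mulX i)).congr fun q x => by rw [pdx_mulX h, if_pos hik]
    · exact (ih.mulX i).congr fun q x => by rw [pdx_mulX h, if_neg hik, zero_add]

theorem pdx_pdq (i k : Fin d) (hf : QPoly f) (q x : E d) :
    Appell.pdx k (Appell.pdq i f) q x = Appell.pdq i (Appell.pdx k f) q x := by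
  induction hf generalizing q x with
  | const c hc =>
    unfold Appell.pdx Appell.pdq
    simp
  | @add f g h h' ih ih' =>
    have e : Appell.pdq i (fun q x => f q x + g q x) =
        fun q x => Appell.pdq i f q x + Appell.pdq i g q x := by
      funext q x
      simp [Appell.pdq, fderiv_fun_add (h.differentiable_q x q) (h'.differentiable_q x q)]
    have e' : Appell.pdx k (fun q x => f q x + g q x) =
        fun q x => Appell.pdx k f q x + Appell.pdx k g q x := by
      funext q x
      exact pdx_add h h' k q x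
    rw [e, e', pdx_add (h.pdq i) (h'.pdq i), ih, ih']
    simp [Appell.pdq, fderiv_fun_add ((h.pdx k).differentiable_q x q)
      ((h'.pdx k).differentiable_q x q)]
  | @mulX j f h ih =>
    have e : Appell.pdq i (fun q x => x j * f q x) = fun q x => x j * Appell.pdq i f q x := by
      funext q x
      simp [Appell.pdq, fderiv_const_mul (h.differentiable_q x q)]
    have e' : Appell.pdx k (fun q x => x j * f q x) =
        fun q x => (if j = k then f q x else 0) + x j * Appell.pdx k f q x := by
      funext q x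
      exact pdx_mulX h j k q x
    rw [e, e', pdx_mulX (h.pdq i), ih]
    have hd : DifferentiableAt ℝ (fun y => x j * Appell.pdx k f y x) q :=
      ((h.pdx k).differentiable_q x q).const_mul _
    by_cases hjk : j = k
    · simp [hjk, Appell.pdq, fderiv_fun_add (h.differentiable_q x q) (hjk ▸ hd),
        fderiv_const_mul ((h.pdx k).differentiable_q x q)]
    · simp [hjk, Appell.pdq, fderiv_const_mul ((h.pdx k).differentiable_q x q)]

theorem pg_norm_fderiv (hf : QPoly f) (q : E d) : PG fun x => ‖fderiv ℝ (f q) x‖ := by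
  have hs : PG fun x => ∑ k, Appell.pdx k f q x * Appell.pdx k f q x :=
    PG.sum _ fun k _ => ((hf.pdx k).pg q).mul ((hf.pdx k).pg q)
  obtain ⟨K, m, hK, hb⟩ := ((PG.const 1).add hs).exists_nonneg
  refine ⟨((hf.contDiff_x q).continuous_fderiv one_ne_zero).norm, K, m, fun x => ?_⟩
  rw [abs_norm]
  refine le_trans ?_ ((le_abs_self _).trans (hb x))
  have := norm_sq_eq_sum (fderiv ℝ (f q) x)
  simp only [Appell.pdx, ← sq]
  nlinarith [sq_nonneg (‖fderiv ℝ (f q) x‖ - 1 / 2)]

end QPoly

namespace Ctx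

variable {σ δ r0 Gb : ℝ} {R : E d → ℝ} {g : E d → E d} (h : Ctx d σ δ r0 Gb R g)
include h

/-- The derivative of a mean whose integrand depends on the centre. -/
theorem fderiv_avg_qpoly {f : E d → E d → ℝ} (hf : QPoly f) (i : Fin d) :
    ∀ {F : E d → ℝ}, PG F →
      Differentiable ℝ (fun y => avg σ R (fun x => F x * f y x) y) ∧
      ∀ q, fderiv ℝ (fun y => avg σ R (fun x => F x * f y x) y) q (ei i) =
        avg σ R (fun x => F x *
          ((σ ^ 2)⁻¹ * (x i - avg σ R (fun z => z i) q) * f q x + pdq i f q x)) q := by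
  induction hf with
  | const c hc =>
    intro F hF
    have hc' : Differentiable ℝ c := hc.differentiable (by simp)
    have e : (fun y => avg σ R (fun x => F x * c y) y) = fun y => c y * avg σ R F y := by
      funext y
      rw [← avg_const_mul]
      simp only [mul_comm]
    refine ⟨e ▸ hc'.mul (h.differentiable_avg hF), fun q => ?_⟩
    rw [e, fderiv_fun_mul (hc' q) (h.differentiable_avg hF q)]
    simp only [add_apply, smul_apply, smul_eq_mul, h.fderiv_avg hF, cov, inner_ei, pdq]
    generalize avg σ R (fun z => z i) q = m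
    generalize fderiv ℝ c q (ei i) = c'
    have e2 : (fun x => F x * ((σ ^ 2)⁻¹ * (x i - m) * c q + c')) = fun x =>
        ((σ ^ 2)⁻¹ * c q) * (F x * x i) + (c' - (σ ^ 2)⁻¹ * c q * m) * F x :=
      funext fun x => by ring
    rw [e2, h.avg_add ((PG.const _).mul (hF.mul (PG.coord i))) ((PG.const _).mul hF),
      avg_const_mul, avg_const_mul]
    ring
  | @add f g hf hg ihf ihg =>
    intro F hF
    have e : (fun y => avg σ R (fun x => F x * (f y x + g y x)) y) = fun y =>
        avg σ R (fun x => F x * f y x) y + avg σ R (fun x => F x * g y x) y := by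
      funext y
      rw [← h.avg_add (hF.mul (hf.pg y)) (hF.mul (hg.pg y))]
      simp only [mul_add]
    refine ⟨e ▸ (ihf hF).1.add (ihg hF).1, fun q => ?_⟩
    rw [e, fderiv_fun_add ((ihf hF).1 q) ((ihg hF).1 q), add_apply, (ihf hF).2, (ihg hF).2,
      ← h.avg_add]
    · congr 1
      funext x
      simp [pdq, fderiv_fun_add (hf.differentiable_q x q) (hg.differentiable_q x q)]
      ring
    · exact hF.mul ((((PG.const _).mul ((PG.coord i).sub (PG.const _))).mul (hf.pg q)).add
        ((hf.pdq i).pg q))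
    · exact hF.mul ((((PG.const _).mul ((PG.coord i).sub (PG.const _))).mul (hg.pg q)).add
        ((hg.pdq i).pg q))
  | @mulX k f hf ih =>
    intro F hF
    have hF' : PG fun x => F x * x k := hF.mul (PG.coord k)
    simp only [← mul_assoc]
    refine ⟨(ih hF').1, fun q => ((ih hF').2 q).trans ?_⟩
    congr 1
    funext x
    simp [pdq, fderiv_const_mul (hf.differentiable_q x q)]
    ring

end Ctx

/-! ### Appell polynomials -/

/-- The Appell polynomial of the tilted law around `q`, for a word of coordinates. -/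
noncomputable def app (σ : ℝ) (R : E d → ℝ) : (n : ℕ) → (Fin n → Fin d) → E d → E d → ℝ
  | 0, _ => fun _ _ => 1
  | n + 1, a => fun q x =>
      (σ ^ 2)⁻¹ * (x (a 0) - avg σ R (fun z => z (a 0)) q) * app σ R n (Fin.tail a) q x +
        pdq (a 0) (app σ R n (Fin.tail a)) q x

/-- A linear combination of Appell polynomials. -/
noncomputable def lin (σ : ℝ) (R : E d → ℝ) (n : ℕ) (M : (Fin n → Fin d) → ℝ) (q x : E d) : ℝ :=
  ∑ a, M a * app σ R n a q x

/-- The constants of the second moments of Appell polynomials. -/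
def cst : ℕ → ℝ
  | 0 => 1
  | n + 1 => 2 * (n + 1) ^ 2 * cst n

theorem cst_nonneg : ∀ n, 0 ≤ cst n
  | 0 => by norm_num [cst]
  | n + 1 => by have := cst_nonneg n; simp only [cst]; positivity

namespace Ctx

variable {σ δ r0 Gb : ℝ} {R : E d → ℝ} {g : E d → E d} (h : Ctx d σ δ r0 Gb R g)
include h

theorem qpoly_app : ∀ (n : ℕ) (a : Fin n → Fin d), QPoly (app σ R n a)
  | 0, _ => QPoly.const _ contDiff_const
  | n + 1, a => by
    have hc : ContDiff ℝ ∞ fun q => avg σ R (fun z => z (a 0)) q :=
      contDiff_infty.2 fun k => h.contDiff_avg (PG.coord (a 0)) k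
    have hA := qpoly_app n (Fin.tail a)
    refine ((((hA.cmul (c := fun _ => (σ ^ 2)⁻¹) contDiff_const).mulX (a 0)).add
      (hA.cmul (c := fun q => -((σ ^ 2)⁻¹ * avg σ R (fun z => z (a 0)) q))
        (contDiff_const.mul hc).neg)).add (hA.pdq (a 0))).congr fun q x => ?_
    simp only [app]
    ring

theorem pg_app (n : ℕ) (a : Fin n → Fin d) (q : E d) : PG (app σ R n a q) :=
  (h.qpoly_app n a).pg q

theorem pg_lin (n : ℕ) (M : (Fin n → Fin d) → ℝ) (q : E d) : PG (lin σ R n M q) :=
  PG.sum _ fun a _ => (PG.const _).mul (h.pg_app n a q)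

/-- Derivatives of a mean are means against Appell polynomials. -/
theorem iterated_avg {F : E d → ℝ} (hF : PG F) : ∀ (n : ℕ) (a : Fin n → Fin d) (q : E d),
    iteratedFDeriv ℝ n (avg σ R F) q (fun j => ei (a j)) =
      avg σ R (fun x => F x * app σ R n a q x) q
  | 0, a, q => by simp [app]
  | n + 1, a, q => by
    have hd : DifferentiableAt ℝ (iteratedFDeriv ℝ n (avg σ R F)) q :=
      (h.contDiff_avg hF (n + 1)).differentiable_iteratedFDeriv
        (by exact_mod_cast Nat.lt_succ_self n) q
    rw [iteratedFDeriv_succ_apply_left, ← fderiv_continuousMultilinear_apply_const_apply hd]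
    have e : (fun y => iteratedFDeriv ℝ n (avg σ R F) y (Fin.tail fun j => ei (a j))) =
        fun y => avg σ R (fun x => F x * app σ R n (Fin.tail a) y x) y :=
      funext fun y => iterated_avg hF n (Fin.tail a) y
    rw [e, (h.fderiv_avg_qpoly (h.qpoly_app n (Fin.tail a)) (a 0) hF).2 q]
    rfl

/-- Appell polynomials of positive degree are centred. -/
theorem avg_app_succ (n : ℕ) (a : Fin (n + 1) → Fin d) (q : E d) :
    avg σ R (app σ R (n + 1) a q) q = 0 := by
  have hc : avg σ R (fun _ => (1 : ℝ)) = fun _ => 1 := funext (h.avg_const 1)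
  have := h.iterated_avg (PG.const 1) (n + 1) a q
  simp only [one_mul] at this
  rw [← this, hc, iteratedFDeriv_const_of_ne (Nat.succ_ne_zero n)]
  rfl

/-- The derivative of an Appell polynomial in the variable removes one letter. -/
theorem pdx_app : ∀ (n : ℕ) (a : Fin (n + 1) → Fin d) (k : Fin d) (q x : E d),
    pdx k (app σ R (n + 1) a) q x =
      (σ ^ 2)⁻¹ * ∑ p, if a p = k then app σ R n (p.removeNth a) q x else 0
  | n, a, k, q, x => by
    have hA := h.qpoly_app n (Fin.tail a)
    have h1 : HasFDerivAt (fun x : E d => (σ ^ 2)⁻¹ * (x (a 0) - avg σ R (fun z => z (a 0)) q))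
        ((σ ^ 2)⁻¹ • (EuclideanSpace.proj (𝕜 := ℝ) (a 0))) x :=
      (((EuclideanSpace.proj (𝕜 := ℝ) (a 0)).hasFDerivAt).sub_const _).const_mul _
    have e : pdx k (app σ R (n + 1) a) q x =
        (if a 0 = k then (σ ^ 2)⁻¹ * app σ R n (Fin.tail a) q x else 0) +
          (σ ^ 2)⁻¹ * (x (a 0) - avg σ R (fun z => z (a 0)) q) *
            pdx k (app σ R n (Fin.tail a)) q x +
          pdq (a 0) (pdx k (app σ R n (Fin.tail a))) q x := by
      rw [← hA.pdx_pdq, pdx]
      simp only [app]
      rw [(h1.fun_mul (hA.differentiable_x q x).hasFDerivAt).fun_add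
        ((hA.pdq (a 0)).differentiable_x q x).hasFDerivAt |>.fderiv]
      simp [pdx, PiLp.single_apply]
      split_ifs <;> ring
    rw [e, Fin.sum_univ_succ, Fin.removeNth_zero, mul_add, mul_ite, mul_zero, add_assoc]
    congr 1
    cases n with
    | zero => simp [app, pdx, pdq]
    | succ m =>
      have ih : pdx k (app σ R (m + 1) (Fin.tail a)) = fun q x =>
          (σ ^ 2)⁻¹ * ∑ p, if Fin.tail a p = k then
            app σ R m (p.removeNth (Fin.tail a)) q x else 0 := by
        funext q x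
        exact pdx_app m (Fin.tail a) k q x
      have hd : ∀ p, DifferentiableAt ℝ
          (fun y => if Fin.tail a p = k then app σ R m (p.removeNth (Fin.tail a)) y x else 0) q := by
        intro p
        split_ifs
        · exact (h.qpoly_app m _).differentiable_q x q
        · exact differentiableAt_const _
      rw [ih]
      simp only [pdq]
      rw [fderiv_const_mul (DifferentiableAt.fun_sum fun p _ => hd p), fderiv_fun_sum fun p _ => hd p]
      simp only [smul_apply, sum_apply, smul_eq_mul, Finset.mul_sum,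
        ← Finset.sum_add_distrib]
      refine Finset.sum_congr rfl fun p _ => ?_
      have e1 : (Fin.succ p).removeNth a 0 = a 0 := by
        simp [Fin.removeNth_apply]
      have e2 : Fin.tail ((Fin.succ p).removeNth a) = p.removeNth (Fin.tail a) := by
        funext j
        simp [Fin.removeNth_apply, Fin.tail]
      simp only [app, e1, e2]
      rw [show Fin.tail a p = a p.succ from rfl]
      split_ifs
      · simp only [pdq]; ring
      · simp

theorem avg_lin_succ (n : ℕ) (M : (Fin (n + 1) → Fin d) → ℝ) (q : E d) :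
    avg σ R (lin σ R (n + 1) M q) q = 0 := by
  rw [show lin σ R (n + 1) M q = fun x => ∑ a, M a * app σ R (n + 1) a q x from rfl]
  rw [h.avg_sum _ (fun a _ => (PG.const _).mul (h.pg_app _ a q))]
  simp [avg_const_mul, h.avg_app_succ]

theorem qpoly_lin (n : ℕ) (M : (Fin n → Fin d) → ℝ) : QPoly (lin σ R n M) := by
  classical
  have : ∀ s : Finset (Fin n → Fin d), QPoly fun q x => ∑ a ∈ s, M a * app σ R n a q x := by
    intro s
    induction s using Finset.cons_induction with
    | empty => exact QPoly.zero.congr fun q x => by simp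
    | cons a s ha ih =>
      exact (((h.qpoly_app n a).cmul (c := fun _ => M a) contDiff_const).add ih).congr
        fun q x => Finset.sum_cons ha
  exact this Finset.univ

theorem pdx_lin (n : ℕ) (M : (Fin (n + 1) → Fin d) → ℝ) (k : Fin d) (q x : E d) :
    fderiv ℝ (lin σ R (n + 1) M q) x (ei k) =
      (σ ^ 2)⁻¹ * ∑ p, lin σ R n (fun b => M (Fin.insertNth p k b)) q x := by
  have hd : ∀ a, DifferentiableAt ℝ (fun x => M a * app σ R (n + 1) a q x) x := fun a =>
    ((h.qpoly_app _ a).differentiable_x q x).const_mul _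
  change fderiv ℝ (fun x => ∑ a, M a * app σ R (n + 1) a q x) x (ei k) = _
  rw [fderiv_fun_sum fun a _ => hd a, sum_apply]
  have e : ∀ a, fderiv ℝ (fun x => M a * app σ R (n + 1) a q x) x (ei k) =
      (σ ^ 2)⁻¹ * ∑ p, M a * (if a p = k then app σ R n (p.removeNth a) q x else 0) := fun a => by
    rw [fderiv_const_mul ((h.qpoly_app _ a).differentiable_x q x), smul_apply,
      smul_eq_mul]
    change M a * pdx k _ q x = _
    rw [h.pdx_app n a k q x, ← Finset.mul_sum]
    ring
  rw [Finset.sum_congr rfl fun a _ => e a, ← Finset.mul_sum, Finset.sum_comm]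
  congr 1
  refine Finset.sum_congr rfl fun p _ => ?_
  rw [← (Fin.insertNthEquiv (fun _ => Fin d) p).sum_comp, Fintype.sum_prod_type, Finset.sum_comm]
  simp [lin, Fin.insertNth_apply_same, Fin.insertNthEquiv, Fin.removeNth_insertNth]

/-- The second moment of a combination of Appell polynomials. -/
theorem avg_lin_sq_le : ∀ (n : ℕ) (M : (Fin n → Fin d) → ℝ) (q : E d),
    avg σ R (fun x => lin σ R n M q x * lin σ R n M q x) q
      ≤ cst n * ((σ ^ 2)⁻¹) ^ n * ∑ a, M a ^ 2
  | 0, M, q => by
    simp [lin, app, cst, h.avg_const, sq]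
  | n + 1, M, q => by
    have hl := h.qpoly_lin (n + 1) M
    have hp := h.poincare (hl.contDiff_x q) (h.pg_lin _ M q) (hl.pg_norm_fderiv q) q
    rw [cov, h.avg_lin_succ, mul_zero, sub_zero] at hp
    refine hp.trans ?_
    set L := fun (p : Fin (n + 1)) (k : Fin d) =>
      lin σ R n (fun b => M (Fin.insertNth p k b)) q
    have hL : ∀ p k, PG fun x => L p k x * L p k x := fun p k =>
      (h.pg_lin n _ q).mul (h.pg_lin n _ q)
    have hle : ∀ x, ‖fderiv ℝ (lin σ R (n + 1) M q) x‖ * ‖fderiv ℝ (lin σ R (n + 1) M q) x‖ ≤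
        ((σ ^ 2)⁻¹) ^ 2 * (n + 1) * ∑ p, ∑ k, L p k x * L p k x := fun x => by
      rw [← sq, norm_sq_eq_sum, Finset.sum_comm (f := fun p k => L p k x * L p k x),
        Finset.mul_sum]
      refine Finset.sum_le_sum fun k _ => ?_
      rw [h.pdx_lin, mul_pow, mul_assoc (((σ ^ 2)⁻¹) ^ 2)]
      refine mul_le_mul_of_nonneg_left ?_ (sq_nonneg _)
      simpa [← sq] using
        sq_sum_le_card_mul_sum_sq (s := (Finset.univ : Finset (Fin (n + 1))))
          (f := fun p => L p k x)
    calc 2 * σ ^ 2 * avg σ R (fun x => ‖fderiv ℝ (lin σ R (n + 1) M q) x‖ *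
          ‖fderiv ℝ (lin σ R (n + 1) M q) x‖) q
        ≤ 2 * σ ^ 2 * avg σ R (fun x =>
            ((σ ^ 2)⁻¹) ^ 2 * (n + 1) * ∑ p, ∑ k, L p k x * L p k x) q := by
          refine mul_le_mul_of_nonneg_left (h.avg_mono ((hl.pg_norm_fderiv q).mul
            (hl.pg_norm_fderiv q)) ?_ hle q) (by positivity)
          exact (PG.const _).mul (PG.sum _ fun p _ => PG.sum _ fun k _ => hL p k)
      _ = 2 * (σ ^ 2)⁻¹ * (n + 1) *
            ∑ p, ∑ k, avg σ R (fun x => L p k x * L p k x) q := by
          rw [avg_const_mul, h.avg_sum _ (fun p _ => PG.sum _ fun k _ => hL p k)]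
          simp_rw [h.avg_sum _ (fun k _ => hL _ k)]
          have := h.σ_pos.ne'
          field_simp
      _ ≤ 2 * (σ ^ 2)⁻¹ * (n + 1) * ∑ p : Fin (n + 1), ∑ k,
            cst n * ((σ ^ 2)⁻¹) ^ n * ∑ b, M (Fin.insertNth p k b) ^ 2 := by
          refine mul_le_mul_of_nonneg_left (Finset.sum_le_sum fun p _ => Finset.sum_le_sum
            fun k _ => avg_lin_sq_le n _ q) (by positivity)
      _ = _ := by
          have e : ∀ p : Fin (n + 1),
              ∑ k, ∑ b, M (Fin.insertNth p k b) ^ 2 = ∑ a, M a ^ 2 := fun p => by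
            rw [← (Fin.insertNthEquiv (fun _ => Fin d) p).sum_comp, Fintype.sum_prod_type]
            rfl
          simp_rw [← Finset.mul_sum, e]
          simp [cst]
          ring

/-- Derivatives of a mean, in Hilbert–Schmidt norm, are controlled by the variance. -/
theorem sum_sq_iterated_avg_le {F : E d → ℝ} (hF : PG F) (n : ℕ) (q : E d) :
    ∑ a : Fin (n + 1) → Fin d, iteratedFDeriv ℝ (n + 1) (avg σ R F) q (fun j => ei (a j)) ^ 2
      ≤ cst (n + 1) * ((σ ^ 2)⁻¹) ^ (n + 1) * cov σ R F F q := by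
  set M := fun a : Fin (n + 1) → Fin d =>
    iteratedFDeriv ℝ (n + 1) (avg σ R F) q (fun j => ei (a j)) with hM
  have hl := h.pg_lin (n + 1) M q
  have e : ∑ a, M a ^ 2 = cov σ R F (lin σ R (n + 1) M q) q := by
    rw [cov, h.avg_lin_succ, mul_zero, sub_zero]
    simp only [lin, Finset.mul_sum]
    rw [h.avg_sum _ (fun a _ => hF.mul ((PG.const _).mul (h.pg_app _ a q)))]
    refine Finset.sum_congr rfl fun a _ => ?_
    rw [sq, hM]
    simp only
    conv_lhs => arg 2; rw [h.iterated_avg hF]
    rw [← avg_const_mul]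
    simp only [mul_left_comm]
  have hQ : cov σ R (lin σ R (n + 1) M q) (lin σ R (n + 1) M q) q ≤
      cst (n + 1) * ((σ ^ 2)⁻¹) ^ (n + 1) * ∑ a, M a ^ 2 := by
    rw [cov, h.avg_lin_succ, mul_zero, sub_zero]
    exact h.avg_lin_sq_le _ M q
  have hcs : (∑ a, M a ^ 2) ^ 2 ≤
      cov σ R F F q * (cst (n + 1) * ((σ ^ 2)⁻¹) ^ (n + 1) * ∑ a, M a ^ 2) := by
    rw [e] at hQ ⊢
    exact (h.sq_cov_le hF hl q).trans (mul_le_mul_of_nonneg_left hQ (h.cov_self_nonneg hF q))
  rcases (Finset.sum_nonneg fun a _ => sq_nonneg (M a) : 0 ≤ ∑ a, M a ^ 2).eq_or_lt with h0 | h0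
  · change ∑ a, M a ^ 2 ≤ _
    rw [← h0]
    exact mul_nonneg (mul_nonneg (cst_nonneg _) (by positivity)) (h.cov_self_nonneg hF q)
  · change ∑ a, M a ^ 2 ≤ _
    nlinarith

/-! ### The score -/

theorem pg_inner_g (b : E d) : PG fun x => ⟪g x, b⟫ :=
  ⟨h.pot.contg.inner continuous_const, Gb * ‖b‖, 0, fun x => by
    rw [pow_zero, mul_one]
    exact (abs_real_inner_le_norm _ _).trans
      (mul_le_mul_of_nonneg_right (h.bdd x) (norm_nonneg b))⟩

theorem integrable_g (q : E d) :
    Integrable (fun w => g (q + σ • w)) (tilt fun w => R (q + σ • w)) :=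
  (h.pot_shift q).integrable_tilt (by have := h.pot.contg; fun_prop) Gb 0
    fun w => by simpa using h.bdd _

theorem inner_score (q b : E d) : ⟪score σ R g q, b⟫ = avg σ R (fun x => ⟪g x, b⟫) q := by
  rw [score, real_inner_comm, ← integral_inner (h.integrable_g q)]
  simp only [avg, real_inner_comm b]

theorem score_apply (q : E d) (j : Fin d) :
    score σ R g q j = avg σ R (fun x => ⟪g x, ei j⟫) q := by
  rw [← h.inner_score, inner_ei]

theorem norm_score_le (q : E d) : ‖score σ R g q‖ ≤ Gb := by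
  have := h.isProb q
  have hn := norm_integral_le_of_norm_le_const
    (μ := tilt fun w => R (q + σ • w)) (C := Gb) (f := fun w => g (q + σ • w))
    (ae_of_all _ fun w => h.bdd (q + σ • w))
  rw [probReal_univ, mul_one] at hn
  exact hn

theorem contDiff_score (n : ℕ) : ContDiff ℝ n (score σ R g) :=
  contDiff_euclidean.2 fun j => by
    simp only [h.score_apply]
    exact h.contDiff_avg (h.pg_inner_g (ei j)) n

theorem inner_fderiv_score (q a b : E d) :
    ⟪fderiv ℝ (score σ R g) q a, b⟫ =
      (σ ^ 2)⁻¹ * cov σ R (fun x => ⟪g x, b⟫) (fun x => ⟪x, a⟫) q := by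
  rw [← h.fderiv_avg (h.pg_inner_g b),
    show avg σ R (fun x => ⟪g x, b⟫) = fun y => ⟪score σ R g y, b⟫ from
      funext fun y => (h.inner_score y b).symm,
    (((h.contDiff_score 1).differentiable one_ne_zero q).hasFDerivAt.inner ℝ
      (hasFDerivAt_const b q)).fderiv]
  simp

/-- The mean of the variable: integration by parts. -/
theorem avg_inner (q b : E d) :
    avg σ R (fun x => ⟪x, b⟫) q = ⟪q, b⟫ - σ ^ 2 * avg σ R (fun x => ⟪g x, b⟫) q := by
  have := h.isProb q
  have hw : Integrable (fun w : E d => ⟪w, b⟫) (tilt fun w => R (q + σ • w)) :=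
    (h.pot_shift q).integrable_tilt (by fun_prop) ‖b‖ 1 fun w => by
      rw [Real.norm_eq_abs, pow_one]
      exact (abs_real_inner_le_norm w b).trans (by nlinarith [norm_nonneg b, norm_nonneg w])
  have hi := (h.pot_shift q).ibp (f := fun _ => (1 : ℝ)) contDiff_const 1 0
    (fun x => by simp) (fun x => by simp) b
  simp only [mul_one, one_mul, fderiv_fun_const, Pi.zero_apply, zero_apply,
    zero_sub, real_inner_smul_left] at hi
  simp only [avg, inner_add_left, real_inner_smul_left]
  rw [integral_add (integrable_const _) (hw.const_mul σ), integral_const, integral_const_mul, hi,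
    integral_neg, integral_const_mul]
  simp
  ring

theorem symm_fderiv_score (q a b : E d) :
    ⟪fderiv ℝ (score σ R g) q a, b⟫ = ⟪a, fderiv ℝ (score σ R g) q b⟫ := by
  have hσ := h.σ_pos.ne'
  have key : ∀ u v : E d, ⟪fderiv ℝ (score σ R g) q u, v⟫ = (σ ^ 2)⁻¹ *
      (⟪u, v⟫ - (σ ^ 2)⁻¹ * cov σ R (fun x => ⟪x, v⟫) (fun x => ⟪x, u⟫) q) := fun u v => by
    have e : avg σ R (fun x => ⟪g x, v⟫) = fun y =>
        (σ ^ 2)⁻¹ * (⟪y, v⟫ - avg σ R (fun x => ⟪x, v⟫) y) := funext fun y => by
      rw [h.avg_inner]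
      field_simp
      ring
    rw [h.inner_fderiv_score, ← h.fderiv_avg (h.pg_inner_g v), e,
      fderiv_const_mul (.fun_sub (hasFDerivAt_inner_left v q).differentiableAt
        (h.differentiable_avg (PG.inner v) q)),
      fderiv_fun_sub (hasFDerivAt_inner_left v q).differentiableAt
        (h.differentiable_avg (PG.inner v) q), smul_apply, sub_apply,
      h.fderiv_avg (PG.inner v), (hasFDerivAt_inner_left v q).fderiv]
    simp [real_inner_comm u v]
  rw [real_inner_comm (fderiv ℝ (score σ R g) q b) a, key, key, real_inner_comm b a, cov_comm]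

theorem cov_inner_g_le (q b : E d) :
    cov σ R (fun x => ⟪g x, b⟫) (fun x => ⟪g x, b⟫) q ≤ 2 * σ ^ 2 * (δ * ‖b‖) ^ 2 := by
  have hd : ∀ x, ‖fderiv ℝ (fun x => ⟪g x, b⟫) x‖ ≤ δ * ‖b‖ := fun x => by
    refine ContinuousLinearMap.opNorm_le_bound _ (mul_nonneg h.pot.pos.le (norm_nonneg b))
      fun u => ?_
    rw [((h.pot.smooth.differentiable one_ne_zero x).hasFDerivAt.inner ℝ
      (hasFDerivAt_const b x)).fderiv]
    simp only [Real.norm_eq_abs]
    simp only [ContinuousLinearMap.comp_apply, ContinuousLinearMap.prod_apply,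
      zero_apply, fderivInnerCLM_apply, inner_zero_right, zero_add]
    refine (abs_real_inner_le_norm _ _).trans ?_
    rw [mul_right_comm]
    exact mul_le_mul_of_nonneg_right ((ContinuousLinearMap.le_opNorm _ _).trans
      (mul_le_mul_of_nonneg_right (h.pot.norm_fderiv_g x) (norm_nonneg u))) (norm_nonneg b)
  have hs : ContDiff ℝ 1 fun x => ⟪g x, b⟫ := h.pot.smooth.inner ℝ contDiff_const
  have hpg : PG fun x => ‖fderiv ℝ (fun x => ⟪g x, b⟫) x‖ :=
    ⟨(hs.continuous_fderiv one_ne_zero).norm, δ * ‖b‖, 0, fun x => by simpa using hd x⟩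
  refine (h.poincare hs (h.pg_inner_g b) hpg q).trans (mul_le_mul_of_nonneg_left ?_ (by positivity))
  refine (h.avg_mono (hpg.mul hpg) (PG.const ((δ * ‖b‖) ^ 2)) (fun x => ?_) q).trans_eq
    (h.avg_const _ q)
  rw [sq]
  exact mul_le_mul (hd x) (hd x) (norm_nonneg _) ((norm_nonneg _).trans (hd x))

theorem cov_inner_le (q a : E d) :
    cov σ R (fun x => ⟪x, a⟫) (fun x => ⟪x, a⟫) q ≤ 2 * σ ^ 2 * ‖a‖ ^ 2 := by
  have hs : ContDiff ℝ 1 fun x : E d => ⟪x, a⟫ := contDiff_id.inner ℝ contDiff_const
  have hd : ∀ x : E d, ‖fderiv ℝ (fun x : E d => ⟪x, a⟫) x‖ ≤ ‖a‖ := fun x => by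
    refine ContinuousLinearMap.opNorm_le_bound _ (norm_nonneg a) fun u => ?_
    rw [(hasFDerivAt_inner_left a x).fderiv]
    simpa using abs_real_inner_le_norm a u
  have hpg : PG fun x : E d => ‖fderiv ℝ (fun x : E d => ⟪x, a⟫) x‖ :=
    ⟨(hs.continuous_fderiv one_ne_zero).norm, ‖a‖, 0, fun x => by simpa using hd x⟩
  refine (h.poincare hs (PG.inner a) hpg q).trans (mul_le_mul_of_nonneg_left ?_ (by positivity))
  refine (h.avg_mono (hpg.mul hpg) (PG.const (‖a‖ ^ 2)) (fun x => ?_) q).trans_eq
    (h.avg_const _ q)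
  rw [sq]
  exact mul_le_mul (hd x) (hd x) (norm_nonneg _) (norm_nonneg _)

theorem norm_fderiv_score_le (q : E d) : ‖fderiv ℝ (score σ R g) q‖ ≤ 2 * δ := by
  have hδ := h.pot.pos
  refine ContinuousLinearMap.opNorm_le_bound _ (by positivity) fun a => ?_
  set b := fderiv ℝ (score σ R g) q a with hb
  have hsq : (‖b‖ ^ 2) ^ 2 ≤ (2 * δ * ‖a‖ * ‖b‖) ^ 2 := by
    have hσ := h.σ_pos.ne'
    have e : ‖b‖ ^ 2 = (σ ^ 2)⁻¹ * cov σ R (fun x => ⟪g x, b⟫) (fun x => ⟪x, a⟫) q := by
      rw [← h.inner_fderiv_score, ← hb, real_inner_self_eq_norm_sq]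
    rw [e, mul_pow]
    calc ((σ ^ 2)⁻¹) ^ 2 * cov σ R (fun x => ⟪g x, b⟫) (fun x => ⟪x, a⟫) q ^ 2
        ≤ ((σ ^ 2)⁻¹) ^ 2 * (2 * σ ^ 2 * (δ * ‖b‖) ^ 2 * (2 * σ ^ 2 * ‖a‖ ^ 2)) :=
          mul_le_mul_of_nonneg_left ((h.sq_cov_le (h.pg_inner_g b) (PG.inner a) q).trans
            (mul_le_mul (h.cov_inner_g_le q b) (h.cov_inner_le q a)
              (h.cov_self_nonneg (PG.inner a) q) (by positivity))) (sq_nonneg _)
      _ = _ := by field_simp
  have h1 := abs_le_of_sq_le_sq hsq (by positivity)
  rw [abs_of_nonneg (sq_nonneg _), sq] at h1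
  rcases (norm_nonneg b).eq_or_lt with h0 | h0
  · rw [← h0]; positivity
  · exact le_of_mul_le_mul_right h1 h0

theorem sum_cov_g_le (q : E d) :
    ∑ j, cov σ R (fun x => ⟪g x, ei j⟫) (fun x => ⟪g x, ei j⟫) q ≤ 2 * σ ^ 2 * (δ ^ 2 * d) := by
  refine (Finset.sum_le_sum fun j _ => h.cov_inner_g_le q (ei j)).trans_eq ?_
  simp
  ring

/-- The derivatives of the smoothed score in Hilbert–Schmidt norm. -/
theorem sum_sq_iterated_score_le (n : ℕ) (q : E d) :
    ∑ a : Fin (n + 1) → Fin d, ∑ j,
        (iteratedFDeriv ℝ (n + 1) (score σ R g) q (fun i => ei (a i))) j ^ 2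
      ≤ cst (n + 1) * ((σ ^ 2)⁻¹) ^ (n + 1) * (2 * σ ^ 2 * (δ ^ 2 * d)) := by
  have e : ∀ (a : Fin (n + 1) → Fin d) (j : Fin d),
      (iteratedFDeriv ℝ (n + 1) (score σ R g) q (fun i => ei (a i))) j =
        iteratedFDeriv ℝ (n + 1) (avg σ R fun x => ⟪g x, ei j⟫) q (fun i => ei (a i)) := by
    intro a j
    have := ((EuclideanSpace.proj (𝕜 := ℝ) j).iteratedFDeriv_comp_left
      (h.contDiff_score (n + 1)).contDiffAt (le_refl _) : iteratedFDeriv ℝ (n + 1)
        ((EuclideanSpace.proj (𝕜 := ℝ) j) ∘ score σ R g) q = _)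
    rw [show avg σ R (fun x => ⟪g x, ei j⟫) = (EuclideanSpace.proj (𝕜 := ℝ) j) ∘ score σ R g from
      funext fun y => (h.score_apply y j).symm, this]
    rfl
  simp only [e]
  rw [Finset.sum_comm]
  refine (Finset.sum_le_sum fun j _ => h.sum_sq_iterated_avg_le (h.pg_inner_g (ei j)) n q).trans ?_
  rw [← Finset.mul_sum]
  exact mul_le_mul_of_nonneg_left (h.sum_cov_g_le q)
    (mul_nonneg (cst_nonneg _) (by positivity))

variable {s : ℝ}

theorem contDiff_rescaled (n : ℕ) : ContDiff ℝ n fun z => s • score σ R g (s • z) :=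
  ((h.contDiff_score n).comp (contDiff_id.const_smul s)).const_smul s

theorem fderiv_rescaled (z : E d) :
    fderiv ℝ (fun z => s • score σ R g (s • z)) z =
      (s ^ 2) • fderiv ℝ (score σ R g) (s • z) := by
  refine HasFDerivAt.fderiv (((((h.contDiff_score 1).differentiable one_ne_zero _).hasFDerivAt.comp z
    ((hasFDerivAt_id z).const_smul s)).const_smul s).congr_fderiv ?_)
  ext u
  simp
  ring

/-- The bound on the derivatives of the rescaled score, in the units of `Fld`. -/
theorem sum_sq_iterated_rescaled_le (hs : 0 < s) (n : ℕ) (z : E d) :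
    ∑ a : Fin (n + 1) → Fin d, ∑ j, (iteratedFDeriv ℝ (n + 1)
        (fun z => s • score σ R g (s • z)) z (fun i => ei (a i))) j ^ 2
      ≤ (2 * δ * s ^ 2 * (σ / s) * √d * √(cst (n + 1)) / (σ / s) ^ (n + 1)) ^ 2 := by
  have hσ := h.σ_pos
  have e : ∀ (a : Fin (n + 1) → Fin d) (j : Fin d), (iteratedFDeriv ℝ (n + 1)
      (fun z => s • score σ R g (s • z)) z (fun i => ei (a i))) j = s ^ (n + 2) *
        (iteratedFDeriv ℝ (n + 1) (score σ R g) (s • z) (fun i => ei (a i))) j := by
    intro a j
    rw [iteratedFDeriv_const_smul_apply'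
        (f := fun z => score σ R g (s • z)) (a := s)
        ((h.contDiff_score (n + 1)).comp (contDiff_id.const_smul s)).contDiffAt,
      iteratedFDeriv_comp_const_smul s (h.contDiff_score (n + 1))]
    simp
    ring
  simp only [e, mul_pow (s ^ (n + 2)), ← Finset.mul_sum]
  refine (mul_le_mul_of_nonneg_left (h.sum_sq_iterated_score_le n (s • z)) (sq_nonneg _)).trans ?_
  have hc := cst_nonneg (n + 1)
  simp only [mul_pow, div_pow, Real.sq_sqrt hc, Real.sq_sqrt (Nat.cast_nonneg d)]
  refine le_trans (b := 2 * (δ ^ 2 * cst (n + 1) * d * (s ^ 2) ^ (n + 2) / (σ ^ 2) ^ n))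
    (le_of_eq ?_) (le_trans (le_mul_of_one_le_left (by positivity) one_le_two) (le_of_eq ?_))
  · rw [pow_succ ((σ ^ 2)⁻¹), inv_pow, ← pow_mul, ← pow_mul]
    field_simp
    ring
  · simp only [← pow_mul]
    field_simp
    ring

end Ctx

end Vale.Agent.P347.Appell

namespace Vale.Agent.P347

open Appell

/-- The rescaled score of a smoothed tilted law is a field: Lipschitz with symmetric derivative,
bounded, and close to polynomials of degree below `N` on Gaussian laws. -/
theorem fld_score (N : ℕ) (hN : 1 ≤ N) : ∃ C : ℝ, ∀ (d : ℕ) (σ s δ r0 Gb : ℝ) (R : E d → ℝ) (g : E d → E d),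
    Pot d δ r0 R g → (∀ y, ‖g y‖ ≤ Gb) → 0 < s → s ≤ σ → σ ≤ 1 →
    Fld d (2 * δ * s ^ 2) (σ / s) (s * Gb) C N (fun z => s • score σ R g (s • z)) := by
  obtain ⟨n, rfl⟩ : ∃ n, N = n + 1 := ⟨N - 1, by omega⟩
  refine ⟨2 ^ (n + 1) * √(cst (n + 1)), fun d σ s δ r0 Gb R g hR hGb hs hsσ hσ1 => ?_⟩
  have h : Ctx d σ δ r0 Gb R g := ⟨hR, hGb, hs.trans_le hsσ, hσ1⟩
  have hσ := h.σ_pos
  have hδ := hR.pos
  set B := 2 * δ * s ^ 2 * (σ / s) * √d * √(cst (n + 1)) / (σ / s) ^ (n + 1) with hB
  have hB0 : 0 ≤ B := by positivity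
  have hd : ∀ z, TailAux.coordSq (n + 1) (fun z => s • score σ R g (s • z)) z ≤ B ^ 2 := fun z => by
    simpa only [TailAux.coordSq, EuclideanSpace.real_norm_sq_eq] using
      h.sum_sq_iterated_rescaled_le hs n z
  have eB : 2 * δ * s ^ 2 * (σ / s) * √d * (2 ^ (n + 1) * √(cst (n + 1))) / (σ / s) ^ (n + 1)
      = 2 ^ (n + 1) * B := by rw [hB]; ring
  have tl := fun (m : ℕ) (c ρ : Fin m → ℝ) hρ q τ hτ =>
    tail_of_deriv hN (h.contDiff_rescaled (s := s) (n + 1)) hB0 hd c ρ hρ q (τ := τ) hτ
  exact {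
    smooth := h.contDiff_rescaled 1
    lip := fun z => by
      rw [h.fderiv_rescaled, norm_smul, Real.norm_eq_abs, abs_of_nonneg (sq_nonneg s), mul_comm]
      exact mul_le_mul_of_nonneg_right (h.norm_fderiv_score_le _) (sq_nonneg s)
    bdd := fun z => by
      rw [norm_smul, Real.norm_eq_abs, abs_of_pos hs]
      exact mul_le_mul_of_nonneg_left (h.norm_score_le _) hs.le
    symm := fun z a b => by
      simp only [h.fderiv_rescaled, smul_apply, real_inner_smul_left,
        real_inner_smul_right, h.symm_fderiv_score]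
    tail := fun m c ρ hρ hc q τ hτ => by
      rw [eB]
      exact (tl m c ρ hρ q τ hτ).1 hc
    tail_one := fun m c ρ hρ hc q τ hτ => by
      rw [eB]
      exact (tl m c ρ hρ q τ hτ).2 hc }

end Vale.Agent.P347
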