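import Vale.Agent.P347.Output
import Vale.Agent.P347.Smooth
import Vale.Agent.P347.ChainBasic

/-!
P347: the exact restricted Gaussian oracle contracts. One explicit Langevin step leaves the tilted
law invariant up to `τ ^ (3/2)` on Lipschitz test functions, and synchronous Langevin steps for two
centres contract; letting the step go to zero gives the contraction of the oracle.
-/

open MeasureTheory ProbabilityTheory WithLp Real Set Filter
open scoped RealInnerProductSpace Gradient Topology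

noncomputable section

namespace Vale.Agent.P347.Asm0

variable {d : ℕ} {δ r0 : ℝ} {R : E d → ℝ} {g : E d → E d}

/-- The point between `z` and one Langevin step from `z`. -/
def lpt (g : E d → E d) (τ σ r : ℝ) (p : E d × E d) : E d :=
  p.1 - (r ^ 2 * τ) • (p.1 + g p.1) + (r * σ) • p.2

lemma norm_drift_le (h : Pot d δ r0 R g) (z : E d) : ‖z + g z‖ ≤ (2 + r0) * (1 + ‖z‖) := by
  have h1 := h.norm_le z
  have h2 := h.le_eighth
  have h3 := h.r0_nonneg
  nlinarith [norm_add_le z (g z), norm_nonneg z, mul_nonneg h3 (norm_nonneg z)]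

lemma norm_fderiv_drift_le (h : Pot d δ r0 R g) (z : E d) :
    ‖fderiv ℝ (fun x => x + g x) z‖ ≤ 2 := by
  have hd : HasFDerivAt (fun x => x + g x) (ContinuousLinearMap.id ℝ (E d) + fderiv ℝ g z) z :=
    (hasFDerivAt_id z).add (h.smooth.differentiable one_ne_zero z).hasFDerivAt
  rw [hd.fderiv]
  refine (norm_add_le _ _).trans ?_
  linarith [ContinuousLinearMap.norm_id_le (𝕜 := ℝ) (E := E d), h.norm_fderiv_g z, h.le_eighth]

lemma integrable_pair_of_growth (h : Pot d δ r0 R g) {f : E d × E d → ℝ} (hf : Continuous f)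
    {K : ℝ} (hb : ∀ p, |f p| ≤ K * ((1 + ‖p.1‖) * (1 + ‖p.2‖))) :
    Integrable f ((tilt R).prod (gau (Fin d))) := by
  have := h.isProb
  have h1 : Integrable (fun z : E d => 1 + ‖z‖) (tilt R) :=
    h.integrable_tilt (by fun_prop) 1 1 fun z => by
      rw [norm_eq_abs, abs_of_nonneg (by positivity), one_mul, pow_one]
  have h2 : Integrable (fun z : E d => 1 + ‖z‖) (gau (Fin d)) :=
    (integrable_const _).add integrable_gau_nrm
  exact ((h1.mul_prod h2).const_mul K).mono' hf.aestronglyMeasurable (ae_of_all _ hb)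

/-- The derivative of a test function along the interpolation towards one Langevin step, after
integration by parts in the position and in the noise: only a term of third order is left. -/
lemma deriv_lpt (h : Pot d δ r0 R g) {w : E d → ℝ} (hw : ContDiff ℝ 1 w) {B L : ℝ}
    (hB : ∀ x, |w x| ≤ B) (hL : ∀ x, ‖fderiv ℝ w x‖ ≤ L) (τ σ r : ℝ) (hσ : σ ^ 2 = 2 * τ) :
    ∫ p, fderiv ℝ w (lpt g τ σ r p) (σ • p.2 - (2 * r * τ) • (p.1 + g p.1))
        ∂(tilt R).prod (gau (Fin d))
      = σ * (r ^ 2 * τ) * ∫ p, fderiv ℝ w (lpt g τ σ r p)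
          (fderiv ℝ (fun x => x + g x) p.1 p.2) ∂(tilt R).prod (gau (Fin d)) := by
  have := h.isProb
  set b : E d → E d := fun x => x + g x with hb
  have hbd : ContDiff ℝ 1 b := contDiff_id.add h.smooth
  have hbc : Continuous b := hbd.continuous
  have hbn : ∀ z, ‖b z‖ ≤ (2 + r0) * (1 + ‖z‖) := norm_drift_le h
  have hDb : ∀ z, ‖fderiv ℝ b z‖ ≤ 2 := norm_fderiv_drift_le h
  have hDbc : Continuous fun p : E d × E d => fderiv ℝ b p.1 p.2 :=
    ((hbd.continuous_fderiv one_ne_zero).comp continuous_fst).clm_apply continuous_snd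
  have hB0 : 0 ≤ B := (abs_nonneg _).trans (hB 0)
  have hL0 : 0 ≤ L := (norm_nonneg _).trans (hL 0)
  have hr := h.r0_nonneg
  set P : E d × E d → E d := lpt g τ σ r with hP
  have hPc : Continuous P := by rw [hP]; unfold lpt; have := h.contg; fun_prop
  have hDw : Continuous fun p => fderiv ℝ w (P p) := (hw.continuous_fderiv one_ne_zero).comp hPc
  have hDwb : ∀ p v, |fderiv ℝ w (P p) v| ≤ L * ‖v‖ := fun p v =>
    (ContinuousLinearMap.le_opNorm _ v).trans (mul_le_mul_of_nonneg_right (hL _) (norm_nonneg v))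
  have iA : Integrable (fun p => fderiv ℝ w (P p) p.2) ((tilt R).prod (gau (Fin d))) :=
    integrable_pair_of_growth h (hDw.clm_apply continuous_snd) (K := L) fun p => by
      refine (hDwb p p.2).trans (mul_le_mul_of_nonneg_left ?_ hL0)
      nlinarith [norm_nonneg p.1, norm_nonneg p.2]
  have iB : Integrable (fun p => fderiv ℝ w (P p) (b p.1)) ((tilt R).prod (gau (Fin d))) :=
    integrable_pair_of_growth h (hDw.clm_apply (hbc.comp continuous_fst)) (K := L * (2 + r0))
      fun p => by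
      refine (hDwb p _).trans ?_
      rw [mul_assoc L]
      refine mul_le_mul_of_nonneg_left ((hbn p.1).trans ?_) hL0
      exact mul_le_mul_of_nonneg_left (le_mul_of_one_le_right (by positivity)
        (by linarith [norm_nonneg p.2])) (by linarith)
  have iC : Integrable (fun p => fderiv ℝ w (P p) (fderiv ℝ b p.1 p.2))
      ((tilt R).prod (gau (Fin d))) :=
    integrable_pair_of_growth h (hDw.clm_apply hDbc) (K := L * 2) fun p => by
      refine (hDwb p _).trans ?_
      rw [mul_assoc L]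
      refine mul_le_mul_of_nonneg_left (((fderiv ℝ b p.1).le_opNorm _).trans ?_) hL0
      refine mul_le_mul (hDb p.1) ?_ (norm_nonneg _) zero_le_two
      nlinarith [norm_nonneg p.1, norm_nonneg p.2]
  have iK : Integrable (fun p => ⟪p.2, b p.1⟫ * w (P p)) ((tilt R).prod (gau (Fin d))) :=
    integrable_pair_of_growth h ((continuous_snd.inner (hbc.comp continuous_fst)).mul
      (hw.continuous.comp hPc)) (K := (2 + r0) * B) fun p => by
      rw [abs_mul]
      calc |⟪p.2, b p.1⟫| * |w (P p)| ≤ (1 + ‖p.2‖) * ((2 + r0) * (1 + ‖p.1‖)) * B :=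
            mul_le_mul ((abs_real_inner_le_norm _ _).trans
              (mul_le_mul (by linarith) (hbn p.1) (norm_nonneg _) (by positivity)))
              (hB _) (abs_nonneg _) (by positivity)
        _ = _ := by ring
  -- parts in the noise
  have eB : ∫ p, ⟪p.2, b p.1⟫ * w (P p) ∂(tilt R).prod (gau (Fin d))
      = r * σ * ∫ p, fderiv ℝ w (P p) (b p.1) ∂(tilt R).prod (gau (Fin d)) := by
    rw [integral_prod _ iK, integral_prod _ iB, ← integral_const_mul]
    refine integral_congr_ae (ae_of_all _ fun z => ?_)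
    simp only [hP, lpt]
    have hd : ∀ ξ, HasFDerivAt (fun ξ : E d => w (z - (r ^ 2 * τ) • b z + (r * σ) • ξ))
        ((r * σ) • fderiv ℝ w (z - (r ^ 2 * τ) • b z + (r * σ) • ξ)) ξ := fun ξ => by
      refine (((hw.differentiable one_ne_zero _).hasFDerivAt).comp ξ
        (((hasFDerivAt_id ξ).const_smul (r * σ)).const_add _)).congr_fderiv ?_
      ext v
      simp
    have := gau_ibp (f := fun ξ : E d => w (z - (r ^ 2 * τ) • b z + (r * σ) • ξ))
      (hw.comp (by fun_prop)) (a := 0) (by norm_num) (B + |r * σ| * L) 0 0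
      (fun ξ => by simpa using (hB _).trans (le_add_of_nonneg_right (by positivity)))
      (fun ξ => by
        simp only [(hd ξ).fderiv, norm_smul, norm_eq_abs, pow_zero, zero_mul, exp_zero, mul_one]
        exact (mul_le_mul_of_nonneg_left (hL _) (abs_nonneg _)).trans
          (le_add_of_nonneg_left hB0))
      (b z)
    simp only [(hd _).fderiv, smul_apply, smul_eq_mul] at this
    rw [integral_const_mul] at this
    exact this
  -- parts in the position
  have eA : ∫ p, ⟪p.2, b p.1⟫ * w (P p) ∂(tilt R).prod (gau (Fin d))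
      = (∫ p, fderiv ℝ w (P p) p.2 ∂(tilt R).prod (gau (Fin d)))
        - r ^ 2 * τ * ∫ p, fderiv ℝ w (P p) (fderiv ℝ b p.1 p.2) ∂(tilt R).prod (gau (Fin d)) := by
    have hs : Integrable (fun p => fderiv ℝ w (P p) p.2
        - r ^ 2 * τ * fderiv ℝ w (P p) (fderiv ℝ b p.1 p.2)) ((tilt R).prod (gau (Fin d))) :=
      iA.sub (iC.const_mul _)
    rw [← integral_const_mul, ← integral_sub iA (iC.const_mul _), integral_prod_symm _ iK,
      integral_prod_symm _ hs]
    refine integral_congr_ae (ae_of_all _ fun ξ => ?_)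
    simp only [hP, lpt]
    set f : E d → ℝ := fun z => w (z - (r ^ 2 * τ) • b z + (r * σ) • ξ)
    have hd : ∀ z, HasFDerivAt f ((fderiv ℝ w (z - (r ^ 2 * τ) • b z + (r * σ) • ξ)).comp
        (ContinuousLinearMap.id ℝ (E d) - (r ^ 2 * τ) • fderiv ℝ b z)) z := fun z =>
      (hw.differentiable one_ne_zero _).hasFDerivAt.comp z
        (((hasFDerivAt_id z).sub
          ((hbd.differentiable one_ne_zero z).hasFDerivAt.const_smul (r ^ 2 * τ))).add_const _)
    have hfc : ContDiff ℝ 1 f := hw.comp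
      ((contDiff_id.sub (hbd.const_smul (r ^ 2 * τ))).add contDiff_const)
    set K := B + L * (1 + |r ^ 2 * τ| * 2)
    have hLK : 0 ≤ L * (1 + |r ^ 2 * τ| * 2) := by positivity
    have hfb : ∀ z, |f z| ≤ K := fun z => (hB _).trans (le_add_of_nonneg_right hLK)
    have hfd : ∀ z, ‖fderiv ℝ f z‖ ≤ K := fun z => by
      rw [(hd z).fderiv]
      refine ((ContinuousLinearMap.opNorm_comp_le _ _).trans
        (mul_le_mul (hL _) ((norm_sub_le _ _).trans (add_le_add ContinuousLinearMap.norm_id_le ?_))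
          (norm_nonneg _) hL0)).trans (le_add_of_nonneg_left hB0)
      rw [norm_smul, norm_eq_abs]
      exact mul_le_mul_of_nonneg_left (hDb z) (abs_nonneg _)
    have := h.ibp hfc K 0 (fun z => by simpa using hfb z) (fun z => by simpa using hfd z) ξ
    have hgc := h.contg
    have hfc' : Continuous f := hfc.continuous
    have i1 : Integrable (fun z => ⟪z, ξ⟫ * f z) (tilt R) :=
      h.integrable_tilt (by fun_prop) (K * ‖ξ‖) 1 fun z => by
        rw [norm_mul, norm_eq_abs, norm_eq_abs, pow_one]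
        calc |⟪z, ξ⟫| * |f z| ≤ (‖z‖ * ‖ξ‖) * K :=
              mul_le_mul (abs_real_inner_le_norm _ _) (hfb z) (abs_nonneg _) (by positivity)
          _ ≤ _ := by nlinarith [mul_nonneg (norm_nonneg ξ) ((abs_nonneg _).trans (hfb z))]
    have i2 : Integrable (fun z => f z * ⟪g z, ξ⟫) (tilt R) :=
      h.integrable_tilt (by fun_prop) (K * ((δ + r0) * ‖ξ‖)) 1 fun z => by
        rw [norm_mul, norm_eq_abs, norm_eq_abs, pow_one, mul_assoc]
        refine mul_le_mul (hfb z) ((abs_real_inner_le_norm _ _).trans ?_) (abs_nonneg _)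
          ((abs_nonneg _).trans (hfb z))
        rw [mul_right_comm]
        refine mul_le_mul_of_nonneg_right ((h.norm_le z).trans ?_) (norm_nonneg ξ)
        nlinarith [h.pos, norm_nonneg z, mul_nonneg hr (norm_nonneg z)]
    have i3 : Integrable (fun z => fderiv ℝ f z ξ) (tilt R) :=
      h.integrable_tilt ((hfc.continuous_fderiv one_ne_zero).clm_apply continuous_const)
        (K * ‖ξ‖) 0 fun z => by
        simpa using (ContinuousLinearMap.le_opNorm _ ξ).trans
          (mul_le_mul_of_nonneg_right (hfd z) (norm_nonneg ξ))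
    rw [integral_sub i3 i2] at this
    have e : ∫ z, ⟪ξ, b z⟫ * f z ∂tilt R = ∫ z, fderiv ℝ f z ξ ∂tilt R := by
      rw [eq_sub_iff_add_eq, ← integral_add i1 i2] at this
      rw [← this]
      refine integral_congr_ae (ae_of_all _ fun z => ?_)
      simp only [hb, inner_add_right, real_inner_comm ξ]
      ring
    rw [e]
    refine integral_congr_ae (ae_of_all _ fun z => ?_)
    simp [(hd z).fderiv, hb]
  have e : ∀ p : E d × E d, fderiv ℝ w (P p) (σ • p.2 - (2 * r * τ) • (p.1 + g p.1))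
      = σ * fderiv ℝ w (P p) p.2 - 2 * r * τ * fderiv ℝ w (P p) (b p.1) := fun p => by
    simp [hb]
    ring
  simp only [e]
  rw [integral_sub (iA.const_mul _) (iB.const_mul _), integral_const_mul, integral_const_mul]
  rw [eB] at eA
  linear_combination (-σ) * eA + (r * ∫ p, fderiv ℝ w (P p) (b p.1) ∂(tilt R).prod
    (gau (Fin d))) * hσ

/-- One Langevin step moves the tilted law by `τ ^ (3/2)` on Lipschitz test functions. -/
theorem tilt_step_le (h : Pot d δ r0 R g) {w : E d → ℝ} (hw : ContDiff ℝ 1 w) {B L : ℝ}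
    (hB : ∀ x, |w x| ≤ B) (hL : ∀ x, ‖fderiv ℝ w x‖ ≤ L) {τ : ℝ} (hτ : 0 ≤ τ) :
    |(∫ z, Psm (2 * τ) w (z - τ • (z + g z)) ∂tilt R) - ∫ z, w z ∂tilt R|
      ≤ 4 * L * √(d : ℝ) * (τ * √τ) := by
  have := h.isProb
  set σ := √(2 * τ) with hσd
  set ν := (tilt R).prod (gau (Fin d))
  have hσ : σ ^ 2 = 2 * τ := sq_sqrt (by linarith)
  have hσ2 : σ ≤ 2 * √τ := by
    rw [hσd, sqrt_le_iff]
    exact ⟨by positivity, by rw [mul_pow, sq_sqrt hτ]; linarith⟩
  have hL0 : 0 ≤ L := (norm_nonneg _).trans (hL 0)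
  have hr := h.r0_nonneg
  have hgc := h.contg
  have hc : ∀ r, Continuous fun p => w (lpt g τ σ r p) := fun r => by
    have := hw.continuous
    unfold lpt
    fun_prop
  have hder : ∀ r ∈ Icc (0 : ℝ) 1, HasDerivAt (fun r => ∫ p, w (lpt g τ σ r p) ∂ν)
      (∫ p, fderiv ℝ w (lpt g τ σ r p) (σ • p.2 - (2 * r * τ) • (p.1 + g p.1)) ∂ν) r := by
    intro r hr'
    have hd : ∀ (s : ℝ) (p : E d × E d), HasDerivAt (fun s => w (lpt g τ σ s p))
        (fderiv ℝ w (lpt g τ σ s p) (σ • p.2 - (2 * s * τ) • (p.1 + g p.1))) s := fun s p => by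
      have h1 : HasDerivAt (fun s => lpt g τ σ s p)
          (σ • p.2 - (2 * s * τ) • (p.1 + g p.1)) s := by
        have a := ((((hasDerivAt_pow 2 s).mul_const τ).smul_const (p.1 + g p.1)).const_sub p.1).add
          (((hasDerivAt_id s).mul_const σ).smul_const p.2)
        refine a.congr_deriv ?_
        simp
        abel
      exact (hw.differentiable one_ne_zero _).hasFDerivAt.comp_hasDerivAt s h1
    refine (hasDerivAt_integral_of_dominated_loc_of_deriv_le
      (F := fun s p => w (lpt g τ σ s p))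
      (F' := fun s p => fderiv ℝ w (lpt g τ σ s p) (σ • p.2 - (2 * s * τ) • (p.1 + g p.1)))
      (bound := fun p => L * (σ + 4 * τ * (2 + r0)) * ((1 + ‖p.1‖) * (1 + ‖p.2‖)))
      (Icc_mem_nhds (a := -1) (b := 2) (by linarith [hr'.1]) (by linarith [hr'.2]))
      (Eventually.of_forall fun s => (hc s).aestronglyMeasurable)
      (Integrable.of_bound (hc r).aestronglyMeasurable B (ae_of_all _ fun p => hB _))
      ?_ ?_ ?_ (ae_of_all _ fun p s _ => hd s p)).2
    · have := hw.continuous_fderiv one_ne_zero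
      refine Continuous.aestronglyMeasurable ?_
      unfold lpt
      fun_prop
    · refine ae_of_all _ fun p s hs => ?_
      refine (ContinuousLinearMap.le_opNorm _ _).trans ?_
      rw [mul_assoc L]
      refine mul_le_mul (hL _) ?_ (norm_nonneg _) hL0
      refine (norm_sub_le _ _).trans ?_
      rw [norm_smul, norm_smul, norm_eq_abs, norm_eq_abs, abs_of_nonneg (sqrt_nonneg _), add_mul]
      refine add_le_add (mul_le_mul_of_nonneg_left ?_ (sqrt_nonneg _)) ?_
      · nlinarith [norm_nonneg p.1, norm_nonneg p.2]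
      · rw [mul_assoc (4 * τ)]
        refine mul_le_mul ?_ ((norm_drift_le h p.1).trans ?_) (norm_nonneg _) (by positivity)
        · rw [abs_mul, abs_mul, abs_two, abs_of_nonneg hτ]
          have : |s| ≤ 2 := abs_le.2 ⟨by linarith [hs.1], hs.2⟩
          nlinarith
        · exact mul_le_mul_of_nonneg_left (le_mul_of_one_le_right (by positivity)
            (by linarith [norm_nonneg p.2])) (by linarith)
    · exact integrable_pair_of_growth h (by fun_prop) (K := L * (σ + 4 * τ * (2 + r0)))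
        fun p => le_of_eq (abs_of_nonneg (by positivity))
  have hbound : ∀ r ∈ Ico (0 : ℝ) 1,
      ‖∫ p, fderiv ℝ w (lpt g τ σ r p) (σ • p.2 - (2 * r * τ) • (p.1 + g p.1)) ∂ν‖
        ≤ 4 * L * √(d : ℝ) * (τ * √τ) := by
    intro r hr'
    rw [deriv_lpt h hw hB hL τ σ r hσ, norm_eq_abs, abs_mul, abs_mul, abs_of_nonneg (sqrt_nonneg _),
      abs_of_nonneg (by positivity : 0 ≤ r ^ 2 * τ)]
    have h1 : |∫ p, fderiv ℝ w (lpt g τ σ r p) (fderiv ℝ (fun x => x + g x) p.1 p.2) ∂ν|
        ≤ L * 2 * √(d : ℝ) := by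
      rw [← norm_eq_abs]
      refine (norm_integral_le_of_norm_le
        (((integrable_gau_nrm (ι := Fin d)).comp_snd (tilt R)).const_mul (L * 2))
        (ae_of_all _ fun p => ?_)).trans ?_
      · refine (ContinuousLinearMap.le_opNorm _ _).trans ?_
        rw [mul_assoc]
        exact mul_le_mul (hL _) (((fderiv ℝ _ p.1).le_opNorm _).trans (mul_le_mul_of_nonneg_right
          (norm_fderiv_drift_le h p.1) (norm_nonneg _))) (norm_nonneg _) hL0
      · rw [integral_const_mul, integral_fun_snd (fun x : E d => ‖x‖)]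
        refine mul_le_mul_of_nonneg_left ?_ (by positivity)
        simpa using integral_gau_norm (ι := Fin d)
    have h2 : r ^ 2 * τ ≤ τ := mul_le_of_le_one_left hτ (pow_le_one₀ hr'.1 hr'.2.le)
    calc σ * (r ^ 2 * τ) * |_| ≤ 2 * √τ * τ * (L * 2 * √(d : ℝ)) :=
          mul_le_mul (mul_le_mul hσ2 h2 (by positivity) (by positivity)) h1 (abs_nonneg _)
            (by positivity)
      _ = _ := by ring
  have main := norm_image_sub_le_of_norm_deriv_le_segment_01'
    (fun r hr => (hder r hr).hasDerivWithinAt) hbound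
  have e1 : ∫ p, w (lpt g τ σ 1 p) ∂ν = ∫ z, Psm (2 * τ) w (z - τ • (z + g z)) ∂tilt R := by
    rw [integral_prod _ (Integrable.of_bound (hc 1).aestronglyMeasurable B
      (ae_of_all _ fun p => hB _))]
    simp [lpt, Psm, hσd]
  have e0 : ∫ p, w (lpt g τ σ 0 p) ∂ν = ∫ z, w z ∂tilt R := by
    simp only [lpt]
    simp [ν, integral_fun_fst (fun z : E d => w z)]
  rw [norm_eq_abs, e1, e0] at main
  exact main

/-! ## Synchronous steps -/

variable {V : E d → ℝ} {η τ L B : ℝ}

/-- The mean of one Langevin step for the restricted Gaussian oracle at `y`. -/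
def lmean (V : E d → ℝ) (η τ : ℝ) (y x : E d) : E d :=
  (1 - τ) • x + (τ * (kap η)⁻¹) • y - (τ * var' η) • restGrad V x

/-- One Langevin step on a test function. -/
def lop (V : E d → ℝ) (η τ : ℝ) (y : E d) (u : E d → ℝ) (x : E d) : ℝ :=
  Psm (2 * τ * var' η) u (lmean V η τ y x)

lemma lmean_eq (hη : 0 < η) (y z : E d) :
    lmean V η τ y (cen V η y 4 + √(var' η) • z) =
      cen V η y 4 + √(var' η) • (z - τ • (z + unitG V η y z)) := by
  have e2 : (kap η)⁻¹ • y = cen V η y 4 + var' η • restGrad V (cen V η y 3) := by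
    rw [cen_succ V η y 3, sub_add_cancel]
  have hs : √(var' η) * √(var' η) = var' η := Real.mul_self_sqrt (var'_pos hη).le
  simp only [lmean, unitG, ← smul_smul τ, e2]
  generalize √(var' η) = r at hs ⊢
  rw [← hs]
  module

/-- A test function: continuously differentiable, bounded and Lipschitz. -/
structure Nice (u : E d → ℝ) (B L : ℝ) : Prop where
  smooth : ContDiff ℝ 1 u
  bdd : ∀ x, |u x| ≤ B
  lip : ∀ a b, |u a - u b| ≤ L * ‖a - b‖

lemma Nice.nonneg {u : E d → ℝ} (h : Nice u B L) : 0 ≤ B := (abs_nonneg _).trans (h.bdd 0)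

lemma Nice.norm_fderiv {u : E d → ℝ} (h : Nice u B L) (hL : 0 ≤ L) (x : E d) :
    ‖fderiv ℝ u x‖ ≤ L :=
  norm_fderiv_le_of_lip' ℝ hL (Eventually.of_forall fun z => by simpa using h.lip z x)

lemma Psm_lip {t : ℝ} {u : E d → ℝ} (hu : Measurable u) (hB : ∀ x, |u x| ≤ B)
    (hL : ∀ a b, |u a - u b| ≤ L * ‖a - b‖) (a b : E d) :
    |Psm t u a - Psm t u b| ≤ L * ‖a - b‖ := by
  have hi : ∀ x, Integrable (fun g => u (x + √t • g)) (gau (Fin d)) := fun x =>
    integrable_slice hu (fun x => by simpa using hB x) x √t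
  rw [Psm, Psm, ← integral_sub (hi a) (hi b), ← norm_eq_abs]
  refine (norm_integral_le_of_norm_le_const (C := L * ‖a - b‖) (ae_of_all _ fun z => ?_)).trans_eq
    (by simp)
  simpa [add_sub_add_right_eq_sub] using hL (a + √t • z) (b + √t • z)

lemma norm_lmean_sub_le (hV : InClass d V) (hη : 0 < η) (hτ : 0 ≤ τ) (hτ1 : τ ≤ 1)
    (y y' a b : E d) :
    ‖lmean V η τ y a - lmean V η τ y' b‖
      ≤ (1 - τ * (1 - var' η / 2)) * ‖a - b‖ + τ * (kap η)⁻¹ * ‖y - y'‖ := by
  have hk := (kap_pos hη).le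
  have hs := (var'_pos hη).le
  have e : lmean V η τ y a - lmean V η τ y' b = (1 - τ) • (a - b) + (τ * (kap η)⁻¹) • (y - y')
      - (τ * var' η) • (restGrad V a - restGrad V b) := by
    simp only [lmean]
    module
  rw [e]
  refine (norm_sub_le _ _).trans ?_
  refine (add_le_add (norm_add_le _ _) le_rfl).trans ?_
  rw [norm_smul, norm_smul, norm_smul, norm_eq_abs, norm_eq_abs, norm_eq_abs,
    abs_of_nonneg (sub_nonneg.2 hτ1), abs_of_nonneg (by positivity : 0 ≤ τ * (kap η)⁻¹),
    abs_of_nonneg (by positivity : 0 ≤ τ * var' η)]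
  nlinarith [mul_le_mul_of_nonneg_left (restGrad_lip hV a b) (mul_nonneg hτ hs)]

section steps

variable (hV : InClass d V) (hη : 0 < η) (hη' : η ≤ 1 / 64) (hτ : 0 < τ) (hτ1 : τ ≤ 1)

set_option linter.unusedSectionVars false

include hV hη hη' hτ hτ1

lemma rate_mem : (1 - τ * (1 - var' η / 2)) ∈ Icc (0 : ℝ) 1 := by
  have h1 := var'_pos hη
  have h2 := var'_le hη
  constructor <;> nlinarith

lemma nice_lop {u : E d → ℝ} (hu : Nice u B L) (hL : 0 ≤ L) (y : E d) :
    Nice (lop V η τ y u) B ((1 - τ * (1 - var' η / 2)) * L) := by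
  have hs : 0 < 2 * τ * var' η := mul_pos (by linarith) (var'_pos hη)
  have hm := hu.smooth.continuous.measurable
  refine ⟨?_, fun x => abs_Psm_le hu.bdd _, fun a b => ?_⟩
  · refine ((contDiff_Psm hs hm (K := B) fun x => by simpa using hu.bdd x).of_le one_le_two).comp ?_
    have := contDiff_restGrad hV
    unfold lmean
    fun_prop
  · refine (Psm_lip hm hu.bdd hu.lip _ _).trans ?_
    have := norm_lmean_sub_le hV hη hτ.le hτ1 y y a b
    rw [sub_self, norm_zero, mul_zero, add_zero] at this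
    calc L * ‖_‖ ≤ L * ((1 - τ * (1 - var' η / 2)) * ‖a - b‖) := mul_le_mul_of_nonneg_left this hL
      _ = _ := by ring

lemma nice_iter {u : E d → ℝ} (hu : Nice u B L) (hL : 0 ≤ L) (y : E d) : ∀ k,
    Nice ((lop V η τ y)^[k] u) B ((1 - τ * (1 - var' η / 2)) ^ k * L)
  | 0 => by simpa using hu
  | k + 1 => by
    have h := nice_lop hV hη hη' hτ hτ1 (nice_iter hu hL y k)
      (mul_nonneg (pow_nonneg (rate_mem hV hη hη' hτ hτ1).1 k) hL) y
    rw [← Function.iterate_succ_apply' (lop V η τ y) k u, ← mul_assoc, ← pow_succ'] at h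
    exact h

lemma abs_oracle_lop_le {u : E d → ℝ} (hu : Nice u B L) (hL : 0 ≤ L) (y : E d) :
    |oracleMean V η (lop V η τ y u) y - oracleMean V η u y| ≤ 4 * L * √(d : ℝ) * (τ * √τ) := by
  set c := cen V η y 4
  set r := √(var' η) with hr
  have hr0 : 0 ≤ r := sqrt_nonneg _
  have hr1 : r ≤ 1 := sqrt_le_one.2 (by linarith [var'_le hη])
  have hP := pot_unit hV hη hη' y
  have hw : ContDiff ℝ 1 fun z => u (c + r • z) := hu.smooth.comp (by fun_prop)
  have hwL : ∀ z, ‖fderiv ℝ (fun z => u (c + r • z)) z‖ ≤ L := fun z =>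
    norm_fderiv_le_of_lip' ℝ hL (Eventually.of_forall fun x => by
      refine (hu.lip _ _).trans (mul_le_mul_of_nonneg_left ?_ hL)
      rw [add_sub_add_left_eq_sub, ← smul_sub, norm_smul, norm_eq_abs, abs_of_nonneg hr0]
      exact mul_le_of_le_one_left (norm_nonneg _) hr1)
  have h := tilt_step_le hP hw (fun z => hu.bdd _) hwL hτ.le
  have e : ∀ z, lop V η τ y u (c + r • z) =
      Psm (2 * τ) (fun z => u (c + r • z)) (z - τ • (z + unitG V η y z)) := fun z => by
    simp only [lop, Psm, c, hr, lmean_eq hη]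
    refine integral_congr_ae (ae_of_all _ fun g => ?_)
    simp only
    congr 1
    rw [sqrt_mul (by linarith : (0 : ℝ) ≤ 2 * τ), mul_comm √(2 * τ), ← smul_smul, add_assoc,
      ← smul_add]
  simp only [oracleMean]
  change |(∫ z, lop V η τ y u (c + r • z) ∂tilt (unitR V η y)) - ∫ z, u (c + r • z) ∂_| ≤ _
  simp only [e]
  exact h

/-- The law of the oracle is almost fixed by many steps. -/
lemma abs_oracle_iter_le {u : E d → ℝ} (hu : Nice u B L) (hL : 0 ≤ L) (y : E d) : ∀ k : ℕ,
    |oracleMean V η ((lop V η τ y)^[k] u) y - oracleMean V η u y|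
      ≤ k * (4 * L * √(d : ℝ) * (τ * √τ))
  | 0 => by simp
  | k + 1 => by
    have h0 := (rate_mem hV hη hη' hτ hτ1).1
    have h1 := abs_oracle_lop_le hV hη hη' hτ hτ1 (nice_iter hV hη hη' hτ hτ1 hu hL y k)
      (mul_nonneg (pow_nonneg h0 k) hL) y
    have h2 : (1 - τ * (1 - var' η / 2)) ^ k * L ≤ L :=
      mul_le_of_le_one_left hL (pow_le_one₀ h0 (rate_mem hV hη hη' hτ hτ1).2)
    rw [Function.iterate_succ_apply']
    refine (abs_sub_le _ (oracleMean V η ((lop V η τ y)^[k] u) y) _).trans ?_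
    have h3 := abs_oracle_iter_le hu hL y k
    push_cast
    have h4 : 4 * ((1 - τ * (1 - var' η / 2)) ^ k * L) * √(d : ℝ) * (τ * √τ)
        ≤ 4 * L * √(d : ℝ) * (τ * √τ) := by gcongr
    linarith

/-- Synchronous steps for two centres stay at the distance of the centres over `1 + η`. -/
lemma abs_iter_sub_le {u : E d → ℝ} (hu : Nice u B L) (hL : 0 ≤ L) (y y' : E d) : ∀ (k : ℕ) x,
    |(lop V η τ y)^[k] u x - (lop V η τ y')^[k] u x|
      ≤ L * ‖y - y'‖ / (1 + η) * (1 - (1 - τ * (1 - var' η / 2)) ^ k)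
  | 0, x => by simp
  | k + 1, x => by
    set ρ := 1 - τ * (1 - var' η / 2) with hρ
    set a := (lop V η τ y)^[k] u
    set b := (lop V η τ y')^[k] u
    have hρ0 := (rate_mem hV hη hη' hτ hτ1).1
    have ha := nice_iter hV hη hη' hτ hτ1 hu hL y k
    have hb := nice_iter hV hη hη' hτ hτ1 hu hL y' k
    have hbm := hb.smooth.continuous.measurable
    have ih := abs_iter_sub_le hu hL y y' k
    set t := 2 * τ * var' η
    set m := lmean V η τ y x
    have h1 : |Psm t a m - Psm t b m| ≤ L * ‖y - y'‖ / (1 + η) * (1 - ρ ^ k) := by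
      rw [Psm, Psm, ← integral_sub
        (integrable_slice ha.smooth.continuous.measurable (fun z => by simpa using ha.bdd z) m √t)
        (integrable_slice hbm (fun z => by simpa using hb.bdd z) m √t), ← norm_eq_abs]
      exact (norm_integral_le_of_norm_le_const (ae_of_all _ fun z => by
        simpa using ih (m + √t • z))).trans_eq (by simp [ρ])
    have h2 : |Psm t b m - Psm t b (lmean V η τ y' x)|
        ≤ ρ ^ k * L * (τ * (kap η)⁻¹ * ‖y - y'‖) := by
      refine (Psm_lip hbm hb.bdd hb.lip _ _).trans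
        (mul_le_mul_of_nonneg_left ?_ (mul_nonneg (pow_nonneg hρ0 k) hL))
      have := norm_lmean_sub_le hV hη hτ.le hτ1 y y' x x
      rw [sub_self, norm_zero, mul_zero, zero_add] at this
      exact this
    rw [Function.iterate_succ_apply', Function.iterate_succ_apply']
    refine (abs_sub_le _ (Psm t b m) _).trans ((add_le_add h1 h2).trans (le_of_eq ?_))
    have hk := (kap_pos hη).ne'
    have he : (1 : ℝ) + η ≠ 0 := by linarith
    rw [pow_succ]
    simp only [ρ, var']
    field_simp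
    simp only [kap]
    ring

end steps

/-- The oracle mean of a constant. -/
lemma integrable_tilt_unit (hV : InClass d V) (hη : 0 < η) (hη' : η ≤ 1 / 64) (y : E d)
    {ψ : E d → ℝ} (hψ : Continuous ψ) (hB : ∀ x, |ψ x| ≤ B) :
    Integrable (fun z => ψ (cen V η y 4 + √(var' η) • z)) (tilt (unitR V η y)) :=
  (pot_unit hV hη hη' y).integrable_tilt (by fun_prop) B 0 fun z => by
    simpa using hB _

/-- The restricted Gaussian oracle contracts by `1 + η`. -/
theorem oracle_lip (hV : InClass d V) (hη : 0 < η) (hη' : η ≤ 1 / 64) {u : E d → ℝ}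
    (hu : Nice u B L) (hL : 0 ≤ L) (y y' : E d) :
    |oracleMean V η u y - oracleMean V η u y'| ≤ L / (1 + η) * ‖y - y'‖ := by
  have hY : ∀ y : E d, ∃ Y, ∀ (ψ : E d → ℝ) (K : ℝ), Nice ψ B K → 0 ≤ K →
      |oracleMean V η ψ y - ψ 0| ≤ K * Y := fun y => by
    have hP := pot_unit hV hη hη' y
    have := hP.isProb
    refine ⟨∫ z, ‖cen V η y 4 + √(var' η) • z‖ ∂tilt (unitR V η y), fun ψ K hψ hK => ?_⟩
    have i1 := integrable_tilt_unit hV hη hη' y hψ.smooth.continuous hψ.bdd
    have i2 : Integrable (fun z => K * ‖cen V η y 4 + √(var' η) • z‖) (tilt (unitR V η y)) :=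
      (hP.integrable_tilt (by fun_prop) (‖cen V η y 4‖ + √(var' η)) 1 fun z => by
        rw [norm_norm, pow_one]
        refine (norm_add_le _ _).trans ?_
        rw [norm_smul, norm_eq_abs, abs_of_nonneg (sqrt_nonneg _)]
        nlinarith [norm_nonneg z, norm_nonneg (cen V η y 4), sqrt_nonneg (var' η)]).const_mul K
    have e : oracleMean V η ψ y - ψ 0
        = ∫ z, (ψ (cen V η y 4 + √(var' η) • z) - ψ 0) ∂tilt (unitR V η y) := by
      rw [integral_sub i1 (integrable_const _), integral_const, probReal_univ, one_smul]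
      rfl
    rw [e, ← norm_eq_abs, ← integral_const_mul]
    refine norm_integral_le_of_norm_le i2 (ae_of_all _ fun z => ?_)
    simpa using hψ.lip (cen V η y 4 + √(var' η) • z) 0
  obtain ⟨Y, hY1⟩ := hY y
  obtain ⟨Y', hY2⟩ := hY y'
  set D := L / (1 + η) * ‖y - y'‖
  set c := 4 * L * √(d : ℝ)
  have key : ∀ m : ℕ, 1 ≤ m →
      |oracleMean V η u y - oracleMean V η u y'|
        ≤ D + (2 * c * (1 / √(m : ℝ)) + 2 * L * (|Y| + |Y'|) * (1 / (m : ℝ))) := by
    intro m hm
    have hm0 : (0 : ℝ) < m := by exact_mod_cast hm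
    set τ := 1 / (m : ℝ) ^ 3 with hτd
    set n := m ^ 4
    have hτ : 0 < τ := by positivity
    have hτ1 : τ ≤ 1 := (div_le_one (by positivity)).2 (one_le_pow₀ (by exact_mod_cast hm))
    set ρ := 1 - τ * (1 - var' η / 2) with hρ
    obtain ⟨hρ0, hρ1⟩ := rate_mem hV hη hη' hτ hτ1
    have hnτ : (n : ℝ) * τ = m := by simp only [n, hτd, Nat.cast_pow]; field_simp
    have hsm : √τ = 1 / ((m : ℝ) * √m) := by
      rw [hτd, sqrt_eq_iff_mul_self_eq (by positivity) (by positivity)]
      field_simp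
      rw [sq_sqrt hm0.le]
    have hstep : (n : ℝ) * (c * (τ * √τ)) = c * (1 / √(m : ℝ)) := by
      calc (n : ℝ) * (c * (τ * √τ)) = c * ((n * τ) * √τ) := by ring
        _ = _ := by rw [hnτ, hsm]; field_simp
    have hdecay : ρ ^ n ≤ 2 * (1 / (m : ℝ)) := by
      have h1 : ρ ≤ exp (-(τ * (1 - var' η / 2))) := by
        linarith [add_one_le_exp (-(τ * (1 - var' η / 2)))]
      refine (pow_le_pow_left₀ hρ0 h1 n).trans ?_
      rw [← exp_nat_mul, mul_neg, ← mul_assoc, hnτ]
      have hs := var'_le hη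
      have h2 : exp (-((m : ℝ) * (1 - var' η / 2))) ≤ exp (-((m : ℝ) / 2)) :=
        exp_le_exp.2 (by nlinarith)
      refine h2.trans ?_
      rw [exp_neg, mul_one_div, inv_le_comm₀ (exp_pos _) (by positivity), inv_div]
      linarith [add_one_le_exp ((m : ℝ) / 2)]
    have a1 := abs_le.1 (abs_oracle_iter_le hV hη hη' hτ hτ1 hu hL y n)
    have a2 := abs_le.1 (abs_oracle_iter_le hV hη hη' hτ hτ1 hu hL y' n)
    have hK : 0 ≤ ρ ^ n * L := mul_nonneg (pow_nonneg hρ0 n) hL
    have b1 := abs_le.1 ((hY1 _ _ (nice_iter hV hη hη' hτ hτ1 hu hL y n) hK).trans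
      (mul_le_mul_of_nonneg_left (le_abs_self Y) hK))
    have b2 := abs_le.1 ((hY2 _ _ (nice_iter hV hη hη' hτ hτ1 hu hL y' n) hK).trans
      (mul_le_mul_of_nonneg_left (le_abs_self Y') hK))
    have c1 := abs_le.1 ((abs_iter_sub_le hV hη hη' hτ hτ1 hu hL y y' n 0).trans
      (mul_le_of_le_one_right (by positivity) (by linarith [pow_nonneg hρ0 n])))
    rw [hstep] at a1 a2
    have d1 := mul_le_mul_of_nonneg_right hdecay (mul_nonneg hL (abs_nonneg Y))
    have d2 := mul_le_mul_of_nonneg_right hdecay (mul_nonneg hL (abs_nonneg Y'))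
    have eD : L * ‖y - y'‖ / (1 + η) = D := by simp only [D]; ring
    rw [eD] at c1
    rw [abs_le]
    constructor <;> linarith [a1.1, a1.2, a2.1, a2.2, b1.1, b1.2, b2.1, b2.2, c1.1, c1.2]
  have hlim : Tendsto (fun m : ℕ =>
      D + (2 * c * (1 / √(m : ℝ)) + 2 * L * (|Y| + |Y'|) * (1 / (m : ℝ)))) atTop (𝓝 D) := by
    have h1 : Tendsto (fun m : ℕ => 1 / √(m : ℝ)) atTop (𝓝 0) :=
      tendsto_const_nhds.div_atTop (tendsto_sqrt_atTop.comp tendsto_natCast_atTop_atTop)
    have h2 : Tendsto (fun m : ℕ => 1 / (m : ℝ)) atTop (𝓝 0) := tendsto_one_div_atTop_nhds_zero_nat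
    simpa using tendsto_const_nhds.add ((h1.const_mul (2 * c)).add
      (h2.const_mul (2 * L * (|Y| + |Y'|))))
  exact ge_of_tendsto hlim (eventually_atTop.2 ⟨1, key⟩)

end Vale.Agent.P347.Asm0
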