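import Vale.Agent.P347.Target
import Vale.Agent.P347.Params
import Vale.Agent.P347.AlgChain
import Vale.Agent.P347Zero.Langevin

/-!
P347: the conditional top level. A step of `O(d ^ ε)` queries which reproduces the restricted
Gaussian oracle on Lipschitz test functions up to an arbitrary negative power of `d` makes the
dimension exponent zero: the chain is compared with the exact kernel, whose iterates contract by
`1 + η` after one smoothing.
-/

open MeasureTheory ProbabilityTheory WithLp Real Set Filter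
open scoped RealInnerProductSpace Gradient Topology

noncomputable section

namespace Vale.Agent.P347

/-- A step made of `q` queries whose random map reproduces the restricted Gaussian oracle at `η`
on bounded `1`-Lipschitz test functions up to `e (1 + ‖y‖)²`. -/
structure StepAt (d q : ℕ) (η e : ℝ) where
  /-- The space of seeds. -/
  S : Type
  /-- Its measurable structure. -/
  inst : MeasurableSpace S
  /-- The law of the seeds. -/
  law : Measure S
  /-- It is a probability law. -/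
  isProb : IsProbabilityMeasure law
  /-- The random map. -/
  F : (E d → ℝ) → E d → S → E d
  meas : ∀ V, ContDiff ℝ 2 V → Measurable fun p : E d × S => F V p.1 p.2
  samp : ∀ (q₀ : ℕ) (L : (E d → ℝ) → Measure (E d)), Samp d q₀ L →
    Samp d (q₀ + q) fun V => ((L V).prod law).map fun p => F V p.1 p.2
  err : ∀ V, InClass d V → ∀ (v : E d → ℝ) (y : E d), ContDiff ℝ 1 v → (∃ B, ∀ x, |v x| ≤ B) →
    (∀ x, ‖fderiv ℝ v x‖ ≤ 1) →
    |(∫ p, v (F V y p) ∂law) - oracleMean V η v y| ≤ e * (1 + ‖y‖) ^ 2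

/-- For every `ε` and `M` there are steps at `η = d ^ (-ε)` with `O(d ^ ε)` queries and error
`d ^ (-M)`, for all large `d`. -/
def StepZero : Prop :=
  ∀ ε : ℝ, 0 < ε → ∀ M : ℕ, ∃ C : ℝ, ∀ᶠ d : ℕ in atTop, ∃ q : ℕ,
    (q : ℝ) ≤ C * (d : ℝ) ^ ε ∧ Nonempty (StepAt d q (etaOf ε d) (((d : ℝ) ^ M)⁻¹))

/-- A composable random map with seeds in a standard Borel space gives a step. -/
theorem nonempty_stepAt_of_comp {d q : ℕ} {η e : ℝ} {S : Type} [MeasurableSpace S]
    [StandardBorelSpace S] (law : Measure S) [IsProbabilityMeasure law]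
    (F : (E d → ℝ) → E d → S → E d)
    (hC : Comp d q fun V (p : E d × S) => F V p.1 p.2)
    (herr : ∀ V, InClass d V → ∀ (v : E d → ℝ) (y : E d), ContDiff ℝ 1 v →
      (∃ B, ∀ x, |v x| ≤ B) → (∀ x, ‖fderiv ℝ v x‖ ≤ 1) →
      |(∫ p, v (F V y p) ∂law) - oracleMean V η v y| ≤ e * (1 + ‖y‖) ^ 2) :
    Nonempty (StepAt d q η e) :=
  ⟨⟨S, inferInstance, law, inferInstance, F, hC.1, fun _ _ h => hC.apply (h.rand law), herr⟩⟩

attribute [instance] StepAt.inst StepAt.isProb

namespace Asm0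

variable {d q : ℕ} {η e t R L : ℝ} {V : E d → ℝ} {f : E d → ℝ}

/-- The exact kernel on test functions. -/
def pOp (V : E d → ℝ) (η : ℝ) (f : E d → ℝ) : E d → ℝ := oracleMean V η (Psm η f)

/-- The smoothing of a bounded function is a test function. -/
lemma nice_Psm (ht : 0 < t) (hf : Measurable f) (hf1 : ∀ x, |f x| ≤ 1) :
    Nice (Psm t f) 1 (1 / √t) := by
  have hc := contDiff_Psm ht hf (K := 1) fun x => by simpa using hf1 x
  refine ⟨hc.of_le one_le_two, abs_Psm_le hf1, fun a b => ?_⟩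
  rw [← norm_eq_abs]
  exact Convex.norm_image_sub_le_of_norm_fderiv_le (𝕜 := ℝ)
    (fun z _ => hc.differentiable two_ne_zero z)
    (fun z _ => norm_fderiv_Psm_le ht hf (fun x => by simpa using hf1 x) z) convex_univ
    (mem_univ b) (mem_univ a)

/-- The smoothing of a bounded Lipschitz function is a test function. -/
lemma nice_Psm_lip (ht : 0 < t) (hf : Measurable f) (hf1 : ∀ x, |f x| ≤ 1)
    (hL : ∀ a b, |f a - f b| ≤ L * ‖a - b‖) : Nice (Psm t f) 1 L :=
  ⟨(nice_Psm ht hf hf1).smooth, abs_Psm_le hf1, Psm_lip hf hf1 hL⟩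

section kernel

variable (hV : InClass d V) (hη : 0 < η) (hη' : η ≤ 1 / 64)

include hV hη hη'

lemma pOp_spec (hf : Measurable f) (hf1 : ∀ x, |f x| ≤ 1) :
    Measurable (pOp V η f) ∧ ∀ x, |pOp V η f x| ≤ 1 :=
  ⟨measurable_oracleMean hV hη hη' (nice_Psm hη hf hf1).smooth.continuous,
    abs_oracleMean_le hV hη hη' (abs_Psm_le hf1)⟩

lemma iter_spec (hf : Measurable f) (hf1 : ∀ x, |f x| ≤ 1) : ∀ k,
    Measurable ((pOp V η)^[k] f) ∧ ∀ x, |(pOp V η)^[k] f x| ≤ 1
  | 0 => ⟨hf, hf1⟩
  | k + 1 => by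
    rw [Function.iterate_succ_apply']
    exact pOp_spec hV hη hη' (iter_spec hf hf1 k).1 (iter_spec hf hf1 k).2

/-- After one smoothing the iterates of the exact kernel contract. -/
lemma iter_lip (hf : Measurable f) (hf1 : ∀ x, |f x| ≤ 1) : ∀ (k : ℕ) (a b : E d),
    |(pOp V η)^[k + 1] f a - (pOp V η)^[k + 1] f b|
      ≤ 1 / √η * (1 / (1 + η)) ^ (k + 1) * ‖a - b‖
  | 0, a, b => by
    have h := oracle_lip hV hη hη' (nice_Psm hη hf hf1) (by positivity) a b
    simpa [pOp, div_eq_mul_inv] using h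
  | k + 1, a, b => by
    obtain ⟨hm, hb⟩ := iter_spec hV hη hη' hf hf1 (k + 1)
    rw [Function.iterate_succ_apply' (pOp V η) (k + 1)]
    refine (oracle_lip hV hη hη' (nice_Psm_lip hη hm hb (iter_lip hf hf1 k))
      (by positivity) a b).trans_eq ?_
    ring

/-- The blurred Gibbs law is invariant. -/
lemma integral_pOp (hf : Measurable f) (hf1 : ∀ x, |f x| ≤ 1) :
    ∫ y, pOp V η f y ∂noisyGibbs V η = ∫ x, f x ∂noisyGibbs V η :=
  (gibbs_disintegration hV hη hη' (nice_Psm hη hf hf1).smooth.continuous (abs_Psm_le hf1)).trans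
    (integral_Psm_gibbs (isProb_gibbs hV) hf hf1)

lemma integral_iter (hf : Measurable f) (hf1 : ∀ x, |f x| ≤ 1) : ∀ k,
    ∫ y, (pOp V η)^[k] f y ∂noisyGibbs V η = ∫ x, f x ∂noisyGibbs V η
  | 0 => rfl
  | k + 1 => by
    rw [Function.iterate_succ_apply', integral_pOp hV hη hη' (iter_spec hV hη hη' hf hf1 k).1
      (iter_spec hV hη hη' hf hf1 k).2, integral_iter hf hf1 k]

/-- The exact kernel forgets the start. -/
lemma iter_start (hf : Measurable f) (hf1 : ∀ x, |f x| ≤ 1) {n : ℕ} (hn : 1 ≤ n) :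
    |(pOp V η)^[n] f 0 - ∫ x, f x ∂noisyGibbs V η|
      ≤ 1 / √η * (1 / (1 + η)) ^ n * √(2 * (d : ℝ)) := by
  obtain ⟨k, rfl⟩ := Nat.exists_eq_add_of_le' hn
  have := isProb_noisyGibbs hV η
  set u := (pOp V η)^[k + 1] f with hu
  obtain ⟨hm, hb⟩ := iter_spec hV hη hη' hf hf1 (k + 1)
  set K := 1 / √η * (1 / (1 + η)) ^ (k + 1)
  have hn1 : Integrable (fun y : E d => ‖y‖) (noisyGibbs V η) :=
    ((integrable_const (1 : ℝ)).add (integrable_norm_sq_noisyGibbs hV η)).mono' (by fun_prop)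
      (ae_of_all _ fun y => by
        simp only [norm_eq_abs, abs_norm, Pi.add_apply]
        nlinarith [sq_nonneg (‖y‖ - 1), norm_nonneg y])
  rw [← integral_iter hV hη hη' hf hf1 (k + 1), ← hu]
  have hiu : Integrable u (noisyGibbs V η) :=
    Integrable.of_bound hm.aestronglyMeasurable 1 (ae_of_all _ fun x => hb x)
  have e : u 0 - ∫ y, u y ∂noisyGibbs V η = ∫ y, (u 0 - u y) ∂noisyGibbs V η := by
    rw [integral_sub (integrable_const _) hiu, integral_const, probReal_univ, one_smul]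
  rw [e, ← norm_eq_abs]
  refine (norm_integral_le_of_norm_le (hn1.const_mul K) (ae_of_all _ fun y => ?_)).trans ?_
  · have h0 := iter_lip hV hη hη' hf hf1 k 0 y
    rw [zero_sub, norm_neg] at h0
    exact h0
  · rw [integral_const_mul]
    refine mul_le_mul_of_nonneg_left (Real.le_sqrt_of_sq_le ?_) (by positivity)
    exact (sq_integral_le hn1 (integrable_norm_sq_noisyGibbs hV η)).trans
      (integral_norm_sq_noisyGibbs_le hV hη hη')

end kernel

/-! ## The chain of a step -/

/-- The random map followed by noise of variance `t`. -/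
def nextLaw (St : StepAt d q η e) (t : ℝ) (V : E d → ℝ) (μ : Measure (E d)) : Measure (E d) :=
  (((μ.prod St.law).map fun p => St.F V p.1 p.2).prod (gau (Fin d))).map fun p => p.1 + √t • p.2

/-- The chain from the origin. -/
def lawAt (St : StepAt d q η e) (V : E d → ℝ) : ℕ → Measure (E d)
  | 0 => Measure.dirac 0
  | k + 1 => nextLaw St η V (lawAt St V k)

lemma samp_nextLaw (St : StepAt d q η e) (t : ℝ) {q₀ : ℕ} {L : (E d → ℝ) → Measure (E d)}
    (h : Samp d q₀ L) : Samp d (q₀ + q) fun V => nextLaw St t V (L V) :=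
  ((St.samp q₀ L h).rand (gau (Fin d))).map (by fun_prop)

lemma samp_lawAt (St : StepAt d q η e) : ∀ k, Samp d (k * q) fun V => lawAt St V k
  | 0 => by simpa only [zero_mul, lawAt] using Samp.pure (Measure.dirac (0 : E d))
  | k + 1 => by
    rw [Nat.succ_mul]
    exact samp_nextLaw St η (samp_lawAt St k)

/-- The cap used to control the moments of the chain. -/
def capG (R : ℝ) (y : E d) : ℝ := min 1 ((1 + ‖y‖) / R)

lemma capG_spec (hR : 0 < R) :
    Measurable (capG (d := d) R) ∧ (∀ y : E d, |capG R y| ≤ 1) ∧ (∀ y : E d, 0 ≤ capG R y) ∧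
      ∀ a b : E d, |capG R a - capG R b| ≤ R⁻¹ * ‖a - b‖ := by
  have h0 : ∀ y : E d, 0 ≤ capG R y := fun y => le_min zero_le_one (by positivity)
  refine ⟨Continuous.measurable (by unfold capG; fun_prop),
    fun y => by rw [abs_of_nonneg (h0 y)]; exact min_le_left _ _, h0, fun a b => ?_⟩
  refine (abs_min_sub_min_le_max _ _ _ _).trans ?_
  rw [sub_self, abs_zero, ← sub_div, add_sub_add_left_eq_sub, abs_div, abs_of_pos hR,
    inv_mul_eq_div]
  exact max_le (by positivity) (by gcongr; exact abs_norm_sub_norm_le a b)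

section chain

set_option linter.unusedSectionVars false

variable (St : StepAt d q η e) (hV : InClass d V) (hd : 0 < d) (hη : 0 < η) (hη' : η ≤ 1 / 64)
  (he : 0 ≤ e) (hR : 1 ≤ R)

include hV

lemma measurable_F : Measurable fun p : E d × St.S => St.F V p.1 p.2 := St.meas V hV.1

lemma isProb_nextLaw (t : ℝ) (μ : Measure (E d)) [IsProbabilityMeasure μ] :
    IsProbabilityMeasure (nextLaw St t V μ) := by
  have : IsProbabilityMeasure ((μ.prod St.law).map fun p => St.F V p.1 p.2) :=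
    Measure.isProbabilityMeasure_map (measurable_F St hV).aemeasurable
  exact Measure.isProbabilityMeasure_map (by fun_prop)

lemma isProb_lawAt : ∀ k, IsProbabilityMeasure (lawAt St V k)
  | 0 => by unfold lawAt; infer_instance
  | k + 1 => by
    have := isProb_lawAt k
    exact isProb_nextLaw St hV η (lawAt St V k)

lemma transOp_spec {v : E d → ℝ} (hv : Measurable v) (hv1 : ∀ x, |v x| ≤ 1) :
    Measurable (transOp St.law (St.F V) v) ∧ ∀ y, |transOp St.law (St.F V) v y| ≤ 1 :=
  ⟨(hv.comp (measurable_F St hV)).stronglyMeasurable.integral_prod_right'.measurable,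
    fun _ => abs_integral_le_one fun _ => hv1 _⟩

lemma integral_nextLaw (t : ℝ) (μ : Measure (E d)) [IsProbabilityMeasure μ] (hf : Measurable f)
    (hf1 : ∀ x, |f x| ≤ 1) :
    ∫ x, f x ∂nextLaw St t V μ = ∫ y, transOp St.law (St.F V) (Psm t f) y ∂μ := by
  have hF := measurable_F St hV
  have : IsProbabilityMeasure ((μ.prod St.law).map fun p => St.F V p.1 p.2) :=
    Measure.isProbabilityMeasure_map hF.aemeasurable
  have hm : Measurable fun p : E d × E d => p.1 + √t • p.2 := by fun_prop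
  have hP := measurable_Psm_one t hf
  rw [nextLaw, integral_map hm.aemeasurable hf.aestronglyMeasurable,
    integral_prod (fun p : E d × E d => f (p.1 + √t • p.2))
      (Integrable.of_bound (hf.comp hm).aestronglyMeasurable 1 (ae_of_all _ fun p => hf1 _))]
  change ∫ x, Psm t f x ∂(μ.prod St.law).map _ = _
  rw [integral_map hF.aemeasurable hP.aestronglyMeasurable,
    integral_prod (fun p : E d × St.S => Psm t f (St.F V p.1 p.2))
      (Integrable.of_bound (hP.comp hF).aestronglyMeasurable 1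
        (ae_of_all _ fun p => abs_Psm_le_one t hf1 _))]
  rfl

include hη hη' he

/-- The error of the step on a test function. -/
lemma abs_step_sub_le {v : E d → ℝ} {B L : ℝ} (hv : Nice v B L) (hL : 0 < L) (y : E d) :
    |transOp St.law (St.F V) v y - oracleMean V η v y| ≤ L * (e * (1 + ‖y‖) ^ 2) := by
  have hd : ∀ x, ‖fderiv ℝ (fun x => L⁻¹ * v x) x‖ ≤ 1 := fun x => by
    rw [((hv.smooth.differentiable one_ne_zero x).hasFDerivAt.const_mul L⁻¹).fderiv, norm_smul,
      norm_eq_abs, abs_of_pos (inv_pos.2 hL), inv_mul_le_iff₀ hL, mul_one]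
    exact hv.norm_fderiv hL.le x
  have h := St.err V hV (fun x => L⁻¹ * v x) y (contDiff_const.mul hv.smooth)
    ⟨|L⁻¹| * B, fun x => by
      rw [abs_mul]; exact mul_le_mul_of_nonneg_left (hv.bdd x) (abs_nonneg _)⟩ hd
  simp only [oracleMean, integral_const_mul, ← mul_sub, abs_mul, abs_of_pos (inv_pos.2 hL)] at h
  rw [inv_mul_le_iff₀ hL] at h
  exact h

include hR

/-- The error of one step on bounded functions, with the cap. -/
lemma abs_hop_sub_le (ht : 0 < t) (hf : Measurable f) (hf1 : ∀ x, |f x| ≤ 1) (y : E d) :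
    |transOp St.law (St.F V) (Psm t f) y - oracleMean V η (Psm t f) y|
      ≤ e * R ^ 2 / √t + 2 * capG R y := by
  have hn := nice_Psm ht hf hf1
  have hG := (capG_spec (d := d) (zero_lt_one.trans_le hR)).2.2.1 y
  rcases le_or_gt (1 + ‖y‖) R with hy | hy
  · refine (abs_step_sub_le St hV hη hη' he hn (by positivity) y).trans ?_
    refine le_add_of_le_of_nonneg ?_ (by linarith)
    rw [one_div, inv_mul_eq_div]
    gcongr
  · have h1 := (transOp_spec St hV hn.smooth.continuous.measurable hn.bdd).2 y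
    have h2 := abs_oracleMean_le hV hη hη' hn.bdd y
    have hG1 : capG R y = 1 := min_eq_left ((one_le_div (by linarith)).2 hy.le)
    have h3 : 0 ≤ e * R ^ 2 / √t := by positivity
    rw [hG1]
    linarith [abs_sub (transOp St.law (St.F V) (Psm t f) y) (oracleMean V η (Psm t f) y)]

include hd

/-- The cap grows by at most a constant in one step. -/
lemma capG_step (y : E d) :
    transOp St.law (St.F V) (Psm η (capG R)) y ≤ capG R y + (e * R + 4 * √(d : ℝ) / R) := by
  have hR0 : 0 < R := zero_lt_one.trans_le hR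
  obtain ⟨hGm, hG1, hG0, hGl⟩ := capG_spec (d := d) hR0
  have hn := nice_Psm_lip hη hGm hG1 hGl
  have hc : 0 ≤ e * R + 4 * √(d : ℝ) / R := by positivity
  rcases le_or_gt (1 + ‖y‖) R with hy | hy
  swap
  · have hcap : capG R y = 1 := min_eq_left ((one_le_div hR0).2 hy.le)
    linarith [(abs_le.1 ((transOp_spec St hV hn.smooth.continuous.measurable hn.bdd).2 y)).2]
  have hcap : capG R y = (1 + ‖y‖) / R := min_eq_right ((div_le_one hR0).2 hy)
  have h1 := (abs_le.1 (abs_step_sub_le St hV hη hη' he hn (inv_pos.2 hR0) y)).2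
  have h1' : R⁻¹ * (e * (1 + ‖y‖) ^ 2) ≤ e * R := by
    rw [inv_mul_le_iff₀ hR0]
    calc e * (1 + ‖y‖) ^ 2 ≤ e * R ^ 2 := by gcongr
      _ = _ := by ring
  have h2 := (abs_le.1 (oracle_lip hV hη hη' hn (inv_nonneg.2 hR0.le) y 0)).2
  rw [sub_zero] at h2
  have h2' : R⁻¹ / (1 + η) * ‖y‖ ≤ capG R y := by
    refine (mul_le_mul_of_nonneg_right (div_le_self (inv_nonneg.2 hR0.le) (by linarith))
      (norm_nonneg y)).trans ?_
    rw [hcap, inv_mul_eq_div]
    gcongr
    linarith
  have h3 : oracleMean V η (Psm η (capG R)) 0 ≤ 4 * √(d : ℝ) / R := by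
    have hP := pot_unit hV hη hη' (0 : E d)
    have := hP.isProb
    have hsd : 1 ≤ √(d : ℝ) := one_le_sqrt.2 (by exact_mod_cast hd)
    have hc0 : ∀ j, cen V η (0 : E d) j = 0 := fun j => by
      induction j with
      | zero => simp [cen]
      | succ j ih => simp [cen, ih, restGrad_zero hV]
    have i1 : Integrable (fun z : E d => ‖z‖) (tilt (unitR V η 0)) :=
      hP.integrable_tilt (by fun_prop) 1 1 fun z => by
        rw [norm_norm, one_mul, pow_one]; linarith
    have i2 : Integrable (fun z : E d => ‖z‖ ^ 2) (tilt (unitR V η 0)) :=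
      hP.integrable_tilt (by fun_prop) 1 2 fun z => by
        rw [norm_pow, norm_norm]; nlinarith [norm_nonneg z]
    have hz : ∫ z, ‖z‖ ∂tilt (unitR V η 0) ≤ √(2 * (d : ℝ)) :=
      Real.le_sqrt_of_sq_le ((sq_integral_le i1 i2).trans
        (hP.integral_norm_sq_le.trans_eq (by simp)))
    have hs2 : √(2 * (d : ℝ)) ≤ 2 * √(d : ℝ) := by
      rw [sqrt_mul zero_le_two]
      exact mul_le_mul_of_nonneg_right (sqrt_le_iff.2 ⟨by norm_num, by norm_num⟩) (sqrt_nonneg _)
    have hx : ∀ z : E d, Psm η (capG R) (cen V η 0 4 + √(var' η) • z)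
        ≤ (1 + √(d : ℝ)) / R + R⁻¹ * ‖z‖ := by
      intro z
      rw [hc0, zero_add]
      refine (integral_mono (integrable_slice hGm (fun w => by simpa using hG1 w) _ _)
        ((((integrable_const (1 + ‖z‖)).add (integrable_gau_nrm)).div_const R))
        fun g => ?_).trans ?_
      · refine (min_le_right _ _).trans ?_
        simp only [Pi.add_apply, add_assoc]
        gcongr
        refine (norm_add_le _ _).trans ?_
        rw [norm_smul, norm_smul, norm_eq_abs, norm_eq_abs, abs_of_nonneg (sqrt_nonneg _),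
          abs_of_nonneg (sqrt_nonneg _)]
        exact add_le_add
          (mul_le_of_le_one_left (norm_nonneg _) (sqrt_le_one.2 (by linarith [var'_le hη])))
          (mul_le_of_le_one_left (norm_nonneg _) (sqrt_le_one.2 (by linarith)))
      · rw [integral_div]
        simp only [Pi.add_apply]
        rw [integral_add (integrable_const _) integrable_gau_nrm, integral_const, probReal_univ,
          one_smul, inv_mul_eq_div, ← add_div]
        refine div_le_div_of_nonneg_right ?_ hR0.le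
        have := integral_gau_norm (ι := Fin d)
        rw [Fintype.card_fin] at this
        linarith
    refine (integral_mono (integrable_tilt_unit hV hη hη' 0 hn.smooth.continuous hn.bdd)
      ((integrable_const _).add (i1.const_mul _)) hx).trans ?_
    simp only [Pi.add_apply]
    rw [integral_add (integrable_const _) (i1.const_mul _), integral_const, probReal_univ, one_smul,
      integral_const_mul, inv_mul_eq_div, ← add_div]
    refine div_le_div_of_nonneg_right ?_ hR0.le
    linarith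
  linarith

lemma integral_capG_le : ∀ k : ℕ,
    ∫ y, capG R y ∂lawAt St V k ≤ 1 / R + k * (e * R + 4 * √(d : ℝ) / R) := by
  have hR0 : 0 < R := zero_lt_one.trans_le hR
  obtain ⟨hGm, hG1, -, -⟩ := capG_spec (d := d) hR0
  intro k
  induction k with
  | zero => simp [lawAt, capG]
  | succ k ih =>
    have := isProb_lawAt St hV k
    obtain ⟨m1, b1⟩ := transOp_spec St hV (measurable_Psm_one η hGm) (abs_Psm_le_one η hG1)
    rw [lawAt, integral_nextLaw St hV η _ hGm hG1]
    have hGi : Integrable (capG R) (lawAt St V k) :=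
      Integrable.of_bound hGm.aestronglyMeasurable 1 (ae_of_all _ fun x => hG1 x)
    refine (integral_mono (Integrable.of_bound m1.aestronglyMeasurable 1
      (ae_of_all _ fun y => b1 y)) (hGi.add (integrable_const _))
      (capG_step St hV hd hη hη' he hR)).trans ?_
    simp only [Pi.add_apply]
    rw [integral_add hGi (integrable_const _), integral_const, probReal_univ, one_smul]
    push_cast
    linarith

/-- One step from the chain, compared with the exact kernel. -/
lemma hop_sub_le (ht : 0 < t) (hf : Measurable f) (hf1 : ∀ x, |f x| ≤ 1) {k n : ℕ} (hk : k ≤ n) :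
    |(∫ x, f x ∂nextLaw St t V (lawAt St V k)) - ∫ y, oracleMean V η (Psm t f) y ∂lawAt St V k|
      ≤ e * R ^ 2 / √t + 2 * (1 / R + n * (e * R + 4 * √(d : ℝ) / R)) := by
  have := isProb_lawAt St hV k
  have hR0 : 0 < R := zero_lt_one.trans_le hR
  obtain ⟨hGm, hG1, -, -⟩ := capG_spec (d := d) hR0
  have hn := nice_Psm ht hf hf1
  obtain ⟨m1, b1⟩ := transOp_spec St hV hn.smooth.continuous.measurable hn.bdd
  have m2 := measurable_oracleMean hV hη hη' hn.smooth.continuous
  have b2 := abs_oracleMean_le hV hη hη' hn.bdd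
  rw [integral_nextLaw St hV t _ hf hf1, ← integral_sub
    (Integrable.of_bound m1.aestronglyMeasurable 1 (ae_of_all _ fun y => b1 y))
    (Integrable.of_bound m2.aestronglyMeasurable 1 (ae_of_all _ fun y => b2 y)), ← norm_eq_abs]
  have hGi : Integrable (capG R) (lawAt St V k) :=
    Integrable.of_bound hGm.aestronglyMeasurable 1 (ae_of_all _ fun x => hG1 x)
  refine (norm_integral_le_of_norm_le ((integrable_const _).add (hGi.const_mul 2))
    (ae_of_all _ fun y => abs_hop_sub_le St hV hη hη' he hR ht hf hf1 y)).trans ?_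
  simp only [Pi.add_apply]
  rw [integral_add (integrable_const _) (hGi.const_mul 2), integral_const, probReal_univ, one_smul,
    integral_const_mul]
  have h1 := integral_capG_le St hV hd hη hη' he hR k
  have h2 : (k : ℝ) * (e * R + 4 * √(d : ℝ) / R) ≤ n * (e * R + 4 * √(d : ℝ) / R) := by gcongr
  linarith

/-- The chain follows the exact kernel. -/
lemma chain_sub_le (n : ℕ) : ∀ k ≤ n, ∀ f : E d → ℝ, Measurable f → (∀ x, |f x| ≤ 1) →
    |(∫ x, f x ∂lawAt St V k) - (pOp V η)^[k] f 0|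
      ≤ k * (e * R ^ 2 / √η + 2 * (1 / R + n * (e * R + 4 * √(d : ℝ) / R))) := by
  intro k
  induction k with
  | zero => intro _ f _ _; simp [lawAt]
  | succ k ih =>
    intro hk f hf hf1
    obtain ⟨hm, hb⟩ := pOp_spec hV hη hη' hf hf1
    have h1 := hop_sub_le St hV hd hη hη' he hR hη hf hf1 (Nat.le_of_succ_le hk)
    have h2 := ih (Nat.le_of_succ_le hk) _ hm hb
    rw [lawAt, Function.iterate_succ_apply]
    refine (abs_sub_le _ (∫ y, pOp V η f y ∂lawAt St V k) _).trans ((add_le_add h1 h2).trans_eq ?_)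
    push_cast
    ring

/-- The chain, one jump to noise `t` and the output step. -/
lemma sampler_error {n : ℕ} (hn : 1 ≤ n) (ht : 0 < t) (ht' : t ≤ 1 / 64) (hf : Measurable f)
    (hf1 : ∀ x, |f x| ≤ 1) :
    |(∫ x, f x ∂outStep V t (nextLaw St t V (lawAt St V n))) - ∫ x, f x ∂gibbs V|
      ≤ n * (e * R ^ 2 / √η + 2 * (1 / R + n * (e * R + 4 * √(d : ℝ) / R)))
        + 1 / √η * (1 / (1 + η)) ^ n * √(2 * (d : ℝ))
        + (e * R ^ 2 / √t + 2 * (1 / R + n * (e * R + 4 * √(d : ℝ) / R)))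
        + 14 * (t * √(d : ℝ)) := by
  have := isProb_lawAt St hV n
  have := isProb_nextLaw St hV t (lawAt St V n)
  have := isProb_noisyGibbs hV t
  set g := outMean V t f
  have hg : Measurable g := measurable_outMean hV t hf
  have hg1 : ∀ x, |g x| ≤ 1 := abs_outMean_le hf1
  have hp := nice_Psm ht hg hg1
  have hu : Measurable (oracleMean V η (Psm t g)) :=
    measurable_oracleMean hV hη hη' hp.smooth.continuous
  have hu1 := abs_oracleMean_le hV hη hη' hp.bdd
  have e1 : ∫ y, oracleMean V η (Psm t g) y ∂noisyGibbs V η = ∫ x, g x ∂noisyGibbs V t :=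
    (gibbs_disintegration hV hη hη' hp.smooth.continuous hp.bdd).trans
      (integral_Psm_gibbs (isProb_gibbs hV) hg hg1)
  have a1 := abs_le.1 (hop_sub_le St hV hd hη hη' he hR ht hg hg1 (le_refl n))
  have a2 := abs_le.1 (chain_sub_le St hV hd hη hη' he hR n n le_rfl _ hu hu1)
  have a3 := abs_le.1 (iter_start hV hη hη' hu hu1 hn)
  have a4 := abs_le.1 (out_error hV hd ht ht' hf hf1)
  rw [integral_outStep hV t _ hf hf1] at a4
  rw [e1] at a3
  rw [integral_outStep hV t _ hf hf1, abs_le]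
  constructor <;> linarith [a1.1, a1.2, a2.1, a2.2, a3.1, a3.2, a4.1, a4.2]

end chain

/-- The choice of parameters. -/
lemma numerics {D n η X : ℝ} (hD : 176400 ≤ D) (hη : 0 < η) (hη1 : η ≤ 1) (hn : n ≤ D ^ 2)
    (hn0 : 0 ≤ n) (hX : 1 / η = X) (hXd : X ≤ √D) {ρ : ℝ} (hρ0 : 0 ≤ ρ)
    (hρ : ρ ≤ (D ^ 2)⁻¹) :
    n * ((D ^ 30)⁻¹ * (D ^ 8) ^ 2 / √η
        + 2 * (1 / D ^ 8 + n * ((D ^ 30)⁻¹ * D ^ 8 + 4 * √D / D ^ 8)))
      + 1 / √η * ρ * √(2 * D)
      + ((D ^ 30)⁻¹ * (D ^ 8) ^ 2 / √D⁻¹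
        + 2 * (1 / D ^ 8 + n * ((D ^ 30)⁻¹ * D ^ 8 + 4 * √D / D ^ 8)))
      + 14 * (D⁻¹ * √D) ≤ 1 / 10 := by
  have hD0 : 0 < D := by linarith
  have hD1 : 1 ≤ D := by linarith
  have hs : √D * √D = D := Real.mul_self_sqrt hD0.le
  have hs420 : 420 ≤ √D := Real.le_sqrt_of_sq_le (by norm_num; linarith)
  have hsD : √D ≤ D := by nlinarith
  have hi : 1 / √η ≤ √D := by
    refine le_trans ?_ (hX ▸ hXd)
    exact one_div_le_one_div_of_le hη (Real.le_sqrt_of_sq_le (by nlinarith))
  have hpow : ∀ {a b : ℕ}, a ≤ b → D ^ a ≤ D ^ b := fun h => pow_le_pow_right₀ hD1 h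
  have b1 : (D ^ 30)⁻¹ * (D ^ 8) ^ 2 / √η ≤ 1 / D ^ 5 := by
    rw [div_eq_mul_one_div _ √η]
    calc (D ^ 30)⁻¹ * (D ^ 8) ^ 2 * (1 / √η) ≤ (D ^ 30)⁻¹ * (D ^ 8) ^ 2 * D :=
          mul_le_mul_of_nonneg_left (hi.trans hsD) (by positivity)
      _ = 1 / D ^ 13 := by field_simp
      _ ≤ _ := one_div_le_one_div_of_le (by positivity) (hpow (by norm_num))
  have b1' : (D ^ 30)⁻¹ * (D ^ 8) ^ 2 / √D⁻¹ ≤ 1 / D ^ 5 := by
    rw [sqrt_inv, div_inv_eq_mul]
    calc (D ^ 30)⁻¹ * (D ^ 8) ^ 2 * √D ≤ (D ^ 30)⁻¹ * (D ^ 8) ^ 2 * D :=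
          mul_le_mul_of_nonneg_left hsD (by positivity)
      _ = 1 / D ^ 13 := by field_simp
      _ ≤ _ := one_div_le_one_div_of_le (by positivity) (hpow (by norm_num))
  have b2 : 1 / D ^ 8 + n * ((D ^ 30)⁻¹ * D ^ 8 + 4 * √D / D ^ 8) ≤ 6 / D ^ 5 := by
    have c1 : (D ^ 30)⁻¹ * D ^ 8 + 4 * √D / D ^ 8 ≤ 5 / D ^ 7 := by
      have : (D ^ 30)⁻¹ * D ^ 8 ≤ 1 / D ^ 7 := by
        rw [inv_mul_eq_div, div_le_div_iff₀ (by positivity) (by positivity), ← pow_add, one_mul]
        exact hpow (by norm_num)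
      have : 4 * √D / D ^ 8 ≤ 4 / D ^ 7 := by
        rw [div_le_div_iff₀ (by positivity) (by positivity)]
        calc 4 * √D * D ^ 7 ≤ 4 * D * D ^ 7 := by gcongr
          _ = _ := by ring
      linarith [show 5 / D ^ 7 = 1 / D ^ 7 + 4 / D ^ 7 by ring]
    have c2 : n * ((D ^ 30)⁻¹ * D ^ 8 + 4 * √D / D ^ 8) ≤ D ^ 2 * (5 / D ^ 7) :=
      mul_le_mul hn c1 (by positivity) (by positivity)
    have c3 : D ^ 2 * (5 / D ^ 7) = 5 / D ^ 5 := by field_simp
    linarith [one_div_le_one_div_of_le (by positivity : 0 < D ^ 5) (hpow (by norm_num : 5 ≤ 8)),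
      show 6 / D ^ 5 = 1 / D ^ 5 + 5 / D ^ 5 by ring]
  have main : n * ((D ^ 30)⁻¹ * (D ^ 8) ^ 2 / √η
      + 2 * (1 / D ^ 8 + n * ((D ^ 30)⁻¹ * D ^ 8 + 4 * √D / D ^ 8))) ≤ 13 / D := by
    calc _ ≤ D ^ 2 * (1 / D ^ 5 + 2 * (6 / D ^ 5)) := by gcongr
      _ = 13 / D ^ 3 := by field_simp; ring
      _ ≤ 13 / D := div_le_div_of_nonneg_left (by norm_num) hD0 (le_self_pow₀ hD1 (by norm_num))
  have hop : (D ^ 30)⁻¹ * (D ^ 8) ^ 2 / √D⁻¹
      + 2 * (1 / D ^ 8 + n * ((D ^ 30)⁻¹ * D ^ 8 + 4 * √D / D ^ 8)) ≤ 13 / D := by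
    calc _ ≤ 1 / D ^ 5 + 2 * (6 / D ^ 5) := by gcongr
      _ = 13 / D ^ 5 := by ring
      _ ≤ 13 / D := div_le_div_of_nonneg_left (by norm_num) hD0 (le_self_pow₀ hD1 (by norm_num))
  have start : 1 / √η * ρ * √(2 * D) ≤ 2 / D := by
    have h2 : √(2 * D) ≤ 2 * √D := by
      rw [sqrt_mul zero_le_two]
      exact mul_le_mul_of_nonneg_right (sqrt_le_iff.2 ⟨by norm_num, by norm_num⟩) (sqrt_nonneg _)
    calc 1 / √η * ρ * √(2 * D) ≤ √D * (D ^ 2)⁻¹ * (2 * √D) := by gcongr
      _ = 2 * (√D * √D) * (D ^ 2)⁻¹ := by ring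
      _ = 2 / D := by rw [hs]; field_simp
  have hlast : ∀ c : ℝ, 0 ≤ c → c / D ≤ c / √D := fun c hc =>
    div_le_div_of_nonneg_left hc (by linarith) hsD
  have hout : D⁻¹ * √D = 1 / √D := by
    field_simp
    rw [sq_sqrt hD0.le]
  have h42 : 42 / √D ≤ 1 / 10 := by
    rw [div_le_iff₀ (by linarith)]
    linarith
  rw [hout]
  linarith [hlast 28 (by norm_num), show 28 / D = 13 / D + 2 / D + 13 / D by ring,
    show 42 / √D = 28 / √D + 14 * (1 / √D) by ring]

end Asm0

open Vale.Agent.P347.Asm0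

/-- `O(d ^ ε)` queries suffice if the steps exist. -/
theorem upper_zero_of (h : StepZero) : ∀ ε : ℝ, 0 < ε → ∃ C : ℝ, ∀ᶠ d : ℕ in atTop, ∃ q : ℕ,
    (q : ℝ) ≤ C * (d : ℝ) ^ ε ∧ ∃ A : Alg d q (E d), Achieves A := by
  intro ε hε
  set a := min (ε / 3) (1 / 4)
  have ha : 0 < a := lt_min (by linarith) (by norm_num)
  have ha1 : a ≤ 1 / 2 := (min_le_right _ _).trans (by norm_num)
  have ha3 : a ≤ ε / 3 := min_le_left _ _
  obtain ⟨C, hC⟩ := h a ha 30
  refine ⟨(4 / a + 3) * |C| + 4, ?_⟩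
  filter_upwards [hC, eventually_ge_atTop 176400, eventually_etaOf ha (c := 1 / 64) (by norm_num)]
    with d ⟨q, hq, ⟨St⟩⟩ hd hη
  have hd0 : 0 < d := by omega
  set D : ℝ := (d : ℝ) with hDdef
  have hD : (176400 : ℝ) ≤ D := by rw [hDdef]; exact_mod_cast hd
  have hD0 : 0 < D := by linarith
  have hD1 : 1 ≤ D := by linarith
  set η := etaOf a d with hηdef
  set X := D ^ a with hXdef
  have hX : 1 / η = X := by rw [hηdef, etaOf, rpow_neg hD0.le, one_div, inv_inv]
  have hX1 : 1 ≤ X := one_le_rpow hD1 ha.le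
  have hXs : X ≤ √D := by rw [sqrt_eq_rpow]; exact rpow_le_rpow_of_exponent_le hD1 ha1
  set n := stepCount 2 d η with hndef
  have hn1 : 1 ≤ n := one_le_stepCount _ _ _
  have hnle : (n : ℝ) ≤ 4 * log D * X + 2 := by
    refine (stepCount_le zero_le_two hη.1).trans (le_of_eq ?_)
    rw [← hX]
    ring
  have hlog : log D ≤ D := (log_le_sub_one_of_pos hD0).trans (by linarith)
  have hn2 : (n : ℝ) ≤ D ^ 2 := by
    refine hnle.trans ?_
    have hs : √D * √D = D := Real.mul_self_sqrt hD0.le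
    have h5 : (5 : ℝ) ≤ √D := Real.le_sqrt_of_sq_le (by norm_num; linarith)
    have h1 : log D * X ≤ D * √D := mul_le_mul hlog hXs (by linarith) hD0.le
    nlinarith [mul_le_mul_of_nonneg_left h5 (mul_nonneg hD0.le (sqrt_nonneg D))]
  have hρ : (1 / (1 + η)) ^ n ≤ (D ^ 2)⁻¹ := by
    have h1 : 1 / (1 + η) ≤ 1 - η / 2 := by
      rw [div_le_iff₀ (by linarith [hη.1])]
      nlinarith [hη.1, hη.2]
    have h0 : 0 ≤ 1 / (1 + η) := by have := hη.1; positivity
    refine (pow_le_pow_left₀ h0 h1 n).trans ?_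
    refine (pow_le_pow_of_le_one (by linarith [hη.2]) (by linarith [hη.1])
      (Nat.sub_le n 1)).trans ?_
    refine (pow_stepCount_le hd0 hη.1 (by linarith [hη.2])).trans_eq ?_
    rw [rpow_neg hD0.le, rpow_two]
  refine ⟨(n + 1) * q + 4, ?_, ?_⟩
  · have hlogX : log D ≤ X / a := log_le_rpow_div hD0.le ha
    have hn3 : (n : ℝ) + 1 ≤ (4 / a + 3) * (X * X) := by
      have h1 : 4 * log D * X ≤ 4 * (X / a) * X :=
        mul_le_mul_of_nonneg_right (by linarith) (by linarith)
      have h2 : 1 ≤ X * X := one_le_mul_of_one_le_of_one_le hX1 hX1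
      have h3 : 4 * (X / a) * X = 4 / a * (X * X) := by ring
      linarith
    have hqX : (q : ℝ) ≤ |C| * X :=
      hq.trans (mul_le_mul_of_nonneg_right (le_abs_self C) (by linarith))
    have h3 : D ^ (3 * a) = X * X * X := by
      rw [hXdef, ← rpow_add hD0, ← rpow_add hD0]
      ring_nf
    have hle : X * X * X ≤ D ^ ε := h3 ▸ rpow_le_rpow_of_exponent_le hD1 (by linarith)
    have h1 : 1 ≤ X * X * X :=
      one_le_mul_of_one_le_of_one_le (one_le_mul_of_one_le_of_one_le hX1 hX1) hX1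
    push_cast
    calc ((n : ℝ) + 1) * q + 4 ≤ (4 / a + 3) * (X * X) * (|C| * X) + 4 * (X * X * X) := by
          refine add_le_add (mul_le_mul hn3 hqX (Nat.cast_nonneg q) (by positivity)) ?_
          linarith
      _ = ((4 / a + 3) * |C| + 4) * (X * X * X) := by ring
      _ ≤ _ := mul_le_mul_of_nonneg_left hle (by positivity)
  have hsamp : Samp d ((n + 1) * q + 4)
      fun V => outStep V D⁻¹ (nextLaw St D⁻¹ V (lawAt St V n)) := by
    rw [add_one_mul]
    exact samp_out _ (samp_nextLaw St _ (samp_lawAt St n))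
  obtain ⟨A, hA⟩ := hsamp
  refine ⟨A, achieves_iff.2 fun V hV B hB => ?_⟩
  rw [hA V hV.1]
  have hind : ∀ x, |B.indicator (1 : E d → ℝ) x| ≤ 1 := fun x => by
    by_cases hx : x ∈ B <;> simp [hx]
  have ht : D⁻¹ ≤ 1 / 64 := by rw [one_div]; exact inv_anti₀ (by norm_num) (by linarith)
  have key := sampler_error St hV hd0 hη.1 hη.2 (by positivity) (one_le_pow₀ hD1 (n := 8)) hn1
    (inv_pos.2 hD0) ht (f := B.indicator 1) (measurable_one.indicator hB) hind
  rw [integral_indicator_one hB, integral_indicator_one hB] at key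
  refine key.trans (numerics hD hη.1 (by linarith [hη.2]) hn2 (Nat.cast_nonneg n) hX hXs ?_ hρ)
  have := hη.1
  positivity

/-- The dimension exponent vanishes if the steps exist. -/
theorem exponent_zero_of (h : StepZero) :
    limsup (fun d : ℕ => log (minQueries d) / log d) atTop = 0 := by
  have hu : ∀ ε : ℝ, 0 < ε → ∃ C : ℝ, ∀ᶠ d : ℕ in atTop,
      ∃ q : ℕ, (q : ℝ) ≤ C * (d : ℝ) ^ (0 + ε) ∧ ∃ A : Alg d q (E d), Solves A := by
    simpa only [zero_add, achieves_iff] using upper_zero_of h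
  simp only [minQueries_eq]
  refine le_antisymm (exponent_le le_rfl hu) ?_
  obtain ⟨C, hC⟩ := hu 1 one_pos
  refine le_limsup_of_frequently_le (Frequently.of_forall fun d =>
    div_nonneg (log_natCast_nonneg _) (log_natCast_nonneg _)) ?_
  refine isBoundedUnder_of_eventually_le (a := 1 + |log (max C 1)| / log 2) ?_
  filter_upwards [hC, eventually_ge_atTop 2] with d ⟨q, hq, hA⟩ hd
  have hd2 : (2 : ℝ) ≤ d := by exact_mod_cast hd
  have hl2 : 0 < log 2 := log_pos one_lt_two
  have hld : log 2 ≤ log (d : ℝ) := log_le_log two_pos hd2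
  have hm : (1 : ℝ) ≤ max C 1 := le_max_right _ _
  rw [zero_add, rpow_one] at hq
  have hQ : (Q d : ℝ) ≤ max C 1 * d :=
    ((Nat.cast_le.2 (Q_le hA)).trans hq).trans
      (mul_le_mul_of_nonneg_right (le_max_left _ _) (by linarith))
  rw [div_le_iff₀ (by linarith)]
  have h1 : log (Q d : ℝ) ≤ log (max C 1) + log d := by
    rcases Nat.eq_zero_or_pos (Q d) with h0 | h0
    · rw [h0, Nat.cast_zero, log_zero]
      linarith [log_nonneg hm, log_natCast_nonneg d]
    · refine (log_le_log (by exact_mod_cast h0) hQ).trans_eq ?_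
      rw [log_mul (by linarith) (by linarith)]
  have h2 : |log (max C 1)| ≤ |log (max C 1)| / log 2 * log d := by
    rw [div_mul_eq_mul_div, le_div_iff₀ hl2]
    exact mul_le_mul_of_nonneg_left hld (abs_nonneg _)
  linarith [le_abs_self (log (max C 1))]

end Vale.Agent.P347
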