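import Vale.Agent.P347Zero.RealComb

/-!
P347: samplers of kernels run in turn, against kernels known up to an error on Lipschitz tests.
-/

open MeasureTheory ProbabilityTheory Real

namespace Vale.Agent.P347

variable {d q q₁ q₂ : ℕ} {α : Type} [MeasurableSpace α]

/-- A sampler for a homogeneous target followed by a sampler at the drawn point. -/
theorem SmpT.seqT {T₁ : (E d → ℝ) → α → (E d → ℝ) → ℝ} {e₁ : α → ℝ}
    {T₂ : (E d → ℝ) → α × E d → (E d → ℝ) → ℝ} {e₂ : α × E d → ℝ} {L b : α → ℝ}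
    (h₁ : SmpT d q₁ T₁ e₁) (h₂ : SmpT d q₂ T₂ e₂)
    (hlin : ∀ V, InClass d V → ∀ a, ∀ w : E d → ℝ, IsTest w → ∀ c : ℝ,
      T₁ V a (fun y => c * w y) = c * T₁ V a w)
    (hL : ∀ a, 0 < L a)
    (hT : ∀ V, InClass d V → ∀ a v, IsTest v →
      ContDiff ℝ 1 (fun x => T₂ V (a, x) v) ∧ (∃ K, ∀ x, |T₂ V (a, x) v| ≤ K) ∧
        ∀ x, ‖fderiv ℝ (fun x => T₂ V (a, x) v) x‖ ≤ L a)
    (hb : ∀ a x, e₂ (a, x) ≤ b a) :
    SmpT d (q₁ + q₂) (fun V a v => T₁ V a fun x => T₂ V (a, x) v)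
      fun a => L a * e₁ a + b a := by
  obtain ⟨S₁, _, _, l₁, _, F₁, hF₁, herr₁⟩ := h₁
  obtain ⟨S₂, _, _, l₂, _, F₂, hF₂, herr₂⟩ := h₂
  refine ⟨S₁ × S₂, inferInstance, inferInstance, l₁.prod l₂, inferInstance,
    fun V p => F₂ V ((p.1, F₁ V (p.1, p.2.1)), p.2.2), fun β _ g hg => ?_,
    fun V hV a v hv hb' hl => ?_⟩
  · have k1 := hF₁ β (fun x => ((g x).1, (g x).2.1))
      ((measurable_fst.comp hg).prodMk (measurable_fst.comp (measurable_snd.comp hg)))
    have k2 := hF₂ (β × E d) (fun y => (((g y.1).1, y.2), (g y.1).2.2))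
      ((((measurable_fst.comp hg).comp measurable_fst).prodMk measurable_snd).prodMk
        ((measurable_snd.comp (measurable_snd.comp hg)).comp measurable_fst))
    exact k1.trans (k2.trans (Comp.const
      (f := fun z : (β × E d) × E d => (z.1.1, z.2)) (by fun_prop)))
  obtain ⟨K, hK⟩ := hb'
  have hX₁ := measurable_of_frame hF₁ hV.1 a
  have hF₂m : Measurable (F₂ V) := measurable_snd.comp ((hF₂ _ id measurable_id).1 V hV.1)
  obtain ⟨hG, ⟨K', hK'⟩, hGl⟩ := hT V hV a v ⟨hv, ⟨K, hK⟩, hl⟩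
  set G : E d → ℝ := fun x => T₂ V (a, x) v
  set w : E d → ℝ := fun x => (L a)⁻¹ * G x with hw
  have hL0 := inv_pos.2 (hL a)
  have hwt : IsTest w := by
    refine ⟨contDiff_const.mul hG, ⟨(L a)⁻¹ * K', fun x => ?_⟩, fun x => ?_⟩
    · rw [hw, abs_mul, abs_of_pos hL0]
      exact mul_le_mul_of_nonneg_left (hK' x) hL0.le
    · rw [hw, fderiv_const_mul (hG.differentiable one_ne_zero x), norm_smul, Real.norm_eq_abs,
        abs_of_pos hL0, inv_mul_le_iff₀ (hL a), mul_one]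
      exact hGl x
  have hGw : G = fun y => L a * w y := funext fun y => by
    rw [hw, ← mul_assoc, mul_inv_cancel₀ (hL a).ne', one_mul]
  have h1 : |(∫ s, G (F₁ V (a, s)) ∂l₁) - T₁ V a G| ≤ L a * e₁ a := by
    rw [hGw, hlin V hV a w hwt, integral_const_mul, ← mul_sub, abs_mul, abs_of_pos (hL a)]
    exact mul_le_mul_of_nonneg_left (herr₁ V hV a w hwt.1 hwt.2.1 hwt.2.2) (hL a).le
  have hint : Integrable (fun p : S₁ × S₂ => v (F₂ V ((a, F₁ V (a, p.1)), p.2)))
      (l₁.prod l₂) :=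
    Integrable.of_bound (hv.continuous.measurable.comp (hF₂m.comp
      ((measurable_const.prodMk (hX₁.comp measurable_fst)).prodMk measurable_snd))
      ).aestronglyMeasurable K (ae_of_all _ fun p => hK _)
  have h2 : |(∫ p, v (F₂ V ((a, F₁ V (a, p.1)), p.2)) ∂l₁.prod l₂)
      - ∫ s, G (F₁ V (a, s)) ∂l₁| ≤ b a := by
    rw [integral_prod _ hint, ← integral_sub hint.integral_prod_left
      (integrable_comp_bdd hG.continuous hK' hX₁)]
    refine abs_integral_le fun s => ?_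
    exact (herr₂ V hV (a, F₁ V (a, s)) v hv ⟨K, hK⟩ hl).trans (hb a (F₁ V (a, s)))
  show |(∫ p, v (F₂ V ((a, F₁ V (a, p.1)), p.2)) ∂l₁.prod l₂) - T₁ V a G| ≤ _
  linarith [abs_sub_le (∫ p, v (F₂ V ((a, F₁ V (a, p.1)), p.2)) ∂l₁.prod l₂)
    (∫ s, G (F₁ V (a, s)) ∂l₁) (T₁ V a G)]

/-- The kernels `S i, ..., S (i + k - 1)` applied in turn to a function. -/
def chainK {d : ℕ} {α : Type} (S : ℕ → (E d → ℝ) → α → E d → (E d → ℝ) → ℝ) :
    ℕ → ℕ → (E d → ℝ) → α → (E d → ℝ) → E d → ℝ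
  | 0, _, _, _, v => v
  | k + 1, i, V, a, v => fun x => S i V a x (chainK S k (i + 1) V a v)

/-- The error of the chain from step `i` on. -/
lemma sum_chain_step (e : ℕ → ℝ) (he : ∀ i, 0 ≤ e i) (k i : ℕ) :
    (2 : ℝ) ^ k * e i + 2 ^ k * ∑ l ∈ Finset.range k, e (i + 1 + l)
      ≤ 2 ^ (k + 1) * ∑ l ∈ Finset.range (k + 1), e (i + l) := by
  rw [Finset.sum_range_succ' (fun l => e (i + l)), ← mul_add, pow_succ]
  have h : ∑ l ∈ Finset.range k, e (i + 1 + l) = ∑ l ∈ Finset.range k, e (i + (l + 1)) :=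
    Finset.sum_congr rfl fun l _ => by rw [show i + 1 + l = i + (l + 1) by omega]
  rw [h, add_zero]
  have h1 : 0 ≤ e i + ∑ l ∈ Finset.range k, e (i + (l + 1)) :=
    add_nonneg (he i) (Finset.sum_nonneg fun l _ => he _)
  nlinarith [mul_nonneg (pow_nonneg (zero_le_two : (0 : ℝ) ≤ 2) k) h1]

/-- Samplers of kernels run in turn against kernels known up to `η` on Lipschitz tests. -/
theorem smpT_chain (J : ℕ) (S K : ℕ → (E d → ℝ) → α → E d → (E d → ℝ) → ℝ) (e η : ℕ → α → ℝ)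
    (x0 : α → E d) (hx0 : Measurable x0)
    (hsamp : ∀ i, i < J → SmpT d q (fun V (p : α × E d) v => S i V p.1 p.2 v) fun p => e i p.1)
    (hS : ∀ i, i < J → ∀ V, InClass d V → ∀ a (v : E d → ℝ) (B L : ℝ), ContDiff ℝ 1 v →
      (∀ x, |v x| ≤ B) → (∀ x, ‖fderiv ℝ v x‖ ≤ L) →
      ContDiff ℝ 1 (fun x => S i V a x v) ∧ (∀ x, |S i V a x v| ≤ B) ∧
        (∀ x, ‖fderiv ℝ (fun x => S i V a x v) x‖ ≤ 2 * L) ∧
        (∀ x, |S i V a x v - K i V a x v| ≤ L * η i a) ∧
        ∀ (c : ℝ) x, S i V a x (fun y => c * v y) = c * S i V a x v)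
    (hK : ∀ i, i < J → ∀ V, InClass d V → ∀ a x (v w : E d → ℝ) (t B : ℝ), Continuous v →
      Continuous w → (∀ y, |v y| ≤ B) → (∀ y, |w y| ≤ B) → (∀ y, |v y - w y| ≤ t) →
      |K i V a x v - K i V a x w| ≤ t)
    (he : ∀ i a, 0 ≤ e i a ∧ 0 ≤ η i a)
    (T : (E d → ℝ) → α → (E d → ℝ) → ℝ) (f : ℕ → (E d → ℝ) → α → (E d → ℝ) → E d → ℝ)
    (hf0 : ∀ V a v, f J V a v = v) (hT : ∀ V a v, T V a v = f 0 V a v (x0 a))
    (hf : ∀ V a v i, i < J → ∀ x, f i V a v x = K i V a x (f (i + 1) V a v))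
    (hfc : ∀ V, InClass d V → ∀ a v, IsTest v → ∀ i, i ≤ J → Continuous (f i V a v)) :
    SmpT d (J * q) T fun a => (2 : ℝ) ^ J * ∑ i ∈ Finset.range J, (e i a + η i a) := by
  have hreg : ∀ k i, i + k ≤ J → ∀ V, InClass d V → ∀ a (v : E d → ℝ) (B : ℝ),
      ContDiff ℝ 1 v → (∀ x, |v x| ≤ B) → (∀ x, ‖fderiv ℝ v x‖ ≤ 1) →
      ContDiff ℝ 1 (chainK S k i V a v) ∧ (∀ x, |chainK S k i V a v x| ≤ B) ∧
        ∀ x, ‖fderiv ℝ (chainK S k i V a v) x‖ ≤ 2 ^ k := by
    intro k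
    induction k with
    | zero => intro i _ V _ a v B h1 h2 h3; exact ⟨h1, h2, fun x => by simpa [chainK] using h3 x⟩
    | succ k ih =>
      intro i hi V hV a v B h1 h2 h3
      obtain ⟨g1, g2, g3⟩ := ih (i + 1) (by omega) V hV a v B h1 h2 h3
      obtain ⟨r1, r2, r3, -, -⟩ := hS i (by omega) V hV a _ B _ g1 g2 g3
      exact ⟨r1, r2, fun x => (r3 x).trans (le_of_eq (by ring))⟩
  have hsm : ∀ k i, i + k ≤ J → SmpT d (k * q)
      (fun V (p : α × E d) v => chainK S k i V p.1 v p.2)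
      fun p => (2 : ℝ) ^ k * ∑ l ∈ Finset.range k, e (i + l) p.1 := by
    intro k
    induction k with
    | zero =>
      intro i _
      refine ⟨PUnit, inferInstance, inferInstance, Measure.dirac PUnit.unit, inferInstance,
        fun _ p => p.1.2, fun β _ g hg => ?_, fun V _ p v _ _ _ => ?_⟩
      · rw [Nat.zero_mul]
        exact Comp.const (measurable_id.prodMk
          (measurable_snd.comp (measurable_fst.comp hg)))
      · simp [chainK]
    | succ k ih =>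
      intro i hi
      have h := SmpT.seqT (L := fun _ => (2 : ℝ) ^ k)
        (b := fun p : α × E d => (2 : ℝ) ^ k * ∑ l ∈ Finset.range k, e (i + 1 + l) p.1)
        (hsamp i (by omega))
        ((ih (i + 1) (by omega)).comap (f := fun p : (α × E d) × E d => (p.1.1, p.2)) (by fun_prop))
        (fun V hV p w hw c => by
          obtain ⟨h1, ⟨B, h2⟩, h3⟩ := hw
          exact (hS i (by omega) V hV p.1 w B 1 h1 h2 h3).2.2.2.2 c p.2)
        (fun _ => pow_pos two_pos k)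
        (fun V hV p v hv => by
          obtain ⟨h1, ⟨B, h2⟩, h3⟩ := hv
          obtain ⟨g1, g2, g3⟩ := hreg k (i + 1) (by omega) V hV p.1 v B h1 h2 h3
          exact ⟨g1, ⟨B, g2⟩, g3⟩)
        (fun _ _ => le_rfl)
      refine h.weaken (η := fun _ => 0) (le_of_eq (by ring))
        (fun V _ p v _ => le_of_eq (by simp [chainK])) fun p => ?_
      rw [add_zero]
      exact sum_chain_step (fun l => e l p.1) (fun l => (he l p.1).1) k i
  have herr : ∀ k i, i + k = J → ∀ V, InClass d V → ∀ a (v : E d → ℝ) (B : ℝ), ContDiff ℝ 1 v →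
      (∀ x, |v x| ≤ B) → (∀ x, ‖fderiv ℝ v x‖ ≤ 1) →
      ∀ x, |chainK S k i V a v x - f i V a v x|
        ≤ (2 : ℝ) ^ k * ∑ l ∈ Finset.range k, η (i + l) a := by
    intro k
    induction k with
    | zero =>
      intro i hi V _ a v B _ _ _ x
      rw [add_zero] at hi
      subst hi
      simp [chainK, hf0]
    | succ k ih =>
      intro i hi V hV a v B h1 h2 h3 x
      obtain ⟨g1, g2, g3⟩ := hreg k (i + 1) (by omega) V hV a v B h1 h2 h3
      set t := (2 : ℝ) ^ k * ∑ l ∈ Finset.range k, η (i + 1 + l) a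
      have ht : 0 ≤ t := mul_nonneg (by positivity) (Finset.sum_nonneg fun l _ => (he _ a).2)
      have hdiff := ih (i + 1) (by omega) V hV a v B h1 h2 h3
      have hfb : ∀ y, |f (i + 1) V a v y| ≤ B + t := fun y => by
        have h := hdiff y
        rw [abs_sub_comm] at h
        linarith [abs_sub_abs_le_abs_sub (f (i + 1) V a v y) (chainK S k (i + 1) V a v y), g2 y]
      have hA := (hS i (by omega) V hV a _ B _ g1 g2 g3).2.2.2.1 x
      have hB := hK i (by omega) V hV a x _ _ t (B + t) g1.continuous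
        (hfc V hV a v ⟨h1, ⟨B, h2⟩, h3⟩ (i + 1) (by omega))
        (fun y => by linarith [g2 y]) hfb hdiff
      rw [hf V a v i (by omega) x]
      show |S i V a x (chainK S k (i + 1) V a v) - _| ≤ _
      refine (abs_sub_le _ (K i V a x (chainK S k (i + 1) V a v)) _).trans ((add_le_add hA hB).trans ?_)
      exact sum_chain_step (fun l => η l a) (fun l => (he l a).2) k i
  have hmain := (hsm J 0 (by omega)).comap (f := fun a => (a, x0 a)) (measurable_id.prodMk hx0)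
  refine hmain.weaken (η := fun a => (2 : ℝ) ^ J * ∑ l ∈ Finset.range J, η l a) le_rfl
    (fun V hV a v hv => ?_) fun a => le_of_eq ?_
  · obtain ⟨h1, ⟨B, h2⟩, h3⟩ := hv
    rw [hT]
    simpa using herr J 0 (by omega) V hV a v B h1 h2 h3 (x0 a)
  · simp only [zero_add, Finset.sum_add_distrib, mul_add]

end Vale.Agent.P347
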