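import Mathlib.LinearAlgebra.Lagrange
import Vale.Agent.P347.Defs
import Vale.Agent.P347.Shortcuts

/-!
P347 (exponent zero): extraction coefficients on fixed nodes, and bounds for sums of a quadrature
rule against kernels which are singular at one.
-/

open Polynomial Finset

namespace Vale.Agent.P347

/-- Weights on `N` nodes in `[-1/2, 1/2]` with any given first `N` moments. -/
theorem exists_coef_moments (N : ℕ) (a : ℕ → ℝ) : ∃ (m : ℕ) (c ρ : Fin m → ℝ),
    (∀ k, |ρ k| ≤ 1 / 2) ∧ ∀ n, n < N → ∑ k, c k * ρ k ^ n = a n := by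
  let v : Fin N → ℝ := fun k => (k : ℝ) / (2 * N)
  refine ⟨N, fun k => ∑ j ∈ range N, a j * (Lagrange.basis univ v k).coeff j, v, fun k => ?_,
    fun n hn => ?_⟩
  · have hk : ((k : ℕ) : ℝ) < N := by exact_mod_cast k.isLt
    have h0 : (0 : ℝ) ≤ (k : ℕ) := by positivity
    simp only [v, abs_div, Nat.abs_cast, abs_mul, abs_two]
    rw [div_le_iff₀ (by linarith)]
    linarith
  · have hN : (0 : ℝ) < N := by exact_mod_cast Nat.zero_lt_of_lt hn
    have hv : Set.InjOn v (univ : Finset (Fin N)) := by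
      intro i _ j _ h
      simp only [v] at h
      rw [div_left_inj' (by positivity)] at h
      exact Fin.ext (by exact_mod_cast h)
    have hX := Lagrange.eq_interpolate (f := X ^ n) hv (by
      rw [degree_X_pow, card_univ, Fintype.card_fin]
      exact_mod_cast hn)
    calc ∑ k, (∑ j ∈ range N, a j * (Lagrange.basis univ v k).coeff j) * v k ^ n
        = ∑ j ∈ range N, a j * (∑ k, v k ^ n * (Lagrange.basis univ v k).coeff j) := by
          simp_rw [mul_sum, sum_mul]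
          rw [sum_comm]
          exact sum_congr rfl fun _ _ => sum_congr rfl fun _ _ => by ring
      _ = ∑ j ∈ range N, a j * (X ^ n : ℝ[X]).coeff j := by
          refine sum_congr rfl fun j _ => ?_
          conv_rhs => rw [hX, Lagrange.interpolate_apply, finsetSum_coeff]
          simp only [eval_pow, eval_X, coeff_C_mul]
      _ = a n := by simp [coeff_X_pow, hn]

/-- Weights extracting the part of degree `t`. -/
theorem exists_coef (N : ℕ) (t : ℕ) (_ht : t ≤ 1) : ∃ (m : ℕ) (c ρ : Fin m → ℝ),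
    (∀ k, |ρ k| ≤ 1 / 2) ∧ ∀ n, n < N → ∑ k, c k * ρ k ^ n = if n = t then 1 else 0 :=
  exists_coef_moments N fun n => if n = t then 1 else 0

/-- Weights reproducing the value at one. -/
theorem exists_coef_zero (N : ℕ) : ∃ (m : ℕ) (c ρ : Fin m → ℝ),
    (∀ k, |ρ k| ≤ 1 / 2) ∧ ∀ n, n < N → ∑ k, c k * ρ k ^ n = 1 :=
  exists_coef_moments N fun _ => 1

/-! ### Sums of a rule against singular kernels -/

/-- The coefficients of the inverse square root of `1 - y`. -/
noncomputable def sqrtCoef (n : ℕ) : ℝ := Ring.choose ((1 / 2 : ℝ) + n - 1) n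

lemma sqrtCoef_succ (n : ℕ) :
    sqrtCoef (n + 1) * (n + 1) = sqrtCoef n * (n + 1 / 2) := by
  have key : ∀ m : ℕ, (m.factorial : ℝ) * sqrtCoef m =
      (ascPochhammer ℝ m).eval (1 / 2 : ℝ) := fun m => by
    rw [sqrtCoef, ← Ring.multichoose_eq, ← nsmul_eq_mul,
      Ring.factorial_nsmul_multichoose_eq_ascPochhammer, ascPochhammer_smeval_eq_eval]
  have h0 := key n
  have h1 := key (n + 1)
  rw [ascPochhammer_succ_eval, ← h0, Nat.factorial_succ] at h1
  push_cast at h1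
  have hf : (0 : ℝ) < n.factorial := by exact_mod_cast Nat.factorial_pos n
  exact mul_left_cancel₀ hf.ne' (by linear_combination h1)

lemma sqrtCoef_zero : sqrtCoef 0 = 1 := by simp [sqrtCoef]

lemma sqrtCoef_mem (n : ℕ) : 0 ≤ sqrtCoef n ∧ sqrtCoef n ≤ 1 := by
  induction n with
  | zero => simp [sqrtCoef_zero]
  | succ n ih =>
    have h := sqrtCoef_succ n
    have hn : (0 : ℝ) < n + 1 := by positivity
    constructor <;> nlinarith [ih.1, ih.2]

lemma sum_sqrtCoef_div (J : ℕ) :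
    ∑ n ∈ range J, sqrtCoef n / (2 * n + 2) = 1 - sqrtCoef J := by
  induction J with
  | zero => simp [sqrtCoef_zero]
  | succ J ih =>
    rw [sum_range_succ, ih]
    have h := sqrtCoef_succ J
    have hn : (0 : ℝ) < J + 1 := by positivity
    field_simp
    linarith

lemma hasSum_inv_sqrt {y : ℝ} (h0 : 0 ≤ y) (h1 : y < 1) :
    HasSum (fun n => sqrtCoef n * y ^ n) (1 / √(1 - y)) := by
  have h := (Real.one_div_one_sub_rpow_hasFPowerSeriesOnBall_zero (1 / 2)).hasSum (y := y)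
    (by
      rw [Metric.mem_eball, edist_dist, dist_zero_right, Real.norm_eq_abs, abs_of_nonneg h0]
      exact ENNReal.ofReal_lt_one.2 h1)
  simp only [zero_add, FormalMultilinearSeries.ofScalars_apply_eq, smul_eq_mul] at h
  rwa [← Real.sqrt_eq_rpow] at h

variable {n : ℕ} {ε ρ0 : ℝ}

lemma Rule.eps_nonneg (Rl : Rule n ε) : 0 ≤ ε := (abs_nonneg _).trans (Rl.moment 0 0)

lemma Rule.node_unit (Rl : Rule n ε) (k : Fin n) (U : ℝ) :
    0 ≤ Rl.node k U ∧ Rl.node k U < 1 :=
  ⟨Rl.lo_nonneg.trans (Rl.node_mem k U).1, (Rl.node_mem k U).2.trans_lt Rl.hi_lt_one⟩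

lemma Rule.moment_le (Rl : Rule n ε) (U : ℝ) (j : ℕ) :
    ∑ k, Rl.weight k U * Rl.node k U ^ j ≤ 1 / (j + 1) + ε := by
  linarith [(abs_le.1 (Rl.moment j U)).2]

/-- A rule against the kernel `x / √(1 - x²)`. -/
theorem rule_sum_le {n : ℕ} {ε ρ0 : ℝ} (Rl : Rule n ε) (h0 : 0 ≤ ρ0) (h1 : ρ0 < 1) (U : ℝ) :
    ∑ k, Rl.weight k U * (ρ0 * Rl.node k U) / √(1 - (ρ0 * Rl.node k U) ^ 2)
      ≤ 2 + ε / (1 - ρ0) := by
  have hε := Rl.eps_nonneg
  have hx : ∀ k, 0 ≤ ρ0 * Rl.node k U ∧ ρ0 * Rl.node k U < 1 := fun k =>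
    ⟨mul_nonneg h0 (Rl.node_unit k U).1,
      lt_of_le_of_lt (mul_le_of_le_one_right h0 (Rl.node_unit k U).2.le) h1⟩
  have hs : HasSum
      (fun j => ∑ k, Rl.weight k U * (ρ0 * Rl.node k U) * (sqrtCoef j * ((ρ0 * Rl.node k U) ^ 2) ^ j))
      (∑ k, Rl.weight k U * (ρ0 * Rl.node k U) / √(1 - (ρ0 * Rl.node k U) ^ 2)) := by
    refine hasSum_sum fun k _ => ?_
    have := (hasSum_inv_sqrt (sq_nonneg (ρ0 * Rl.node k U))
      (by nlinarith [hx k])).mul_left (Rl.weight k U * (ρ0 * Rl.node k U))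
    rwa [mul_one_div] at this
  refine hasSum_le_of_sum_le hs fun S => ?_
  obtain ⟨J, hJ⟩ : ∃ J, S ⊆ range J := ⟨S.sup id + 1, fun j hj =>
    mem_range.2 (Nat.lt_succ_of_le (le_sup (f := id) hj))⟩
  have hterm : ∀ j : ℕ,
      ∑ k, Rl.weight k U * (ρ0 * Rl.node k U) * (sqrtCoef j * ((ρ0 * Rl.node k U) ^ 2) ^ j)
        ≤ sqrtCoef j / (2 * j + 2) + ε * ρ0 ^ j := fun j => by
    have hb := sqrtCoef_mem j
    have hm := Rl.moment_le U (2 * j + 1)
    push_cast at hm
    have hp : ρ0 ^ (2 * j + 1) ≤ ρ0 ^ j := pow_le_pow_of_le_one h0 h1.le (by omega)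
    calc _ = sqrtCoef j * ρ0 ^ (2 * j + 1) * ∑ k, Rl.weight k U * Rl.node k U ^ (2 * j + 1) := by
          rw [mul_sum]
          exact sum_congr rfl fun k _ => by rw [← pow_mul]; ring
      _ ≤ sqrtCoef j * ρ0 ^ (2 * j + 1) * (1 / (2 * j + 2) + ε) := by
          refine mul_le_mul_of_nonneg_left (hm.trans (le_of_eq (by ring_nf))) ?_
          exact mul_nonneg hb.1 (pow_nonneg h0 _)
      _ ≤ _ := by
          have a1 : sqrtCoef j * ρ0 ^ (2 * j + 1) ≤ sqrtCoef j :=
            mul_le_of_le_one_right hb.1 (pow_le_one₀ h0 h1.le)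
          have a2 : sqrtCoef j * ρ0 ^ (2 * j + 1) ≤ ρ0 ^ j :=
            (mul_le_of_le_one_left (pow_nonneg h0 _) hb.2).trans hp
          rw [mul_add, mul_one_div]
          refine add_le_add ((div_le_div_iff_of_pos_right (by positivity)).2 a1) ?_
          rw [mul_comm ε]
          exact mul_le_mul_of_nonneg_right a2 hε
  refine ((sum_le_sum fun j _ => hterm j).trans
    (sum_le_sum_of_subset_of_nonneg hJ fun j _ _ => ?_)).trans ?_
  · exact add_nonneg (div_nonneg (sqrtCoef_mem j).1 (by positivity))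
      (mul_nonneg hε (pow_nonneg h0 _))
  · rw [sum_add_distrib, sum_sqrtCoef_div, ← mul_sum, div_eq_mul_inv]
    have hg : ∑ j ∈ range J, ρ0 ^ j ≤ (1 - ρ0)⁻¹ :=
      (sum_le_hasSum _ (fun j _ => pow_nonneg h0 j) (hasSum_geometric_of_lt_one h0 h1))
    nlinarith [(sqrtCoef_mem J).1, mul_le_mul_of_nonneg_left hg hε]

end Vale.Agent.P347
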