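import Vale.Agent.P347.Defs
import Vale.Agent.P347.Shortcuts

/-!
P347: coordinate tensors with norms over splittings of their legs.
-/

open MeasureTheory ProbabilityTheory
open scoped RealInnerProductSpace

namespace Vale.Agent.P347

/-- The part of degree one of a function, in `L²` of the Gaussian law. -/
noncomputable def chaosOne {ι : Type*} [Fintype ι] {F : Type*} [NormedAddCommGroup F]
    [NormedSpace ℝ F] (f : EuclideanSpace ℝ ι → F) (x : EuclideanSpace ℝ ι) : F :=
  ∫ w, ⟪x, w⟫ • f w ∂gau ι

end Vale.Agent.P347
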