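import Vale.Agent.P347.Gauss
import Vale.Agent.P347Zero.Defs

/-!
P347 (module M5b): the image of a standard Gaussian vector by a map `A` with `A A† ≈ 1` is close to
a standard Gaussian vector when tested against Lipschitz functions.
-/

open MeasureTheory ProbabilityTheory
open scoped RealInnerProductSpace NNReal

namespace Vale.Agent.P347

variable {ι : Type*} [Fintype ι]

/-- The characteristic function of a linear image of a Gaussian vector. -/
lemma charFun_gau_map {d : ℕ} (L : EuclideanSpace ℝ ι →L[ℝ] E d) (t : E d) :
    charFun ((gau ι).map L) t = Complex.exp (-((‖L.adjoint t‖ : ℝ) : ℂ) ^ 2 / 2) := by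
  rw [← charFun_stdGaussian, charFun_apply, charFun_apply,
    integral_map L.continuous.measurable.aemeasurable (by fun_prop)]
  simp only [ContinuousLinearMap.adjoint_inner_right]

end Vale.Agent.P347
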