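import Vale.Agent.P347Zero.LProg
import Vale.Agent.P347Zero.Defs
import Vale.Agent.P347.AlgChain

/-!
P347: the hypotheses on the field of a program, and sampling up to Lipschitz test functions.
-/

open MeasureTheory ProbabilityTheory Real
open scoped RealInnerProductSpace

namespace Vale.Agent.P347

variable {d : ℕ}

/-- A bounded `δ`-Lipschitz field with symmetric derivative whose restrictions to Gaussian laws of
variance at most `1` are, up to `δ r √d C / r ^ N`, polynomials of degree below `N`. -/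
structure Fld (d : ℕ) (δ r Gb C : ℝ) (N : ℕ) (h : E d → E d) : Prop where
  smooth : ContDiff ℝ 1 h
  lip : ∀ x, ‖fderiv ℝ h x‖ ≤ δ
  bdd : ∀ x, ‖h x‖ ≤ Gb
  symm : ∀ x a b, ⟪fderiv ℝ h x a, b⟫ = ⟪a, fderiv ℝ h x b⟫
  tail : ∀ (m : ℕ) (c ρ : Fin m → ℝ), (∀ k, ρ k ∈ Set.Icc (-1 : ℝ) 1) →
    (∀ n, n < N → ∑ k, c k * ρ k ^ n = 0) →
    ∀ q : E d, ∀ τ ∈ Set.Icc (0 : ℝ) 1,
      ∫ w, ‖∑ k, c k • ou (ρ k) (fun w => h (q + √τ • w)) w‖ ^ 2 ∂gau (Fin d)
        ≤ ((∑ k, |c k|) * (δ * r * √d * C / r ^ N)) ^ 2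
  tail_one : ∀ (m : ℕ) (c ρ : Fin m → ℝ), (∀ k, ρ k ∈ Set.Icc (-1 : ℝ) 1) →
    (∀ n, n < N → ∑ k, c k * ρ k ^ n = if n = 1 then 1 else 0) →
    ∀ q : E d, ∀ τ ∈ Set.Icc (0 : ℝ) 1,
      ∫ w, ‖(∑ k, c k • ou (ρ k) (fun w => h (q + √τ • w)) w)
          - chaosOne (fun w => h (q + √τ • w)) w‖ ^ 2 ∂gau (Fin d)
        ≤ ((1 + ∑ k, |c k|) * (δ * r * √d * C / r ^ N)) ^ 2

/-- With `q` queries one can draw from a law which agrees with the Gaussian law of mean `m` and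
unit covariance up to `e` on bounded Lipschitz test functions. -/
def Smp (d q : ℕ) {α : Type} [MeasurableSpace α] (m : (E d → ℝ) → α → E d) (e : α → ℝ) : Prop :=
  ∃ (S : Type) (_ : MeasurableSpace S) (_ : StandardBorelSpace S) (law : Measure S)
    (_ : IsProbabilityMeasure law) (F : (E d → ℝ) → α × S → E d),
    (∀ (β : Type) [MeasurableSpace β] (g : β → α × S), Measurable g →
      Comp d q fun V x => (x, F V (g x))) ∧
      ∀ V, InClass d V → ∀ a, ∀ v : E d → ℝ, ContDiff ℝ 1 v → (∃ K, ∀ x, |v x| ≤ K) →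
        (∀ x, ‖fderiv ℝ v x‖ ≤ 1) →
        |(∫ s, v (F V (a, s)) ∂law) - ∫ w, v (m V a + w) ∂gau (Fin d)| ≤ e a

end Vale.Agent.P347
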