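import Vale.Agent.P347Zero.ProgRen
import Vale.Agent.P347Zero.Field
import Vale.Agent.P347.GaussBasic

/-!
P347, v5 module M1 (analysis): programs are Lipschitz, continuous and continuously differentiable
in their inputs.
-/

open MeasureTheory ProbabilityTheory Real Filter Topology

namespace Vale.Agent.P347

variable {d : ℕ}

/-! ### Gaussian integrals with a parameter -/

section param

variable {G : Type*} [NormedAddCommGroup G] [NormedSpace ℝ G] [SecondCountableTopology G]

theorem integrable_gau_of_lip {f : E d → G} {K : ℝ} (hK : ∀ w w', ‖f w - f w'‖ ≤ K * ‖w - w'‖) :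
    Integrable f (gau (Fin d)) := by
  have hc : Continuous f :=
    (LipschitzWith.of_dist_le' (K := K) fun a b => by simpa only [dist_eq_norm] using hK a b).continuous
  refine integrable_gau_of_poly hc (‖f 0‖ + |K|) 1 fun w => ?_
  have h1 := norm_le_norm_add_norm_sub' (f w) (f 0)
  have h2 := hK w 0
  rw [sub_zero] at h2
  rw [pow_one]
  nlinarith [norm_nonneg w, norm_nonneg (f 0), le_abs_self K, abs_nonneg K]

omit [SecondCountableTopology G] in
theorem norm_integral_gau_sub_le {f f' : E d → G} (hf : Integrable f (gau (Fin d)))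
    (hf' : Integrable f' (gau (Fin d))) {C : ℝ} (h : ∀ w, ‖f w - f' w‖ ≤ C) :
    ‖(∫ w, f w ∂gau (Fin d)) - ∫ w, f' w ∂gau (Fin d)‖ ≤ C := by
  rw [← integral_sub hf hf']
  simpa using norm_integral_le_of_norm_le_const (μ := gau (Fin d)) (ae_of_all _ h)

variable {X : Type*} [NormedAddCommGroup X] [NormedSpace ℝ X] [FiniteDimensional ℝ X]

/-- The derivative of a Gaussian mean of a globally Lipschitz map is the mean of the derivative. -/
theorem hasFDerivAt_integral_gau {F : X × E d → G} (hF : ContDiff ℝ 1 F) {K K' : ℝ}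
    (hK : ∀ w x x', ‖F (x, w) - F (x', w)‖ ≤ K * ‖x - x'‖)
    (hK' : ∀ x w w', ‖F (x, w) - F (x, w')‖ ≤ K' * ‖w - w'‖) (x : X) :
    HasFDerivAt (fun y => ∫ w, F (y, w) ∂gau (Fin d))
      (∫ w, fderiv ℝ (fun y => F (y, w)) x ∂gau (Fin d)) x := by
  have hD : ∀ w y, fderiv ℝ (fun y => F (y, w)) y
      = (fderiv ℝ F (y, w)).comp (ContinuousLinearMap.inl ℝ X (E d)) := fun w y =>
    (((hF.differentiable (by simp)) (y, w)).hasFDerivAt.comp y
      (hasFDerivAt_prodMk_left y w)).fderiv
  have hc : Continuous fun w : E d => fderiv ℝ (fun y => F (y, w)) x := by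
    simp only [hD]
    exact ((hF.continuous_fderiv (by simp)).comp (by fun_prop)).clm_comp continuous_const
  refine hasFDerivAt_integral_of_dominated_of_fderiv_le (𝕜 := ℝ) (s := Set.univ)
    (F' := fun y w => fderiv ℝ (fun y => F (y, w)) y) (bound := fun _ => |K|) Filter.univ_mem
    (Eventually.of_forall fun y => (hF.continuous.comp (by fun_prop)).aestronglyMeasurable)
    (integrable_gau_of_lip (hK' x)) hc.aestronglyMeasurable
    (ae_of_all _ fun w y _ => ?_) (integrable_const _) (ae_of_all _ fun w y _ => ?_)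
  · refine norm_fderiv_le_of_lip' ℝ (abs_nonneg K) (Eventually.of_forall fun z => (hK w z y).trans ?_)
    exact mul_le_mul_of_nonneg_right (le_abs_self K) (norm_nonneg _)
  · exact ((hF.comp (contDiff_id.prodMk contDiff_const)).differentiable (by simp) y).hasFDerivAt

/-- A Gaussian mean of a globally Lipschitz `C¹` map is `C¹`. -/
theorem contDiff_integral_gau {F : X × E d → G} (hF : ContDiff ℝ 1 F) {K K' : ℝ}
    (hK : ∀ w x x', ‖F (x, w) - F (x', w)‖ ≤ K * ‖x - x'‖)
    (hK' : ∀ x w w', ‖F (x, w) - F (x, w')‖ ≤ K' * ‖w - w'‖) :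
    ContDiff ℝ 1 fun y => ∫ w, F (y, w) ∂gau (Fin d) := by
  rw [contDiff_one_iff_fderiv]
  refine ⟨fun x => (hasFDerivAt_integral_gau hF hK hK' x).differentiableAt, ?_⟩
  rw [funext fun x => (hasFDerivAt_integral_gau hF hK hK' x).fderiv]
  have hD : ∀ w y, fderiv ℝ (fun y => F (y, w)) y
      = (fderiv ℝ F (y, w)).comp (ContinuousLinearMap.inl ℝ X (E d)) := fun w y =>
    (((hF.differentiable (by simp)) (y, w)).hasFDerivAt.comp y
      (hasFDerivAt_prodMk_left y w)).fderiv
  refine continuous_of_dominated (bound := fun _ => |K|)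
    (fun x => Continuous.aestronglyMeasurable ?_) (fun x => ae_of_all _ fun w => ?_)
    (integrable_const _) (ae_of_all _ fun w => ?_)
  · simp only [hD]
    exact ((hF.continuous_fderiv (by simp)).comp (by fun_prop)).clm_comp continuous_const
  · refine norm_fderiv_le_of_lip' ℝ (abs_nonneg K) (Eventually.of_forall fun z => (hK w z x).trans ?_)
    exact mul_le_mul_of_nonneg_right (le_abs_self K) (norm_nonneg _)
  · simp only [hD]
    exact ((hF.continuous_fderiv (by simp)).comp (by fun_prop)).clm_comp continuous_const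

end param

/-! ### The field of a program -/

variable {h : E d → E d} {δ r Gb C : ℝ} {N : ℕ}

theorem Fld.delta_nonneg (hh : Fld d δ r Gb C N h) : 0 ≤ δ := (norm_nonneg _).trans (hh.lip 0)

theorem Fld.norm_sub_le (hh : Fld d δ r Gb C N h) (x y : E d) : ‖h x - h y‖ ≤ δ * ‖x - y‖ :=
  convex_univ.norm_image_sub_le_of_norm_fderiv_le
    (fun z _ => (hh.smooth.differentiable (by simp)) z) (fun z _ => hh.lip z) trivial trivial

theorem Fld.integrable_slice (hh : Fld d δ r Gb C N h) (x : E d) (s : ℝ) :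
    Integrable (fun w => h (x + s • w)) (gau (Fin d)) :=
  integrable_gau_of_lip (K := δ * |s|) fun w w' => (hh.norm_sub_le _ _).trans_eq <| by
    rw [add_sub_add_left_eq_sub, ← smul_sub, norm_smul, Real.norm_eq_abs, mul_assoc]

theorem Fld.norm_Psm_sub_le (hh : Fld d δ r Gb C N h) (τ : ℝ) (x y : E d) :
    ‖Psm τ h x - Psm τ h y‖ ≤ δ * ‖x - y‖ :=
  norm_integral_gau_sub_le (hh.integrable_slice x _) (hh.integrable_slice y _) fun w =>
    (hh.norm_sub_le _ _).trans_eq (by rw [add_sub_add_right_eq_sub])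

theorem Fld.contDiff_Psm (hh : Fld d δ r Gb C N h) (τ : ℝ) : ContDiff ℝ 1 (Psm τ h) :=
  contDiff_integral_gau (F := fun z : E d × E d => h (z.1 + √τ • z.2))
    (hh.smooth.comp (by fun_prop)) (K := δ) (K' := δ * √τ)
    (fun w x x' => (hh.norm_sub_le _ _).trans_eq (by rw [add_sub_add_right_eq_sub]))
    (fun x w w' => (hh.norm_sub_le _ _).trans_eq <| by
      rw [add_sub_add_left_eq_sub, ← smul_sub, norm_smul, Real.norm_eq_abs,
        abs_of_nonneg (sqrt_nonneg τ), mul_assoc])

theorem Fld.norm_fderiv_Psm_le (hh : Fld d δ r Gb C N h) (τ : ℝ) (x : E d) :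
    ‖fderiv ℝ (Psm τ h) x‖ ≤ δ :=
  norm_fderiv_le_of_lip' ℝ hh.delta_nonneg
    (Eventually.of_forall fun y => hh.norm_Psm_sub_le τ y x)

/-! ### Programs are Lipschitz -/

namespace Prog

variable {h : ℕ → E d → E d} {δ : ℕ → ℝ}

theorem delta_nonneg_of_fld (hh : ∀ ℓ, Fld d (δ ℓ) r Gb C N (h ℓ)) : 0 ≤ δ :=
  fun ℓ => (hh ℓ).delta_nonneg

theorem lip_pushR_zero (p : Prog) (δ : ℕ → ℝ) (a : ℝ) :
    p.lip δ (pushR a 0) = a * p.lip δ (pushR 1 0) := by
  rw [← lip_smul_v, ← pushR_smul, mul_one, smul_zero]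

theorem norm_sem_sub_le {h : ℕ → E d → E d} {δ : ℕ → ℝ} {r Gb C : ℝ} {N : ℕ}
    (hh : ∀ ℓ, Fld d (δ ℓ) r Gb C N (h ℓ)) (hδ : 0 ≤ δ) (p : Prog) {v : ℕ → ℝ} (env env' : Env d) (hv : ∀ i, ‖env i - env' i‖ ≤ v i) :
    ‖p.sem h env - p.sem h env'‖ ≤ p.lip δ v := by
  induction p generalizing v env env' with
  | inp i => exact hv i
  | zero => simp [Prog.sem, Prog.lip]
  | add p q ihp ihq =>
    simp only [Prog.sem, Prog.lip, add_sub_add_comm]
    exact (norm_add_le _ _).trans (add_le_add (ihp env env' hv) (ihq env env' hv))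
  | smul c p ih =>
    simp only [Prog.sem, Prog.lip, ← smul_sub, norm_smul, Real.norm_eq_abs]
    exact mul_le_mul_of_nonneg_left (ih env env' hv) (abs_nonneg c)
  | call ℓ τ p ih =>
    exact ((hh ℓ).norm_Psm_sub_le τ _ _).trans (mul_le_mul_of_nonneg_left (ih env env' hv) (hδ ℓ))
  | bind p Δ b ihp ihb =>
    have hint : ∀ (m : E d) (e : Env d),
        Integrable (fun w => b.sem h (push (m + √Δ • w) e)) (gau (Fin d)) := fun m e =>
      integrable_gau_of_lip (K := √Δ * b.lip δ (pushR 1 0)) fun w w' => by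
        refine (ihb (push (m + √Δ • w) e) (push (m + √Δ • w') e)
          (v := pushR (√Δ * ‖w - w'‖) 0) ?_).trans_eq ?_
        · intro i
          cases i with
          | zero =>
            simp only [push, pushR, add_sub_add_left_eq_sub, ← smul_sub, norm_smul,
              Real.norm_eq_abs, abs_of_nonneg (sqrt_nonneg Δ)]
            exact le_rfl
          | succ j => simp [push, pushR]
        · rw [lip_pushR_zero]; ring
    refine norm_integral_gau_sub_le (hint _ _) (hint _ _) fun w => ihb _ _ ?_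
    intro i
    cases i with
    | zero =>
      simp only [push, pushR, add_sub_add_right_eq_sub]
      exact ihp env env' hv
    | succ j => exact hv j

/-- The value of a program is Lipschitz in the point of its innermost input. -/
theorem norm_sem_push_sub_le (hh : ∀ ℓ, Fld d (δ ℓ) r Gb C N (h ℓ)) (b : Prog) (env : Env d) (a a' : E d) :
    ‖b.sem h (push a env) - b.sem h (push a' env)‖ ≤ ‖a - a'‖ * b.lip δ (pushR 1 0) := by
  rw [← lip_pushR_zero]
  refine norm_sem_sub_le hh (delta_nonneg_of_fld hh) b _ _ fun i => ?_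
  cases i with
  | zero => exact le_rfl
  | succ j => simp [push, pushR]

theorem integrable_sem_push (hh : ∀ ℓ, Fld d (δ ℓ) r Gb C N (h ℓ)) (b : Prog) (env : Env d) (m : E d) (s : ℝ) :
    Integrable (fun w => b.sem h (push (m + s • w) env)) (gau (Fin d)) :=
  integrable_gau_of_lip (K := |s| * b.lip δ (pushR 1 0)) fun w w' =>
    (norm_sem_push_sub_le hh b env _ _).trans_eq <| by
      rw [add_sub_add_left_eq_sub, ← smul_sub, norm_smul, Real.norm_eq_abs]; ring

/-- The Lipschitz bound is continuous in the motion of the inputs. -/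
theorem continuous_lip (δ : ℕ → ℝ) (p : Prog) : Continuous fun v : ℕ → ℝ => p.lip δ v := by
  induction p with
  | inp i => exact continuous_apply i
  | zero => exact continuous_const
  | add p q hp hq => exact hp.add hq
  | smul c p hp => exact hp.const_smul (|c|)
  | call ℓ τ p hp => exact hp.const_smul (δ ℓ)
  | bind p Δ b hp hb =>
    refine hb.comp (continuous_pi fun i => ?_)
    cases i with
    | zero => exact hp
    | succ j => exact continuous_apply j

/-- The value of a program is continuous in all inputs jointly. -/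
theorem continuous_sem (hh : ∀ ℓ, Fld d (δ ℓ) r Gb C N (h ℓ)) (p : Prog) :
    Continuous fun env : Env d => p.sem h env := by
  refine continuous_iff_continuousAt.2 fun env => ?_
  rw [ContinuousAt, tendsto_iff_norm_sub_tendsto_zero]
  have h1 : Tendsto (fun e : Env d => p.lip δ fun i => ‖e i - env i‖) (𝓝 env) (𝓝 0) := by
    have h2 := ((continuous_lip δ p).comp (continuous_pi fun i =>
      ((continuous_apply i).sub continuous_const).norm (f := fun e : Env d => e i - env i))).tendsto env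
    simpa [Function.comp_def, ← Pi.zero_def, lip_zero_v] using h2
  exact squeeze_zero (fun e => norm_nonneg _)
    (fun e => norm_sem_sub_le hh (delta_nonneg_of_fld hh) p e env fun i => le_rfl) h1

theorem measurable_sem (hh : ∀ ℓ, Fld d (δ ℓ) r Gb C N (h ℓ)) (p : Prog) :
    Measurable fun env : Env d => p.sem h env := (continuous_sem hh p).measurable

/-! ### Programs are continuously differentiable -/

theorem norm_sem_comp_sub_le (hh : ∀ ℓ, Fld d (δ ℓ) r Gb C N (h ℓ)) (p : Prog) {X : Type*}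
    [NormedAddCommGroup X] {F : X → Env d} {L : ℕ → ℝ}
    (hL : ∀ x x' i, ‖F x i - F x' i‖ ≤ L i * ‖x - x'‖) (x x' : X) :
    ‖p.sem h (F x) - p.sem h (F x')‖ ≤ p.lip δ L * ‖x - x'‖ := by
  rw [mul_comm, ← lip_smul_v]
  exact norm_sem_sub_le hh (delta_nonneg_of_fld hh) p _ _ fun i => (hL x x' i).trans_eq (mul_comm _ _)

/-- The bounds on the inputs of the body of a binder. -/
theorem norm_push_sub_le (hh : ∀ ℓ, Fld d (δ ℓ) r Gb C N (h ℓ)) (p : Prog) (s : ℝ) {X : Type*}
    [NormedAddCommGroup X] {F : X → Env d} {L : ℕ → ℝ} (hL0 : ∀ i, 0 ≤ L i)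
    (hL : ∀ x x' i, ‖F x i - F x' i‖ ≤ L i * ‖x - x'‖) (z z' : X × E d) (i : ℕ) :
    ‖push (p.sem h (F z.1) + s • z.2) (F z.1) i - push (p.sem h (F z'.1) + s • z'.2) (F z'.1) i‖
      ≤ pushR (p.lip δ L + |s|) L i * ‖z - z'‖ := by
  have h1 : ‖z.1 - z'.1‖ ≤ ‖z - z'‖ := norm_fst_le (z - z')
  have h2 : ‖z.2 - z'.2‖ ≤ ‖z - z'‖ := norm_snd_le (z - z')
  cases i with
  | zero =>
    simp only [push, pushR, add_sub_add_comm, ← smul_sub, add_mul]
    refine (norm_add_le _ _).trans (add_le_add ?_ ?_)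
    · exact (norm_sem_comp_sub_le hh p hL _ _).trans
        (mul_le_mul_of_nonneg_left h1 (p.lip_nonneg (delta_nonneg_of_fld hh) hL0))
    · rw [norm_smul, Real.norm_eq_abs]
      exact mul_le_mul_of_nonneg_left h2 (abs_nonneg s)
  | succ j => exact (hL _ _ j).trans (mul_le_mul_of_nonneg_left h1 (hL0 j))

/-- A program is `C¹` along any `C¹` Lipschitz family of inputs. -/
theorem contDiff_sem (hh : ∀ ℓ, Fld d (δ ℓ) r Gb C N (h ℓ)) (p : Prog) :
    ∀ {X : Type} [NormedAddCommGroup X] [NormedSpace ℝ X] [FiniteDimensional ℝ X]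
      {F : X → Env d} {L : ℕ → ℝ}, (∀ i, ContDiff ℝ 1 fun x => F x i) → (∀ i, 0 ≤ L i) →
      (∀ x x' i, ‖F x i - F x' i‖ ≤ L i * ‖x - x'‖) → ContDiff ℝ 1 fun x => p.sem h (F x) := by
  induction p with
  | inp i => intro X _ _ _ F L hF _ _; exact hF i
  | zero => intros; exact contDiff_const
  | add p q hp hq => intro X _ _ _ F L hF h0 hL; exact (hp hF h0 hL).add (hq hF h0 hL)
  | smul c p hp => intro X _ _ _ F L hF h0 hL; exact (hp hF h0 hL).const_smul c
  | call ℓ τ p hp => intro X _ _ _ F L hF h0 hL; exact ((hh ℓ).contDiff_Psm τ).comp (hp hF h0 hL)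
  | bind p Δ b hp hb =>
    intro X _ _ _ F L hF h0 hL
    have hP := hp hF h0 hL
    have h0' : ∀ i, 0 ≤ pushR (p.lip δ L + |√Δ|) L i :=
      pushR_nonneg (add_nonneg (p.lip_nonneg (delta_nonneg_of_fld hh) h0) (abs_nonneg _)) h0
    refine contDiff_integral_gau
      (F := fun z : X × E d => b.sem h (push (p.sem h (F z.1) + √Δ • z.2) (F z.1)))
      (hb (F := fun z : X × E d => push (p.sem h (F z.1) + √Δ • z.2) (F z.1))
        (fun i => ?_) h0' (norm_push_sub_le hh p √Δ h0 hL))
      (K := b.lip δ (pushR (p.lip δ L + |√Δ|) L)) (K' := b.lip δ (pushR (p.lip δ L + |√Δ|) L))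
      (fun w x x' => ?_) (fun x w w' => ?_)
    · cases i with
      | zero => exact (hP.comp contDiff_fst).add (contDiff_snd.const_smul _)
      | succ j => exact (hF j).comp contDiff_fst
    · refine (norm_sem_comp_sub_le hh b (norm_push_sub_le hh p √Δ h0 hL) (x, w) (x', w)).trans_eq ?_
      rw [Prod.mk_sub_mk, sub_self, Prod.norm_mk, norm_zero, max_eq_left (norm_nonneg _)]
    · refine (norm_sem_comp_sub_le hh b (norm_push_sub_le hh p √Δ h0 hL) (x, w) (x, w')).trans_eq ?_
      rw [Prod.mk_sub_mk, sub_self, Prod.norm_mk, norm_zero, max_eq_right (norm_nonneg _)]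

variable {X : Type} [NormedAddCommGroup X] [NormedSpace ℝ X] [FiniteDimensional ℝ X]
  {F : X → Env d} {L : ℕ → ℝ}

omit [FiniteDimensional ℝ X] in
theorem norm_fderiv_sem_le (hh : ∀ ℓ, Fld d (δ ℓ) r Gb C N (h ℓ)) (p : Prog) (h0 : ∀ i, 0 ≤ L i)
    (hL : ∀ x x' i, ‖F x i - F x' i‖ ≤ L i * ‖x - x'‖) (x : X) :
    ‖fderiv ℝ (fun x => p.sem h (F x)) x‖ ≤ p.lip δ L :=
  norm_fderiv_le_of_lip' ℝ (p.lip_nonneg (delta_nonneg_of_fld hh) h0)
    (Eventually.of_forall fun y => norm_sem_comp_sub_le hh p hL y x)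

/-- A program is `C¹` in the input of an innermost binder. -/
theorem contDiff_sem_push (hh : ∀ ℓ, Fld d (δ ℓ) r Gb C N (h ℓ)) (p : Prog) (env : Env d) :
    ContDiff ℝ 1 fun x : E d => p.sem h (push x env) := by
  refine contDiff_sem hh p (L := pushR 1 0) (fun i => ?_)
    (pushR_nonneg zero_le_one fun _ => le_rfl) fun x x' i => ?_
  · cases i with
    | zero => exact contDiff_id
    | succ j => exact contDiff_const
  · cases i with
    | zero => simp [push, pushR]
    | succ j => simp [push, pushR]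

end Prog

end Vale.Agent.P347
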