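import Vale.Agent.P347.Smooth
import Vale.Agent.P347Zero.ProgBasic
import Vale.Agent.P347Zero.Couple

/-!
P347 (module M5, analysis): the part of degree one of a field near a point, read at a Gaussian
vector `A u + (1 - U) e` with nearly unit covariance and averaged over `e`, is the derivative of the
smoothed field applied to `A u`.
-/

open MeasureTheory ProbabilityTheory Real
open scoped RealInnerProductSpace

namespace Vale.Agent.P347

variable {d : ℕ}

/-- A sum of two independent linear images of Gaussian vectors with nearly unit covariance is the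
image of one Gaussian vector by a map close to the identity in mean square. -/
theorem exists_near_map (A V : E d →L[ℝ] E d) {η : ℝ}
    (hA : ∀ t, |‖A.adjoint t‖ ^ 2 + ‖V.adjoint t‖ ^ 2 - ‖t‖ ^ 2| ≤ η * ‖t‖ ^ 2) :
    ∃ T : E d →L[ℝ] E d,
      ((gau (Fin d)).prod (gau (Fin d))).map (fun p => A p.1 + V p.2) = (gau (Fin d)).map T ∧
        ∫ z, ‖T z - z‖ ^ 2 ∂gau (Fin d) ≤ d * η ^ 2 := by
  set S : E d →ₗ[ℝ] E d :=
    ((A.comp A.adjoint + V.comp V.adjoint : E d →L[ℝ] E d) : E d →ₗ[ℝ] E d) with hS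
  have hSapp : ∀ x y : E d, ⟪S x, y⟫ =
      ⟪A.adjoint x, A.adjoint y⟫ + ⟪V.adjoint x, V.adjoint y⟫ := fun x y => by
    simp [hS, inner_add_left, ContinuousLinearMap.adjoint_inner_right]
  have hsym : S.IsSymmetric := fun x y => by
    have h := hSapp y x
    rw [real_inner_comm (A.adjoint x), real_inner_comm (V.adjoint x), real_inner_comm x] at h
    rw [hSapp]
    exact h.symm
  have hn : Module.finrank ℝ (E d) = d := by simp
  set u := hsym.eigenvectorBasis hn
  set l := hsym.eigenvalues hn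
  have hu : ∀ k, S (u k) = l k • u k := fun k => hsym.apply_eigenvectorBasis hn k
  have hlk : ∀ k, l k = ‖A.adjoint (u k)‖ ^ 2 + ‖V.adjoint (u k)‖ ^ 2 := fun k => by
    have h := hSapp (u k) (u k)
    rw [hu, real_inner_smul_left, real_inner_self_eq_norm_sq, u.orthonormal.1 k, one_pow, mul_one,
      real_inner_self_eq_norm_sq, real_inner_self_eq_norm_sq] at h
    exact h
  have hl : ∀ k, 0 ≤ l k := fun k => by rw [hlk]; positivity
  have hl1 : ∀ k, |l k - 1| ≤ η := fun k => by
    have h := hA (u k)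
    rw [← hlk, u.orthonormal.1 k, one_pow, mul_one] at h
    exact h
  set T : E d →L[ℝ] E d := ∑ k, √(l k) • (innerSL ℝ (u k)).smulRight (u k) with hT
  have hTapp : ∀ z, T z = ∑ k, (√(l k) * ⟪u k, z⟫) • u k := fun z => by
    simp [hT, smul_smul]
  have hTadj : T.adjoint = T := by
    symm
    rw [ContinuousLinearMap.eq_adjoint_iff]
    intro x y
    rw [hTapp, hTapp, sum_inner, inner_sum]
    refine Finset.sum_congr rfl fun k _ => ?_
    rw [real_inner_smul_left, real_inner_smul_right, real_inner_comm x (u k)]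
    ring
  have hnorm : ∀ t, ‖T.adjoint t‖ ^ 2 = ‖A.adjoint t‖ ^ 2 + ‖V.adjoint t‖ ^ 2 := fun t => by
    rw [hTadj, ← real_inner_self_eq_norm_sq (A.adjoint t), ← real_inner_self_eq_norm_sq (V.adjoint t),
      ← hSapp, ← u.sum_sq_norm_inner_right, ← u.sum_inner_mul_inner (S t) t]
    refine Finset.sum_congr rfl fun k _ => ?_
    rw [hTapp, inner_sum, Finset.sum_eq_single k]
    · rw [real_inner_smul_right, real_inner_self_eq_norm_sq, u.orthonormal.1 k,
        hsym t (u k), hu, real_inner_smul_right, real_inner_comm t (u k)]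
      simp only [Real.norm_eq_abs, sq_abs, one_pow, mul_one, mul_pow, Real.sq_sqrt (hl k)]
      ring
    · intro b _ hb
      rw [real_inner_smul_right, u.orthonormal.2 (Ne.symm hb), mul_zero]
    · exact fun h => absurd (Finset.mem_univ k) h
  refine ⟨T, ?_, ?_⟩
  · apply Measure.ext_of_charFun
    ext t
    have ec : charFun (((gau (Fin d)).prod (gau (Fin d))).map fun p => A p.1 + V p.2) t =
        charFun ((gau (Fin d)).map A) t * charFun ((gau (Fin d)).map V) t := by
      simp only [charFun_apply]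
      rw [integral_map (by fun_prop) (by fun_prop), integral_map (by fun_prop) (by fun_prop),
        integral_map (by fun_prop) (by fun_prop), ← integral_prod_mul]
      refine integral_congr_ae (ae_of_all _ fun p => ?_)
      simp only [← Complex.exp_add]
      congr 1
      simp only [inner_add_left, Complex.ofReal_add]
      ring
    rw [ec, charFun_gau_map, charFun_gau_map, charFun_gau_map, ← Complex.exp_add]
    congr 1
    simp only [← Complex.ofReal_pow, hnorm]
    push_cast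
    ring
  · have e : ∀ z, ‖T z - z‖ ^ 2 = ∑ k, (√(l k) - 1) ^ 2 * u.repr z k ^ 2 := fun z => by
      rw [← u.sum_sq_norm_inner_right]
      refine Finset.sum_congr rfl fun k _ => ?_
      rw [Real.norm_eq_abs, sq_abs, inner_sub_right, hTapp, inner_sum, Finset.sum_eq_single k,
        real_inner_smul_right, real_inner_self_eq_norm_sq, u.orthonormal.1 k,
        OrthonormalBasis.repr_apply_apply]
      · ring
      · intro b _ hb
        rw [real_inner_smul_right, u.orthonormal.2 (Ne.symm hb), mul_zero]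
      · exact fun h => absurd (Finset.mem_univ k) h
    have hmap : (gau (Fin d)).map u.repr = gau (Fin d) := stdGaussian_map u.repr
    have hk : ∀ k, ∫ z, u.repr z k ^ 2 ∂gau (Fin d) = 1 := fun k => by
      have := integral_gau_coord_sq (ι := Fin d) k
      rw [← hmap, integral_map u.repr.continuous.measurable.aemeasurable (by fun_prop)] at this
      exact this
    simp_rw [e]
    rw [integral_finsetSum]
    · simp only [integral_const_mul, hk, mul_one]
      calc ∑ k, (√(l k) - 1) ^ 2 ≤ ∑ _k : Fin d, η ^ 2 := by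
            refine Finset.sum_le_sum fun k _ => ?_
            have h := Real.sqrt_nonneg (l k)
            have h1 : l k - 1 = (√(l k) - 1) * (√(l k) + 1) := by
              have := Real.sq_sqrt (hl k); ring_nf; linarith
            calc (√(l k) - 1) ^ 2 ≤ (l k - 1) ^ 2 := by
                  rw [h1, mul_pow]
                  exact le_mul_of_one_le_right (sq_nonneg _) (by nlinarith)
              _ = |l k - 1| ^ 2 := (sq_abs _).symm
              _ ≤ η ^ 2 := pow_le_pow_left₀ (abs_nonneg _) (hl1 k) 2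
        _ = _ := by simp
    · intro k _
      refine Integrable.const_mul ?_ _
      refine integrable_gau_of_poly (by fun_prop) 1 2 fun z => ?_
      have h1 := PiLp.norm_apply_le (p := 2) (u.repr z) k
      rw [u.repr.norm_map] at h1
      rw [norm_pow, one_mul]
      exact pow_le_pow_left₀ (norm_nonneg _) (h1.trans (by linarith)) 2

/-- The square of a mean is at most the mean of the square. -/
theorem norm_integral_sq_le {X : Type*} [MeasurableSpace X] {μ : Measure X} [IsProbabilityMeasure μ]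
    {G : Type*} [NormedAddCommGroup G] [NormedSpace ℝ G] {f : X → G} (hf : Integrable f μ)
    (hf2 : Integrable (fun x => ‖f x‖ ^ 2) μ) :
    ‖∫ x, f x ∂μ‖ ^ 2 ≤ ∫ x, ‖f x‖ ^ 2 ∂μ := by
  set m := ∫ x, ‖f x‖ ∂μ with hm
  have h1 : ‖∫ x, f x ∂μ‖ ≤ m := norm_integral_le_integral_norm f
  have h2 : 0 ≤ ∫ x, (‖f x‖ - m) ^ 2 ∂μ := integral_nonneg fun x => sq_nonneg _
  have e : ∀ x, (‖f x‖ - m) ^ 2 = ‖f x‖ ^ 2 - 2 * m * ‖f x‖ + m ^ 2 := fun x => by ring
  simp only [e] at h2
  rw [integral_add (f := fun x => ‖f x‖ ^ 2 - 2 * m * ‖f x‖) (hf2.sub (hf.norm.const_mul _))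
      (integrable_const _), integral_sub hf2 (hf.norm.const_mul _), integral_const_mul,
    integral_const, probReal_univ, one_smul, ← hm] at h2
  have h3 := pow_le_pow_left₀ (norm_nonneg _) h1 2
  nlinarith

variable {h : E d → E d} {δ r Gb Cb τ : ℝ} {N m : ℕ} {c ρ : Fin m → ℝ}

/-- The degree-one extraction error at a point. -/
noncomputable def extrErr (h : E d → E d) (τ : ℝ) (c ρ : Fin m → ℝ) (q x : E d) : E d :=
  (∑ k, c k • Psm (τ * (1 - ρ k ^ 2)) h (q + (√τ * ρ k) • x)) - √τ • fderiv ℝ (Psm τ h) q x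

lemma ou_slice (hτ : 0 ≤ τ) {a : ℝ} (q x : E d) :
    ou a (fun w => h (q + √τ • w)) x = Psm (τ * (1 - a ^ 2)) h (q + (√τ * a) • x) := by
  simp only [ou, Psm]
  refine integral_congr_ae (ae_of_all _ fun w => ?_)
  simp only [smul_add, smul_smul, Real.sqrt_mul hτ, add_assoc]

lemma chaosOne_slice (hh : Fld d δ r Gb Cb N h) (hτ : 0 < τ) (q x : E d) :
    chaosOne (fun w => h (q + √τ • w)) x = √τ • fderiv ℝ (Psm τ h) q x := by
  rw [fderiv_Psm_apply hτ hh.smooth.continuous.measurable hh.bdd, smul_smul,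
    mul_one_div_cancel (Real.sqrt_pos.2 hτ).ne', one_smul]
  simp only [chaosOne, real_inner_comm]

lemma extrErr_lip (hh : Fld d δ r Gb Cb N h) (hρ : ∀ k, |ρ k| ≤ 1 / 2) (q x y : E d) :
    ‖extrErr h τ c ρ q x - extrErr h τ c ρ q y‖ ≤ (1 + ∑ k, |c k|) * (√τ * δ) * ‖x - y‖ := by
  have h0 := hh.delta_nonneg
  have e : extrErr h τ c ρ q x - extrErr h τ c ρ q y =
      (∑ k, c k • (Psm (τ * (1 - ρ k ^ 2)) h (q + (√τ * ρ k) • x) -
        Psm (τ * (1 - ρ k ^ 2)) h (q + (√τ * ρ k) • y))) - √τ • fderiv ℝ (Psm τ h) q (x - y) := by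
    simp only [extrErr, map_sub, smul_sub, Finset.sum_sub_distrib]
    abel
  have h1 : ‖∑ k, c k • (Psm (τ * (1 - ρ k ^ 2)) h (q + (√τ * ρ k) • x) -
      Psm (τ * (1 - ρ k ^ 2)) h (q + (√τ * ρ k) • y))‖ ≤
      (∑ k, |c k|) * (√τ * δ) * ‖x - y‖ := by
    refine (norm_sum_le _ _).trans ?_
    rw [Finset.sum_mul, Finset.sum_mul]
    refine Finset.sum_le_sum fun k _ => ?_
    rw [norm_smul, Real.norm_eq_abs, mul_assoc]
    refine mul_le_mul_of_nonneg_left ((hh.norm_Psm_sub_le _ _ _).trans ?_) (abs_nonneg _)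
    rw [add_sub_add_left_eq_sub, ← smul_sub, norm_smul, Real.norm_eq_abs, abs_mul,
      abs_of_nonneg (Real.sqrt_nonneg τ)]
    have : |ρ k| ≤ 1 := (hρ k).trans (by norm_num)
    nlinarith [mul_le_mul_of_nonneg_left this (mul_nonneg h0 (mul_nonneg (Real.sqrt_nonneg τ)
      (norm_nonneg (x - y))))]
  have h2 : ‖√τ • fderiv ℝ (Psm τ h) q (x - y)‖ ≤ √τ * δ * ‖x - y‖ := by
    rw [norm_smul, Real.norm_eq_abs, abs_of_nonneg (Real.sqrt_nonneg τ), mul_assoc]
    exact mul_le_mul_of_nonneg_left ((ContinuousLinearMap.le_opNorm _ _).trans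
      (mul_le_mul_of_nonneg_right (hh.norm_fderiv_Psm_le τ q) (norm_nonneg _))) (Real.sqrt_nonneg τ)
  rw [e]
  refine (norm_sub_le _ _).trans ?_
  linarith

lemma integrable_sq_extrErr (hh : Fld d δ r Gb Cb N h) (hρ : ∀ k, |ρ k| ≤ 1 / 2) (q : E d)
    {g : E d → E d} {K : ℝ} (hK : ∀ z z', ‖g z - g z'‖ ≤ K * ‖z - z'‖) :
    Integrable (fun z => ‖extrErr h τ c ρ q (g z)‖ ^ 2) (gau (Fin d)) := by
  set L := (1 + ∑ k, |c k|) * (√τ * δ)
  have hL : 0 ≤ L := mul_nonneg (add_nonneg zero_le_one (Finset.sum_nonneg fun k _ => abs_nonneg _))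
    (mul_nonneg (Real.sqrt_nonneg τ) hh.delta_nonneg)
  have hlip : ∀ z z', ‖extrErr h τ c ρ q (g z) - extrErr h τ c ρ q (g z')‖ ≤ L * K * ‖z - z'‖ :=
    fun z z' => (extrErr_lip hh hρ q _ _).trans
      ((mul_le_mul_of_nonneg_left (hK z z') hL).trans_eq (mul_assoc _ _ _).symm)
  set M := |L * K|
  set z0 := ‖extrErr h τ c ρ q (g 0)‖
  have hc : Continuous fun z => extrErr h τ c ρ q (g z) :=
    (LipschitzWith.of_dist_le_mul (K := ⟨M, abs_nonneg _⟩) fun z z' => by
      simp only [dist_eq_norm]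
      exact (hlip z z').trans (mul_le_mul_of_nonneg_right (le_abs_self _) (norm_nonneg _))).continuous
  refine integrable_gau_of_poly (hc.norm.pow 2) ((z0 + M) ^ 2) 2 fun z => ?_
  have h1 : ‖extrErr h τ c ρ q (g z)‖ ≤ z0 + M * ‖z‖ := by
    have h3 := (hlip z 0).trans (mul_le_mul_of_nonneg_right (le_abs_self _) (norm_nonneg (z - 0)))
    rw [sub_zero] at h3
    linarith [norm_le_norm_add_norm_sub' (extrErr h τ c ρ q (g z)) (extrErr h τ c ρ q (g 0))]
  rw [norm_pow, norm_norm, ← mul_pow]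
  refine pow_le_pow_left₀ (norm_nonneg _) (h1.trans ?_) 2
  nlinarith [mul_nonneg (norm_nonneg (extrErr h τ c ρ q (g 0))) (norm_nonneg z), abs_nonneg (L * K)]

/-- The averaged degree-one extraction at `A u + (1 - U) e` is `√τ D Psm τ h (q) (A u)`. -/
theorem hess_extract (hh : Fld d δ r Gb Cb N h) (hτ : 0 < τ) (hτ1 : τ ≤ 1)
    (hρ : ∀ k, |ρ k| ≤ 1 / 2) (hc : ∀ n, n < N → ∑ k, c k * ρ k ^ n = if n = 1 then 1 else 0)
    (q : E d) (A U : E d →L[ℝ] E d) (hU : ∀ a b, ⟪U a, b⟫ = ⟪a, U b⟫) {η : ℝ}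
    (hA : ∀ t, |‖A.adjoint t‖ ^ 2 + ‖t - U t‖ ^ 2 - ‖t‖ ^ 2| ≤ η * ‖t‖ ^ 2) :
    ∫ u, ‖(∫ e, ∑ k, c k • Psm (τ * (1 - ρ k ^ 2)) h (q + (√τ * ρ k) • (A u + (e - U e)))
        ∂gau (Fin d)) - √τ • fderiv ℝ (Psm τ h) q (A u)‖ ^ 2 ∂gau (Fin d)
      ≤ 2 * ((1 + ∑ k, |c k|) * (δ * r * √d * Cb / r ^ N)) ^ 2
        + 2 * ((1 + ∑ k, |c k|) * (√τ * δ) * η * √d) ^ 2 := by
  set L := (1 + ∑ k, |c k|) * (√τ * δ) with hLdef
  set V : E d →L[ℝ] E d := ContinuousLinearMap.id ℝ (E d) - U with hV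
  have hVapp : ∀ x, V x = x - U x := fun x => by simp [hV]
  have hVadj : V.adjoint = V := by
    symm
    rw [ContinuousLinearMap.eq_adjoint_iff]
    intro x y
    rw [hVapp, hVapp, inner_sub_left, inner_sub_right, hU]
  obtain ⟨T, hlaw, hT⟩ := exists_near_map A V (η := η) fun t => by rw [hVadj, hVapp]; exact hA t
  have hL0 : 0 ≤ L := mul_nonneg (add_nonneg zero_le_one (Finset.sum_nonneg fun k _ => abs_nonneg _))
    (mul_nonneg (Real.sqrt_nonneg τ) hh.delta_nonneg)
  set R : E d → E d := extrErr h τ c ρ q with hR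
  have hRc : Continuous R := (LipschitzWith.of_dist_le_mul (K := ⟨L, hL0⟩) fun z z' => by
    simp only [dist_eq_norm]; exact extrErr_lip hh hρ q z z').continuous
  have hlin : ∀ g : E d →L[ℝ] E d, ∀ z z', ‖g z - g z'‖ ≤ ‖g‖ * ‖z - z'‖ := fun g z z' => by
    rw [← map_sub]; exact g.le_opNorm _
  -- the inner mean is a mean of errors
  have hinner : ∀ u, (∫ e, ∑ k, c k • Psm (τ * (1 - ρ k ^ 2)) h (q + (√τ * ρ k) • (A u + (e - U e)))
      ∂gau (Fin d)) - √τ • fderiv ℝ (Psm τ h) q (A u) = ∫ e, R (A u + V e) ∂gau (Fin d) := fun u => by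
    have i1 : Integrable (fun e => R (A u + V e)) (gau (Fin d)) :=
      integrable_gau_of_lip (K := L * ‖V‖) fun w w' => (extrErr_lip hh hρ q _ _).trans <|
        (mul_le_mul_of_nonneg_left (by rw [add_sub_add_left_eq_sub]; exact hlin V w w') hL0).trans_eq
          (mul_assoc _ _ _).symm
    have i2 : Integrable (fun e => √τ • fderiv ℝ (Psm τ h) q (A u + V e)) (gau (Fin d)) :=
      integrable_gau_of_lip (K := √τ * (‖fderiv ℝ (Psm τ h) q‖ * ‖V‖)) fun w w' => by
        rw [← smul_sub, ← map_sub, add_sub_add_left_eq_sub, norm_smul, Real.norm_eq_abs,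
          abs_of_nonneg (Real.sqrt_nonneg τ), mul_assoc, mul_assoc]
        exact mul_le_mul_of_nonneg_left (((fderiv ℝ (Psm τ h) q).le_opNorm _).trans
          (mul_le_mul_of_nonneg_left (hlin V w w') (norm_nonneg _))) (Real.sqrt_nonneg τ)
    have hmean : ∫ e, √τ • fderiv ℝ (Psm τ h) q (A u + V e) ∂gau (Fin d) =
        √τ • fderiv ℝ (Psm τ h) q (A u) := by
      have i3 : Integrable (fun e : E d => e) (gau (Fin d)) :=
        integrable_gau_of_lip (K := 1) fun w w' => by rw [one_mul]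
      have i4 : Integrable (fun e : E d => V e) (gau (Fin d)) :=
        integrable_gau_of_lip (hlin V)
      have e4 : ∫ e, V e ∂gau (Fin d) = 0 := by
        rw [ContinuousLinearMap.integral_comp_comm _ i3, ProbabilityTheory.integral_id_stdGaussian,
          map_zero]
      rw [integral_smul, ContinuousLinearMap.integral_comp_comm (φ := fun e => A u + V e) _
        ((integrable_const _).add i4), integral_add (integrable_const _) i4, integral_const,
        probReal_univ, one_smul, e4, add_zero]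
    have e1 : ∀ e, ∑ k, c k • Psm (τ * (1 - ρ k ^ 2)) h (q + (√τ * ρ k) • (A u + (e - U e))) =
        R (A u + V e) + √τ • fderiv ℝ (Psm τ h) q (A u + V e) := fun e => by
      simp only [hR, extrErr, hVapp, sub_add_cancel]
    simp only [e1]
    rw [integral_add i1 i2, hmean, add_sub_cancel_right]
  simp only [hinner]
  have hmap : AEMeasurable (fun p : E d × E d => A p.1 + V p.2)
      ((gau (Fin d)).prod (gau (Fin d))) := by fun_prop
  have hIT : Integrable (fun z => ‖R (T z)‖ ^ 2) (gau (Fin d)) :=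
    integrable_sq_extrErr hh hρ q (hlin T)
  have hI1 : Integrable (fun z => ‖R z‖ ^ 2) (gau (Fin d)) :=
    integrable_sq_extrErr hh hρ q (g := fun z => z) (K := 1) fun z z' => by rw [one_mul]
  have hIp : Integrable (fun p : E d × E d => ‖R (A p.1 + V p.2)‖ ^ 2)
      ((gau (Fin d)).prod (gau (Fin d))) := by
    refine (integrable_map_measure (hRc.norm.pow 2).aestronglyMeasurable hmap).1 ?_
    rw [hlaw]
    exact (integrable_map_measure (hRc.norm.pow 2).aestronglyMeasurable
      T.continuous.measurable.aemeasurable).2 hIT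
  have hTsq : Integrable (fun z => ‖T z - z‖ ^ 2) (gau (Fin d)) := by
    refine integrable_gau_of_poly ((T.continuous.sub continuous_id).norm.pow 2) ((‖T‖ + 1) ^ 2) 2
      fun z => ?_
    rw [norm_pow, norm_norm, ← mul_pow]
    refine pow_le_pow_left₀ (norm_nonneg _) ((norm_sub_le _ _).trans ?_) 2
    show ‖T z‖ + ‖z‖ ≤ _
    nlinarith [T.le_opNorm z, norm_nonneg T, norm_nonneg z]
  have htail : ∫ z, ‖R z‖ ^ 2 ∂gau (Fin d) ≤
      ((1 + ∑ k, |c k|) * (δ * r * √d * Cb / r ^ N)) ^ 2 := by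
    have h1 := hh.tail_one m c ρ (fun k => ⟨by linarith [(abs_le.1 (hρ k)).1],
      by linarith [(abs_le.1 (hρ k)).2]⟩) hc q τ ⟨hτ.le, hτ1⟩
    simp only [ou_slice hτ.le, chaosOne_slice hh hτ] at h1
    exact h1
  calc ∫ u, ‖∫ e, R (A u + V e) ∂gau (Fin d)‖ ^ 2 ∂gau (Fin d)
      ≤ ∫ u, ∫ e, ‖R (A u + V e)‖ ^ 2 ∂gau (Fin d) ∂gau (Fin d) := by
        refine integral_mono_of_nonneg (ae_of_all _ fun u => sq_nonneg _) hIp.integral_prod_left
          (ae_of_all _ fun u => ?_)
        have hl : ∀ w w', ‖R (A u + V w) - R (A u + V w')‖ ≤ L * ‖V‖ * ‖w - w'‖ := fun w w' =>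
          (extrErr_lip hh hρ q _ _).trans
            ((mul_le_mul_of_nonneg_left (by rw [add_sub_add_left_eq_sub]; exact hlin V w w') hL0).trans_eq
              (mul_assoc _ _ _).symm)
        exact norm_integral_sq_le (integrable_gau_of_lip hl)
          (integrable_sq_extrErr hh hρ q (g := fun w => A u + V w) (K := ‖V‖) fun w w' => by
            rw [add_sub_add_left_eq_sub]; exact hlin V w w')
    _ = ∫ z, ‖R (T z)‖ ^ 2 ∂gau (Fin d) := by
        have hm : Continuous fun z => ‖R z‖ ^ 2 := hRc.norm.pow 2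
        rw [← integral_prod (fun p : E d × E d => ‖R (A p.1 + V p.2)‖ ^ 2) hIp,
          ← integral_map hmap hm.aestronglyMeasurable, hlaw,
          integral_map T.continuous.measurable.aemeasurable hm.aestronglyMeasurable]
    _ ≤ ∫ z, (2 * ‖R z‖ ^ 2 + 2 * L ^ 2 * ‖T z - z‖ ^ 2) ∂gau (Fin d) := by
        refine integral_mono hIT ((hI1.const_mul 2).add (hTsq.const_mul _)) fun z => ?_
        have h1 := extrErr_lip (τ := τ) (c := c) hh hρ q (T z) z
        have h2 := norm_le_norm_add_norm_sub' (R (T z)) (R z)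
        have h3 : ‖R (T z)‖ ≤ ‖R z‖ + L * ‖T z - z‖ := by linarith
        nlinarith [pow_le_pow_left₀ (norm_nonneg _) h3 2, sq_nonneg (‖R z‖ - L * ‖T z - z‖)]
    _ ≤ _ := by
        rw [integral_add (hI1.const_mul 2) (hTsq.const_mul _), integral_const_mul, integral_const_mul]
        have h4 : (L * η * √d) ^ 2 = L ^ 2 * (d * η ^ 2) := by
          rw [mul_pow, mul_pow, Real.sq_sqrt (Nat.cast_nonneg d)]; ring
        nlinarith [mul_le_mul_of_nonneg_left hT (sq_nonneg L)]

/-- The iteration `U' = (A A† + U²) / 2` squares to the complement of `A A†` up to the last step. -/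
theorem sqrt_step_cov (A U U' : E d →L[ℝ] E d) (hU : ∀ a b, ⟪U a, b⟫ = ⟪a, U b⟫) {η : ℝ}
    (hU' : ∀ t, U' t = (1 / 2 : ℝ) • (A (A.adjoint t) + U (U t)))
    (hd : ∀ t, ‖U' t - U t‖ ≤ η * ‖t‖) (t : E d) :
    |‖A.adjoint t‖ ^ 2 + ‖t - U t‖ ^ 2 - ‖t‖ ^ 2| ≤ 2 * η * ‖t‖ ^ 2 := by
  have e : ‖A.adjoint t‖ ^ 2 + ‖t - U t‖ ^ 2 - ‖t‖ ^ 2 = 2 * ⟪U' t - U t, t⟫ := by
    rw [norm_sub_sq_real, inner_sub_left, hU', real_inner_smul_left, inner_add_left,
      ← ContinuousLinearMap.adjoint_inner_right A, real_inner_self_eq_norm_sq, hU (U t) t,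
      real_inner_self_eq_norm_sq, real_inner_comm t (U t)]
    ring
  rw [e, abs_mul, abs_two]
  nlinarith [abs_real_inner_le_norm (U' t - U t) t,
    mul_le_mul_of_nonneg_right (hd t) (norm_nonneg t)]

end Vale.Agent.P347
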