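import Vale.Agent.P347Zero.Field
import Vale.Agent.P347Zero.ProgBasic
import Vale.Agent.P347.Smooth

/-!
P347 (v5, M2): programs of linear maps. Their meaning is linear, continuous and bounded by `norm'`;
`fwd` is the derivative of a program, `adj` and `transp` are transposes; bounds pass along.
-/

open MeasureTheory ProbabilityTheory Real Finset Filter
open scoped RealInnerProductSpace Topology

namespace Vale.Agent.P347

variable {d : ℕ} {h : ℕ → E d → E d} {δ : ℕ → ℝ} {r Gb C : ℝ} {N : ℕ}

/-! ### The meaning is linear, continuous and bounded -/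

section fld

variable {f : E d → E d} {δ₀ : ℝ}

theorem Fld.inner_fderiv_Psm (hh : Fld d δ₀ r Gb C N f) (τ : ℝ) (x a b : E d) :
    ⟪fderiv ℝ (Psm τ f) x a, b⟫ = ⟪a, fderiv ℝ (Psm τ f) x b⟫ := by
  have hi : Integrable (fun w => fderiv ℝ f (x + √τ • w)) (gau (Fin d)) :=
    _root_.Vale.Agent.P347.integrable_slice (measurable_fderiv ℝ f) hh.lip x √τ
  rw [fderiv_Psm_comm (hh.smooth.differentiable one_ne_zero) hh.lip, Psm, ContinuousLinearMap.integral_apply hi, ContinuousLinearMap.integral_apply hi,
    real_inner_comm, ← integral_inner (hi.apply_continuousLinearMap b),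
    ← integral_inner (hi.apply_continuousLinearMap a)]
  exact integral_congr_ae (ae_of_all _ fun w => by simp only; rw [real_inner_comm, hh.symm])

end fld

/-- The meaning is bounded by `norm'`. -/
theorem LProg.norm_app_le (hh : ∀ ℓ, Fld d (δ ℓ) r Gb C N (h ℓ)) (hδ : 0 ≤ δ) (L : LProg) : ∀ (env : Env d)
    (a : E d), ‖L.app h env a‖ ≤ L.norm' δ * ‖a‖ := by
  induction L with
  | id => intro env a; simp [LProg.app, LProg.norm']
  | zero => intro env a; simp [LProg.app, LProg.norm']
  | add L M hL hM =>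
    intro env a
    simp only [LProg.app, LProg.norm', add_mul]
    exact (norm_add_le _ _).trans (add_le_add (hL env a) (hM env a))
  | smul c L hL =>
    intro env a
    simp only [LProg.app, LProg.norm', norm_smul, Real.norm_eq_abs, mul_assoc]
    exact mul_le_mul_of_nonneg_left (hL env a) (abs_nonneg c)
  | hess ℓ τ q L hL =>
    intro env a
    simp only [LProg.app, LProg.norm', mul_assoc]
    exact (ContinuousLinearMap.le_opNorm _ _).trans
      (mul_le_mul ((hh ℓ).norm_fderiv_Psm_le τ _) (hL env a) (norm_nonneg _) (hδ ℓ))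
  | bind p Δ L hL =>
    intro env a
    simp only [LProg.app, LProg.norm']
    refine (norm_integral_le_of_norm_le_const (μ := gau (Fin d))
      (ae_of_all _ fun w => hL _ a)).trans_eq ?_
    rw [probReal_univ, mul_one]

lemma continuous_push {X : Type} [TopologicalSpace X] {e : X → Env d} {z : X → E d}
    (hz : Continuous z) (he : ∀ i, Continuous fun x => e x i) (i : ℕ) :
    Continuous fun x => push (z x) (e x) i := by
  rcases i with _ | i
  · exact hz
  · exact he i

lemma continuous_bindEnv (c : E d) (s : ℝ) (env : Env d) (i : ℕ) :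
    Continuous fun w : E d => push (c + s • w) env i :=
  continuous_push (e := fun _ => env) (continuous_const.add (continuous_id'.const_smul s))
    (fun _ => continuous_const) i

/-- The meaning is jointly continuous in the environment and the argument. -/
theorem LProg.continuous_app (hh : ∀ ℓ, Fld d (δ ℓ) r Gb C N (h ℓ)) (L : LProg) :
    ∀ {X : Type} [TopologicalSpace X] [FirstCountableTopology X] {e : X → Env d} {a : X → E d},
      (∀ i, Continuous fun x => e x i) → Continuous a →
      Continuous fun x => L.app h (e x) (a x) := by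
  induction L with
  | id => intro X _ _ e a he ha; exact ha
  | zero => intro X _ _ e a he ha; exact continuous_const
  | add L M hL hM => intro X _ _ e a he ha; exact (hL he ha).add (hM he ha)
  | smul c L hL => intro X _ _ e a he ha; exact (hL he ha).const_smul c
  | hess ℓ τ q L hL =>
    intro X _ _ e a he ha
    exact ((((hh ℓ).contDiff_Psm τ).continuous_fderiv one_ne_zero).comp (q.continuous_sem hh |>.comp (continuous_pi he))).clm_apply (hL he ha)
  | bind p Δ L hL =>
    intro X _ _ e a he ha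
    refine continuous_iff_continuousAt.2 fun x0 => ?_
    refine continuousAt_of_dominated (bound := fun _ => L.norm' δ * (‖a x0‖ + 1))
      (.of_forall fun x => ?_) ?_ (integrable_const _) (ae_of_all _ fun w => ?_)
    · exact (hL (e := fun w => push (p.sem h (e x) + √Δ • w) (e x)) (a := fun _ => a x)
        (continuous_bindEnv _ _ _) continuous_const).aestronglyMeasurable
    · filter_upwards [ha.norm.continuousAt.eventually (eventually_le_nhds (lt_add_one ‖a x0‖))]
        with x hx
      exact ae_of_all _ fun w => (L.norm_app_le hh (Prog.delta_nonneg_of_fld hh) _ _).trans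
        (mul_le_mul_of_nonneg_left hx (L.norm'_nonneg (Prog.delta_nonneg_of_fld hh)))
    · exact (hL (fun i => continuous_push ((p.continuous_sem hh |>.comp (continuous_pi he)).add continuous_const) he i)
        ha).continuousAt

theorem LProg.continuous_app_bind (hh : ∀ ℓ, Fld d (δ ℓ) r Gb C N (h ℓ)) (L : LProg) (c : E d) (s : ℝ)
    (env : Env d) (a : E d) : Continuous fun w => L.app h (push (c + s • w) env) a :=
  L.continuous_app hh (e := fun w => push (c + s • w) env) (a := fun _ => a)
    (continuous_bindEnv c s env) continuous_const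

theorem LProg.integrable_bind (hh : ∀ ℓ, Fld d (δ ℓ) r Gb C N (h ℓ)) (L : LProg) (c : E d) (s : ℝ) (env : Env d)
    (a : E d) : Integrable (fun w => L.app h (push (c + s • w) env) a) (gau (Fin d)) :=
  Integrable.of_bound (L.continuous_app_bind hh c s env a).aestronglyMeasurable
    (L.norm' δ * ‖a‖) (ae_of_all _ fun w => L.norm_app_le hh (Prog.delta_nonneg_of_fld hh) _ a)

theorem LProg.app_add (hh : ∀ ℓ, Fld d (δ ℓ) r Gb C N (h ℓ)) (L : LProg) : ∀ (env : Env d) (a b : E d),
    L.app h env (a + b) = L.app h env a + L.app h env b := by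
  induction L with
  | id => intro env a b; rfl
  | zero => intro env a b; simp [LProg.app]
  | add L M hL hM => intro env a b; simp only [LProg.app, hL, hM]; abel
  | smul c L hL => intro env a b; simp only [LProg.app, hL, smul_add]
  | hess ℓ τ q L hL => intro env a b; simp only [LProg.app, hL, map_add]
  | bind p Δ L hL =>
    intro env a b
    simp only [LProg.app, hL]
    exact integral_add (L.integrable_bind hh _ _ _ _) (L.integrable_bind hh _ _ _ _)

theorem LProg.app_smul (g : ℕ → E d → E d) (L : LProg) : ∀ (env : Env d) (c : ℝ) (a : E d),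
    L.app g env (c • a) = c • L.app g env a := by
  induction L with
  | id => intro env c a; rfl
  | zero => intro env c a; simp [LProg.app]
  | add L M hL hM => intro env c a; simp only [LProg.app, hL, hM, smul_add]
  | smul e L hL => intro env c a; simp only [LProg.app, hL, smul_comm e c]
  | hess ℓ τ q L hL => intro env c a; simp only [LProg.app, hL, map_smul]
  | bind p Δ L hL => intro env c a; simp only [LProg.app, hL, integral_smul]

/-- The meaning as a continuous linear map. -/
noncomputable def LProg.clm (hh : ∀ ℓ, Fld d (δ ℓ) r Gb C N (h ℓ)) (L : LProg) (env : Env d) : E d →L[ℝ] E d :=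
  LinearMap.mkContinuous
    { toFun := L.app h env
      map_add' := L.app_add hh env
      map_smul' := L.app_smul h env }
    (L.norm' δ) (L.norm_app_le hh (Prog.delta_nonneg_of_fld hh) env)

theorem LProg.clm_apply (hh : ∀ ℓ, Fld d (δ ℓ) r Gb C N (h ℓ)) (L : LProg) (env : Env d) (a : E d) :
    L.clm hh env a = L.app h env a := rfl

theorem LProg.norm_clm_le (hh : ∀ ℓ, Fld d (δ ℓ) r Gb C N (h ℓ)) (L : LProg) (env : Env d) :
    ‖L.clm hh env‖ ≤ L.norm' δ :=
  LinearMap.mkContinuous_norm_le _ (L.norm'_nonneg (Prog.delta_nonneg_of_fld hh)) _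

theorem LProg.continuous_clm (hh : ∀ ℓ, Fld d (δ ℓ) r Gb C N (h ℓ)) (L : LProg) {X : Type} [TopologicalSpace X]
    [FirstCountableTopology X] {e : X → Env d} (he : ∀ i, Continuous fun x => e x i) :
    Continuous fun x => L.clm hh (e x) :=
  continuous_clm_apply.2 fun a => L.continuous_app hh he continuous_const

/-! ### The derivative -/

/-- A derivative composed with `L` is the derivative applied to `L`. -/
theorem Prog.app_fwd (g : ℕ → E d → E d) (p : Prog) : ∀ (i : ℕ) (L : LProg) (env : Env d) (x : E d),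
    (p.fwd i L).app g env x = (p.fwd i .id).app g env (L.app g env x) := by
  induction p with
  | inp j =>
    intro i L env x
    by_cases hij : i = j <;> simp [Prog.fwd, hij, LProg.app]
  | zero => intro i L env x; rfl
  | add p q hp hq => intro i L env x; simp only [Prog.fwd, LProg.app]; rw [hp i L, hq i L]
  | smul c p hp => intro i L env x; simp only [Prog.fwd, LProg.app]; rw [hp i L]
  | call ℓ τ p hp => intro i L env x; simp only [Prog.fwd, LProg.app]; rw [hp i L]
  | bind p Δ b hp hb =>
    intro i L env x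
    simp only [Prog.fwd, LProg.app]
    congr 1
    · refine integral_congr_ae (ae_of_all _ fun w => ?_)
      simp only
      rw [hb (i + 1) (L.lift 0), LProg.app_lift_push]
      rfl
    · refine integral_congr_ae (ae_of_all _ fun w => ?_)
      simp only
      rw [hb 0 ((p.fwd i L).lift 0), hb 0 ((p.fwd i LProg.id).lift 0), LProg.app_lift_push,
        LProg.app_lift_push, hp i L]

/-- Chain rule along a differentiable family of environments. -/
theorem Prog.hasFDerivAt_comp (hh : ∀ ℓ, Fld d (δ ℓ) r Gb C N (h ℓ)) (p : Prog) {X : Type}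
    [NormedAddCommGroup X] [NormedSpace ℝ X] :
    ∀ {M : ℕ}, p.width ≤ M → ∀ (γ : X → Env d) (γ' : X → ℕ → X →L[ℝ] E d) (v : ℕ → ℝ),
      (∀ x j, HasFDerivAt (fun y => γ y j) (γ' x j) x) → (∀ x j, ‖γ' x j‖ ≤ v j) →
      ∀ x, HasFDerivAt (fun y => p.sem h (γ y))
        (∑ j ∈ range M, ((p.fwd j .id).clm hh (γ x)).comp (γ' x j)) x := by
  induction p with
  | inp i =>
    intro M hM γ γ' v hγ hv x
    simp only [Prog.width] at hM
    refine (hγ x i).congr_fderiv ?_
    rw [sum_eq_single i (fun j _ hj => by ext u; simp [LProg.clm_apply, Prog.fwd, hj, LProg.app])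
      (fun hi => absurd (mem_range.2 (by omega)) hi)]
    ext u
    simp [LProg.clm_apply, Prog.fwd, LProg.app]
  | zero =>
    intro M hM γ γ' v hγ hv x
    refine (hasFDerivAt_const (𝕜 := ℝ) (0 : E d) x).congr_fderiv ?_
    ext u
    simp [LProg.clm_apply, Prog.fwd, LProg.app]
  | add p q hp hq =>
    intro M hM γ γ' v hγ hv x
    simp only [Prog.width, max_le_iff] at hM
    refine ((hp hM.1 γ γ' v hγ hv x).add (hq hM.2 γ γ' v hγ hv x)).congr_fderiv ?_
    ext u
    simp [LProg.clm_apply, Prog.fwd, LProg.app, sum_add_distrib]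
  | smul c p hp =>
    intro M hM γ γ' v hγ hv x
    refine ((hp hM γ γ' v hγ hv x).const_smul c).congr_fderiv ?_
    ext u
    simp [LProg.clm_apply, Prog.fwd, LProg.app, smul_sum]
  | call ℓ τ p hp =>
    intro M hM γ γ' v hγ hv x
    have hP : HasFDerivAt (Psm τ (h ℓ)) (fderiv ℝ (Psm τ (h ℓ)) (p.sem h (γ x))) (p.sem h (γ x)) :=
      (hasFDerivAt_Psm_comm ((hh ℓ).smooth.differentiable one_ne_zero) (hh ℓ).lip
        _).differentiableAt.hasFDerivAt
    refine (hP.comp x (hp hM γ γ' v hγ hv x)).congr_fderiv ?_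
    ext u
    simp [LProg.clm_apply, Prog.fwd, LProg.app, map_sum]
  | bind p Δ b hp hb =>
    intro M hM γ γ' v hγ hv x0
    simp only [Prog.width, max_le_iff, tsub_le_iff_right] at hM
    let Dp : X → (X →L[ℝ] E d) := fun x =>
      ∑ j ∈ range M, ((p.fwd j .id).clm hh (γ x)).comp (γ' x j)
    let Γ : E d → X → Env d := fun w y => push (p.sem h (γ y) + √Δ • w) (γ y)
    let Γ' : X → ℕ → (X →L[ℝ] E d) := fun x j => Nat.casesOn j (Dp x) (γ' x)
    let V : ℕ → ℝ := pushR (∑ j ∈ range M, (p.fwd j .id).norm' δ * v j) v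
    have hV : ∀ x j, ‖Γ' x j‖ ≤ V j := by
      intro x j
      rcases j with _ | j
      · refine (norm_sum_le _ _).trans (sum_le_sum fun k _ => ?_)
        exact (ContinuousLinearMap.opNorm_comp_le _ _).trans
          (mul_le_mul (LProg.norm_clm_le hh _ _) (hv x k) (norm_nonneg _)
            (LProg.norm'_nonneg (Prog.delta_nonneg_of_fld hh) _))
      · exact hv x j
    have hΓ : ∀ w x j, HasFDerivAt (fun y => Γ w y j) (Γ' x j) x := by
      intro w x j
      rcases j with _ | j
      · exact (hp hM.1 γ γ' v hγ hv x).add_const _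
      · exact hγ x j
    let F' : X → E d → (X →L[ℝ] E d) := fun x w =>
      ∑ j ∈ range (M + 1), ((b.fwd j .id).clm hh (Γ w x)).comp (Γ' x j)
    have hD : ∀ w x, HasFDerivAt (fun y => b.sem h (Γ w y)) (F' x w) x := fun w x =>
      hb hM.2 (Γ w) Γ' V (hΓ w) hV x
    have hFm : AEStronglyMeasurable (F' x0) (gau (Fin d)) :=
      (continuous_finsetSum _ fun j _ => (((b.fwd j .id).continuous_clm hh
        (e := fun w => Γ w x0) (continuous_bindEnv _ _ _)).clm_comp
          continuous_const)).aestronglyMeasurable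
    have hFb : ∀ x w, ‖F' x w‖ ≤ ∑ j ∈ range (M + 1), (b.fwd j .id).norm' δ * V j := fun x w =>
      (norm_sum_le _ _).trans (sum_le_sum fun j _ => (ContinuousLinearMap.opNorm_comp_le _ _).trans
        (mul_le_mul (LProg.norm_clm_le hh _ _) (hV x j) (norm_nonneg _)
          (LProg.norm'_nonneg (Prog.delta_nonneg_of_fld hh) _)))
    have hI := hasFDerivAt_integral_of_dominated_of_fderiv_le (μ := gau (Fin d))
      (F := fun y w => b.sem h (Γ w y)) (F' := F') (bound := fun _ =>
        ∑ j ∈ range (M + 1), (b.fwd j .id).norm' δ * V j) (Metric.ball_mem_nhds x0 zero_lt_one)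
      (.of_forall fun y => (b.integrable_sem_push hh _ _ _).aestronglyMeasurable)
      (b.integrable_sem_push hh _ _ _) hFm (ae_of_all _ fun w x _ => hFb x w) (integrable_const _)
      (ae_of_all _ fun w x _ => hD w x)
    refine hI.congr_fderiv ?_
    ext1 u
    have hFi : Integrable (F' x0) (gau (Fin d)) :=
      Integrable.of_bound hFm _ (ae_of_all _ fun w => hFb x0 w)
    rw [ContinuousLinearMap.integral_apply hFi]
    have e1 : ∀ w, F' x0 w u = ∑ j ∈ range M,
        ((b.fwd (j + 1) .id).app h (Γ w x0) (γ' x0 j u) +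
          (b.fwd 0 .id).app h (Γ w x0) ((p.fwd j .id).app h (γ x0) (γ' x0 j u))) := by
      intro w
      simp only [F', sum_range_succ', _root_.add_apply, _root_.sum_apply,
        ContinuousLinearMap.comp_apply, sum_add_distrib, LProg.clm_apply]
      congr 1
      change (b.fwd 0 .id).clm hh (Γ w x0) (Dp x0 u) = _
      simp [Dp, map_sum, LProg.clm_apply]
    simp only [e1]
    rw [integral_finsetSum (f := fun j w => (b.fwd (j + 1) .id).app h (Γ w x0) (γ' x0 j u) +
      (b.fwd 0 .id).app h (Γ w x0) ((p.fwd j .id).app h (γ x0) (γ' x0 j u))) _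
      (fun j _ => ((b.fwd (j + 1) .id).integrable_bind hh _ _ _ _).add
        ((b.fwd 0 .id).integrable_bind hh _ _ _ _)), _root_.sum_apply]
    refine sum_congr rfl fun j _ => ?_
    rw [integral_add ((b.fwd (j + 1) .id).integrable_bind hh _ _ _ _)
      ((b.fwd 0 .id).integrable_bind hh _ _ _ _), ContinuousLinearMap.comp_apply, LProg.clm_apply]
    simp only [Prog.fwd, LProg.app]
    congr 1
    refine integral_congr_ae (ae_of_all _ fun w => ?_)
    simp only
    rw [b.app_fwd h 0 ((p.fwd j .id).lift 0), LProg.app_lift_push]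

/-- The derivative in one input. -/
theorem Prog.hasFDerivAt_sem (hh : ∀ ℓ, Fld d (δ ℓ) r Gb C N (h ℓ)) (p : Prog) (env : Env d) (i : ℕ) (x : E d) :
    HasFDerivAt (fun y => p.sem h (Function.update env i y))
      ((p.fwd i .id).clm hh (Function.update env i x)) x := by
  have := p.hasFDerivAt_comp hh (M := max p.width (i + 1)) (le_max_left _ _)
    (fun y => Function.update env i y)
    (fun _ j => if j = i then ContinuousLinearMap.id ℝ (E d) else 0)
    (fun j => if j = i then 1 else 0) (fun y j => ?_) (fun y j => ?_) x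
  · refine this.congr_fderiv ?_
    rw [sum_eq_single i (fun j _ hj => by simp [hj])
      (fun hi => absurd (mem_range.2 (lt_of_lt_of_le (Nat.lt_succ_self i) (le_max_right _ _))) hi)]
    simp
  · by_cases hj : j = i
    · subst hj; simp only [Function.update_self, if_true]; exact hasFDerivAt_id y
    · simpa [hj] using hasFDerivAt_const (env j) y
  · by_cases hj : j = i
    · simp only [hj, if_true]; exact ContinuousLinearMap.norm_id_le
    · simp [hj]

/-! ### Transposes -/

theorem Prog.inner_adj (hh : ∀ ℓ, Fld d (δ ℓ) r Gb C N (h ℓ)) (p : Prog) : ∀ (L : LProg) (env : Env d) (i : ℕ)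
    (a b : E d),
    ⟪(p.fwd i .id).app h env a, L.app h env b⟫ = ⟪a, (p.adj i L).app h env b⟫ := by
  induction p with
  | inp j =>
    intro L env i a b
    by_cases hij : i = j <;> simp [Prog.fwd, Prog.adj, hij, LProg.app]
  | zero => intro L env i a b; simp [Prog.fwd, Prog.adj, LProg.app]
  | add p q hp hq =>
    intro L env i a b
    simp only [Prog.fwd, Prog.adj, LProg.app, inner_add_left, inner_add_right, hp, hq]
  | smul c p hp =>
    intro L env i a b
    simp only [Prog.fwd, Prog.adj, LProg.app, real_inner_smul_left, real_inner_smul_right, hp]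
  | call ℓ τ p hp =>
    intro L env i a b
    simp only [Prog.fwd, Prog.adj, LProg.app, (hh ℓ).inner_fderiv_Psm]
    exact hp (.hess ℓ τ p L) env i a b
  | bind p Δ q hp hq =>
    intro L env i a b
    set Γ : E d → Env d := fun w => push (p.sem h env + √Δ • w) env with hΓ
    simp only [Prog.fwd, Prog.adj, LProg.app, inner_add_left, inner_add_right]
    congr 1
    · rw [real_inner_comm, ← integral_inner (LProg.integrable_bind hh _ _ _ _ _),
        ← integral_inner (LProg.integrable_bind hh _ _ _ _ _)]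
      refine integral_congr_ae (ae_of_all _ fun w => ?_)
      simp only
      rw [real_inner_comm, ← hq (L.lift 0) (Γ w) (i + 1) a b, LProg.app_lift_push]
      rfl
    · rw [← hp (.bind p Δ (q.adj 0 (L.lift 0))) env i a b, LProg.app,
        ← integral_inner (LProg.integrable_bind hh _ _ _ _ _), real_inner_comm,
        ← integral_inner (LProg.integrable_bind hh _ _ _ _ _)]
      refine integral_congr_ae (ae_of_all _ fun w => ?_)
      simp only
      rw [real_inner_comm, q.app_fwd h 0 ((p.fwd i .id).lift 0), LProg.app_lift_push,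
        ← hq (L.lift 0) (Γ w) 0 _ b, LProg.app_lift_push]

theorem LProg.inner_transp (hh : ∀ ℓ, Fld d (δ ℓ) r Gb C N (h ℓ)) (L : LProg) : ∀ (M : LProg) (env : Env d)
    (a b : E d), ⟪L.app h env a, M.app h env b⟫ = ⟪a, (L.transp M).app h env b⟫ := by
  induction L with
  | id => intro M env a b; rfl
  | zero => intro M env a b; simp [LProg.app, LProg.transp]
  | add L L' hL hL' =>
    intro M env a b
    simp only [LProg.app, LProg.transp, inner_add_left, inner_add_right, hL, hL']
  | smul c L hL =>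
    intro M env a b
    simp only [LProg.app, LProg.transp, real_inner_smul_left, real_inner_smul_right, hL]
  | hess ℓ τ q L hL =>
    intro M env a b
    simp only [LProg.app, LProg.transp, (hh ℓ).inner_fderiv_Psm]
    exact hL (.hess ℓ τ q M) env a b
  | bind p Δ L hL =>
    intro M env a b
    simp only [LProg.app, LProg.transp]
    rw [real_inner_comm, ← integral_inner (LProg.integrable_bind hh _ _ _ _ _),
      ← integral_inner (LProg.integrable_bind hh _ _ _ _ _)]
    refine integral_congr_ae (ae_of_all _ fun w => ?_)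
    simp only
    rw [real_inner_comm, ← hL (M.lift 0), LProg.app_lift_push]

/-! ### Bounds passed to derivatives and transposes -/

/-- The vector of bounds moving only input `i`. -/
def unitV (i : ℕ) : ℕ → ℝ := fun j => if j = i then 1 else 0

theorem Prog.lip_bind_unit (δ : ℕ → ℝ) (p b : Prog) (Δ : ℝ) (i : ℕ) :
    (Prog.bind p Δ b).lip δ (unitV i) =
      b.lip δ (unitV (i + 1)) + p.lip δ (unitV i) * b.lip δ (unitV 0) := by
  rw [← Prog.lip_smul_v, ← Prog.lip_add_v, Prog.lip]
  congr 1
  funext j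
  rcases j with _ | j <;> simp [pushR, unitV]

theorem Prog.norm'_fwd_le (hδ : 0 ≤ δ) (p : Prog) : ∀ (i : ℕ) (L : LProg),
    (p.fwd i L).norm' δ ≤ p.lip δ (unitV i) * L.norm' δ := by
  induction p with
  | inp j =>
    intro i L
    by_cases hij : i = j <;> simp [Prog.fwd, Prog.lip, unitV, hij, LProg.norm', Ne.symm]
  | zero => intro i L; simp [Prog.fwd, Prog.lip, LProg.norm']
  | add p q hp hq =>
    intro i L
    simp only [Prog.fwd, Prog.lip, LProg.norm', add_mul]
    exact add_le_add (hp i L) (hq i L)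
  | smul c p hp =>
    intro i L
    simp only [Prog.fwd, Prog.lip, LProg.norm', mul_assoc]
    exact mul_le_mul_of_nonneg_left (hp i L) (abs_nonneg c)
  | call ℓ τ p hp =>
    intro i L
    simp only [Prog.fwd, Prog.lip, LProg.norm', mul_assoc]
    exact mul_le_mul_of_nonneg_left (hp i L) (hδ ℓ)
  | bind p Δ b hp hb =>
    intro i L
    simp only [Prog.fwd, LProg.norm', Prog.lip_bind_unit, add_mul]
    refine add_le_add ((hb _ _).trans_eq (by rw [LProg.norm'_lift])) ((hb _ _).trans ?_)
    rw [LProg.norm'_lift]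
    have h0 : 0 ≤ b.lip δ (unitV 0) :=
      b.lip_nonneg hδ fun j => by unfold unitV; split <;> norm_num
    exact (mul_le_mul_of_nonneg_left (hp i L) h0).trans_eq (by ring)

theorem Prog.norm'_adj_le (hδ : 0 ≤ δ) (p : Prog) : ∀ (i : ℕ) (L : LProg),
    (p.adj i L).norm' δ ≤ p.lip δ (unitV i) * L.norm' δ := by
  induction p with
  | inp j =>
    intro i L
    by_cases hij : i = j <;> simp [Prog.adj, Prog.lip, unitV, hij, LProg.norm', Ne.symm]
  | zero => intro i L; simp [Prog.adj, Prog.lip, LProg.norm']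
  | add p q hp hq =>
    intro i L
    simp only [Prog.adj, Prog.lip, LProg.norm', add_mul]
    exact add_le_add (hp i L) (hq i L)
  | smul c p hp =>
    intro i L
    simp only [Prog.adj, Prog.lip, LProg.norm', mul_assoc]
    exact mul_le_mul_of_nonneg_left (hp i L) (abs_nonneg c)
  | call ℓ τ p hp =>
    intro i L
    refine (hp i (.hess ℓ τ p L)).trans_eq ?_
    simp only [Prog.lip, LProg.norm']
    ring
  | bind p Δ b hp hb =>
    intro i L
    simp only [Prog.adj, LProg.norm', Prog.lip_bind_unit, add_mul]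
    refine add_le_add ((hb _ _).trans_eq (by rw [LProg.norm'_lift])) ((hp _ _).trans ?_)
    simp only [LProg.norm']
    have h0 : 0 ≤ p.lip δ (unitV i) :=
      p.lip_nonneg hδ fun j => by unfold unitV; split <;> norm_num
    refine (mul_le_mul_of_nonneg_left (hb 0 (L.lift 0)) h0).trans_eq ?_
    rw [LProg.norm'_lift]
    ring

theorem LProg.sensLe_zero' {δ : ℕ → ℝ} {B : ℝ} (hB : 0 ≤ B) (L : LProg) : L.SensLe δ B 0 := by
  induction L with
  | id => trivial
  | zero => trivial
  | add L M hL hM => exact ⟨hL, hM⟩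
  | smul c L hL => exact hL
  | hess ℓ τ q L hL => exact ⟨(q.lip_zero_v δ).trans_le hB, q.sensLe_zero hB, hL⟩
  | bind p Δ L hL =>
    refine ⟨p.sensLe_zero hB, ?_⟩
    rw [Prog.lip_zero_v, pushR_zero]
    exact hL

theorem Prog.sensLe_fwd {δ : ℕ → ℝ} {B : ℝ} (p : Prog) : ∀ (i : ℕ) (L : LProg) (v : ℕ → ℝ),
    p.SensLe δ B v → L.SensLe δ B v → (p.fwd i L).SensLe δ B v := by
  induction p with
  | inp j => intro i L v _ hL; by_cases hij : i = j <;> simp [Prog.fwd, hij, hL, LProg.SensLe]
  | zero => intro i L v _ _; trivial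
  | add p q hp hq => intro i L v hs hL; exact ⟨hp i L v hs.1 hL, hq i L v hs.2 hL⟩
  | smul c p hp => intro i L v hs hL; exact hp i L v hs hL
  | call ℓ τ p hp => intro i L v hs hL; exact ⟨hs.1, hs.2, hp i L v hs.2 hL⟩
  | bind p Δ b hp hb =>
    intro i L v hs hL
    exact ⟨⟨hs.1, hb _ _ _ hs.2 ((L.sensLe_lift δ B 0 _).2 hL)⟩,
      hs.1, hb _ _ _ hs.2 (((p.fwd i L).sensLe_lift δ B 0 _).2 (hp i L v hs.1 hL))⟩

theorem Prog.sensLe_adj {δ : ℕ → ℝ} {B : ℝ} (p : Prog) : ∀ (i : ℕ) (L : LProg) (v : ℕ → ℝ),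
    p.SensLe δ B v → L.SensLe δ B v → (p.adj i L).SensLe δ B v := by
  induction p with
  | inp j => intro i L v _ hL; by_cases hij : i = j <;> simp [Prog.adj, hij, hL, LProg.SensLe]
  | zero => intro i L v _ _; trivial
  | add p q hp hq => intro i L v hs hL; exact ⟨hp i L v hs.1 hL, hq i L v hs.2 hL⟩
  | smul c p hp => intro i L v hs hL; exact hp i L v hs hL
  | call ℓ τ p hp => intro i L v hs hL; exact hp i _ v hs.2 ⟨hs.1, hs.2, hL⟩
  | bind p Δ b hp hb =>
    intro i L v hs hL
    exact ⟨⟨hs.1, hb _ _ _ hs.2 ((L.sensLe_lift δ B 0 _).2 hL)⟩,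
      hp i _ v hs.1 ⟨hs.1, hb _ _ _ hs.2 ((L.sensLe_lift δ B 0 _).2 hL)⟩⟩

/-- A lifted program is not moved by the binder alone. -/
theorem LProg.sensLe_lift_push {δ : ℕ → ℝ} {B : ℝ} (hB : 0 ≤ B) (L : LProg) (a : ℝ) :
    (L.lift 0).SensLe δ B (pushR a 0) :=
  (L.sensLe_lift δ B 0 _).2 (by rw [pushR_comp_shiftUp_zero]; exact L.sensLe_zero' hB)

theorem Prog.wf_fwd {δ : ℕ → ℝ} {r B T : ℝ} (hB : 0 ≤ B) (p : Prog) : ∀ (i : ℕ) (L : LProg),
    p.WF δ r B T → L.WF δ r B T → (p.fwd i L).WF δ r B T := by
  induction p with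
  | inp j => intro i L _ hL; by_cases hij : i = j <;> simp [Prog.fwd, hij, hL, LProg.WF]
  | zero => intro i L _ _; trivial
  | add p q hp hq => intro i L hw hL; exact ⟨hp i L hw.1 hL, hq i L hw.2 hL⟩
  | smul c p hp => intro i L hw hL; exact hp i L hw hL
  | call ℓ τ p hp =>
    intro i L hw hL
    exact ⟨hw.1, hw.2.1, hw.2.2.1, hw.2.2.2, hp i L hw.2.2.1 hL⟩
  | bind p Δ b hp hb =>
    intro i L hw hL
    obtain ⟨h1, h2, h3, h4, _, h6⟩ := hw
    exact ⟨⟨h1, h2, hb _ _ h3 ((L.wf_lift δ r B T 0).2 hL), h4,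
        b.sensLe_fwd _ _ _ h6 (L.sensLe_lift_push hB _)⟩,
      h1, h2, hb _ _ h3 (((p.fwd i L).wf_lift δ r B T 0).2 (hp i L h2 hL)), h4,
        b.sensLe_fwd _ _ _ h6 ((p.fwd i L).sensLe_lift_push hB _)⟩

theorem Prog.wf_adj {δ : ℕ → ℝ} {r B T : ℝ} (hB : 0 ≤ B) (p : Prog) : ∀ (i : ℕ) (L : LProg),
    p.WF δ r B T → L.WF δ r B T → (p.adj i L).WF δ r B T := by
  induction p with
  | inp j => intro i L _ hL; by_cases hij : i = j <;> simp [Prog.adj, hij, hL, LProg.WF]
  | zero => intro i L _ _; trivial
  | add p q hp hq => intro i L hw hL; exact ⟨hp i L hw.1 hL, hq i L hw.2 hL⟩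
  | smul c p hp => intro i L hw hL; exact hp i L hw hL
  | call ℓ τ p hp =>
    intro i L hw hL
    exact hp i _ hw.2.2.1 ⟨hw.1, hw.2.1, hw.2.2.1, hw.2.2.2, hL⟩
  | bind p Δ b hp hb =>
    intro i L hw hL
    obtain ⟨h1, h2, h3, h4, _, h6⟩ := hw
    exact ⟨⟨h1, h2, hb _ _ h3 ((L.wf_lift δ r B T 0).2 hL), h4,
        b.sensLe_adj _ _ _ h6 (L.sensLe_lift_push hB _)⟩,
      hp i _ h2 ⟨h1, h2, hb _ _ h3 ((L.wf_lift δ r B T 0).2 hL), h4,
        b.sensLe_adj _ _ _ h6 (L.sensLe_lift_push hB _)⟩⟩

/-! ### Levels -/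

theorem Prog.levelGe_fwd {ℓ₀ : ℕ} (p : Prog) : ∀ (i : ℕ) (L : LProg),
    p.LevelGe ℓ₀ → L.LevelGe ℓ₀ → (p.fwd i L).LevelGe ℓ₀ := by
  induction p with
  | inp j => intro i L _ hL; by_cases hij : i = j <;> simp [Prog.fwd, hij, hL, LProg.LevelGe]
  | zero => intro i L _ _; trivial
  | add p q hp hq => intro i L hw hL; exact ⟨hp i L hw.1 hL, hq i L hw.2 hL⟩
  | smul c p hp => intro i L hw hL; exact hp i L hw hL
  | call ℓ τ p hp => intro i L hw hL; exact ⟨hw.1, hw.2, hp i L hw.2 hL⟩
  | bind p Δ b hp hb =>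
    intro i L hw hL
    exact ⟨⟨hw.1, hb _ _ hw.2 ((LProg.levelGe_lift _ L 0).2 hL)⟩,
      hw.1, hb _ _ hw.2 ((LProg.levelGe_lift _ (p.fwd i L) 0).2 (hp i L hw.1 hL))⟩

theorem Prog.levelGe_adj {ℓ₀ : ℕ} (p : Prog) : ∀ (i : ℕ) (L : LProg),
    p.LevelGe ℓ₀ → L.LevelGe ℓ₀ → (p.adj i L).LevelGe ℓ₀ := by
  induction p with
  | inp j => intro i L _ hL; by_cases hij : i = j <;> simp [Prog.adj, hij, hL, LProg.LevelGe]
  | zero => intro i L _ _; trivial
  | add p q hp hq => intro i L hw hL; exact ⟨hp i L hw.1 hL, hq i L hw.2 hL⟩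
  | smul c p hp => intro i L hw hL; exact hp i L hw hL
  | call ℓ τ p hp => intro i L hw hL; exact hp i _ hw.2 ⟨hw.1, hw.2, hL⟩
  | bind p Δ b hp hb =>
    intro i L hw hL
    exact ⟨⟨hw.1, hb _ _ hw.2 ((LProg.levelGe_lift _ L 0).2 hL)⟩,
      hp i _ hw.1 ⟨hw.1, hb _ _ hw.2 ((LProg.levelGe_lift _ L 0).2 hL)⟩⟩

end Vale.Agent.P347
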