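import Vale.Agent.P347Zero.ConvSyn
import Vale.Agent.P347Zero.ConvCore
import Vale.Agent.P347Zero.LSem
import Vale.Agent.P347Zero.Coef

/-!
P347 (module M5): `exists_conv`. A small program of linear maps `W` is converted into a program that
reads a Gaussian vector `u` as input `0` and agrees with `W u` in mean square, with bounds that do
not depend on the dimension.
-/

open MeasureTheory ProbabilityTheory Real
open scoped RealInnerProductSpace

namespace Vale.Agent.P347

namespace Conv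

variable {m : ℕ} {c ρ : Fin m → ℝ} {δ : ℕ → ℝ} {θ r B T : ℝ} {M : ℕ}

/-! ### Syntactic bounds -/

theorem syn_add {K : ℕ} {C : ℝ} {L L' : LProg} {P P' : Prog} (hK : 1 ≤ K)
    (h : Syn δ θ r B T K C L P) (h' : Syn δ θ r B T K C L' P') :
    Syn δ θ r B T K C (.add L L') (.add P P') := by
  refine ⟨⟨h.small, h'.small⟩, fun l hl => ⟨h.level l hl.1, h'.level l hl.2⟩, ⟨h.wf, h'.wf⟩,
    max_le h.depth h'.depth, ?_, ?_, fun v a B' hv ha hB' hW => ?_,
    fun v B' hv hB' hW hN => ⟨h.noise v B' hv hB' hW.1 hN.1, h'.noise v B' hv hB' hW.2 hN.2⟩⟩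
  · have h0 : L.nodes ^ K + L'.nodes ^ K + 1 ^ K ≤ (L.nodes + L'.nodes + 1) ^ K :=
      (Nat.add_le_add_right (pow_add_pow_le (Nat.zero_le _) (Nat.zero_le _) (by omega)) _).trans
        (pow_add_pow_le (Nat.zero_le _) (Nat.zero_le _) (by omega))
    rw [one_pow] at h0
    have h1 := h.nodes
    have h2 := h'.nodes
    have h3 := Nat.mul_le_mul_left K h0
    simp only [Prog.nodes, LProg.nodes]
    rw [Nat.mul_add, Nat.mul_add] at h3
    omega
  · simp only [Prog.size, LProg.norm', mul_add]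
    exact add_le_add h.size h'.size
  · obtain ⟨h1, h2⟩ := h.sens v a B' hv ha hB' hW.1
    obtain ⟨h3, h4⟩ := h'.sens v a B' hv ha hB' hW.2
    exact ⟨⟨h1, h3⟩, (add_le_add h2 h4).trans_eq (by simp only [LProg.norm', mul_add])⟩

theorem syn_smul {K : ℕ} {C : ℝ} (a : ℝ) {L : LProg} {P : Prog} (hK : 1 ≤ K)
    (h : Syn δ θ r B T K C L P) : Syn δ θ r B T K C (.smul a L) (.smul a P) := by
  refine ⟨h.small, h.level, h.wf, h.depth, ?_, ?_, fun v x B' hv hx hB' hW => ?_,
    fun v B' hv hB' hW hN => h.noise v B' hv hB' hW hN⟩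
  · have h0 : L.nodes ^ K + 1 ^ K ≤ (L.nodes + 1) ^ K :=
      pow_add_pow_le (Nat.zero_le _) (Nat.zero_le _) (by omega)
    rw [one_pow] at h0
    have h1 := h.nodes
    have h3 := Nat.mul_le_mul_left K h0
    simp only [Prog.nodes, LProg.nodes]
    rw [Nat.mul_add] at h3
    omega
  · simp only [Prog.size, LProg.norm']
    exact (mul_le_mul_of_nonneg_left h.size (abs_nonneg a)).trans_eq (by ring)
  · obtain ⟨h1, h2⟩ := h.sens v x B' hv hx hB' hW
    exact ⟨h1, (mul_le_mul_of_nonneg_left h2 (abs_nonneg a)).trans_eq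
      (by simp only [LProg.norm']; ring)⟩

theorem syn_bind {A KL : ℕ} {CL : ℝ} {p : Prog} {Δ : ℝ} {L : LProg} {PL : Prog}
    (hL : Syn δ θ r B T KL CL L PL) (hW : (LProg.bind p Δ L).WF δ r B T) (hpd : p.depth ≤ A)
    (hδ : 0 ≤ δ) (hr : 1 ≤ r) (hB : 1 ≤ B) (hθ : 0 < θ) (hT : 1 ≤ T) (hCL : 1 ≤ CL) :
    Syn δ θ r B T (max (A + 1) (KL + 2)) (3 * CL) (.bind p Δ L)
      (.bind (p.ren Nat.succ) Δ (PL.ren swap01)) := by
  obtain ⟨hΔ, hp, hLwf, hps, hLs⟩ := hW
  have hr0 : 0 ≤ r := by linarith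
  have hQ : 1 ≤ B ^ 2 + r := by nlinarith
  have hBQ : B ≤ B ^ 2 + r := by nlinarith
  have hn := LProg.norm'_nonneg hδ L
  have hC3 : CL ≤ 3 * CL := by linarith
  set K := max (A + 1) (KL + 2)
  have hz : ∀ x : ℝ, pushR x (0 : ℕ → ℝ) ∘ swap01 = pushR 0 (pushR x 0) := fun x => by
    conv_lhs => rw [← pushR_zero, pushR_swap01]
  refine ⟨(Prog.small_ren ..).2 hL.small,
    fun l hl => ⟨(Prog.levelGe_ren ..).2 hl.1, (Prog.levelGe_ren ..).2 (hL.level l hl.2)⟩,
    ⟨hΔ, (Prog.wf_ren ..).2 (hp.mono hδ le_rfl hr0 le_rfl ?_ (by linarith) (by linarith)),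
      (Prog.wf_ren ..).2 (hL.wf.mono hδ le_rfl hr0 le_rfl ?_ (by linarith) le_rfl), ?_,
      (Prog.small_ren ..).2 hL.small, ?_⟩, ?_, ?_, ?_, fun v a B' hv ha hB' hW => ?_,
    fun v B' hv hB' hW hN => ?_⟩
  · exact hBQ.trans (le_mul_of_one_le_left (by linarith) (by linarith))
  · exact mul_le_mul_of_nonneg_right hC3 (by linarith)
  · rw [Prog.size_ren]
    exact hps.trans (mul_le_mul_of_nonneg_right
      (hBQ.trans (le_mul_of_one_le_left (by linarith) (by linarith))) (Real.sqrt_nonneg Δ))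
  · rw [Prog.sensLe_ren, hz]
    refine (hL.sens _ 0 B (pushR_nonneg (Real.sqrt_nonneg Δ) fun _ => le_rfl) le_rfl (by linarith)
      hLs).1.mono hδ le_rfl ?_
      (pushR_nonneg le_rfl (pushR_nonneg (Real.sqrt_nonneg Δ) fun _ => le_rfl)) fun _ => le_rfl
    rw [zero_add]
    exact mul_le_mul hC3 hBQ (by linarith) (by linarith)
  · simp only [Prog.depth, Prog.depth_ren]
    have := hL.depth
    omega
  · have h1 := hL.nodes
    have hn1 : 1 ≤ p.nodes + L.nodes + 1 := by omega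
    have h2 : L.nodes ^ KL ≤ (p.nodes + L.nodes + 1) ^ K :=
      (Nat.pow_le_pow_left (by omega) KL).trans (Nat.pow_le_pow_right hn1 (by omega))
    have h3 : p.nodes + L.nodes + 1 ≤ (p.nodes + L.nodes + 1) ^ K := Nat.le_self_pow (by omega) _
    have h4 := Nat.mul_le_mul_right ((p.nodes + L.nodes + 1) ^ K) (show KL + 1 ≤ K by omega)
    have h5 := Nat.mul_le_mul_left KL h2
    rw [Nat.add_mul, one_mul] at h4
    simp only [Prog.nodes, Prog.nodes_ren, LProg.nodes]
    omega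
  · simp only [Prog.size, LProg.norm', Prog.size_ren, Prog.lip_ren]
    rw [hz]
    set X := √Δ + p.size δ r
    have hX0 : 0 ≤ X := add_nonneg (Real.sqrt_nonneg Δ) (Prog.size_nonneg hδ hr0 p)
    have hX : X ≤ (1 + B) * √Δ := by rw [one_add_mul]; exact add_le_add le_rfl hps
    have hs : L.SensLe δ ((1 + B) * B) (pushR X 0) := by
      have h := LProg.SensLe.smul (show 0 ≤ 1 + B by linarith) hLs
      rw [← pushR_smul, smul_zero] at h
      exact h.mono hδ le_rfl le_rfl (pushR_nonneg hX0 fun _ => le_rfl)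
        (pushR_mono hX fun _ => le_rfl)
    have h2 := (hL.sens (pushR X 0) 0 _ (pushR_nonneg hX0 fun _ => le_rfl) le_rfl (by positivity) hs).2
    have h3 : (0 : ℝ) + (1 + B) * B / θ ≤ 2 * ((B ^ 2 + r) / θ) := by
      rw [zero_add, ← mul_div_assoc]; exact div_le_div_of_nonneg_right (by nlinarith) hθ.le
    have h4 := h2.trans (mul_le_mul_of_nonneg_right
      (mul_le_mul_of_nonneg_left h3 (by linarith)) hn)
    have h5 := hL.size
    linarith
  · obtain ⟨hW1, hW2⟩ := hW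
    have hp0 : 0 ≤ p.lip δ v := Prog.lip_nonneg hδ p hv
    obtain ⟨h1, h2⟩ := hL.sens _ a B' (pushR_nonneg hp0 hv) ha hB' hW2
    refine ⟨⟨(Prog.sensLe_ren ..).2 ?_, (Prog.sensLe_ren ..).2 ?_⟩, ?_⟩
    · rw [pushR_succ]
      refine hW1.mono hδ le_rfl ?_ hv fun _ => le_rfl
      exact (show B' ≤ 1 * (a + B') by linarith).trans
        (mul_le_mul_of_nonneg_right (by linarith) (by linarith))
    · rw [Prog.lip_ren, pushR_succ, pushR_swap01]
      exact h1.mono hδ le_rfl (mul_le_mul_of_nonneg_right hC3 (by linarith))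
        (pushR_nonneg ha (pushR_nonneg hp0 hv)) fun _ => le_rfl
    · simp only [Prog.lip, Prog.lip_ren, pushR_succ, pushR_swap01, LProg.norm']
      exact h2.trans (mul_le_mul_of_nonneg_right
        (mul_le_mul_of_nonneg_right hC3 (by positivity)) hn)
  · obtain ⟨hN1, hN2, hN3⟩ := hN
    have hB3 : B' ≤ 3 * CL * B' := le_mul_of_one_le_left hB' (by linarith)
    have hv' : ∀ i, 0 ≤ pushR 0 v i := pushR_nonneg le_rfl hv
    have hLs' : L.SensLe δ B' (pushR 0 v) := hW.2.mono hδ le_rfl le_rfl hv'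
      (pushR_mono (Prog.lip_nonneg hδ p hv) fun _ => le_rfl)
    refine ⟨?_, (Prog.noiseLe_ren ..).2 ?_, (Prog.noiseLe_ren ..).2 ?_⟩
    · rw [Prog.lip_ren, pushR_succ]
      exact hN1.trans (mul_le_mul_of_nonneg_right hB3 (Real.sqrt_nonneg Δ))
    · rw [pushR_succ]
      exact hN2.mono hδ le_rfl hB3 hv fun _ => le_rfl
    · rw [pushR_swap01]
      exact (hL.noise _ B' hv' hB' hLs' hN3).mono hδ le_rfl (mul_le_mul_of_nonneg_right hC3 hB')
        (pushR_nonneg le_rfl hv') fun _ => le_rfl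

variable (c ρ)

/-- The bounds of the conversion with any fuel, uniformly up to a depth. -/
theorem syn_exists (hρ : ∀ k, |ρ k| ≤ 1 / 2) (M : ℕ) {T : ℝ} (hT : 1 ≤ T) (j : ℕ) :
    ∀ A : ℕ, ∃ (K : ℕ) (C : ℝ), 1 ≤ K ∧ 1 ≤ C ∧ ∀ (δ : ℕ → ℝ) (θ r B : ℝ), 0 ≤ δ → 1 ≤ r →
      1 ≤ B → 0 < θ → θ ≤ 1 / 4 → ∀ W : LProg, W.WF δ r B T → W.depth ≤ A →
        Syn δ θ r B T K C W (conv c ρ δ θ M j W) := by
  induction j with
  | zero =>
    intro A
    exact ⟨1, 1, le_rfl, le_rfl, fun δ θ r B hδ hr _ hθ _ W _ _ =>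
      syn_zero le_rfl zero_le_one hδ hr hθ W⟩
  | succ j ihj =>
    intro A
    induction A with
    | zero =>
      refine ⟨1, 1, le_rfl, le_rfl, fun δ θ r B hδ hr hB hθ hθ1 W => ?_⟩
      induction W with
      | id => intros; exact syn_zero le_rfl zero_le_one hδ hr hθ _
      | zero => intros; exact syn_zero le_rfl zero_le_one hδ hr hθ _
      | add L L' hL hL' =>
        intro hW hd
        exact syn_add le_rfl (hL hW.1 ((le_max_left _ _).trans hd))
          (hL' hW.2 ((le_max_right _ _).trans hd))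
      | smul a L hL => intro hW hd; exact syn_smul a le_rfl (hL hW hd)
      | hess ℓ τ q L hL => intro _ hd; simp [LProg.depth] at hd
      | bind p Δ L hL => intro _ hd; simp [LProg.depth] at hd
    | succ A ihA =>
      obtain ⟨KL, CL, hKL, hCL, hLs⟩ := ihA
      obtain ⟨KU, CU, hKU, hCU, hUs⟩ := ihj (2 ^ M * (A * (A + 2)))
      obtain ⟨e, he⟩ := LProg.nodes_sqrtWord M
      set K0 := max A (max KL (max KU 1))
      set Kn := max (K0 + 2) (max (e * K0 + K0 + 1) ((2 * K0 * 8 ^ (e * K0) + 25) * (m + 1)))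
      set Cn := (1 + ∑ k, |c k|) * (3 * √T) * (CL + CU + 3)
      refine ⟨max Kn (max (A + 1) (KL + 2)), max Cn (3 * CL), by omega,
        le_max_of_le_right (by linarith), fun δ θ r B hδ hr hB hθ hθ1 W => ?_⟩
      have hK1 : 1 ≤ max Kn (max (A + 1) (KL + 2)) := by omega
      have hC0 : 0 ≤ max Cn (3 * CL) := le_max_of_le_right (by linarith)
      induction W with
      | id => intros; exact syn_zero hK1 hC0 hδ hr hθ _
      | zero => intros; exact syn_zero hK1 hC0 hδ hr hθ _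
      | add L L' hL hL' =>
        intro hW hd
        exact syn_add hK1 (hL hW.1 ((le_max_left _ _).trans hd))
          (hL' hW.2 ((le_max_right _ _).trans hd))
      | smul a L hL => intro hW hd; exact syn_smul a hK1 (hL hW hd)
      | hess ℓ τ q L hL =>
        intro hW hd
        have hd' : max q.depth L.depth ≤ A := Nat.le_of_succ_le_succ hd
        show Syn δ θ r B T _ _ _ (step c ρ δ θ M (conv c ρ δ θ M j) (.hess ℓ τ q L))
        rw [step]
        split
        · exact syn_zero hK1 hC0 hδ hr hθ _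
        · next hn =>
          have hsL := hLs δ θ r B hδ hr hB hθ hθ1 L hW.2.2.2.2 ((le_max_right _ _).trans hd')
          have hdU : (L.sqrtWord (scale δ θ L) M).depth ≤ 2 ^ M * (A * (A + 2)) :=
            (LProg.depth_sqrtWord _ L M).trans (Nat.mul_le_mul_left _
              (Nat.mul_le_mul (by omega) (by omega)))
          have hsU := hUs δ θ r B hδ hr hB hθ hθ1 _
            (LProg.wf_sqrtWord (by linarith) _ L hW.2.2.2.2 M) hdU
          exact (syn_node (c := c) (M := M) (K := K0) (PL := step c ρ δ θ M (conv c ρ δ θ M j) L)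
            hsL hsU hδ hr hB hθ hθ1 hT hCL hCU hn hW hρ (by omega) (by omega) (by omega) he).mono
              hδ hr hθ hT (le_max_left _ _) (le_max_left _ _)
      | bind p Δ L hL =>
        intro hW hd
        have hd' : max p.depth L.depth ≤ A := Nat.le_of_succ_le_succ hd
        exact (syn_bind (PL := conv c ρ δ θ M (j + 1) L)
          (hLs δ θ r B hδ hr hB hθ hθ1 L hW.2.2.1 ((le_max_right _ _).trans hd')) hW
          ((le_max_left _ _).trans hd') hδ hr hB hθ hT hCL).mono hδ hr hθ hT (le_max_right _ _)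
            (le_max_right _ _)

variable {c ρ}

/-! ### Mean square error -/

variable {d N : ℕ} {h : ℕ → E d → E d} {δ0 : ℕ → ℝ} {Gb Cb : ℝ}

/-- The gap between a converted word, with the identity put back, and the word. -/
noncomputable def gap (c ρ : Fin m → ℝ) (δ : ℕ → ℝ) (θ : ℝ) (M j : ℕ) (h : ℕ → E d → E d)
    (W : LProg) (env : Env d) (u : E d) : E d :=
  W.idc • u + (conv c ρ δ θ M j W).sem h (push u env) - W.app h env u

/-- The size of the error at fuel `j`. -/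
noncomputable def acc (r θ Cb : ℝ) (N j : ℕ) : ℝ := (1 + Cb) * (r / (θ * r ^ N) + θ ^ j)

theorem acc_nonneg (hr : 1 ≤ r) (hθ : 0 < θ) (hCb : 0 ≤ Cb) (j : ℕ) : 0 ≤ acc r θ Cb N j := by
  unfold acc; positivity

theorem acc_step (hr : 1 ≤ r) (hθ : 0 < θ) (hθ1 : θ ≤ 1) (hCb : 0 ≤ Cb) (j : ℕ) :
    θ * acc r θ Cb N j ≤ acc r θ Cb N (j + 1) := by
  have h1 : θ * (r / (θ * r ^ N)) ≤ r / (θ * r ^ N) := mul_le_of_le_one_left (by positivity) hθ1
  calc θ * acc r θ Cb N j = (1 + Cb) * (θ * (r / (θ * r ^ N)) + θ ^ (j + 1)) := by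
        unfold acc; ring
    _ ≤ _ := mul_le_mul_of_nonneg_left (add_le_add h1 le_rfl) (by linarith)

/-- A linear growth bound makes the square integrable. -/
theorem integrable_sq_of_lip {G : Type*} [NormedAddCommGroup G] {f : E d → G} {K : ℝ}
    (hK : ∀ w w', ‖f w - f w'‖ ≤ K * ‖w - w'‖) :
    Integrable (fun w => ‖f w‖ ^ 2) (gau (Fin d)) := by
  have hc : Continuous f := (LipschitzWith.of_dist_le_mul (K := ⟨|K|, abs_nonneg K⟩) fun a b => by
    simp only [dist_eq_norm]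
    exact (hK a b).trans (mul_le_mul_of_nonneg_right (le_abs_self K) (norm_nonneg _))).continuous
  refine integrable_gau_of_poly (hc.norm.pow 2) ((‖f 0‖ + |K|) ^ 2) 2 fun w => ?_
  have h1 := (hK w 0).trans (mul_le_mul_of_nonneg_right (le_abs_self K) (norm_nonneg (w - 0)))
  rw [sub_zero] at h1
  rw [norm_pow, norm_norm, ← mul_pow]
  refine pow_le_pow_left₀ (norm_nonneg _) ?_ 2
  nlinarith [norm_le_norm_add_norm_sub' (f w) (f 0), norm_nonneg (f 0), norm_nonneg w,
    abs_nonneg K, mul_nonneg (norm_nonneg (f 0)) (norm_nonneg w)]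

/-- The triangle inequality in mean square. -/
theorem integral_sq_add_le {X : Type*} [MeasurableSpace X] {μ : Measure X} {f g : X → ℝ}
    (hf : Integrable (fun x => f x ^ 2) μ) (hg : Integrable (fun x => g x ^ 2) μ)
    {a b : ℝ} (ha : 0 ≤ a) (hb : 0 ≤ b) (h1 : ∫ x, f x ^ 2 ∂μ ≤ a ^ 2)
    (h2 : ∫ x, g x ^ 2 ∂μ ≤ b ^ 2) : ∫ x, (f x + g x) ^ 2 ∂μ ≤ (a + b) ^ 2 := by
  refine le_of_forall_pos_le_add fun ε hε => ?_
  obtain ⟨η, hη, hη2⟩ : ∃ η, 0 < η ∧ (a + η + (b + η)) ^ 2 ≤ (a + b) ^ 2 + ε := by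
    refine ⟨min 1 (ε / (4 * (a + b) + 4)), lt_min one_pos (by positivity), ?_⟩
    set η := min 1 (ε / (4 * (a + b) + 4))
    have e1 : η ≤ 1 := min_le_left _ _
    have e2 : η * (4 * (a + b) + 4) ≤ ε := (le_div_iff₀ (by positivity)).1 (min_le_right _ _)
    have e3 : 0 < η := lt_min one_pos (by positivity)
    nlinarith
  refine le_trans ?_ hη2
  set a' := a + η with ha'
  set b' := b + η with hb'
  have hap : 0 < a' := by linarith
  have hbp : 0 < b' := by linarith
  calc ∫ x, (f x + g x) ^ 2 ∂μ ≤ ∫ x, ((1 + b' / a') * f x ^ 2 + (1 + a' / b') * g x ^ 2) ∂μ := by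
        refine integral_mono_of_nonneg (ae_of_all _ fun x => sq_nonneg _)
          ((hf.const_mul _).add (hg.const_mul _)) (ae_of_all _ fun x => ?_)
        have e : (1 + b' / a') * f x ^ 2 + (1 + a' / b') * g x ^ 2 - (f x + g x) ^ 2 =
            (b' * f x - a' * g x) ^ 2 / (a' * b') := by field_simp; ring
        have : 0 ≤ (b' * f x - a' * g x) ^ 2 / (a' * b') := by positivity
        linarith
    _ ≤ (1 + b' / a') * a' ^ 2 + (1 + a' / b') * b' ^ 2 := by
        rw [integral_add (hf.const_mul _) (hg.const_mul _), integral_const_mul, integral_const_mul]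
        exact add_le_add
          (mul_le_mul_of_nonneg_left (h1.trans (pow_le_pow_left₀ ha (by linarith) 2)) (by positivity))
          (mul_le_mul_of_nonneg_left (h2.trans (pow_le_pow_left₀ hb (by linarith) 2)) (by positivity))
    _ = (a' + b') ^ 2 := by field_simp; ring

variable (hh : ∀ ℓ, Fld d (δ0 ℓ) r Gb Cb N (h ℓ))

include hh

omit hh in
theorem norm_push_sub (env : Env d) (a a' : E d) (i : ℕ) :
    ‖push a env i - push a' env i‖ ≤ pushR ‖a - a'‖ 0 i := by
  cases i with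
  | zero => rfl
  | succ i => simp [push, pushR]

/-- The gap is Lipschitz in the vector. -/
theorem gap_lip (j : ℕ) (W : LProg) (env : Env d) : ∀ u u',
    ‖gap c ρ δ θ M j h W env u - gap c ρ δ θ M j h W env u'‖ ≤
      (|W.idc| + (conv c ρ δ θ M j W).lip δ0 (pushR 1 0) + W.norm' δ0) * ‖u - u'‖ := fun u u' => by
  set P := conv c ρ δ θ M j W
  have hδ0 := Prog.delta_nonneg_of_fld hh
  have h2 := P.norm_sem_sub_le hh hδ0 (push u env) (push u' env) (norm_push_sub env u u')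
  have e2 : pushR ‖u - u'‖ (0 : ℕ → ℝ) = ‖u - u'‖ • pushR 1 0 := by
    rw [← pushR_smul, mul_one, smul_zero]
  rw [e2, Prog.lip_smul_v] at h2
  have e : gap c ρ δ θ M j h W env u - gap c ρ δ θ M j h W env u' =
      W.idc • (u - u') + (P.sem h (push u env) - P.sem h (push u' env)) -
        W.clm hh env (u - u') := by
    simp only [gap, smul_sub, map_sub, LProg.clm_apply, P]; abel
  rw [e]
  refine (norm_sub_le _ _).trans ((add_le_add (norm_add_le _ _) le_rfl).trans ?_)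
  have h3 := W.norm_app_le hh hδ0 env (u - u')
  rw [norm_smul, Real.norm_eq_abs, LProg.clm_apply]
  linarith

theorem integrable_sq_gap (j : ℕ) (W : LProg) (env : Env d) :
    Integrable (fun u => ‖gap c ρ δ θ M j h W env u‖ ^ 2) (gau (Fin d)) :=
  integrable_sq_of_lip (gap_lip hh j W env)

theorem err_zero (hδ : δ0 ≤ δ) (hr : 1 ≤ r) (hθ : 0 < θ) (hCb : 0 ≤ Cb) (W : LProg) (env : Env d) :
    ∫ u, ‖gap c ρ δ θ M 0 h W env u‖ ^ 2 ∂gau (Fin d) ≤
      (2 * W.norm' δ * √d * acc r θ Cb N 0) ^ 2 := by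
  have hδ0 := Prog.delta_nonneg_of_fld hh
  have hn : W.norm' δ0 ≤ W.norm' δ := W.norm'_mono hδ0 hδ
  have h0 := W.norm'_nonneg hδ0
  have hb : ∀ u, ‖gap c ρ δ θ M 0 h W env u‖ ≤ 2 * W.norm' δ * ‖u‖ := fun u => by
    simp only [gap, conv, Prog.sem, add_zero]
    refine (norm_sub_le _ _).trans ?_
    rw [norm_smul, Real.norm_eq_abs]
    have := mul_le_mul_of_nonneg_right ((LProg.abs_idc_le hδ0 W).trans hn) (norm_nonneg u)
    have := (W.norm_app_le hh hδ0 env u).trans (mul_le_mul_of_nonneg_right hn (norm_nonneg u))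
    linarith
  have hsq : Integrable (fun u : E d => ‖u‖ ^ 2) (gau (Fin d)) :=
    integrable_sq_of_lip (K := 1) fun w w' => by rw [one_mul]
  calc ∫ u, ‖gap c ρ δ θ M 0 h W env u‖ ^ 2 ∂gau (Fin d)
      ≤ ∫ u, (2 * W.norm' δ) ^ 2 * ‖u‖ ^ 2 ∂gau (Fin d) :=
        integral_mono (integrable_sq_gap hh 0 W env) (hsq.const_mul _) fun u => by
          rw [← mul_pow]; exact pow_le_pow_left₀ (norm_nonneg _) (hb u) 2
    _ = (2 * W.norm' δ * √d) ^ 2 := by
        rw [integral_const_mul, integral_gau_norm_sq, Fintype.card_fin,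
          mul_pow (2 * W.norm' δ) (√d), Real.sq_sqrt (Nat.cast_nonneg d)]
    _ ≤ _ := by
        have hd0 : 0 ≤ 2 * W.norm' δ * √d :=
          mul_nonneg (mul_nonneg zero_le_two (h0.trans hn)) (Real.sqrt_nonneg _)
        refine pow_le_pow_left₀ hd0 (le_mul_of_one_le_right hd0 ?_) 2
        have : 0 ≤ r / (θ * r ^ N) := by positivity
        simp only [acc, pow_zero]
        nlinarith [mul_nonneg hCb this]

theorem err_bind {C : ℝ} {p : Prog} {Δ : ℝ} {L : LProg} (j : ℕ) (env : Env d)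
    (hL : ∀ env, ∫ u, ‖gap c ρ δ θ M (j + 1) h L env u‖ ^ 2 ∂gau (Fin d) ≤ C) :
    ∫ u, ‖gap c ρ δ θ M (j + 1) h (.bind p Δ L) env u‖ ^ 2 ∂gau (Fin d) ≤ C := by
  have hδ0 := Prog.delta_nonneg_of_fld hh
  set PL := conv c ρ δ θ M (j + 1) L with hPL
  set ev : E d → Env d := fun z => push (p.sem h env + √Δ • z) env
  set g : E d × E d → E d := fun x => gap c ρ δ θ M (j + 1) h L (ev x.2) x.1
  -- linear growth of the gap in both variables
  set P0 := PL.sem h (push 0 (ev 0))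
  set a1 := |L.idc| + PL.lip δ0 (pushR 1 0) + L.norm' δ0
  set a2 := PL.lip δ0 (pushR 0 (pushR √Δ 0))
  have hgb : ∀ x : E d × E d, ‖g x‖ ≤ ‖P0‖ + a1 * ‖x.1‖ + a2 * ‖x.2‖ := fun x => by
    have h1 := gap_lip (c := c) (ρ := ρ) (δ := δ) (θ := θ) (M := M) hh (j + 1) L (ev x.2) x.1 0
    rw [sub_zero] at h1
    have h0 : gap c ρ δ θ M (j + 1) h L (ev x.2) 0 = PL.sem h (push 0 (ev x.2)) := by
      have : L.app h (ev x.2) 0 = 0 := (L.clm hh (ev x.2)).map_zero
      simp [gap, this, PL]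
    have h2 := PL.norm_sem_sub_le hh hδ0 (push (0 : E d) (ev x.2)) (push 0 (ev 0))
      (v := pushR 0 (pushR (√Δ * ‖x.2‖) 0)) fun i => by
        rcases i with _ | _ | i
        · simp [push, pushR]
        · simp [push, pushR, ev, norm_smul, abs_of_nonneg (Real.sqrt_nonneg Δ)]
        · simp [push, pushR, ev]
    have e2 : pushR 0 (pushR (√Δ * ‖x.2‖) (0 : ℕ → ℝ)) = ‖x.2‖ • pushR 0 (pushR √Δ 0) := by
      rw [← pushR_smul, mul_zero, ← pushR_smul, smul_zero, mul_comm ‖x.2‖]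
    rw [e2, Prog.lip_smul_v] at h2
    have h3 := norm_le_norm_add_norm_sub' (PL.sem h (push 0 (ev x.2))) P0
    have h4 := norm_le_norm_add_norm_sub' (g x) (gap c ρ δ θ M (j + 1) h L (ev x.2) 0)
    rw [h0] at h1 h4
    simp only [g] at h4 ⊢
    linarith
  have hev : ∀ i, Continuous fun x : E d × E d => ev x.2 i := fun i =>
    (continuous_bindEnv (p.sem h env) √Δ env i).comp continuous_snd
  have hgc : Continuous g :=
    ((continuous_fst.const_smul L.idc).add
      ((PL.continuous_sem hh).comp (continuous_pi (continuous_push continuous_fst hev)))).sub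
      (L.continuous_app hh hev continuous_fst)
  have hgi : Integrable (fun x => ‖g x‖ ^ 2) ((gau (Fin d)).prod (gau (Fin d))) := by
    have hsq : Integrable (fun u : E d => ‖u‖ ^ 2) (gau (Fin d)) :=
      integrable_sq_of_lip (K := 1) fun w w' => by rw [one_mul]
    refine (((integrable_const (3 * ‖P0‖ ^ 2)).add ((hsq.const_mul (3 * a1 ^ 2)).comp_fst _)).add
      ((hsq.const_mul (3 * a2 ^ 2)).comp_snd _)).mono' (hgc.norm.pow 2).aestronglyMeasurable
      (ae_of_all _ fun x => ?_)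
    rw [Real.norm_eq_abs, abs_of_nonneg (sq_nonneg _)]
    simp only [Pi.add_apply]
    nlinarith [pow_le_pow_left₀ (norm_nonneg _) (hgb x) 2, sq_nonneg (‖P0‖ - a1 * ‖x.1‖),
      sq_nonneg (‖P0‖ - a2 * ‖x.2‖), sq_nonneg (a1 * ‖x.1‖ - a2 * ‖x.2‖)]
  have hzlip : ∀ u z z', ‖PL.sem h (push u (ev z)) - PL.sem h (push u (ev z'))‖ ≤ a2 * ‖z - z'‖ := by
    intro u z z'
    have h2 := PL.norm_sem_sub_le hh hδ0 (push u (ev z)) (push u (ev z'))
      (v := pushR 0 (pushR (√Δ * ‖z - z'‖) 0)) fun i => by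
        rcases i with _ | _ | i
        · simp [push, pushR]
        · simp [push, pushR, ev, ← smul_sub, norm_smul, abs_of_nonneg (Real.sqrt_nonneg Δ)]
        · simp [push, pushR, ev]
    have e2 : pushR 0 (pushR (√Δ * ‖z - z'‖) (0 : ℕ → ℝ)) = ‖z - z'‖ • pushR 0 (pushR √Δ 0) := by
      rw [← pushR_smul, mul_zero, ← pushR_smul, smul_zero, mul_comm ‖z - z'‖]
    rwa [e2, Prog.lip_smul_v, mul_comm] at h2
  have hmean : ∀ u, gap c ρ δ θ M (j + 1) h (.bind p Δ L) env u = ∫ z, g (u, z) ∂gau (Fin d) := by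
    intro u
    have i1 : Integrable (fun z => PL.sem h (push u (ev z))) (gau (Fin d)) :=
      integrable_gau_of_lip (hzlip u)
    have i2 : Integrable (fun z => L.app h (ev z) u) (gau (Fin d)) := L.integrable_bind hh _ _ _ _
    show L.idc • u + (Prog.bind (p.ren Nat.succ) Δ (PL.ren swap01)).sem h (push u env) -
      ∫ z, L.app h (ev z) u ∂gau (Fin d) = _
    simp only [g, gap, ← hPL]
    have i12 : Integrable (fun z => L.idc • u + PL.sem h (push u (ev z))) (gau (Fin d)) :=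
      (integrable_const _).add i1
    rw [integral_sub i12 i2,
      integral_add (integrable_const _) i1, integral_const, probReal_univ, one_smul]
    simp only [Prog.sem, Prog.sem_ren, push_succ, push_swap01, ev]
  have hswap : Integrable (Function.uncurry fun u z : E d => ‖g (u, z)‖ ^ 2)
      ((gau (Fin d)).prod (gau (Fin d))) := hgi
  calc ∫ u, ‖gap c ρ δ θ M (j + 1) h (.bind p Δ L) env u‖ ^ 2 ∂gau (Fin d)
      ≤ ∫ u, ∫ z, ‖g (u, z)‖ ^ 2 ∂gau (Fin d) ∂gau (Fin d) := by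
        refine integral_mono_of_nonneg (ae_of_all _ fun u => sq_nonneg _) hgi.integral_prod_left
          (ae_of_all _ fun u => ?_)
        have hc : Continuous fun z => g (u, z) := hgc.comp (continuous_const.prodMk continuous_id)
        have hb : ∀ z, ‖g (u, z)‖ ≤ (‖P0‖ + |a1| * ‖u‖ + |a2|) * (1 + ‖z‖) := fun z => by
          nlinarith [hgb (u, z), abs_nonneg a2, norm_nonneg z, norm_nonneg u, norm_nonneg P0,
            mul_le_mul_of_nonneg_right (le_abs_self a1) (norm_nonneg u),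
            mul_le_mul_of_nonneg_right (le_abs_self a2) (norm_nonneg z),
            mul_nonneg (mul_nonneg (abs_nonneg a1) (norm_nonneg u)) (norm_nonneg z),
            mul_nonneg (norm_nonneg P0) (norm_nonneg z)]
        simp only [hmean]
        refine norm_integral_sq_le
          (integrable_gau_of_poly hc (‖P0‖ + |a1| * ‖u‖ + |a2|) 1 fun z => by simpa using hb z)
          (integrable_gau_of_poly (hc.norm.pow 2) ((‖P0‖ + |a1| * ‖u‖ + |a2|) ^ 2) 2 fun z => ?_)
        rw [norm_pow, norm_norm]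
        exact (pow_le_pow_left₀ (norm_nonneg _) (hb z) 2).trans_eq (mul_pow _ _ 2)
    _ = ∫ z, ∫ u, ‖g (u, z)‖ ^ 2 ∂gau (Fin d) ∂gau (Fin d) := integral_integral_swap hswap
    _ ≤ ∫ _z, C ∂gau (Fin d) :=
        integral_mono hgi.integral_prod_right (integrable_const _) fun z => hL (ev z)
    _ = C := by simp

omit hh in
/-- The word of the square root satisfies its recursion and is symmetric. -/
theorem sqrtWord_facts (hh : ∀ ℓ, Fld d (δ ℓ) r Gb Cb N (h ℓ)) (hθ : 0 ≤ θ) (hθ1 : θ ≤ 1) (s : ℝ)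
    (L : LProg) (hs : |s| * L.norm' δ ≤ θ) (env : Env d) (i : ℕ) :
    (∀ a b, ⟪(L.sqrtWord s i).app h env a, b⟫ = ⟪a, (L.sqrtWord s i).app h env b⟫) ∧
      (∀ t, (L.sqrtWord s (i + 1)).app h env t = (1 / 2 : ℝ) •
        ((s • L.clm hh env) ((s • L.clm hh env).adjoint t) +
          (L.sqrtWord s i).app h env ((L.sqrtWord s i).app h env t))) ∧
      ∀ t, ‖(L.sqrtWord s (i + 1)).app h env t - (L.sqrtWord s i).app h env t‖ ≤
        θ ^ (2 * (i + 1)) * ‖t‖ := by
  have hδ := Prog.delta_nonneg_of_fld hh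
  have hadj : ∀ t, (L.clm hh env).adjoint t = (L.transp .id).app h env t := fun t => by
    refine ext_inner_left ℝ fun a => ?_
    rw [ContinuousLinearMap.adjoint_inner_right, LProg.clm_apply,
      ← LProg.inner_transp hh L .id env a t]
    rfl
  have hrec : ∀ k t, (L.sqrtWord s (k + 1)).app h env t = (1 / 2 : ℝ) •
      ((s • L.clm hh env) ((s • L.clm hh env).adjoint t) +
        (L.sqrtWord s k).app h env ((L.sqrtWord s k).app h env t)) := fun k t => by
    simp only [LProg.sqrtWord, LProg.app, LProg.app_comp, map_smulₛₗ, ContinuousLinearMap.smul_apply,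
      LProg.clm_apply, RCLike.conj_to_real, RingHom.id_apply, hadj, smul_smul, sq]
  have hsym : ∀ k a b, ⟪(L.sqrtWord s k).app h env a, b⟫ = ⟪a, (L.sqrtWord s k).app h env b⟫ := by
    intro k
    induction k with
    | zero => intro a b; simp [LProg.sqrtWord, LProg.app]
    | succ k ih =>
      intro a b
      rw [hrec, hrec, real_inner_smul_left, real_inner_smul_right, inner_add_left, inner_add_right,
        ← ContinuousLinearMap.adjoint_inner_right (s • L.clm hh env),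
        ← ContinuousLinearMap.adjoint_inner_left (s • L.clm hh env), ih, ih]
  have hn := L.norm'_sqrtWord hθ hθ1 hδ hs
  have hdiff : ∀ k t, ‖(L.sqrtWord s (k + 1)).app h env t - (L.sqrtWord s k).app h env t‖ ≤
      θ ^ (2 * (k + 1)) * ‖t‖ := by
    intro k
    induction k with
    | zero =>
      intro t
      have h1 := (L.sqrtWord s 1).norm_app_le hh hδ env t
      have e0 : (L.sqrtWord s 0).app h env t = 0 := rfl
      rw [e0, sub_zero]
      exact h1.trans (mul_le_mul_of_nonneg_right (hn 1) (norm_nonneg t))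
    | succ k ih =>
      intro t
      set V := L.sqrtWord s (k + 1) with hV
      set U := L.sqrtWord s k
      have e5 : (L.sqrtWord s (k + 1 + 1)).app h env t - V.app h env t = (1 / 2 : ℝ) •
          (V.app h env (V.app h env t) - U.app h env (U.app h env t)) := by
        rw [hrec (k + 1) t, ← hV]
        conv_lhs => arg 2; rw [hV, hrec k t]
        rw [← smul_sub, add_sub_add_left_eq_sub]
      rw [e5, norm_smul]
      have e : V.app h env (V.app h env t) - U.app h env (U.app h env t) =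
          V.clm hh env (V.app h env t - U.app h env t) +
            (V.app h env (U.app h env t) - U.app h env (U.app h env t)) := by
        simp only [map_sub, LProg.clm_apply]; abel
      have h1 : ‖V.clm hh env (V.app h env t - U.app h env t)‖ ≤
          θ ^ 2 * (θ ^ (2 * (k + 1)) * ‖t‖) :=
        (V.norm_app_le hh hδ env _).trans (mul_le_mul (hn _) (ih t) (norm_nonneg _) (sq_nonneg θ))
      have h2 : ‖V.app h env (U.app h env t) - U.app h env (U.app h env t)‖ ≤
          θ ^ (2 * (k + 1)) * (θ ^ 2 * ‖t‖) :=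
        (ih _).trans (mul_le_mul_of_nonneg_left ((U.norm_app_le hh hδ env t).trans
          (mul_le_mul_of_nonneg_right (hn _) (norm_nonneg t))) (pow_nonneg hθ _))
      have e3 : θ ^ (2 * (k + 1 + 1)) = θ ^ 2 * θ ^ (2 * (k + 1)) := by
        rw [← pow_add]; congr 1; ring
      have h4 : ‖V.app h env (V.app h env t) - U.app h env (U.app h env t)‖ ≤
          2 * (θ ^ 2 * θ ^ (2 * (k + 1)) * ‖t‖) := by
        rw [e]; refine (norm_add_le _ _).trans ?_; linarith
      rw [e3, show ‖(1 / 2 : ℝ)‖ = 1 / 2 by norm_num]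
      linarith
  exact ⟨hsym i, hrec i, hdiff i⟩

omit hh in
/-- The two errors left by the derivatives of a node. -/
theorem node_tail {S Ln δl sd κ τ : ℝ} (hLn : 0 < Ln) (hδl : 0 ≤ δl) (hr : 1 ≤ r) (hθ : 0 < θ)
    (hθ1 : θ ≤ 1) (hT : 1 ≤ T) (hCb : 0 ≤ Cb) (hS0 : 0 ≤ S) (hτ : T⁻¹ ≤ τ) (hsd : 0 ≤ sd) {j : ℕ}
    (hj : j ≤ 2 * M) (hκ : κ = 1 / (θ / Ln * √τ)) :
    κ ^ 2 * (2 * ((1 + S) * (δl * r * sd * Cb / r ^ N)) ^ 2 +
        2 * ((1 + S) * (√τ * δl) * (2 * θ ^ (2 * (M + 1))) * sd) ^ 2) ≤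
      ((1 + S) * (4 * √T) * (δl * Ln) * sd * acc r θ Cb N (j + 1)) ^ 2 := by
  have hτp : 0 < τ := lt_of_lt_of_le (inv_pos.2 (by linarith)) hτ
  have hsτ := Real.sqrt_pos.2 hτp
  have hκ0 : 0 < κ := by rw [hκ]; positivity
  have hacc := acc_nonneg (N := N) hr hθ hCb (j + 1)
  have hκn : κ ≤ Ln / θ * √T := by
    have h1 : 1 / √τ ≤ √T := by
      rw [div_le_iff₀ hsτ, ← Real.sqrt_mul (by linarith)]
      refine Real.one_le_sqrt.2 ?_
      calc (1 : ℝ) = T * T⁻¹ := (mul_inv_cancel₀ (by linarith)).symm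
        _ ≤ T * τ := mul_le_mul_of_nonneg_left hτ (by linarith)
    calc κ = Ln / θ * (1 / √τ) := by rw [hκ]; field_simp
      _ ≤ _ := mul_le_mul_of_nonneg_left h1 (by positivity)
  have hSn : 0 ≤ (1 + S) * (δl * Ln) * sd :=
    mul_nonneg (mul_nonneg (by linarith) (mul_nonneg (hδl) hLn.le)) hsd
  have b1 : κ * ((1 + S) * (δl * r * sd * Cb / r ^ N)) ≤
      (1 + S) * (δl * Ln) * sd * √T * acc r θ Cb N (j + 1) := by
    refine (mul_le_mul_of_nonneg_right hκn
      (mul_nonneg (by linarith) (div_nonneg (mul_nonneg (mul_nonneg (mul_nonneg (hδl) (by linarith))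
        hsd) hCb) (by positivity)))).trans ?_
    calc Ln / θ * √T * ((1 + S) * (δl * r * sd * Cb / r ^ N))
        = (1 + S) * (δl * Ln) * sd * √T * (Cb * (r / (θ * r ^ N))) := by field_simp
      _ ≤ _ := by
          refine mul_le_mul_of_nonneg_left ?_ (mul_nonneg hSn (Real.sqrt_nonneg T))
          unfold acc
          exact mul_le_mul (by linarith) (le_add_of_nonneg_right (by positivity)) (by positivity)
            (by linarith)
  have b2 : κ * ((1 + S) * (√τ * δl) * (2 * θ ^ (2 * (M + 1))) * sd) ≤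
      2 * ((1 + S) * (δl * Ln) * sd) * acc r θ Cb N (j + 1) := by
    calc κ * ((1 + S) * (√τ * δl) * (2 * θ ^ (2 * (M + 1))) * sd)
        = 2 * ((1 + S) * (δl * Ln) * sd) * θ ^ (2 * M + 1) := by
          rw [hκ, show 2 * (M + 1) = 2 * M + 1 + 1 by ring, pow_succ]
          field_simp
      _ ≤ _ := by
          refine mul_le_mul_of_nonneg_left ?_ (mul_nonneg (by norm_num) hSn)
          have h1 : θ ^ (2 * M + 1) ≤ θ ^ (j + 1) :=
            pow_le_pow_of_le_one hθ.le (by linarith) (by omega)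
          have h2 : θ ^ (j + 1) ≤ r / (θ * r ^ N) + θ ^ (j + 1) :=
            le_add_of_nonneg_left (by positivity)
          unfold acc
          exact (h1.trans h2).trans (le_mul_of_one_le_left (by positivity) (by linarith))
  have hb1 : 0 ≤ κ * ((1 + S) * (δl * r * sd * Cb / r ^ N)) :=
    mul_nonneg hκ0.le (mul_nonneg (by linarith) (div_nonneg (mul_nonneg (mul_nonneg
      (mul_nonneg (hδl) (by linarith)) hsd) hCb) (by positivity)))
  have hb2 : 0 ≤ κ * ((1 + S) * (√τ * δl) * (2 * θ ^ (2 * (M + 1))) * sd) :=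
    mul_nonneg hκ0.le (mul_nonneg (mul_nonneg (mul_nonneg (by linarith)
      (mul_nonneg hsτ.le (hδl))) (by positivity)) hsd)
  have hsT : 1 ≤ √T := Real.one_le_sqrt.2 hT
  set X := (1 + S) * (δl * Ln) * sd * √T * acc r θ Cb N (j + 1)
  have b2' : κ * ((1 + S) * (√τ * δl) * (2 * θ ^ (2 * (M + 1))) * sd) ≤ 2 * X := by
    refine b2.trans ?_
    have := le_mul_of_one_le_right (mul_nonneg hSn hacc) hsT
    simp only [X]; linarith
  have q1 := pow_le_pow_left₀ hb1 b1 2
  have q2 := pow_le_pow_left₀ hb2 b2' 2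
  calc κ ^ 2 * (2 * ((1 + S) * (δl * r * sd * Cb / r ^ N)) ^ 2 +
        2 * ((1 + S) * (√τ * δl) * (2 * θ ^ (2 * (M + 1))) * sd) ^ 2)
      = 2 * (κ * ((1 + S) * (δl * r * sd * Cb / r ^ N))) ^ 2 +
        2 * (κ * ((1 + S) * (√τ * δl) * (2 * θ ^ (2 * (M + 1))) * sd)) ^ 2 := by ring
    _ ≤ 2 * X ^ 2 + 2 * (2 * X) ^ 2 := by linarith
    _ ≤ (4 * X) ^ 2 := by nlinarith only [sq_nonneg X]
    _ = _ := by simp only [X]; ring

/-- The sum of smoothed fields inside the mean of a node. -/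
noncomputable def csum (c ρ : Fin m → ℝ) (g : E d → E d) (τ : ℝ) (x0 x e : E d) : E d :=
  ∑ k, c k • Psm (τ * (1 - ρ k ^ 2)) g (x0 + (√τ * ρ k) • (x + e))

omit hh in
theorem norm_csum_sub_le {g : E d → E d} {δl τ : ℝ} (hg : Fld d δl r Gb Cb N g)
    (hρ : ∀ k, |ρ k| ≤ 1 / 2) (x0 x x' e e' : E d) :
    ‖csum c ρ g τ x0 x e - csum c ρ g τ x0 x' e'‖ ≤
      (∑ k, |c k|) * (δl * √τ) * (‖x - x'‖ + ‖e - e'‖) := by
  simp only [csum, ← Finset.sum_sub_distrib, ← smul_sub]
  refine (norm_sum_le _ _).trans ?_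
  rw [Finset.sum_mul, Finset.sum_mul]
  refine Finset.sum_le_sum fun k _ => ?_
  rw [norm_smul, Real.norm_eq_abs, mul_assoc]
  refine mul_le_mul_of_nonneg_left ((hg.norm_Psm_sub_le _ _ _).trans ?_) (abs_nonneg _)
  rw [add_sub_add_left_eq_sub, ← smul_sub, norm_smul, Real.norm_eq_abs, abs_mul,
    abs_of_nonneg (Real.sqrt_nonneg τ), mul_assoc δl]
  refine mul_le_mul_of_nonneg_left ?_ hg.delta_nonneg
  rw [mul_assoc]
  refine mul_le_mul_of_nonneg_left ((mul_le_of_le_one_left (norm_nonneg _)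
    ((hρ k).trans (by norm_num))).trans ?_) (Real.sqrt_nonneg τ)
  rw [add_sub_add_comm]
  exact norm_add_le _ _

omit hh in
/-- A converted node is a mean over the fresh input. -/
theorem sem_node {j ℓ : ℕ} {τ : ℝ} {q : Prog} {L : LProg} (hn : L.norm' δ ≠ 0) (env : Env d)
    (u : E d) :
    (conv c ρ δ θ M (j + 1) (.hess ℓ τ q L)).sem h (push u env) =
      (1 / (scale δ θ L * √τ)) • ∫ e, csum c ρ (h ℓ) τ (q.sem h env)
        (scale δ θ L • (L.idc • u + (conv c ρ δ θ M (j + 1) L).sem h (push u env)))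
        (e - ((L.sqrtWord (scale δ θ L) M).idc • e +
          (conv c ρ δ θ M j (L.sqrtWord (scale δ θ L) M)).sem h (push e env))) ∂gau (Fin d) := by
  show (step c ρ δ θ M (conv c ρ δ θ M j) (.hess ℓ τ q L)).sem h (push u env) = _
  rw [step, if_neg hn, node, ← integral_smul]
  simp only [Prog.sem, sem_sumFin, Real.sqrt_one, zero_add, one_smul]
  refine integral_congr_ae (ae_of_all _ fun e => ?_)
  simp only [csum, Finset.smul_sum, smul_smul]
  refine Finset.sum_congr rfl fun k _ => ?_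
  simp only [point, full, Prog.sem, Prog.sem_ren, push_two, push_succ, push_skip1]
  rw [show c k / (scale δ θ L * √τ) = 1 / (scale δ θ L * √τ) * c k by ring, neg_one_smul,
    ← sub_eq_add_neg]
  rfl

omit hh in
/-- A mean square bound from a pointwise sum of two bounds. -/
theorem integral_sq_le_of_norm_le {X : Type*} [MeasurableSpace X] {μ : Measure X}
    {f F1 F2 : X → ℝ} (hf : ∀ x, 0 ≤ f x) (hle : ∀ x, f x ≤ F1 x + F2 x)
    (h1m : AEStronglyMeasurable F1 μ) (h2m : AEStronglyMeasurable F2 μ)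
    (hi1 : Integrable (fun x => F1 x ^ 2) μ) (hi2 : Integrable (fun x => F2 x ^ 2) μ)
    {a b : ℝ} (ha : 0 ≤ a) (hb : 0 ≤ b) (h1 : ∫ x, F1 x ^ 2 ∂μ ≤ a ^ 2)
    (h2 : ∫ x, F2 x ^ 2 ∂μ ≤ b ^ 2) : ∫ x, f x ^ 2 ∂μ ≤ (a + b) ^ 2 := by
  refine le_trans (integral_mono_of_nonneg (ae_of_all _ fun x => sq_nonneg _) ?_
    (ae_of_all _ fun x => pow_le_pow_left₀ (hf x) (hle x) 2))
    (integral_sq_add_le hi1 hi2 ha hb h1 h2)
  refine ((hi1.const_mul 2).add (hi2.const_mul 2)).mono' ((h1m.add h2m).pow 2)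
    (ae_of_all _ fun x => ?_)
  rw [Real.norm_eq_abs, abs_of_nonneg (sq_nonneg _)]
  simp only [Pi.add_apply]
  nlinarith only [sq_nonneg (F1 x - F2 x)]

omit hh in
/-- The error of one node. -/
theorem err_node (hh : ∀ ℓ, Fld d (δ ℓ) r Gb Cb N (h ℓ)) (hr : 1 ≤ r) (hθ : 0 < θ)
    (hθ1 : θ ≤ 1 / 4) (hT : 1 ≤ T) (hCb : 0 ≤ Cb) (hρ : ∀ k, |ρ k| ≤ 1 / 2)
    (hc : ∀ n, n < N → ∑ k, c k * ρ k ^ n = if n = 1 then 1 else 0) {j : ℕ} (hj : j ≤ 2 * M)
    {CL CU : ℝ} (hCL : 0 ≤ CL) (hCU : 0 ≤ CU) {ℓ : ℕ} {τ : ℝ} {q : Prog} {L : LProg}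
    (hτ : T⁻¹ ≤ τ) (hτ1 : τ ≤ 1) (hn : L.norm' δ ≠ 0) (env : Env d)
    (hL : ∫ u, ‖gap c ρ δ θ M (j + 1) h L env u‖ ^ 2 ∂gau (Fin d) ≤
      (CL * L.norm' δ * √d * acc r θ Cb N (j + 1)) ^ 2)
    (hU : ∫ u, ‖gap c ρ δ θ M j h (L.sqrtWord (scale δ θ L) M) env u‖ ^ 2 ∂gau (Fin d) ≤
      (CU * θ ^ 2 * √d * acc r θ Cb N j) ^ 2) :
    ∫ u, ‖gap c ρ δ θ M (j + 1) h (.hess ℓ τ q L) env u‖ ^ 2 ∂gau (Fin d) ≤
      (((∑ k, |c k|) * (CL + CU) + (1 + ∑ k, |c k|) * (4 * √T)) * (δ ℓ * L.norm' δ) * √d *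
        acc r θ Cb N (j + 1)) ^ 2 := by
  have hδ : 0 ≤ δ := Prog.delta_nonneg_of_fld hh
  have hnp : 0 < L.norm' δ := lt_of_le_of_ne (LProg.norm'_nonneg hδ L) (Ne.symm hn)
  have hτp : 0 < τ := lt_of_lt_of_le (inv_pos.2 (by linarith)) hτ
  have hsτ := Real.sqrt_pos.2 hτp
  set s := scale δ θ L with hsdef
  have hsp : 0 < s := div_pos hθ hnp
  have hsn : |s| * L.norm' δ ≤ θ := le_of_eq (by rw [abs_of_pos hsp, hsdef, scale, div_mul_cancel₀ _ hn])
  set U := L.sqrtWord s M with hUdef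
  obtain ⟨hUsym, hUrec, hUdiff⟩ := sqrtWord_facts hh hθ.le (by linarith) s L hsn env M
  set A : E d →L[ℝ] E d := s • L.clm hh env with hAdef
  set Uc : E d →L[ℝ] E d := U.clm hh env with hUc
  have hA : ∀ t, |‖A.adjoint t‖ ^ 2 + ‖t - Uc t‖ ^ 2 - ‖t‖ ^ 2| ≤
      2 * θ ^ (2 * (M + 1)) * ‖t‖ ^ 2 :=
    sqrt_step_cov A Uc ((L.sqrtWord s (M + 1)).clm hh env) hUsym hUrec hUdiff
  have hcore := hess_extract (hh ℓ) hτp hτ1 hρ hc (q.sem h env) A Uc hUsym hA
  set PL := conv c ρ δ θ M (j + 1) L with hPL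
  set PU := conv c ρ δ θ M j U with hPU
  set κ := 1 / (s * √τ) with hκ
  have hκ0 : 0 < κ := by positivity
  set f : E d → E d → E d := csum c ρ (h ℓ) τ (q.sem h env) with hf
  set lu : E d → E d := fun u => s • (L.idc • u + PL.sem h (push u env)) with hlu
  set ue : E d → E d := fun e => e - (U.idc • e + PU.sem h (push e env)) with hue
  have hsem : ∀ u, (conv c ρ δ θ M (j + 1) (.hess ℓ τ q L)).sem h (push u env) =
      κ • ∫ e, f (lu u) (ue e) ∂gau (Fin d) := fun u => sem_node hn env u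
  set G1 : E d → E d := fun u => ∫ e, f (A u) (e - Uc e) ∂gau (Fin d) with hG1
  set tgt : E d → E d := fun u => √τ • fderiv ℝ (Psm τ (h ℓ)) (q.sem h env) (A u) with htgt
  have hgap : ∀ u, gap c ρ δ θ M (j + 1) h (.hess ℓ τ q L) env u =
      κ • ((∫ e, f (lu u) (ue e) ∂gau (Fin d)) - G1 u) + κ • (G1 u - tgt u) := by
    intro u
    have e1 : κ • tgt u = (LProg.hess ℓ τ q L).app h env u := by
      simp only [htgt, hAdef, ContinuousLinearMap.smul_apply, map_smul, smul_smul, LProg.app,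
        LProg.clm_apply]
      rw [show κ * (√τ * s) = 1 by rw [hκ]; field_simp, one_smul]
    simp only [gap, LProg.idc, zero_smul, zero_add, hsem, ← e1, smul_sub]
    abel
  -- Lipschitz bounds of the field in both arguments
  set S := ∑ k, |c k| with hS
  have hS0 : 0 ≤ S := Finset.sum_nonneg fun k _ => abs_nonneg _
  have hflip : ∀ x x' e e', ‖f x e - f x' e'‖ ≤ S * (δ ℓ * √τ) * (‖x - x'‖ + ‖e - e'‖) :=
    norm_csum_sub_le (hh ℓ) hρ _
  obtain ⟨a2, ha2⟩ : ∃ a2, ∀ e e', ‖ue e - ue e'‖ ≤ a2 * ‖e - e'‖ := by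
    refine ⟨1 + |U.idc| + PU.lip δ (pushR 1 0), fun e e' => ?_⟩
    have h2 := PU.norm_sem_sub_le hh hδ (push e env) (push e' env) (norm_push_sub env e e')
    rw [show pushR ‖e - e'‖ (0 : ℕ → ℝ) = ‖e - e'‖ • pushR 1 0 by
      rw [← pushR_smul, mul_one, smul_zero], Prog.lip_smul_v] at h2
    have e3 : ue e - ue e' = (e - e') -
        (U.idc • (e - e') + (PU.sem h (push e env) - PU.sem h (push e' env))) := by
      simp only [hue, smul_sub]; abel
    rw [e3]
    refine (norm_sub_le _ _).trans ((add_le_add le_rfl (norm_add_le _ _)).trans ?_)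
    rw [norm_smul, Real.norm_eq_abs]
    linarith
  have hSd : 0 ≤ S * (δ ℓ * √τ) := mul_nonneg hS0 (mul_nonneg (hδ ℓ) hsτ.le)
  have hi1 : ∀ x, Integrable (fun e => f x (ue e)) (gau (Fin d)) := fun x =>
    integrable_gau_of_lip (K := S * (δ ℓ * √τ) * a2) fun e e' => (hflip _ _ _ _).trans (by
      rw [sub_self, norm_zero, zero_add, mul_assoc _ a2]
      exact mul_le_mul_of_nonneg_left (ha2 e e') hSd)
  have hi2 : ∀ x, Integrable (fun e => f x (e - Uc e)) (gau (Fin d)) := fun x =>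
    integrable_gau_of_lip (K := S * (δ ℓ * √τ) * (1 + ‖Uc‖)) fun e e' => (hflip _ _ _ _).trans (by
      rw [sub_self, norm_zero, zero_add, mul_assoc _ (1 + ‖Uc‖)]
      refine mul_le_mul_of_nonneg_left ?_ hSd
      rw [show e - Uc e - (e' - Uc e') = (e - e') - Uc (e - e') by rw [map_sub]; abel, one_add_mul]
      exact (norm_sub_le _ _).trans (add_le_add le_rfl (Uc.le_opNorm _)))
  set gL := fun u => ‖gap c ρ δ θ M (j + 1) h L env u‖ with hgL
  set gU := fun e => ‖gap c ρ δ θ M j h U env e‖ with hgU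
  have hgUi : Integrable gU (gau (Fin d)) :=
    (integrable_gau_of_lip (gap_lip (c := c) (ρ := ρ) (δ := δ) (θ := θ) (M := M) hh j U env)).norm
  set E1 := ∫ e, gU e ∂gau (Fin d) with hE1
  have hE1le : E1 ≤ CU * θ ^ 2 * √d * acc r θ Cb N j := by
    have h1 := norm_integral_sq_le hgUi
      (by simpa [gU] using integrable_sq_gap (c := c) (ρ := ρ) (δ := δ) (θ := θ) (M := M) hh j U env)
    simp only [Real.norm_eq_abs, sq_abs, gU] at h1
    exact (sq_le_sq₀ (integral_nonneg fun e => norm_nonneg _)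
      (mul_nonneg (by positivity) (acc_nonneg hr hθ hCb j))).1 (h1.trans hU)
  have hfirst : ∀ u, ‖κ • ((∫ e, f (lu u) (ue e) ∂gau (Fin d)) - G1 u)‖ ≤
      S * δ ℓ * gL u + S * δ ℓ * (E1 / s) := by
    intro u
    rw [norm_smul, Real.norm_eq_abs, abs_of_pos hκ0, hG1, ← integral_sub (hi1 _) (hi2 _)]
    have hpt : ∀ e, ‖f (lu u) (ue e) - f (A u) (e - Uc e)‖ ≤
        S * (δ ℓ * √τ) * (s * gL u + gU e) := fun e => by
      refine (hflip _ _ _ _).trans (le_of_eq ?_)
      have e1 : lu u - A u = s • gap c ρ δ θ M (j + 1) h L env u := by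
        simp [hlu, hAdef, gap, LProg.clm_apply, smul_sub, PL]
      have e2 : ue e - (e - Uc e) = -gap c ρ δ θ M j h U env e := by
        simp [hue, hUc, gap, LProg.clm_apply, PU]
      rw [e1, e2, norm_neg, norm_smul, Real.norm_eq_abs, abs_of_pos hsp]
    have hib : Integrable (fun e => s * gL u + gU e) (gau (Fin d)) :=
      (integrable_const _).add hgUi
    refine (mul_le_mul_of_nonneg_left ((norm_integral_le_integral_norm _).trans
      (integral_mono ((hi1 _).sub (hi2 _)).norm (hib.const_mul _) hpt)) hκ0.le).trans_eq ?_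
    rw [integral_const_mul, integral_add (integrable_const _) hgUi, integral_const, probReal_univ,
      one_smul, ← hE1, hκ]
    field_simp
  set F1 := fun u => S * δ ℓ * gL u + S * δ ℓ * (E1 / s) with hF1
  set F2 := fun u => ‖κ • (G1 u - tgt u)‖ with hF2
  have hgLi : Integrable (fun u => gL u ^ 2) (gau (Fin d)) := integrable_sq_gap hh (j + 1) L env
  have hacc := acc_nonneg (N := N) hr hθ hCb (j + 1)
  have hSd' : 0 ≤ S * δ ℓ := mul_nonneg hS0 (hδ ℓ)
  have hE10 : 0 ≤ S * δ ℓ * (E1 / s) :=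
    mul_nonneg hSd' (div_nonneg (integral_nonneg fun e => norm_nonneg _) hsp.le)
  have hI1 : Integrable (fun u => (S * δ ℓ * gL u) ^ 2) (gau (Fin d)) := by
    simpa only [mul_pow (S * δ ℓ)] using hgLi.const_mul ((S * δ ℓ) ^ 2)
  have hF1b : ∫ u, F1 u ^ 2 ∂gau (Fin d) ≤
      (S * δ ℓ * (CL * L.norm' δ * √d * acc r θ Cb N (j + 1)) +
        S * δ ℓ * (CU * L.norm' δ * √d * acc r θ Cb N (j + 1))) ^ 2 := by
    refine integral_sq_add_le hI1 (integrable_const _) (by positivity) (by positivity) ?_ ?_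
    · simp only [mul_pow (S * δ ℓ)]
      rw [integral_const_mul]
      exact mul_le_mul_of_nonneg_left hL (sq_nonneg _)
    · rw [integral_const, probReal_univ, one_smul]
      refine pow_le_pow_left₀ hE10 (mul_le_mul_of_nonneg_left ?_ hSd') 2
      rw [div_le_iff₀ hsp]
      refine hE1le.trans ?_
      calc CU * θ ^ 2 * √d * acc r θ Cb N j = CU * θ * √d * (θ * acc r θ Cb N j) := by ring
        _ ≤ CU * θ * √d * acc r θ Cb N (j + 1) :=
            mul_le_mul_of_nonneg_left (acc_step hr hθ (by linarith) hCb j) (by positivity)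
        _ = _ := by rw [hsdef, scale]; field_simp
  have hF2b : ∫ u, F2 u ^ 2 ∂gau (Fin d) ≤
      ((1 + S) * (4 * √T) * (δ ℓ * L.norm' δ) * √d * acc r θ Cb N (j + 1)) ^ 2 := by
    have e : ∀ u, F2 u ^ 2 = κ ^ 2 * ‖G1 u - tgt u‖ ^ 2 := fun u => by
      simp only [hF2, norm_smul, Real.norm_eq_abs, mul_pow, sq_abs]
    simp only [e]
    rw [integral_const_mul]
    refine (mul_le_mul_of_nonneg_left hcore (sq_nonneg κ)).trans ?_
    exact node_tail (M := M) (N := N) hnp (hδ ℓ) hr hθ (by linarith) hT hCb hS0 hτ (Real.sqrt_nonneg _)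
      hj rfl
  have hI2 : Integrable (fun u => F1 u ^ 2) (gau (Fin d)) := by
    have hgLi' : Integrable gL (gau (Fin d)) :=
      (integrable_gau_of_lip (gap_lip (c := c) (ρ := ρ) (δ := δ) (θ := θ) (M := M) hh (j + 1) L env)).norm
    have e : ∀ u, F1 u ^ 2 = (S * δ ℓ * gL u) ^ 2 +
        2 * (S * δ ℓ) * (S * δ ℓ * (E1 / s)) * gL u + (S * δ ℓ * (E1 / s)) ^ 2 := fun u => by
      simp only [hF1]; ring
    simp only [e]
    exact (hI1.add (hgLi'.const_mul _)).add (integrable_const _)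
  have hI3 : Integrable (fun u => F2 u ^ 2) (gau (Fin d)) := by
    refine integrable_sq_of_lip (f := fun u => κ • (G1 u - tgt u))
      (K := κ * (S * (δ ℓ * √τ) * ‖A‖ + √τ * (δ ℓ * ‖A‖))) fun u u' => ?_
    rw [← smul_sub, norm_smul, Real.norm_eq_abs, abs_of_pos hκ0, mul_assoc]
    refine mul_le_mul_of_nonneg_left ?_ hκ0.le
    rw [show G1 u - tgt u - (G1 u' - tgt u') = (G1 u - G1 u') - (tgt u - tgt u') by abel, add_mul]
    refine (norm_sub_le _ _).trans (add_le_add ?_ ?_)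
    · refine norm_integral_gau_sub_le (hi2 _) (hi2 _) fun e => (hflip _ _ _ _).trans ?_
      rw [sub_self, norm_zero, add_zero, mul_assoc _ ‖A‖, ← map_sub]
      exact mul_le_mul_of_nonneg_left (A.le_opNorm _) hSd
    · simp only [htgt, ← smul_sub, ← map_sub, norm_smul, Real.norm_eq_abs, abs_of_pos hsτ]
      rw [mul_assoc]
      refine mul_le_mul_of_nonneg_left ((ContinuousLinearMap.le_opNorm _ _).trans ?_) hsτ.le
      rw [mul_assoc]
      exact mul_le_mul ((hh ℓ).norm_fderiv_Psm_le τ _) (A.le_opNorm _) (norm_nonneg _) (hδ ℓ)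
  have h1m : AEStronglyMeasurable F1 (gau (Fin d)) :=
    (((integrable_gau_of_lip (gap_lip (c := c) (ρ := ρ) (δ := δ) (θ := θ) (M := M) hh (j + 1) L
      env)).norm.const_mul (S * δ ℓ)).add (integrable_const _)).1
  have h2m : AEStronglyMeasurable F2 (gau (Fin d)) := by
    have : ∀ u, F2 u = √(F2 u ^ 2) := fun u => (Real.sqrt_sq (norm_nonneg _)).symm
    rw [funext this]
    exact Real.continuous_sqrt.comp_aestronglyMeasurable hI3.1
  refine (integral_sq_le_of_norm_le (fun u => norm_nonneg _) (fun u => ?_) h1m h2m hI2 hI3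
    (add_nonneg (mul_nonneg hSd' ?_) (mul_nonneg hSd' ?_))
    (mul_nonneg (mul_nonneg (mul_nonneg (by positivity) (mul_nonneg (hδ ℓ) hnp.le))
      (Real.sqrt_nonneg _)) hacc) hF1b hF2b).trans_eq (by ring)
  · rw [hgap]
    exact (norm_add_le _ _).trans (add_le_add (hfirst u) le_rfl)
  · exact mul_nonneg (by positivity) hacc
  · exact mul_nonneg (by positivity) hacc

theorem err_add {C : ℝ} {L L' : LProg} (hr : 1 ≤ r) (hθ : 0 < θ) (hCb : 0 ≤ Cb) (hC : 0 ≤ C)
    (j : ℕ) (env : Env d)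
    (h1 : ∫ u, ‖gap c ρ δ0 θ M (j + 1) h L env u‖ ^ 2 ∂gau (Fin d) ≤
      (C * L.norm' δ0 * √d * acc r θ Cb N (j + 1)) ^ 2)
    (h2 : ∫ u, ‖gap c ρ δ0 θ M (j + 1) h L' env u‖ ^ 2 ∂gau (Fin d) ≤
      (C * L'.norm' δ0 * √d * acc r θ Cb N (j + 1)) ^ 2) :
    ∫ u, ‖gap c ρ δ0 θ M (j + 1) h (.add L L') env u‖ ^ 2 ∂gau (Fin d) ≤
      (C * (LProg.add L L').norm' δ0 * √d * acc r θ Cb N (j + 1)) ^ 2 := by
  have hδ := Prog.delta_nonneg_of_fld hh
  have hacc := acc_nonneg (N := N) hr hθ hCb (j + 1)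
  have hn1 := LProg.norm'_nonneg hδ L
  have hn2 := LProg.norm'_nonneg hδ L'
  set f := fun u => ‖gap c ρ δ0 θ M (j + 1) h L env u‖
  set g := fun u => ‖gap c ρ δ0 θ M (j + 1) h L' env u‖
  have hf : Integrable (fun u => f u ^ 2) (gau (Fin d)) := integrable_sq_gap hh _ L env
  have hg : Integrable (fun u => g u ^ 2) (gau (Fin d)) := integrable_sq_gap hh _ L' env
  refine le_trans (integral_mono_of_nonneg (ae_of_all _ fun u => sq_nonneg _) ?_
    (ae_of_all _ fun u => pow_le_pow_left₀ (norm_nonneg _) (?_ : _ ≤ f u + g u) 2))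
    ((integral_sq_add_le hf hg (by positivity) (by positivity) h1 h2).trans_eq
      (by simp only [LProg.norm']; ring))
  · refine ((hf.const_mul 2).add (hg.const_mul 2)).mono' ?_ (ae_of_all _ fun u => ?_)
    · exact ((((integrable_gau_of_lip (gap_lip (c := c) (ρ := ρ) (δ := δ0) (θ := θ) (M := M) hh _ L
        env)).norm).add (integrable_gau_of_lip (gap_lip (c := c) (ρ := ρ) (δ := δ0) (θ := θ) (M := M)
        hh _ L' env)).norm).1).pow 2
    · rw [Real.norm_eq_abs, abs_of_nonneg (sq_nonneg _)]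
      simp only [Pi.add_apply]
      nlinarith [sq_nonneg (f u - g u)]
  · refine le_trans (le_of_eq (congrArg norm ?_)) (norm_add_le _ _)
    simp only [gap, conv, step, LProg.idc, LProg.app, Prog.sem, add_smul]
    abel

theorem err_smul {X : ℝ} {L : LProg} (a : ℝ) (j : ℕ) (env : Env d)
    (h1 : ∫ u, ‖gap c ρ δ0 θ M (j + 1) h L env u‖ ^ 2 ∂gau (Fin d) ≤
      (X * L.norm' δ0 * √d * acc r θ Cb N (j + 1)) ^ 2) :
    ∫ u, ‖gap c ρ δ0 θ M (j + 1) h (.smul a L) env u‖ ^ 2 ∂gau (Fin d) ≤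
      (X * (LProg.smul a L).norm' δ0 * √d * acc r θ Cb N (j + 1)) ^ 2 := by
  have e : ∀ u, ‖gap c ρ δ0 θ M (j + 1) h (.smul a L) env u‖ ^ 2 =
      a ^ 2 * ‖gap c ρ δ0 θ M (j + 1) h L env u‖ ^ 2 := fun u => by
    rw [show gap c ρ δ0 θ M (j + 1) h (.smul a L) env u =
        a • gap c ρ δ0 θ M (j + 1) h L env u by
      simp only [gap, conv, step, LProg.idc, LProg.app, Prog.sem, smul_sub, smul_add, smul_smul],
      norm_smul, mul_pow, Real.norm_eq_abs, sq_abs]
  simp only [e]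
  rw [integral_const_mul]
  refine (mul_le_mul_of_nonneg_left h1 (sq_nonneg a)).trans_eq ?_
  simp only [LProg.norm', ← sq_abs a]
  ring

omit hh in
/-- A field with a smaller Lipschitz constant is a field. -/
theorem fld_mono {f : E d → E d} {δ1 δ2 : ℝ} (hf : Fld d δ1 r Gb Cb N f) (hle : δ1 ≤ δ2)
    (hr : 0 ≤ r) (hCb : 0 ≤ Cb) : Fld d δ2 r Gb Cb N f := by
  have h1 := hf.delta_nonneg
  have hb : δ1 * r * √d * Cb / r ^ N ≤ δ2 * r * √d * Cb / r ^ N := by gcongr
  have hb0 : 0 ≤ δ1 * r * √d * Cb / r ^ N := by positivity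
  exact ⟨hf.smooth, fun x => (hf.lip x).trans hle, hf.bdd, hf.symm,
    fun m c ρ hρ hc q τ hτ => (hf.tail m c ρ hρ hc q τ hτ).trans
      (pow_le_pow_left₀ (mul_nonneg (Finset.sum_nonneg fun k _ => abs_nonneg _) hb0)
        (mul_le_mul_of_nonneg_left hb (Finset.sum_nonneg fun k _ => abs_nonneg _)) 2),
    fun m c ρ hρ hc q τ hτ => (hf.tail_one m c ρ hρ hc q τ hτ).trans
      (pow_le_pow_left₀ (mul_nonneg (add_nonneg zero_le_one
        (Finset.sum_nonneg fun k _ => abs_nonneg _)) hb0)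
        (mul_le_mul_of_nonneg_left hb (add_nonneg zero_le_one
          (Finset.sum_nonneg fun k _ => abs_nonneg _))) 2)⟩

variable (c ρ) in
omit hh in
/-- The error of the conversion with fuel `j`, uniformly up to a depth. -/
theorem err_exists (hρ : ∀ k, |ρ k| ≤ 1 / 2) (N : ℕ)
    (hc : ∀ n, n < N → ∑ k, c k * ρ k ^ n = if n = 1 then 1 else 0) {T : ℝ} (hT : 1 ≤ T)
    (M j : ℕ) : j ≤ 2 * M + 1 → ∀ A : ℕ, ∃ C : ℝ, 0 ≤ C ∧
      ∀ (d : ℕ) (δ : ℕ → ℝ) (r Gb Cb B θ : ℝ) (h : ℕ → E d → E d),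
        (∀ ℓ, Fld d (δ ℓ) r Gb Cb N (h ℓ)) → 1 ≤ r → 1 ≤ B → 0 ≤ Cb → 0 < θ → θ ≤ 1 / 4 →
        ∀ W : LProg, W.WF δ r B T → W.depth ≤ A → ∀ env : Env d,
          ∫ u, ‖gap c ρ δ θ M j h W env u‖ ^ 2 ∂gau (Fin d) ≤
            (C * W.norm' δ * √d * acc r θ Cb N j) ^ 2 := by
  induction j with
  | zero =>
    intro _ A
    exact ⟨2, zero_le_two, fun d δ r Gb Cb B θ h hh hr _ hCb hθ _ W _ _ env =>
      err_zero hh le_rfl hr hθ hCb W env⟩
  | succ j ihj =>
    intro hj A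
    induction A with
    | zero =>
      refine ⟨0, le_rfl, fun d δ r Gb Cb B θ h hh hr hB hCb hθ hθ1 W => ?_⟩
      induction W with
      | id => intros; simp [gap, conv, step, LProg.idc, LProg.app, Prog.sem]
      | zero => intros; simp [gap, conv, step, LProg.idc, LProg.app, Prog.sem]
      | add L L' hL hL' =>
        intro hW hd env
        have h1 := hL hW.1 ((le_max_left _ _).trans hd) env
        have h2 := hL' hW.2 ((le_max_right _ _).trans hd) env
        exact err_add hh hr hθ hCb le_rfl j env h1 h2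
      | smul a L hL =>
        intro hW hd env
        exact err_smul hh a j env (hL hW hd env)
      | hess ℓ τ q L hL => intro _ hd; simp [LProg.depth] at hd
      | bind p Δ L hL => intro _ hd; simp [LProg.depth] at hd
    | succ A ihA =>
      obtain ⟨CL, hCL, hLs⟩ := ihA
      obtain ⟨CU, hCU, hUs⟩ := ihj (by omega) (2 ^ M * (A * (A + 2)))
      set Cn := (∑ k, |c k|) * (CL + CU) + (1 + ∑ k, |c k|) * (4 * √T)
      refine ⟨max Cn CL, le_max_of_le_right hCL, fun d δ r Gb Cb B θ h hh hr hB hCb hθ hθ1 W => ?_⟩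
      have hδ : 0 ≤ δ := Prog.delta_nonneg_of_fld hh
      have hC0 : 0 ≤ max Cn CL := le_max_of_le_right hCL
      have hacc := fun k => acc_nonneg (N := N) hr hθ hCb k
      induction W with
      | id => intro _ _ env; simp [gap, conv, step, LProg.idc, LProg.app, Prog.sem]; positivity
      | zero => intros; simp [gap, conv, step, LProg.idc, LProg.app, Prog.sem]; positivity
      | add L L' hL hL' =>
        intro hW hd env
        exact err_add hh hr hθ hCb hC0 j env (hL hW.1 ((le_max_left _ _).trans hd) env)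
          (hL' hW.2 ((le_max_right _ _).trans hd) env)
      | smul a L hL => intro hW hd env; exact err_smul hh a j env (hL hW hd env)
      | hess ℓ τ q L hL =>
        intro hW hd env
        have hd' : max q.depth L.depth ≤ A := Nat.le_of_succ_le_succ hd
        by_cases hn : L.norm' δ = 0
        · have e : ∀ u, gap c ρ δ θ M (j + 1) h (.hess ℓ τ q L) env u = 0 := fun u => by
            have h1 := (LProg.hess ℓ τ q L).norm_app_le hh hδ env u
            simp only [LProg.norm', hn, mul_zero, zero_mul] at h1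
            simp [gap, conv, step, hn, LProg.idc, Prog.sem, norm_le_zero_iff.1 h1]
          simp only [e, norm_zero, ne_eq, OfNat.ofNat_ne_zero, not_false_eq_true, zero_pow,
            integral_zero]
          positivity
        · have hdU : (L.sqrtWord (scale δ θ L) M).depth ≤ 2 ^ M * (A * (A + 2)) :=
            (LProg.depth_sqrtWord _ L M).trans (Nat.mul_le_mul_left _
              (Nat.mul_le_mul (by omega) (by omega)))
          have hLe := hLs d δ r Gb Cb B θ h hh hr hB hCb hθ hθ1 L hW.2.2.2.2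
            ((le_max_right _ _).trans hd') env
          have hUe := hUs d δ r Gb Cb B θ h hh hr hB hCb hθ hθ1 _
            (LProg.wf_sqrtWord (by linarith) _ L hW.2.2.2.2 M) hdU env
          have hUn : (L.sqrtWord (scale δ θ L) M).norm' δ ≤ θ ^ 2 := by
            refine L.norm'_sqrtWord hθ.le (by linarith) hδ (le_of_eq ?_) M
            rw [scale, abs_of_nonneg (div_nonneg hθ.le (L.norm'_nonneg hδ)), div_mul_cancel₀ _ hn]
          have hUe' := hUe.trans (pow_le_pow_left₀ (mul_nonneg (mul_nonneg (mul_nonneg hCU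
              (LProg.norm'_nonneg hδ _)) (Real.sqrt_nonneg _)) (hacc j))
            (mul_le_mul_of_nonneg_right (mul_le_mul_of_nonneg_right
              (mul_le_mul_of_nonneg_left hUn hCU) (Real.sqrt_nonneg _)) (hacc j)) 2)
          refine (err_node hh hr hθ hθ1 hT hCb hρ hc (by omega) hCL hCU hW.1 hW.2.1 hn env hLe
            hUe').trans ?_
          have hCn : 0 ≤ Cn := by
            have : 0 ≤ ∑ k, |c k| := Finset.sum_nonneg fun k _ => abs_nonneg _
            positivity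
          have hN : 0 ≤ δ ℓ * L.norm' δ := mul_nonneg (hδ ℓ) (L.norm'_nonneg hδ)
          exact pow_le_pow_left₀
            (mul_nonneg (mul_nonneg (mul_nonneg hCn hN) (Real.sqrt_nonneg _)) (hacc _))
            (mul_le_mul_of_nonneg_right (mul_le_mul_of_nonneg_right
              (mul_le_mul_of_nonneg_right (le_max_left _ _) hN) (Real.sqrt_nonneg _)) (hacc _)) 2
      | bind p Δ L hL =>
        intro hW hd env
        refine err_bind hh j env fun env' => hL hW.2.2.1 ?_ env'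
        exact ((le_max_right _ _).trans (Nat.le_of_succ_le_succ hd)).trans (Nat.le_succ A)

end Conv

/-- M5: the conversion of small programs of linear maps. -/
theorem exists_conv (N : ℕ) (_hN : 1 ≤ N) : ∃ conv : (ℕ → ℝ) → ℝ → LProg → Prog,
    ∀ (A : ℕ) (T : ℝ), 1 ≤ T → ∃ (K : ℕ) (C : ℝ), 1 ≤ C ∧
      ∀ (d : ℕ) (δ0 δ : ℕ → ℝ) (r Gb Cb B θ : ℝ),
        0 ≤ δ0 → δ0 ≤ δ → δ ≤ 1 → 1 ≤ r → 1 ≤ B → 0 ≤ Cb → 0 < θ → θ ≤ 1 / 4 →
        ∀ W : LProg, W.Small → W.WF δ r B T → W.depth ≤ A →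
          (conv δ θ W).Small ∧ (∀ l₀, W.LevelGe l₀ → (conv δ θ W).LevelGe l₀) ∧
          (conv δ θ W).WF δ r (C * (B ^ 2 + r)) (2 * T ^ 2 * C) ∧
          (conv δ θ W).depth ≤ K ∧ (conv δ θ W).nodes ≤ K * W.nodes ^ K ∧
          (conv δ θ W).size δ r ≤ C * ((B ^ 2 + r) / θ) * W.norm' δ ∧
          (∀ (v : ℕ → ℝ) (a B' : ℝ), (∀ i, 0 ≤ v i) → 0 ≤ a → 0 ≤ B' → W.SensLe δ B' v →
            (conv δ θ W).SensLe δ (C * (a + B')) (pushR a v) ∧
              (conv δ θ W).lip δ (pushR a v) ≤ C * (a + B' / θ) * W.norm' δ) ∧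
          (∀ (v : ℕ → ℝ) (B' : ℝ), (∀ i, 0 ≤ v i) → 0 ≤ B' → W.SensLe δ B' v →
            W.NoiseLe δ B' v → (conv δ θ W).NoiseLe δ (C * B') (pushR 0 v)) ∧
          ∀ h : ℕ → E d → E d, (∀ ℓ, Fld d (δ0 ℓ) r Gb Cb N (h ℓ)) → ∀ env : Env d,
            ∫ u, ‖(conv δ θ W).sem h (push u env) - W.app h env u‖ ^ 2 ∂gau (Fin d)
              ≤ (C * (1 + Cb) * W.norm' δ * √d * (r / (θ * r ^ N) + θ ^ N)) ^ 2 := by
  obtain ⟨m, c, ρ, hρ, hc⟩ := exists_coef N 1 le_rfl
  refine ⟨fun δ θ W => Conv.conv c ρ δ θ N N W, fun A T hT => ?_⟩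
  obtain ⟨K, C1, -, hC1, hS⟩ := Conv.syn_exists c ρ hρ N hT N A
  obtain ⟨C2, hC2, hE⟩ := Conv.err_exists c ρ hρ N hc hT N N (by omega) A
  refine ⟨K, max C1 C2, le_max_of_le_left hC1,
    fun d δ0 δ r Gb Cb B θ hδ0 hδle _ hr hB hCb hθ hθ1 W hsm hW hd => ?_⟩
  have hδ : 0 ≤ δ := hδ0.trans hδle
  have hs := (hS δ θ r B hδ hr hB hθ hθ1 W hW hd).mono hδ hr hθ hT le_rfl (le_max_left C1 C2)
  have hr0 : 0 ≤ r := by linarith
  refine ⟨hs.small, hs.level, hs.wf.mono hδ le_rfl hr0 le_rfl le_rfl (by linarith) ?_, hs.depth,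
    hs.nodes, hs.size, hs.sens, hs.noise, fun h hh env => ?_⟩
  · have h1 : 1 ≤ max C1 C2 := le_max_of_le_left hC1
    nlinarith [mul_le_mul_of_nonneg_left h1 (by positivity : (0:ℝ) ≤ T ^ 2),
      mul_le_mul_of_nonneg_left hT (by linarith : (0:ℝ) ≤ T)]
  have hh' : ∀ ℓ, Fld d (δ ℓ) r Gb Cb N (h ℓ) := fun ℓ => Conv.fld_mono (hh ℓ) (hδle ℓ) hr0 hCb
  have h1 := hE d δ r Gb Cb B θ h hh' hr hB hCb hθ hθ1 W hW hd env
  simp only [Conv.gap, LProg.idc_eq_zero W hsm, zero_smul, zero_add] at h1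
  have hn := LProg.norm'_nonneg hδ W
  refine h1.trans (pow_le_pow_left₀ (mul_nonneg (by positivity) (Conv.acc_nonneg hr hθ hCb N)) ?_ 2)
  unfold Conv.acc
  calc C2 * W.norm' δ * √d * ((1 + Cb) * (r / (θ * r ^ N) + θ ^ N))
      = C2 * ((1 + Cb) * W.norm' δ * √d * (r / (θ * r ^ N) + θ ^ N)) := by ring
    _ ≤ max C1 C2 * ((1 + Cb) * W.norm' δ * √d * (r / (θ * r ^ N) + θ ^ N)) :=
        mul_le_mul_of_nonneg_right (le_max_right _ _) (by positivity)
    _ = _ := by ring

end Vale.Agent.P347
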