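import Vale.Agent.P347Zero.PhiSyn

/-!
P347, v5: admissible noise of the inputs of programs (`NoiseLe`): linearity, renaming,
substitution, and the derivative words of a program.
-/

open Real Finset

namespace Vale.Agent.P347

variable {δ : ℕ → ℝ} {B B' : ℝ}

theorem pushR_zero_comp_ren (v : ℕ → ℝ) (f : ℕ → Prog) :
    (fun i => (Nat.casesOn i (.inp 0) fun j => (f j).ren Nat.succ : Prog).lip δ (pushR 0 v))
      = pushR 0 fun j => (f j).lip δ v := Prog.up_lip δ f 0 v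

namespace Prog

theorem NoiseLe.add {p : Prog} : ∀ {v w : ℕ → ℝ}, p.NoiseLe δ B v → p.NoiseLe δ B' w →
    p.NoiseLe δ (B + B') (v + w) := by
  induction p with
  | inp i => intros; trivial
  | zero => intros; trivial
  | add p q hp hq => intro v w h h'; exact ⟨hp h.1 h'.1, hq h.2 h'.2⟩
  | smul c p hp => intro v w h h'; exact hp (v := v) (w := w) h h'
  | call ℓ τ p hp =>
    intro v w h h'
    exact ⟨by rw [lip_add_v]; exact add_le_add h.1 h'.1, hp h.2 h'.2⟩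
  | bind p Δ b hp hb =>
    intro v w h h'
    refine ⟨by rw [lip_add_v, add_mul]; exact add_le_add h.1 h'.1, hp h.2.1 h'.2.1, ?_⟩
    have := hb h.2.2 h'.2.2
    rwa [← pushR_add, add_zero] at this

theorem NoiseLe.smul {c : ℝ} (hc : 0 ≤ c) {p : Prog} :
    ∀ {v : ℕ → ℝ}, p.NoiseLe δ B v → p.NoiseLe δ (c * B) (c • v) := by
  induction p with
  | inp i => intros; trivial
  | zero => intros; trivial
  | add p q hp hq => intro v h; exact ⟨hp h.1, hq h.2⟩
  | smul a p hp => intro v h; exact hp (v := v) h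
  | call ℓ τ p hp =>
    intro v h
    exact ⟨by rw [lip_smul_v]; exact mul_le_mul_of_nonneg_left h.1 hc, hp h.2⟩
  | bind p Δ b hp hb =>
    intro v h
    refine ⟨by rw [lip_smul_v, mul_assoc]; exact mul_le_mul_of_nonneg_left h.1 hc, hp h.2.1, ?_⟩
    have := hb h.2.2
    rwa [← pushR_smul, mul_zero] at this

theorem noiseLe_ren (δ : ℕ → ℝ) (B : ℝ) (p : Prog) :
    ∀ (f : ℕ → ℕ) (v : ℕ → ℝ), (p.ren f).NoiseLe δ B v ↔ p.NoiseLe δ B (v ∘ f) := by
  induction p with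
  | inp i => intros; rfl
  | zero => intros; rfl
  | add p q hp hq => intro f v; simp only [Prog.ren, Prog.NoiseLe, hp, hq]
  | smul c p hp => intro f v; simp only [Prog.ren, Prog.NoiseLe, hp]
  | call ℓ τ p hp => intro f v; simp only [Prog.ren, Prog.NoiseLe, hp, lip_ren]
  | bind p Δ b hp hb =>
    intro f v
    simp only [Prog.ren, Prog.NoiseLe, hp, hb, lip_ren, pushR_comp_up]

theorem noiseLe_lift (p : Prog) (c : ℕ) (δ : ℕ → ℝ) (B : ℝ) (v : ℕ → ℝ) :
    (p.lift c).NoiseLe δ B v ↔ p.NoiseLe δ B (v ∘ shiftUp c) := by rw [lift_eq_ren, noiseLe_ren]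

theorem NoiseLe.subst {p : Prog} : ∀ {f : ℕ → Prog} {v : ℕ → ℝ},
    p.NoiseLe δ B (fun i => (f i).lip δ v) → (∀ i, (f i).NoiseLe δ B v) →
      (p.subst f).NoiseLe δ B v := by
  induction p with
  | inp i => intro f v _ hf; exact hf i
  | zero => intros; trivial
  | add p q hp hq => intro f v h hf; exact ⟨hp h.1 hf, hq h.2 hf⟩
  | smul c p hp => intro f v h hf; exact hp h hf
  | call ℓ τ p hp => intro f v h hf; exact ⟨by rw [lip_subst]; exact h.1, hp h.2 hf⟩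
  | bind p Δ b hp hb =>
    intro f v h hf
    refine ⟨by rw [lip_subst]; exact h.1, hp h.2.1 hf, hb ?_ fun i => ?_⟩
    · rw [pushR_zero_comp_ren]; exact h.2.2
    · cases i with
      | zero => trivial
      | succ j => exact (noiseLe_ren δ B _ _ _).2 (hf j)

theorem noiseLe_sumFin {v : ℕ → ℝ} : ∀ {n : ℕ} {f : Fin n → Prog}, (∀ k, (f k).NoiseLe δ B v) →
    (Prog.sumFin f).NoiseLe δ B v
  | 0, _, _ => trivial
  | _ + 1, _, h => ⟨h 0, noiseLe_sumFin fun k => h k.succ⟩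

end Prog

/-! ### Programs of linear maps -/

namespace LProg

/-- The same for programs of linear maps. -/
def NoiseLe (δ : ℕ → ℝ) (B : ℝ) : LProg → (ℕ → ℝ) → Prop
  | .id, _ => True
  | .zero, _ => True
  | .add L M, v => L.NoiseLe δ B v ∧ M.NoiseLe δ B v
  | .smul _ L, v => L.NoiseLe δ B v
  | .hess _ _ q L, v => q.lip δ v ≤ B ∧ q.NoiseLe δ B v ∧ L.NoiseLe δ B v
  | .bind p Δ L, v => p.lip δ v ≤ B * √Δ ∧ p.NoiseLe δ B v ∧ L.NoiseLe δ B (pushR 0 v)

theorem noiseLe_lift (δ : ℕ → ℝ) (B : ℝ) (L : LProg) : ∀ (c : ℕ) (v : ℕ → ℝ),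
    (L.lift c).NoiseLe δ B v ↔ L.NoiseLe δ B (v ∘ shiftUp c) := by
  induction L with
  | id => intros; rfl
  | zero => intros; rfl
  | add L M hL hM => intro c v; simp only [LProg.lift, LProg.NoiseLe, hL, hM]
  | smul a L hL => intro c v; simp only [LProg.lift, LProg.NoiseLe, hL]
  | hess ℓ τ q L hL =>
    intro c v
    simp only [LProg.lift, LProg.NoiseLe, hL, Prog.lip_lift, Prog.noiseLe_lift]
  | bind p Δ L hL =>
    intro c v
    simp only [LProg.lift, LProg.NoiseLe, hL, Prog.lip_lift, Prog.noiseLe_lift,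
      pushR_comp_shiftUp]

theorem noiseLe_lift_push (L : LProg) (v : ℕ → ℝ) (a : ℝ) :
    (L.lift 0).NoiseLe δ B (pushR a v) ↔ L.NoiseLe δ B v := by
  rw [noiseLe_lift, pushR_comp_shiftUp_zero]

theorem noiseLe_sumFin {v : ℕ → ℝ} : ∀ {n : ℕ} {f : Fin n → LProg}, (∀ k, (f k).NoiseLe δ B v) →
    (LProg.sumFin f).NoiseLe δ B v
  | 0, _, _ => trivial
  | _ + 1, _, h => ⟨h 0, noiseLe_sumFin fun k => h k.succ⟩

end LProg

namespace Prog

theorem noiseLe_fwd (p : Prog) : ∀ (i : ℕ) (L : LProg) (v : ℕ → ℝ),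
    p.NoiseLe δ B v → L.NoiseLe δ B v → (p.fwd i L).NoiseLe δ B v := by
  induction p with
  | inp j => intro i L v _ hL; by_cases hij : i = j <;> simp [Prog.fwd, hij, hL, LProg.NoiseLe]
  | zero => intros; trivial
  | add p q hp hq => intro i L v hs hL; exact ⟨hp i L v hs.1 hL, hq i L v hs.2 hL⟩
  | smul c p hp => intro i L v hs hL; exact hp i L v hs hL
  | call ℓ τ p hp => intro i L v hs hL; exact ⟨hs.1, hs.2, hp i L v hs.2 hL⟩
  | bind p Δ b hp hb =>
    intro i L v hs hL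
    exact ⟨⟨hs.1, hs.2.1, hb _ _ _ hs.2.2 ((L.noiseLe_lift_push v 0).2 hL)⟩,
      hs.1, hs.2.1, hb _ _ _ hs.2.2 (((p.fwd i L).noiseLe_lift_push v 0).2 (hp i L v hs.2.1 hL))⟩

theorem noiseLe_adj (p : Prog) : ∀ (i : ℕ) (L : LProg) (v : ℕ → ℝ),
    p.NoiseLe δ B v → L.NoiseLe δ B v → (p.adj i L).NoiseLe δ B v := by
  induction p with
  | inp j => intro i L v _ hL; by_cases hij : i = j <;> simp [Prog.adj, hij, hL, LProg.NoiseLe]
  | zero => intros; trivial
  | add p q hp hq => intro i L v hs hL; exact ⟨hp i L v hs.1 hL, hq i L v hs.2 hL⟩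
  | smul c p hp => intro i L v hs hL; exact hp i L v hs hL
  | call ℓ τ p hp => intro i L v hs hL; exact hp i _ v hs.2 ⟨hs.1, hs.2, hL⟩
  | bind p Δ b hp hb =>
    intro i L v hs hL
    exact ⟨⟨hs.1, hs.2.1, hb _ _ _ hs.2.2 ((L.noiseLe_lift_push v 0).2 hL)⟩,
      hp i _ v hs.2.1 ⟨hs.1, hs.2.1, hb _ _ _ hs.2.2 ((L.noiseLe_lift_push v 0).2 hL)⟩⟩

end Prog

end Vale.Agent.P347
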