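import Vale.Agent.P347Zero.PhiBounds
import Vale.Agent.P347Zero.Noise

/-!
P347, v5: syntactic bounds of the Picard programs of the map of a tilt.
-/

open Real Finset

namespace Vale.Agent.P347

/-- The part of a conversion that concerns admissible noise. -/
def ConvNoise (e : ℕ) (δ : ℕ → ℝ) (r : ℝ) (Cc : ℕ → ℝ → ℝ) (conv : LProg → Prog) : Prop :=
  ∀ (A : ℕ) (T B : ℝ) (W : LProg), 1 ≤ T → 1 ≤ B → r ≤ B → W.Small → W.WF δ r B T →
    W.depth ≤ A → ∀ (v : ℕ → ℝ) (B' : ℝ), (∀ i, 0 ≤ v i) → 0 ≤ B' → W.SensLe δ B' v →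
      W.NoiseLe δ B' v → (conv W).NoiseLe δ (Cc A T * B ^ e * B') (pushR 0 v)

/-- The magnitude of a score program. -/
noncomputable def tiltV (P : Prog) (δ : ℕ → ℝ) (r : ℝ) : ℝ :=
  P.lip δ (pushR 1 0) + P.size δ r

/-- The standing hypotheses on a score program. -/
structure TiltOk (P : Prog) (δ : ℕ → ℝ) (r B T : ℝ) : Prop where
  delta : 0 ≤ δ
  r_one : 1 ≤ r
  B_one : 1 ≤ B
  r_le : r ≤ B
  T_one : 1 ≤ T
  small : P.Small
  wf : P.WF δ r B T
  sens : P.SensLe δ B (pushR 1 0)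
  noise : P.NoiseLe δ B (pushR 1 0)

theorem unit_nonneg : ∀ i, 0 ≤ pushR (1 : ℝ) (0 : ℕ → ℝ) i :=
  pushR_nonneg zero_le_one fun _ => le_rfl

theorem TiltOk.tiltV_nonneg {P : Prog} {δ : ℕ → ℝ} {r B T : ℝ} (h : TiltOk P δ r B T) :
    0 ≤ tiltV P δ r :=
  add_nonneg (P.lip_nonneg h.delta unit_nonneg) (P.size_nonneg h.delta (zero_le_one.trans h.r_one))

theorem pushR_eq_smul_add (a : ℝ) (v : ℕ → ℝ) : pushR a v = a • pushR 1 0 + pushR 0 v := by
  rw [smul_pushR_zero, mul_one, ← pushR_add, add_zero, zero_add]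

/-- The invariant of the iterates of the map of a tilt. -/
structure BdT (P : Prog) (δ : ℕ → ℝ) (r X T : ℝ) (S k : ℕ) (Φ : Prog) : Prop where
  small : Φ.Small
  wf : Φ.WF δ r X T
  sens : Φ.SensLe δ X (pushR 1 0)
  size_le : Φ.size δ r ≤ X * tiltV P δ r
  depth_le : Φ.depth ≤ k
  nodes_le : Φ.nodes ≤ S ^ k
  level : ∀ l, P.LevelGe l → Φ.LevelGe l
  sens_v : ∀ (v : ℕ → ℝ) (B' : ℝ), (∀ i, 0 ≤ v i) → 0 ≤ B' → P.SensLe δ B' (pushR 0 v) →
    Φ.SensLe δ (X * B') (pushR 0 v)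
  noise_v : ∀ (v : ℕ → ℝ) (B' : ℝ), (∀ i, 0 ≤ v i) → 0 ≤ B' → P.SensLe δ B' (pushR 0 v) →
    P.NoiseLe δ B' (pushR 0 v) → Φ.NoiseLe δ (X * B') (pushR 0 v)

section

variable {P Φ : Prog} {δ : ℕ → ℝ} {r B T X T₀ : ℝ} {S k : ℕ}

theorem BdT.mono (h : TiltOk P δ r B T) {X' T₀' : ℝ} {k' : ℕ} (hX : 0 < X) (hXX : X ≤ X')
    (hT0 : 0 < T₀) (hTT : T₀ ≤ T₀') (hS : 1 ≤ S) (hk : k ≤ k') (hΦ : BdT P δ r X T₀ S k Φ) :
    BdT P δ r X' T₀' S k' Φ where
  small := hΦ.small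
  wf := hΦ.wf.mono h.delta le_rfl (zero_le_one.trans h.r_one) le_rfl hXX hT0 hTT
  sens := hΦ.sens.mono h.delta le_rfl hXX unit_nonneg fun _ => le_rfl
  size_le := hΦ.size_le.trans (mul_le_mul_of_nonneg_right hXX h.tiltV_nonneg)
  depth_le := hΦ.depth_le.trans hk
  nodes_le := hΦ.nodes_le.trans (Nat.pow_le_pow_right hS hk)
  level := hΦ.level
  sens_v v B' hv hB hs := (hΦ.sens_v v B' hv hB hs).mono h.delta le_rfl
    (mul_le_mul_of_nonneg_right hXX hB) (pushR_nonneg le_rfl hv) fun _ => le_rfl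
  noise_v v B' hv hB hs hn := (hΦ.noise_v v B' hv hB hs hn).mono h.delta le_rfl
    (mul_le_mul_of_nonneg_right hXX hB) (pushR_nonneg le_rfl hv) fun _ => le_rfl

theorem BdT.lip_le (h : TiltOk P δ r B T) (hB : B ≤ X) (hΦ : BdT P δ r X T₀ S k Φ) :
    Φ.lip δ (pushR 1 0) ≤ X ^ 2 * tiltV P δ r := by
  have hX : 0 ≤ X := (zero_le_one.trans h.B_one).trans hB
  refine (Prog.lip_le_of_sensLe h.delta h.r_one hX hΦ.small hΦ.sens).trans
    ((mul_le_mul_of_nonneg_left hΦ.size_le hX).trans_eq ?_)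
  ring

theorem BdT.lip_v_le (h : TiltOk P δ r B T) (hB : B ≤ X) (hΦ : BdT P δ r X T₀ S k Φ)
    {v : ℕ → ℝ} {B' : ℝ} (hv : ∀ i, 0 ≤ v i) (hB' : 0 ≤ B') (hs : P.SensLe δ B' (pushR 0 v)) :
    Φ.lip δ (pushR 0 v) ≤ X ^ 2 * (B' * tiltV P δ r) := by
  have hX : 0 ≤ X := (zero_le_one.trans h.B_one).trans hB
  refine (Prog.lip_le_of_sensLe h.delta h.r_one (mul_nonneg hX hB') hΦ.small
    (hΦ.sens_v v B' hv hB' hs)).trans
    ((mul_le_mul_of_nonneg_left hΦ.size_le (mul_nonneg hX hB')).trans_eq ?_)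
  ring

/-! ### The words -/

/-- `(-DΦᵀ) ^ i`. -/
noncomputable def crossTT (Φ : Prog) (i : ℕ) : LProg :=
  (fun L => Φ.adj 0 (.smul (-1) L))^[i] .id

theorem crossTT_succ (Φ : Prog) (i : ℕ) :
    crossTT Φ (i + 1) = Φ.adj 0 (.smul (-1) (crossTT Φ i)) :=
  Function.iterate_succ_apply' _ _ _

theorem sumTT_eq (Φ : Prog) (q : ℕ) :
    sumTT Φ q = LProg.sumFin fun i : Fin q => Φ.fwd 0 (Φ.adj 0 (crossTT Φ i)) := rfl

theorem sumTT_small (hs : Φ.Small) (q : ℕ) : (sumTT Φ q).Small := by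
  rw [sumTT_eq]
  exact LProg.small_sumFin fun i => Φ.small_fwd _ _ (Or.inl hs)

theorem sumTT_wf (hX : 0 ≤ X) (hw : Φ.WF δ r X T₀) (q : ℕ) : (sumTT Φ q).WF δ r X T₀ := by
  have hc : ∀ i, (crossTT Φ i).WF δ r X T₀ := fun i => by
    induction i with
    | zero => trivial
    | succ i ih => rw [crossTT_succ]; exact Prog.wf_adj hX Φ _ _ hw ih
  rw [sumTT_eq]
  exact LProg.wf_sumFin fun i => Prog.wf_fwd hX Φ _ _ hw (Prog.wf_adj hX Φ _ _ hw (hc i))

theorem sumTT_sensLe {v : ℕ → ℝ} (hs : Φ.SensLe δ X v) (q : ℕ) : (sumTT Φ q).SensLe δ X v := by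
  have hc : ∀ i, (crossTT Φ i).SensLe δ X v := fun i => by
    induction i with
    | zero => trivial
    | succ i ih => rw [crossTT_succ]; exact Φ.sensLe_adj _ _ _ hs ih
  rw [sumTT_eq]
  exact LProg.sensLe_sumFin fun i => Φ.sensLe_fwd _ _ _ hs (Φ.sensLe_adj _ _ _ hs (hc i))

theorem sumTT_noiseLe {v : ℕ → ℝ} (hs : Φ.NoiseLe δ X v) (q : ℕ) :
    (sumTT Φ q).NoiseLe δ X v := by
  have hc : ∀ i, (crossTT Φ i).NoiseLe δ X v := fun i => by
    induction i with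
    | zero => trivial
    | succ i ih => rw [crossTT_succ]; exact Φ.noiseLe_adj _ _ _ hs ih
  rw [sumTT_eq]
  exact LProg.noiseLe_sumFin fun i => Φ.noiseLe_fwd _ _ _ hs (Φ.noiseLe_adj _ _ _ hs (hc i))

theorem sumTT_levelGe {l : ℕ} (hs : Φ.LevelGe l) (q : ℕ) : (sumTT Φ q).LevelGe l := by
  have hc : ∀ i, (crossTT Φ i).LevelGe l := fun i => by
    induction i with
    | zero => trivial
    | succ i ih => rw [crossTT_succ]; exact Φ.levelGe_adj _ _ hs ih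
  rw [sumTT_eq]
  exact LProg.levelGe_sumFin fun i => Φ.levelGe_fwd _ _ hs (Φ.levelGe_adj _ _ hs (hc i))

theorem sumTT_norm (hδ : 0 ≤ δ) {L : ℝ} (hL : Φ.lip δ (pushR 1 0) ≤ L) (hL1 : L ≤ 1) (q : ℕ) :
    (sumTT Φ q).norm' δ ≤ q * L ^ 2 := by
  have h0 : 0 ≤ Φ.lip δ (unitV 0) := by
    rw [unitV_zero]; exact Φ.lip_nonneg hδ unit_nonneg
  have h1 : Φ.lip δ (unitV 0) ≤ L := by rw [unitV_zero]; exact hL
  have hL0 := h0.trans h1
  have hc : ∀ i, (crossTT Φ i).norm' δ ≤ 1 := fun i => by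
    induction i with
    | zero => exact le_rfl
    | succ i ih =>
      rw [crossTT_succ]
      refine (Φ.norm'_adj_le hδ _ _).trans ?_
      simp only [LProg.norm', abs_neg, abs_one, one_mul]
      exact mul_le_one₀ (h1.trans hL1) (LProg.norm'_nonneg hδ _) ih
  rw [sumTT_eq, LProg.norm'_sumFin]
  refine (sum_le_sum (g := fun _ => L ^ 2) fun i _ => ?_).trans_eq
    (by rw [sum_const, card_univ, Fintype.card_fin, nsmul_eq_mul])
  refine (Φ.norm'_fwd_le hδ _ _).trans ?_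
  rw [pow_two]
  refine mul_le_mul h1 ?_ (LProg.norm'_nonneg hδ _) hL0
  exact (Φ.norm'_adj_le hδ _ _).trans
    ((mul_le_mul h1 (hc i) (LProg.norm'_nonneg hδ _) hL0).trans_eq (mul_one L))

theorem sumTT_depth {a : ℕ} (hΦ : Φ.depth ≤ a) (q : ℕ) :
    (sumTT Φ q).depth ≤ Binder.wordDepth q a := by
  have h3 : 3 ^ Φ.depth ≤ 3 ^ a := Nat.pow_le_pow_right (by omega) hΦ
  have hc : ∀ i, (crossTT Φ i).depth ≤ i * 3 ^ a := fun i => by
    induction i with
    | zero => simp [crossTT, LProg.depth]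
    | succ i ih =>
      rw [crossTT_succ]
      refine (Φ.depth_adj_le _ _).trans ?_
      simp only [LProg.depth]
      rw [Nat.succ_mul]; omega
  rw [sumTT_eq]
  refine LProg.depth_sumFin fun i => ?_
  have := (hc i).trans (Nat.mul_le_mul_right (3 ^ a) i.isLt.le)
  have := Φ.depth_adj_le 0 (crossTT Φ i)
  refine (Φ.depth_fwd_le _ _).trans ?_
  rw [Binder.wordDepth, show (q + 3) * 3 ^ a = q * 3 ^ a + 3 * 3 ^ a by ring]
  omega

theorem sumTT_nodes {a c : ℕ} (hS : 2 ≤ S) (hΦ : Φ.depth ≤ a) (hn : Φ.nodes ≤ S ^ c) (q : ℕ) :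
    (sumTT Φ q).nodes ≤ S ^ Binder.wordExp q a c := by
  obtain ⟨ex, hex⟩ : ∃ ex, (c + 3) * 3 ^ a = ex := ⟨_, rfl⟩
  have hp : (2 * Φ.nodes) ^ (3 ^ Φ.depth) ≤ S ^ ex :=
    (two_mul_nodes_pow hS hΦ hn).trans
      (Nat.pow_le_pow_right (by omega) (hex ▸ Nat.mul_le_mul_right _ (by omega)))
  have hc : ∀ i, (crossTT Φ i).nodes ≤ S ^ ((ex + 1) * i) := fun i => by
    induction i with
    | zero => simp [crossTT, LProg.nodes]
    | succ i ih =>
      rw [crossTT_succ]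
      refine (Φ.nodes_adj_le _ _).trans ?_
      simp only [LProg.nodes]
      refine (mul_le_pow hp (succ_le_pow hS ih)).trans (le_of_eq ?_)
      ring_nf
  obtain ⟨m, hm⟩ : ∃ m, (ex + 1) * q = m := ⟨_, rfl⟩
  rw [sumTT_eq]
  refine (LProg.nodes_sumFin (F := S ^ (2 * ex + m)) fun i => ?_).trans
    ((sum_le_pow q hS (Nat.lt_two_pow_self.trans_le (Nat.pow_le_pow_left hS q)) le_rfl).trans
      (Nat.pow_le_pow_right (by omega) ?_))
  · have hi : (crossTT Φ i).nodes ≤ S ^ m :=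
      (hc i).trans (Nat.pow_le_pow_right (by omega) (hm ▸ Nat.mul_le_mul_left _ i.isLt.le))
    refine ((Φ.nodes_fwd_le _ _).trans (mul_le_pow hp
      ((Φ.nodes_adj_le _ _).trans (mul_le_pow hp hi)))).trans ?_
    exact Nat.pow_le_pow_right (by omega) (by omega)
  · rw [Binder.wordExp, hex, show (q + 2) * (ex + 1) = (ex + 1) * q + 2 * ex + 2 by ring, hm]
    omega

/-! ### Smoothing and Mehler programs -/

theorem wrapT_small {ρ : ℝ} {W : Prog} (hs : W.Small) : (wrapT ρ W).Small := hs.subst _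

theorem psiT_small {ρ : ℝ} {W : Prog} (hs : W.Small) : (psiT ρ W).Small := hs.subst _

theorem wrapT_levelGe {ρ : ℝ} {l : ℕ} {W : Prog} (hW : W.LevelGe l) : (wrapT ρ W).LevelGe l :=
  ⟨trivial, hW.subst fun i => by rcases i with _ | i <;> trivial⟩

theorem psiT_levelGe {ρ : ℝ} {l : ℕ} {W : Prog} (hW : W.LevelGe l) : (psiT ρ W).LevelGe l :=
  ⟨trivial, hW.subst fun i => by
    rcases i with _ | _ | i
    · exact ⟨trivial, trivial⟩
    · exact ⟨trivial, trivial⟩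
    · trivial⟩

theorem wrapT_depth {ρ : ℝ} {a : ℕ} {W : Prog} (hW : W.depth ≤ a) :
    (wrapT ρ W).depth ≤ a + 1 := by
  have h := W.depth_subst_le (D := 0)
    (f := fun i => Nat.rec (motive := fun _ => Prog) (.inp 0) (fun j _ => .inp (j + 2)) i)
    fun i => by rcases i with _ | i <;> rfl
  simp only [wrapT, Prog.depth] at *
  omega

theorem psiT_depth {ρ : ℝ} {a : ℕ} {W : Prog} (hW : W.depth ≤ a) :
    (psiT ρ W).depth ≤ a + 1 := by
  have h := W.depth_subst_le (D := 0)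
    (f := fun i => Nat.rec (motive := fun _ => Prog)
      (.add (.smul (cpl ρ) (.inp 1)) (.smul (-ρ) (.inp 0)))
      (fun j _ => Nat.rec (motive := fun _ => Prog)
        (.add (.smul ρ (.inp 1)) (.smul (cpl ρ) (.inp 0))) (fun k _ => .inp (k + 2)) j) i)
    fun i => by rcases i with _ | _ | i <;> rfl
  simp only [psiT, Prog.depth] at *
  omega

theorem wrapT_nodes {ρ : ℝ} {c : ℕ} {W : Prog} (hS : 4 ≤ S) (hW : W.nodes ≤ S ^ c) :
    (wrapT ρ W).nodes ≤ S ^ (c + 3) := by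
  have h := W.nodes_subst_le (F := 1)
    (f := fun i => Nat.rec (motive := fun _ => Prog) (.inp 0) (fun j _ => .inp (j + 2)) i) le_rfl
    fun i => by rcases i with _ | i <;> rfl
  have h2 : 2 ≤ S := by omega
  have h4 : 3 ≤ S ^ 1 := by rw [pow_one]; omega
  have := (add_le_pow h2 hW h4).trans
    (Nat.pow_le_pow_right (by omega) (show max c 1 + 1 ≤ c + 3 by omega))
  simp only [wrapT, Prog.nodes] at *
  omega

theorem psiT_nodes {ρ : ℝ} {c : ℕ} {W : Prog} (hS : 4 ≤ S) (hW : W.nodes ≤ S ^ c) :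
    (psiT ρ W).nodes ≤ S ^ (c + 3) := by
  have h := W.nodes_subst_le (F := 5)
    (f := fun i => Nat.rec (motive := fun _ => Prog)
      (.add (.smul (cpl ρ) (.inp 1)) (.smul (-ρ) (.inp 0)))
      (fun j _ => Nat.rec (motive := fun _ => Prog)
        (.add (.smul ρ (.inp 1)) (.smul (cpl ρ) (.inp 0))) (fun k _ => .inp (k + 2)) j) i)
    (by omega) fun i => by rcases i with _ | _ | i <;> simp [Prog.nodes]
  have h2 : 2 ≤ S := by omega
  have h5 : W.nodes * 5 ≤ S ^ (c + 2) :=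
    mul_le_pow hW (le_trans (by norm_num) (Nat.pow_le_pow_left hS 2))
  have h4 : 4 ≤ S ^ 1 := by rw [pow_one]; omega
  have := (add_le_pow h2 h5 h4).trans
    (Nat.pow_le_pow_right (by omega) (show max (c + 2) 1 + 1 ≤ c + 3 by omega))
  simp only [psiT, Prog.nodes] at *
  omega

theorem wrapT_bounds (hδ : 0 ≤ δ) (hr : 1 ≤ r) (hX : 1 ≤ X) {W : Prog} {Z ρ : ℝ} (hsm : W.Small)
    (hw : W.WF δ r X T₀) (hs : W.SensLe δ X (pushR 1 0)) (hZ : W.size δ r ≤ Z) (h0 : 0 ≤ ρ)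
    (h1 : ρ < 1) :
    (wrapT ρ W).WF δ r X T₀ ∧ (wrapT ρ W).SensLe δ X (pushR 1 0) ∧
      (wrapT ρ W).size δ r ≤ 2 * X * Z ∧
      (∀ (v : ℕ → ℝ) (Y : ℝ), W.SensLe δ Y (pushR 0 v) → (wrapT ρ W).SensLe δ Y (pushR 0 v)) ∧
      ∀ (v : ℕ → ℝ) (Y : ℝ), 0 ≤ Y → W.NoiseLe δ Y (pushR 0 v) →
        (wrapT ρ W).NoiseLe δ Y (pushR 0 v) := by
  have hX0 : 0 ≤ X := zero_le_one.trans hX
  have hr0 := zero_le_one.trans hr
  have hsq : √(1 - ρ ^ 2) ≤ 1 := cpl_le_one ρ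
  set f : ℕ → Prog := fun i => Nat.casesOn i (.inp 0) fun j => .inp (j + 2) with hf
  have hfl : ∀ (a b : ℝ) (w : ℕ → ℝ),
      (fun i => (f i).lip δ (pushR a (pushR b w))) = pushR a w :=
    fun a b w => funext fun i => by rcases i with _ | i <;> rfl
  have hfs : ∀ Y v i, (f i).SensLe δ Y v := fun Y v i => by rcases i with _ | i <;> trivial
  have hf0 : ∀ i, (f i).size δ r = 0 := fun i => by rcases i with _ | i <;> rfl
  have h' : W.SensLe δ X (pushR (√(1 - ρ ^ 2)) 0) :=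
    hs.mono hδ le_rfl le_rfl (pushR_nonneg (Real.sqrt_nonneg _) fun _ => le_rfl)
      (pushR_mono hsq fun _ => le_rfl)
  refine ⟨⟨by nlinarith, trivial, hw.subst hX0 (fun i => by rcases i with _ | i <;> trivial) hf0,
    le_of_eq_of_le (mul_zero |ρ|) (mul_nonneg hX0 (Real.sqrt_nonneg _)), hsm.subst _, ?_⟩,
    ⟨trivial, ?_⟩, ?_, fun v Y hY => ⟨trivial, ?_⟩, fun v Y hY hn => ⟨?_, trivial, ?_⟩⟩
  · refine Prog.SensLe.subst ?_ (hfs _ _)
    rw [← pushR_zero, hfl]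
    exact h'
  · refine Prog.SensLe.subst ?_ (hfs _ _)
    show W.SensLe δ X fun i => (f i).lip δ (pushR (|ρ| * 1) (pushR 1 0))
    rw [hfl, mul_one, abs_of_nonneg h0]
    exact hs.mono hδ le_rfl le_rfl (pushR_nonneg h0 fun _ => le_rfl)
      (pushR_mono h1.le fun _ => le_rfl)
  · show (W.subst f).size δ r + (W.subst f).lip δ (pushR (√(1 - ρ ^ 2) + |ρ| * 0) 0) ≤ _
    rw [Prog.size_subst, funext hf0, Prog.lip_subst, mul_zero, add_zero, ← pushR_zero, hfl]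
    have hl := (Prog.lip_le_of_sensLe hδ hr hX0 hsm h').trans (mul_le_mul_of_nonneg_left hZ hX0)
    have hz := W.lip_zero_v δ
    have hZ0 : 0 ≤ Z := (W.size_nonneg hδ hr0).trans hZ
    have hz' : W.lip δ (fun _ => (0 : ℝ)) = 0 := hz
    nlinarith [mul_le_mul_of_nonneg_right hX hZ0]
  · refine Prog.SensLe.subst ?_ (hfs _ _)
    show W.SensLe δ Y fun i => (f i).lip δ (pushR (|ρ| * 0) (pushR 0 v))
    rw [hfl, mul_zero]
    exact hY
  · exact le_of_eq_of_le (mul_zero |ρ|) (mul_nonneg hY (Real.sqrt_nonneg _))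
  · refine Prog.NoiseLe.subst ?_ fun i => by rcases i with _ | i <;> trivial
    rw [hfl]
    exact hn

theorem psiT_bounds (hδ : 0 ≤ δ) (hr : 1 ≤ r) (hX : 1 ≤ X) {W : Prog} {Z ρ : ℝ} (hsm : W.Small)
    (hw : W.WF δ r X T₀)
    (hs : ∀ a t : ℝ, 0 ≤ a → 0 ≤ t → a + t ≤ 2 → W.SensLe δ X (pushR a (t • pushR 1 0)))
    (hZ : W.size δ r ≤ Z) (h0 : 0 ≤ ρ) (h1 : ρ < 1) :
    (psiT ρ W).WF δ r X T₀ ∧ (psiT ρ W).SensLe δ X (pushR 1 0) ∧
      (psiT ρ W).size δ r ≤ (cpl ρ)⁻¹ * (2 * X * Z) ∧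
      (∀ (v : ℕ → ℝ) (Y : ℝ), W.SensLe δ Y (pushR 0 (pushR 0 v)) →
        (psiT ρ W).SensLe δ Y (pushR 0 v)) ∧
      ∀ (v : ℕ → ℝ) (Y : ℝ), 0 ≤ Y → W.NoiseLe δ Y (pushR 0 (pushR 0 v)) →
        (psiT ρ W).NoiseLe δ Y (pushR 0 v) := by
  have hX0 : 0 ≤ X := zero_le_one.trans hX
  have hr0 := zero_le_one.trans hr
  have hc := (cpl_pos h0 h1).le
  have hc1 := cpl_le_one ρ
  set f : ℕ → Prog := fun i => Nat.casesOn i
      (.add (.smul (cpl ρ) (.inp 1)) (.smul (-ρ) (.inp 0))) fun j =>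
    Nat.casesOn j (.add (.smul ρ (.inp 1)) (.smul (cpl ρ) (.inp 0))) fun k => .inp (k + 2) with hf
  have hfl : ∀ (a b : ℝ) (w : ℕ → ℝ), (fun i => (f i).lip δ (pushR a (pushR b w))) =
      pushR (cpl ρ * b + ρ * a) (pushR (ρ * b + cpl ρ * a) w) :=
    fun a b w => funext fun i => by
      rcases i with _ | _ | i <;>
        simp [hf, Prog.lip, pushR, abs_of_nonneg h0, abs_of_nonneg hc]
  have hfs : ∀ Y v i, (f i).SensLe δ Y v := fun Y v i => by
    rcases i with _ | _ | i <;> simp [hf, Prog.SensLe]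
  have hfn : ∀ Y v i, (f i).NoiseLe δ Y v := fun Y v i => by
    rcases i with _ | _ | i <;> simp [hf, Prog.NoiseLe]
  have hf0 : ∀ i, (f i).size δ r = 0 := fun i => by
    rcases i with _ | _ | i <;> simp [hf, Prog.size]
  have hfw : ∀ i, (f i).WF δ r X T₀ := fun i => by
    rcases i with _ | _ | i <;> simp [hf, Prog.WF]
  have h' : ∀ {a t : ℝ}, 0 ≤ a → 0 ≤ t → a + t ≤ 2 → W.SensLe δ X (pushR a (pushR t 0)) :=
    fun ha ht hat => by
      have := hs _ _ ha ht hat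
      rwa [smul_pushR_zero, mul_one] at this
  refine ⟨⟨one_pos, trivial, hw.subst hX0 hfw hf0, mul_nonneg hX0 (Real.sqrt_nonneg _),
    hsm.subst _, ?_⟩, ⟨trivial, ?_⟩, ?_, fun v Y hY => ⟨trivial, ?_⟩,
    fun v Y hY hn => ⟨mul_nonneg hY (Real.sqrt_nonneg _), trivial, ?_⟩⟩
  · refine Prog.SensLe.subst ?_ (hfs _ _)
    rw [Real.sqrt_one, ← pushR_zero, hfl]
    simp only [mul_zero, zero_add, mul_one]
    exact h' h0 hc (by linarith)
  · refine Prog.SensLe.subst ?_ (hfs _ _)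
    show W.SensLe δ X fun i => (f i).lip δ (pushR 0 (pushR 1 0))
    rw [hfl]
    simp only [mul_zero, add_zero, mul_one]
    exact h' hc h0 (by linarith)
  · show |(cpl ρ)⁻¹| * ((W.subst f).size δ r + (W.subst f).lip δ (pushR (√1 + 0) 0)) ≤ _
    rw [abs_of_nonneg (inv_nonneg.2 hc), Prog.size_subst, funext hf0, Prog.lip_subst, add_zero,
      Real.sqrt_one, ← pushR_zero, hfl]
    simp only [mul_zero, zero_add, mul_one]
    refine mul_le_mul_of_nonneg_left ?_ (inv_nonneg.2 hc)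
    have hl := (Prog.lip_le_of_sensLe hδ hr hX0 hsm (h' h0 hc (by linarith))).trans
      (mul_le_mul_of_nonneg_left hZ hX0)
    have hz' : W.lip δ (fun _ => (0 : ℝ)) = 0 := W.lip_zero_v δ
    have hZ0 : 0 ≤ Z := (W.size_nonneg hδ hr0).trans hZ
    nlinarith [mul_le_mul_of_nonneg_right hX hZ0]
  · refine Prog.SensLe.subst ?_ (hfs _ _)
    show W.SensLe δ Y fun i => (f i).lip δ (pushR 0 (pushR 0 v))
    rw [hfl]
    simpa using hY
  · refine Prog.NoiseLe.subst ?_ (hfn _ _)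
    rw [hfl]
    simpa using hn

/-- The score at the perturbed point. -/
theorem shifted_bounds (h : TiltOk P δ r B T) (hB : B ≤ X) (hT : T ≤ T₀)
    (hU : X ^ 2 * tiltV P δ r ≤ 1) (hΦ : BdT P δ r X T₀ S k Φ) :
    let f : ℕ → Prog := fun i => Nat.casesOn i (.add (.inp 0) Φ) fun l => .inp (l + 1)
    (P.subst f).WF δ r (2 * X) T₀ ∧ (P.subst f).SensLe δ (2 * X) (pushR 1 0) ∧
      (P.subst f).size δ r ≤ tiltV P δ r ∧
      (∀ (v : ℕ → ℝ) (B' : ℝ), (∀ i, 0 ≤ v i) → 0 ≤ B' → P.SensLe δ B' (pushR 0 v) →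
        (P.subst f).SensLe δ (2 * X * B') (pushR 0 v)) ∧
      ∀ (v : ℕ → ℝ) (B' : ℝ), (∀ i, 0 ≤ v i) → 0 ≤ B' → P.SensLe δ B' (pushR 0 v) →
        P.NoiseLe δ B' (pushR 0 v) → (P.subst f).NoiseLe δ (2 * X * B') (pushR 0 v) := by
  intro f
  have hB0 : 0 ≤ B := zero_le_one.trans h.B_one
  have hX1 : 1 ≤ X := h.B_one.trans hB
  have hX0 : 0 ≤ X := by linarith
  have hr0 := zero_le_one.trans h.r_one
  have hV := h.tiltV_nonneg
  have hs1 : Φ.size δ r ≤ 1 := hΦ.size_le.trans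
    ((mul_le_mul_of_nonneg_right (le_self_pow₀ hX1 (by norm_num)) hV).trans hU)
  have hs0 := Φ.size_nonneg h.delta hr0
  have hl1 : Φ.lip δ (pushR 1 0) ≤ 1 := (hΦ.lip_le h hB).trans hU
  have hl0 : 0 ≤ Φ.lip δ (pushR 1 0) := Φ.lip_nonneg h.delta unit_nonneg
  have hfsize : (fun i => (f i).size δ r) = pushR (Φ.size δ r) 0 := by
    funext i; rcases i with _ | i
    · exact zero_add _
    · rfl
  have hfl : ∀ (a : ℝ) (v : ℕ → ℝ),
      (fun i => (f i).lip δ (pushR a v)) = pushR (a + Φ.lip δ (pushR a v)) v :=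
    fun a v => funext fun i => by rcases i with _ | i <;> rfl
  have hfs : ∀ {Y : ℝ} {v : ℕ → ℝ}, Φ.SensLe δ Y v → ∀ i, (f i).SensLe δ Y v := fun hY i => by
    rcases i with _ | i
    · exact ⟨trivial, hY⟩
    · trivial
  have key : ∀ {v : ℕ → ℝ} {B' : ℝ}, (∀ i, 0 ≤ v i) → 0 ≤ B' → P.SensLe δ B' (pushR 0 v) →
      0 ≤ Φ.lip δ (pushR 0 v) ∧ Φ.lip δ (pushR 0 v) * B + B' ≤ 2 * X * B' :=
    fun {v B'} hv hB' hs => by
      refine ⟨Φ.lip_nonneg h.delta (pushR_nonneg le_rfl hv), ?_⟩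
      have hl : Φ.lip δ (pushR 0 v) ≤ B' := by
        refine (hΦ.lip_v_le h hB hv hB' hs).trans ?_
        rw [mul_left_comm]
        exact mul_le_of_le_one_right hB' hU
      nlinarith [mul_le_mul_of_nonneg_right hl hB0, mul_le_mul_of_nonneg_left hB hB',
        mul_le_mul_of_nonneg_left hX1 hB']
  refine ⟨?_, ?_, ?_, fun v B' hv hB' hs => ?_, fun v B' hv hB' hs hn => ?_⟩
  · refine (Prog.WF.subst_noise h.delta hr0 hB0 hX0 (p := P) (f := f)
      (h.wf.mono h.delta le_rfl hr0 le_rfl le_rfl (zero_lt_one.trans_le h.T_one) hT)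
      (fun i => ?_) ?_).mono h.delta le_rfl hr0 le_rfl (by linarith)
      (zero_lt_one.trans_le (h.T_one.trans hT)) le_rfl
    · rcases i with _ | i
      · exact ⟨trivial, hΦ.wf.mono h.delta le_rfl hr0 le_rfl (by linarith)
          (zero_lt_one.trans_le (h.T_one.trans hT)) le_rfl⟩
      · trivial
    · rw [hfsize]
      exact h.noise.mono h.delta le_rfl hB (pushR_nonneg hs0 fun _ => le_rfl)
        (pushR_mono hs1 fun _ => le_rfl)
  · refine Prog.SensLe.subst ?_ (hfs (hΦ.sens.mono h.delta le_rfl (by linarith) unit_nonneg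
      fun _ => le_rfl))
    rw [hfl]
    refine (h.sens.smul (zero_le_two (α := ℝ))).mono h.delta le_rfl (by linarith)
      (pushR_nonneg (by linarith) fun _ => le_rfl) ?_
    rw [smul_pushR_zero]
    exact pushR_mono (by linarith) fun _ => le_rfl
  · rw [Prog.size_subst, hfsize, tiltV, add_comm (P.lip δ _)]
    refine add_le_add le_rfl ?_
    exact P.lip_mono h.delta le_rfl (pushR_nonneg hs0 fun _ => le_rfl)
      (pushR_mono hs1 fun _ => le_rfl)
  · obtain ⟨k0, k1⟩ := key hv hB' hs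
    refine Prog.SensLe.subst ?_ (hfs ((hΦ.sens_v v B' hv hB' hs).mono h.delta le_rfl
      (by nlinarith) (pushR_nonneg le_rfl hv) fun _ => le_rfl))
    rw [hfl, zero_add, pushR_eq_smul_add]
    refine ((h.sens.smul k0).add hs).mono h.delta le_rfl k1 (fun i => ?_) fun _ => le_rfl
    rw [← pushR_eq_smul_add]
    exact pushR_nonneg k0 hv i
  · obtain ⟨k0, k1⟩ := key hv hB' hs
    refine Prog.NoiseLe.subst ?_ fun i => ?_
    · rw [hfl, zero_add, pushR_eq_smul_add]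
      refine ((h.noise.smul k0).add hn).mono h.delta le_rfl k1 (fun i => ?_) fun _ => le_rfl
      rw [← pushR_eq_smul_add]
      exact pushR_nonneg k0 hv i
    · rcases i with _ | i
      · exact ⟨trivial, (hΦ.noise_v v B' hv hB' hs hn).mono h.delta le_rfl (by nlinarith)
          (pushR_nonneg le_rfl hv) fun _ => le_rfl⟩
      · trivial

end

end Vale.Agent.P347
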