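import Vale.Agent.P347Zero.Conv
import Vale.Agent.P347Zero.PhiBoundsT

/-!
P347, v5: the conversion of `exists_conv` at accuracy `θ = 1 / r` satisfies `ConvSyn` and `ConvNoise`
at exponent 3, with constants that depend only on the depth and on the horizon.
-/

open MeasureTheory Real

namespace Vale.Agent.P347

/-- The conversion at accuracy `1 / r`, in the form used by the Picard programs. -/
theorem exists_conv_syn (N : ℕ) (hN : 1 ≤ N) :
    ∃ (conv : (ℕ → ℝ) → ℝ → LProg → Prog) (Kc : ℕ → ℝ → ℕ) (Cc Tc : ℕ → ℝ → ℝ),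
      (∀ A T, 1 ≤ Cc A T) ∧
      ∀ (δ : ℕ → ℝ) (r : ℝ), 0 ≤ δ → δ ≤ 1 → 4 ≤ r →
        ConvSyn 3 δ r Kc Cc Tc (conv δ r⁻¹) ∧ ConvNoise 3 δ r Cc (conv δ r⁻¹) ∧
        ∀ (A : ℕ) (T B : ℝ) (W : LProg), 1 ≤ T → 1 ≤ B → r ≤ B → W.Small → W.WF δ r B T →
          W.depth ≤ A → ∀ (d : ℕ) (δ0 : ℕ → ℝ) (Gb Cb : ℝ), 0 ≤ δ0 → δ0 ≤ δ → 0 ≤ Cb →
          ∀ h : ℕ → E d → E d, (∀ ℓ, Fld d (δ0 ℓ) r Gb Cb N (h ℓ)) → ∀ env : Env d,
            ∫ u, ‖(conv δ r⁻¹ W).sem h (push u env) - W.app h env u‖ ^ 2 ∂gau (Fin d)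
              ≤ (Cc A T * (1 + Cb) * W.norm' δ * √d * (r ^ 2 / r ^ N)) ^ 2 := by
  obtain ⟨conv, hconv⟩ := exists_conv N hN
  choose K C hC hF using fun (A : ℕ) (T : ℝ) => hconv A (max 1 T) (le_max_left _ _)
  refine ⟨conv, K, fun A T => 2 * C A T, fun A T => 2 * max 1 T ^ 2 * C A T,
    fun A T => by linarith [hC A T], fun δ r hδ hδ1 hr => ⟨?_, ?_, ?_⟩⟩
  · intro A T B W hT hB hrB hsm hW hd
    have hT' : max 1 T = T := max_eq_right hT
    have hr0 : 0 < r := by linarith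
    have hθ : r⁻¹ ≤ 1 / 4 := by rw [one_div]; exact inv_anti₀ (by norm_num) hr
    obtain ⟨h1, h2, h3, h4, h5, h6, h7, -, -⟩ := hF A T 0 δ δ r 0 0 B r⁻¹ hδ le_rfl hδ1 (by linarith)
      hB le_rfl (inv_pos.2 hr0) hθ W hsm (by rw [hT']; exact hW) hd
    rw [hT'] at h3
    have hC0 : 0 ≤ C A T := by linarith [hC A T]
    have hQ0 : 0 ≤ B ^ 2 + r := by positivity
    have hB23 : B ^ 2 ≤ B ^ 3 := pow_le_pow_right₀ hB (by norm_num)
    have hB13 : B ≤ B ^ 3 := le_self_pow₀ hB (by norm_num)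
    have hQ : C A T * (B ^ 2 + r) ≤ 2 * C A T * B ^ 3 :=
      (mul_le_mul_of_nonneg_left (show B ^ 2 + r ≤ 2 * B ^ 3 by linarith) hC0).trans_eq (by ring)
    have hQr : C A T * ((B ^ 2 + r) / r⁻¹) ≤ 2 * C A T * B ^ 3 := by
      rw [div_inv_eq_mul]
      have h8 : B ^ 2 + r ≤ 2 * B ^ 2 := by nlinarith
      have h9 : (B ^ 2 + r) * r ≤ 2 * B ^ 3 :=
        (mul_le_mul h8 hrB hr0.le (by positivity)).trans_eq (by ring)
      exact (mul_le_mul_of_nonneg_left h9 hC0).trans_eq (by ring)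
    have hT2 : 1 ≤ 2 * T ^ 2 * C A T := one_le_mul_of_one_le_of_one_le
      (by nlinarith [one_le_pow₀ (n := 2) hT]) (hC A T)
    have hC1 : C A T ≤ 2 * C A T * B ^ 3 :=
      (le_mul_of_one_le_right (by linarith) (one_le_pow₀ hB)).trans' (by linarith)
    refine ⟨by simp only [hT']; exact hT2, h1, h2, ?_, h4, h5,
      h6.trans (mul_le_mul_of_nonneg_right hQr (LProg.norm'_nonneg hδ W)),
      fun v a B' hv ha hB' hs => ?_⟩
    · simp only [hT']
      exact h3.mono hδ le_rfl hr0.le le_rfl hQ (by linarith) le_rfl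
    · exact (h7 v a B' hv ha hB' hs).1.mono hδ le_rfl
        (mul_le_mul_of_nonneg_right hC1 (add_nonneg ha hB')) (pushR_nonneg ha hv) fun _ => le_rfl
  · intro A T B W hT hB hrB hsm hW hd v B' hv hB' hs hN
    have hr0 : 0 < r := by linarith
    have hθ : r⁻¹ ≤ 1 / 4 := by rw [one_div]; exact inv_anti₀ (by norm_num) hr
    obtain ⟨-, -, -, -, -, -, -, h7, -⟩ := hF A T 0 δ δ r 0 0 B r⁻¹ hδ le_rfl hδ1 (by linarith)
      hB le_rfl (inv_pos.2 hr0) hθ W hsm (by rw [max_eq_right hT]; exact hW) hd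
    have hC1 : C A T ≤ 2 * C A T * B ^ 3 :=
      (le_mul_of_one_le_right (by linarith [hC A T]) (one_le_pow₀ hB)).trans'
        (by linarith [hC A T])
    exact (h7 v B' hv hB' hs hN).mono hδ le_rfl (mul_le_mul_of_nonneg_right hC1 hB')
      (pushR_nonneg le_rfl hv) fun _ => le_rfl
  · intro A T B W hT hB hrB hsm hW hd d δ0 Gb Cb hδ0 hδle hCb h hh env
    have hr0 : 0 < r := by linarith
    have hθ : r⁻¹ ≤ 1 / 4 := by rw [one_div]; exact inv_anti₀ (by norm_num) hr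
    obtain ⟨-, -, -, -, -, -, -, -, h8⟩ := hF A T d δ0 δ r Gb Cb B r⁻¹ hδ0 hδle hδ1 (by linarith)
      hB hCb (inv_pos.2 hr0) hθ W hsm (by rw [max_eq_right hT]; exact hW) hd
    have hC0 : 0 ≤ C A T := by linarith [hC A T]
    have hn := LProg.norm'_nonneg hδ W
    have h9 : r / (r⁻¹ * r ^ N) + r⁻¹ ^ N ≤ 2 * (r ^ 2 / r ^ N) := by
      have e1 : r / (r⁻¹ * r ^ N) = r ^ 2 / r ^ N := by field_simp
      have e2 : r⁻¹ ^ N ≤ r ^ 2 / r ^ N := by
        rw [inv_pow, ← one_div]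
        exact div_le_div_of_nonneg_right (one_le_pow₀ (by linarith)) (pow_nonneg hr0.le N)
      linarith
    refine (h8 h hh env).trans (pow_le_pow_left₀ (by positivity) ?_ 2)
    exact (mul_le_mul_of_nonneg_left h9 (by positivity)).trans_eq (by ring)

end Vale.Agent.P347
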