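import Vale.Agent.P347Zero.Field

/-!
P347: the Picard programs that compensate the noise of one binder, and those of the map of a tilt.

Debias programs read: `0` the layer `ξ`, `1` the sampled point `x`, `i + 2` input `i` of the parent.
Tilt programs read: `0` the Gaussian variable, `i + 1` input `i` of the centre.
A conversion `conv` turns a program of linear maps into a program reading the vector as input `0`.
-/

open Real

namespace Vale.Agent.P347

/-- `√(1 - ρ²)`. -/
noncomputable def cpl (ρ : ℝ) : ℝ := √(1 - ρ ^ 2)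

/-- The sum of a family of programs. -/
def Prog.sumFin : {n : ℕ} → (Fin n → Prog) → Prog
  | 0, _ => .zero
  | _ + 1, f => .add (f 0) (Prog.sumFin fun k => f k.succ)

/-- The sum of a family of programs of linear maps. -/
def LProg.sumFin : {n : ℕ} → (Fin n → LProg) → LProg
  | 0, _ => .zero
  | _ + 1, f => .add (f 0) (LProg.sumFin fun k => f k.succ)

/-- The data of one binder: its mean, variance, body, the weight of the body and of the layer. -/
structure Binder where
  /-- The mean. -/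
  p : Prog
  /-- The variance. -/
  Δ : ℝ
  /-- The body. -/
  b : Prog
  /-- The weight of the body. -/
  lam : ℝ
  /-- The weight of the layer. -/
  σ : ℝ

namespace Binder

variable (D : Binder)

/-- The body, as a function of the sampled point. -/
noncomputable def G : Prog := .smul D.lam (D.b.ren Nat.succ)

/-- The mean of a correlated copy of the sampled point. -/
noncomputable def copyMean (ρ : ℝ) : Prog :=
  .add (.smul (1 - ρ) (D.p.ren (· + 2))) (.smul ρ (.inp 1))

/-- `(DΦ - covD G) ∘ L` in the standard variable of the binder; `ρ`, `w` is the rule. -/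
noncomputable def difW (Φ : Prog) {n : ℕ} (ρ w : Fin n → ℝ) (L : LProg) : LProg :=
  .add (Φ.fwd 1 (.smul √D.Δ L))
    (.smul (-1) (LProg.sumFin fun k => .smul (w k) (.bind (D.copyMean (ρ k))
      (D.Δ * (1 - ρ k ^ 2))
      ((Prog.smul D.lam (D.b.ren fun i => Nat.casesOn i 0 fun j => j + 3)).fwd 0
        (.smul √D.Δ (L.lift 0))))))

/-- `Mᵀ` with `M = (DG + DΦ)(DΦ - covD G)ᵀ`, summed over the two blocks, composed with `L`. -/
noncomputable def wordT (Φ : Prog) {n : ℕ} (ρ w : Fin n → ℝ) (L : LProg) : LProg :=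
  .add (D.difW Φ ρ w (.smul √D.Δ ((Prog.add D.G Φ).adj 1 L))) (Φ.fwd 0 (Φ.adj 0 L))

/-- `(-D_ξΦ / σ)ᵀ` to the power `i`. -/
noncomputable def crossT (Φ : Prog) : ℕ → LProg
  | 0 => .id
  | i + 1 => Φ.adj 0 (.smul (-D.σ⁻¹) (crossT Φ i))

/-- The transpose of `∑ i < q, (-D_ξΦ / σ) ^ i M`, the factors next to `M` first. -/
noncomputable def sumT (Φ : Prog) {n : ℕ} (ρ w : Fin n → ℝ) (q : ℕ) : LProg :=
  LProg.sumFin fun i : Fin q => D.wordT Φ ρ w (D.crossT Φ i)

/-- Smoothing in both blocks at correlation `ρ`. -/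
noncomputable def wrap (ρ : ℝ) (S : Prog) : Prog :=
  .bind (D.copyMean ρ) (D.Δ * (1 - ρ ^ 2))
    (.bind (.smul ρ (.inp 1)) (1 - ρ ^ 2)
      (S.subst fun i => Nat.casesOn i (.inp 0) fun j =>
        Nat.casesOn j (.inp 1) fun k => .inp (k + 4)))

/-- The Mehler program of a converted word at correlation `ρ`. -/
noncomputable def psi (ρ : ℝ) (Pc : Prog) : Prog :=
  .smul (cpl ρ)⁻¹ (.bind (D.copyMean ρ) (D.Δ * (1 - ρ ^ 2))
    (.bind .zero 1
      (Pc.subst fun i => Nat.casesOn i (.add (.smul (cpl ρ) (.inp 2)) (.smul (-ρ) (.inp 0))) fun j =>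
        Nat.casesOn j (.add (.smul ρ (.inp 2)) (.smul (cpl ρ) (.inp 0))) fun k =>
          Nat.casesOn k (.inp 1) fun l => .inp (l + 4))))

/-- The Picard iterates: `P_ρ₁ ∑ k, w k ρ k σ⁻¹ ψ_(ρ₀ ρ k) (Msumᵀ)`. -/
noncomputable def iter (conv : LProg → Prog) {n : ℕ} (ρ w : Fin n → ℝ) (ρ₀ ρ₁ : ℝ) (q : ℕ) :
    ℕ → Prog
  | 0 => .zero
  | j + 1 => D.wrap ρ₁ (Prog.sumFin fun k =>
      .smul (w k * ρ k / D.σ) (D.psi (ρ₀ * ρ k) (conv (D.sumT (iter conv ρ w ρ₀ ρ₁ q j) ρ w q))))

end Binder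

/-- Smoothing in the Gaussian variable at correlation `ρ`. -/
noncomputable def wrapT (ρ : ℝ) (S : Prog) : Prog :=
  .bind (.smul ρ (.inp 0)) (1 - ρ ^ 2)
    (S.subst fun i => Nat.casesOn i (.inp 0) fun j => .inp (j + 2))

/-- The Mehler program of a converted word, for a tilt. -/
noncomputable def psiT (ρ : ℝ) (Pc : Prog) : Prog :=
  .smul (cpl ρ)⁻¹ (.bind .zero 1
    (Pc.subst fun i => Nat.casesOn i (.add (.smul (cpl ρ) (.inp 1)) (.smul (-ρ) (.inp 0))) fun j =>
      Nat.casesOn j (.add (.smul ρ (.inp 1)) (.smul (cpl ρ) (.inp 0))) fun k => .inp (k + 2)))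

/-- `∑ i < q, Mᵀ (-DΦᵀ) ^ i` with `M = DΦ DΦᵀ`. -/
noncomputable def sumTT (Φ : Prog) (q : ℕ) : LProg :=
  LProg.sumFin fun i : Fin q =>
    Φ.fwd 0 (Φ.adj 0 ((fun L => Φ.adj 0 (.smul (-1) L))^[i] .id))

/-- The Picard iterates of the map of a tilt with score `P`. -/
noncomputable def iterT (conv : LProg → Prog) (P : Prog) {n : ℕ} (ρ w : Fin n → ℝ) (ρ₀ ρ₁ : ℝ)
    (q : ℕ) : ℕ → Prog
  | 0 => .zero
  | j + 1 => wrapT ρ₁ (Prog.sumFin fun k => .add
      (.smul (-w k) (wrapT (ρ k) (P.subst fun i => Nat.casesOn i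
        (.add (.inp 0) (iterT conv P ρ w ρ₀ ρ₁ q j)) fun l => .inp (l + 1))))
      (.smul (w k * ρ k) (psiT (ρ₀ * ρ k) (conv (sumTT (iterT conv P ρ w ρ₀ ρ₁ q j) q)))))

end Vale.Agent.P347
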