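import Vale.Agent.P347Zero.ConvWord
import Vale.Agent.P347Zero.PhiDefs
import Vale.Agent.P347Zero.Noise

/-!
P347 (module M5): the conversion of a program of linear maps into a program reading the vector as
input `0`, and its syntactic bounds.

A word `D Psm τ h (q) L` becomes, with `s = θ / ‖L‖`, the average over a fresh input `e` of
`∑ k, c k / (s √τ) Psm (τ (1 - ρ k ^ 2)) h (q + √τ ρ k (s L u + e - U e))`, where `U` is the
truncated series of `1 - √(1 - s² L L†)`; both `L` and `U` are converted recursively, `U` with one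
unit less of fuel.
-/

open MeasureTheory ProbabilityTheory Real

namespace Vale.Agent.P347

namespace Conv

/-! ### Noise of products and of the word of the square root -/

section noise

variable {δ : ℕ → ℝ} {B : ℝ}

theorem noiseLe_comp (L : LProg) : ∀ (M : LProg) {v : ℕ → ℝ}, L.NoiseLe δ B v → M.NoiseLe δ B v →
    (L.comp M).NoiseLe δ B v := by
  induction L with
  | id => intro M v h h'; exact h'
  | zero => intros; trivial
  | add L L' hL hL' => intro M v h h'; exact ⟨hL M h.1 h', hL' M h.2 h'⟩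
  | smul c L hL => intro M v h h'; exact hL M (v := v) h h'
  | hess ℓ τ q L hL => intro M v h h'; exact ⟨h.1, h.2.1, hL M h.2.2 h'⟩
  | bind p Δ L hL =>
    intro M v h h'
    exact ⟨h.1, h.2.1, hL _ h.2.2 ((M.noiseLe_lift_push v 0).2 h')⟩

theorem noiseLe_transp (L : LProg) : ∀ (M : LProg) {v : ℕ → ℝ}, L.NoiseLe δ B v → M.NoiseLe δ B v →
    (L.transp M).NoiseLe δ B v := by
  induction L with
  | id => intro M v h h'; exact h'
  | zero => intros; trivial
  | add L L' hL hL' => intro M v h h'; exact ⟨hL M h.1 h', hL' M h.2 h'⟩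
  | smul c L hL => intro M v h h'; exact hL M (v := v) h h'
  | hess ℓ τ q L hL =>
    intro M v h h'; exact hL (.hess ℓ τ q M) (v := v) h.2.2 ⟨h.1, h.2.1, h'⟩
  | bind p Δ L hL =>
    intro M v h h'
    exact ⟨h.1, h.2.1, hL _ h.2.2 ((M.noiseLe_lift_push v 0).2 h')⟩

theorem noiseLe_sqrtWord (s : ℝ) (L : LProg) {v : ℕ → ℝ} (h : L.NoiseLe δ B v) :
    ∀ m, (L.sqrtWord s m).NoiseLe δ B v := by
  intro m
  induction m with
  | zero => trivial
  | succ m ih => exact ⟨noiseLe_comp _ _ h (noiseLe_transp _ _ h trivial), noiseLe_comp _ _ ih ih⟩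

end noise

/-! ### Finite sums of programs -/

theorem small_sumFin {n : ℕ} : ∀ {f : Fin n → Prog}, (∀ k, (f k).Small) → (Prog.sumFin f).Small := by
  induction n with
  | zero => intros; trivial
  | succ n ih => intro f h; exact ⟨h 0, ih fun k => h k.succ⟩

theorem levelGe_sumFin {l n : ℕ} : ∀ {f : Fin n → Prog}, (∀ k, (f k).LevelGe l) →
    (Prog.sumFin f).LevelGe l := by
  induction n with
  | zero => intros; trivial
  | succ n ih => intro f h; exact ⟨h 0, ih fun k => h k.succ⟩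

theorem wf_sumFin {δ : ℕ → ℝ} {r B T : ℝ} {n : ℕ} : ∀ {f : Fin n → Prog},
    (∀ k, (f k).WF δ r B T) → (Prog.sumFin f).WF δ r B T := by
  induction n with
  | zero => intros; trivial
  | succ n ih => intro f h; exact ⟨h 0, ih fun k => h k.succ⟩

theorem sensLe_sumFin {δ : ℕ → ℝ} {B : ℝ} {v : ℕ → ℝ} {n : ℕ} : ∀ {f : Fin n → Prog},
    (∀ k, (f k).SensLe δ B v) → (Prog.sumFin f).SensLe δ B v := by
  induction n with
  | zero => intros; trivial
  | succ n ih => intro f h; exact ⟨h 0, ih fun k => h k.succ⟩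

theorem size_sumFin (δ : ℕ → ℝ) (r : ℝ) {n : ℕ} : ∀ f : Fin n → Prog,
    (Prog.sumFin f).size δ r = ∑ k, (f k).size δ r := by
  induction n with
  | zero => intro f; simp [Prog.sumFin, Prog.size]
  | succ n ih => intro f; simp [Prog.sumFin, Prog.size, ih, Fin.sum_univ_succ]

theorem lip_sumFin (δ : ℕ → ℝ) (v : ℕ → ℝ) {n : ℕ} : ∀ f : Fin n → Prog,
    (Prog.sumFin f).lip δ v = ∑ k, (f k).lip δ v := by
  induction n with
  | zero => intro f; simp [Prog.sumFin, Prog.lip]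
  | succ n ih => intro f; simp [Prog.sumFin, Prog.lip, ih, Fin.sum_univ_succ]

theorem sem_sumFin {d : ℕ} (h : ℕ → E d → E d) (env : Env d) {n : ℕ} : ∀ f : Fin n → Prog,
    (Prog.sumFin f).sem h env = ∑ k, (f k).sem h env := by
  induction n with
  | zero => intro f; simp [Prog.sumFin, Prog.sem]
  | succ n ih => intro f; simp [Prog.sumFin, Prog.sem, ih, Fin.sum_univ_succ]

theorem depth_sumFin {n K : ℕ} : ∀ {f : Fin n → Prog}, (∀ k, (f k).depth ≤ K) →
    (Prog.sumFin f).depth ≤ K := by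
  induction n with
  | zero => intros; exact Nat.zero_le _
  | succ n ih => intro f h; exact max_le (h 0) (ih fun k => h k.succ)

theorem nodes_sumFin {n X : ℕ} : ∀ {f : Fin n → Prog}, (∀ k, (f k).nodes ≤ X) →
    (Prog.sumFin f).nodes ≤ n * (X + 1) + 1 := by
  induction n with
  | zero => intro f _; simp [Prog.sumFin, Prog.nodes]
  | succ n ih =>
    intro f h
    have h1 := h 0
    have h2 := ih fun k => h k.succ
    simp only [Prog.sumFin, Prog.nodes, Nat.add_mul, one_mul]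
    omega

/-! ### The conversion -/

/-- Exchanging the inputs `0` and `1`. -/
def swap01 : ℕ → ℕ
  | 0 => 1
  | 1 => 0
  | i + 2 => i + 2

/-- Skipping input `1`. -/
def skip1 : ℕ → ℕ
  | 0 => 0
  | i + 1 => i + 2

theorem pushR_swap01 (x a : ℝ) (v : ℕ → ℝ) :
    pushR x (pushR a v) ∘ swap01 = pushR a (pushR x v) := by
  funext i; rcases i with _ | _ | i <;> rfl

theorem push_swap01 {d : ℕ} (x a : E d) (env : Env d) :
    push x (push a env) ∘ swap01 = push a (push x env) := by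
  funext i; rcases i with _ | _ | i <;> rfl

theorem pushR_skip1 (x a : ℝ) (v : ℕ → ℝ) : pushR x (pushR a v) ∘ skip1 = pushR x v := by
  funext i; rcases i with _ | i <;> rfl

theorem push_skip1 {d : ℕ} (x a : E d) (env : Env d) :
    push x (push a env) ∘ skip1 = push x env := by
  funext i; rcases i with _ | i <;> rfl

theorem pushR_succ (x : ℝ) (v : ℕ → ℝ) : pushR x v ∘ Nat.succ = v := rfl

theorem push_succ {d : ℕ} (x : E d) (env : Env d) : push x env ∘ Nat.succ = env := rfl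

theorem pushR_two (x a : ℝ) (v : ℕ → ℝ) : (pushR x (pushR a v) ∘ fun i => i + 2) = v := rfl

theorem push_two {d : ℕ} (x a : E d) (env : Env d) : (push x (push a env) ∘ fun i => i + 2) = env :=
  rfl

/-- The converted program of a word with the identity put back. -/
noncomputable def full (L : LProg) (P : Prog) : Prog := .add (.smul L.idc (.inp 0)) P

variable {m : ℕ} (c ρ : Fin m → ℝ) (δ : ℕ → ℝ) (θ : ℝ) (M : ℕ)

/-- The scale at which a word is inserted. -/
noncomputable def scale (L : LProg) : ℝ := θ / L.norm' δ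

/-- The point of one call: `q + √τ ρ (s L u + e - U e)`, with inputs `0` the fresh `e`, `1` the
vector `u`. -/
noncomputable def point (τ a s : ℝ) (q : Prog) (L U : LProg) (PL PU : Prog) : Prog :=
  .add (q.ren fun i => i + 2) (.smul (√τ * a) (.add (.smul s ((full L PL).ren Nat.succ))
    (.add (.inp 0) (.smul (-1) ((full U PU).ren skip1)))))

/-- One derivative applied to a converted word. -/
noncomputable def node (ℓ : ℕ) (τ : ℝ) (q : Prog) (L : LProg) (PL PU : Prog) : Prog :=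
  .bind .zero 1 (Prog.sumFin fun k => .smul (c k / (scale δ θ L * √τ))
    (.call ℓ (τ * (1 - ρ k ^ 2))
      (point τ (ρ k) (scale δ θ L) q L (L.sqrtWord (scale δ θ L) M) PL PU)))

/-- The conversion, given the conversion of the words of the square root. -/
noncomputable def step (prev : LProg → Prog) : LProg → Prog
  | .id => .zero
  | .zero => .zero
  | .add L L' => .add (step prev L) (step prev L')
  | .smul a L => .smul a (step prev L)
  | .hess ℓ τ q L =>
      if L.norm' δ = 0 then .zero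
      else node c ρ δ θ M ℓ τ q L (step prev L) (prev (L.sqrtWord (scale δ θ L) M))
  | .bind p Δ L => .bind (p.ren Nat.succ) Δ ((step prev L).ren swap01)

/-- The conversion with fuel `j`. -/
noncomputable def conv : ℕ → LProg → Prog
  | 0, _ => .zero
  | j + 1, W => step c ρ δ θ M (conv j) W

/-- The syntactic bounds of a conversion `P` of a word `W`. -/
structure Syn (r B T : ℝ) (K : ℕ) (C : ℝ) (W : LProg) (P : Prog) : Prop where
  small : P.Small
  level : ∀ l, W.LevelGe l → P.LevelGe l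
  wf : P.WF δ r (C * (B ^ 2 + r)) (2 * T)
  depth : P.depth ≤ K
  nodes : P.nodes ≤ K * W.nodes ^ K
  size : P.size δ r ≤ C * ((B ^ 2 + r) / θ) * W.norm' δ
  sens : ∀ (v : ℕ → ℝ) (a B' : ℝ), (∀ i, 0 ≤ v i) → 0 ≤ a → 0 ≤ B' → W.SensLe δ B' v →
    P.SensLe δ (C * (a + B')) (pushR a v) ∧
      P.lip δ (pushR a v) ≤ C * (a + B' / θ) * W.norm' δ
  noise : ∀ (v : ℕ → ℝ) (B' : ℝ), (∀ i, 0 ≤ v i) → 0 ≤ B' → W.SensLe δ B' v →
    W.NoiseLe δ B' v → P.NoiseLe δ (C * B') (pushR 0 v)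

variable {δ θ} {r B T : ℝ}

theorem nodes_mono {n a b K : ℕ} (hn : 1 ≤ n) (ha : a ≤ K) (hb : b ≤ K) :
    a * n ^ b ≤ K * n ^ K :=
  Nat.mul_le_mul ha (Nat.pow_le_pow_right hn hb)

theorem Syn.mono {K K' : ℕ} {C C' : ℝ} {W : LProg} {P : Prog} (h : Syn δ θ r B T K C W P)
    (hδ : 0 ≤ δ) (hr : 1 ≤ r) (hθ : 0 < θ) (hT : 1 ≤ T)
    (hK : K ≤ K') (hC : C ≤ C') : Syn δ θ r B T K' C' W P := by
  have hn := LProg.norm'_nonneg hδ W
  have hBr : 0 ≤ B ^ 2 + r := by positivity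
  refine ⟨h.small, h.level, ?_, h.depth.trans hK,
    h.nodes.trans (nodes_mono W.nodes_pos hK hK), h.size.trans ?_, fun v a B' hv ha hB' hW => ?_,
    fun v B' hv hB' hW hN => (h.noise v B' hv hB' hW hN).mono hδ le_rfl
      (mul_le_mul_of_nonneg_right hC hB') (pushR_nonneg le_rfl hv) fun _ => le_rfl⟩
  · exact h.wf.mono hδ le_rfl (by linarith) le_rfl (mul_le_mul_of_nonneg_right hC hBr)
      (by linarith) le_rfl
  · exact mul_le_mul_of_nonneg_right (mul_le_mul_of_nonneg_right hC (by positivity)) hn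
  · obtain ⟨h1, h2⟩ := h.sens v a B' hv ha hB' hW
    exact ⟨h1.mono hδ le_rfl (mul_le_mul_of_nonneg_right hC (by positivity))
      (pushR_nonneg ha hv) fun _ => le_rfl,
      h2.trans (mul_le_mul_of_nonneg_right (mul_le_mul_of_nonneg_right hC (by positivity)) hn)⟩

theorem syn_zero {K : ℕ} {C : ℝ} (hK : 1 ≤ K) (hC : 0 ≤ C) (hδ : 0 ≤ δ) (hr : 1 ≤ r) (hθ : 0 < θ)
    (W : LProg) : Syn δ θ r B T K C W .zero := by
  have hn := LProg.norm'_nonneg hδ W
  refine ⟨trivial, fun _ _ => trivial, trivial, Nat.zero_le _, ?_, ?_,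
    fun v a B' hv ha hB' _ => ⟨trivial, ?_⟩, fun _ _ _ _ _ _ => trivial⟩
  · exact (show 1 ≤ 1 * W.nodes ^ 1 by simpa using W.nodes_pos).trans
      (nodes_mono W.nodes_pos hK hK)
  · simp only [Prog.size]; positivity
  · simp only [Prog.lip]; positivity

/-- Bounds of the converted word with the identity put back. -/
theorem full_bounds {K : ℕ} {C : ℝ} {W : LProg} {P : Prog} (h : Syn δ θ r B T K C W P)
    (hδ : 0 ≤ δ) (hθ : 0 < θ) :
    (full W P).size δ r ≤ C * ((B ^ 2 + r) / θ) * W.norm' δ ∧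
      ∀ (v : ℕ → ℝ) (a B' : ℝ), (∀ i, 0 ≤ v i) → 0 ≤ a → 0 ≤ B' → W.SensLe δ B' v →
        (full W P).SensLe δ (C * (a + B')) (pushR a v) ∧
          θ * (full W P).lip δ (pushR a v) ≤ (1 + C) * (θ * a + B') * W.norm' δ := by
  refine ⟨by simpa [full, Prog.size] using h.size, fun v a B' hv ha hB' hW => ?_⟩
  obtain ⟨h1, h2⟩ := h.sens v a B' hv ha hB' hW
  refine ⟨⟨trivial, h1⟩, ?_⟩
  have hn := LProg.norm'_nonneg hδ W
  have e : θ * (C * (a + B' / θ) * W.norm' δ) = C * (θ * a + B') * W.norm' δ := by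
    field_simp
  have h4 : θ * (|W.idc| * a) ≤ (θ * a + B') * W.norm' δ := by
    nlinarith [mul_le_mul_of_nonneg_left (LProg.abs_idc_le hδ W) (mul_nonneg hθ.le ha),
      mul_nonneg hB' hn]
  simp only [full, Prog.lip, pushR]
  nlinarith [mul_le_mul_of_nonneg_left h2 hθ.le]

variable {c ρ}

theorem abs_coef_le {τ a : ℝ} (hτ : τ ≤ 1) (ha : |a| ≤ 1 / 2) : |√τ * a| ≤ 1 := by
  rw [abs_mul, abs_of_nonneg (Real.sqrt_nonneg τ)]
  exact mul_le_one₀ (Real.sqrt_le_one.2 hτ) (abs_nonneg _) (ha.trans (by norm_num))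

section point

variable {K KL KU : ℕ} {CL CU τ a : ℝ} {q : Prog} {L U : LProg} {PL PU : Prog}
  (hL : Syn δ θ r B T KL CL L PL) (hU : Syn δ θ r B T KU CU U PU)
  (hδ : 0 ≤ δ) (hθ : 0 < θ) (hθ1 : θ ≤ 1 / 4) (hCL : 1 ≤ CL) (hCU : 1 ≤ CU)

include hL hU hδ hθ hθ1 hCL hCU

/-- The size of a point of a call. -/
theorem point_size (hr : 1 ≤ r) (hB : 1 ≤ B) (hτ : τ ≤ 1) (ha : |a| ≤ 1 / 2)
    (hLn : 0 < L.norm' δ) (hUn : U.norm' δ ≤ θ ^ 2) (hqs : q.size δ r ≤ B) :
    (point τ a (θ / L.norm' δ) q L U PL PU).size δ r ≤ (CL + CU + 3) * (B ^ 2 + r) := by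
  have hr0 : 0 ≤ r := by linarith
  have hQ : 0 < B ^ 2 + r := by positivity
  have hBQ : B ≤ B ^ 2 + r := by nlinarith
  have hs : 0 ≤ θ / L.norm' δ := div_nonneg hθ.le hLn.le
  have hLsz := (full_bounds hL hδ hθ).1
  have hUsz := (full_bounds hU hδ hθ).1
  have hne : L.norm' δ ≠ 0 := hLn.ne'
  have hLs : θ / L.norm' δ * (full L PL).size δ r ≤ CL * (B ^ 2 + r) := by
    refine (mul_le_mul_of_nonneg_left hLsz hs).trans_eq ?_
    field_simp
  have hUs : (full U PU).size δ r ≤ CU * (B ^ 2 + r) := by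
    refine hUsz.trans ((mul_le_mul_of_nonneg_left hUn (by positivity)).trans ?_)
    calc CU * ((B ^ 2 + r) / θ) * θ ^ 2 = CU * (B ^ 2 + r) * θ := by field_simp
      _ ≤ CU * (B ^ 2 + r) := mul_le_of_le_one_right (by positivity) (by linarith)
  have h0 : 0 ≤ θ / L.norm' δ * (full L PL).size δ r + (full U PU).size δ r :=
    add_nonneg (mul_nonneg hs (Prog.size_nonneg hδ hr0 _)) (Prog.size_nonneg hδ hr0 _)
  have h1 := mul_le_mul_of_nonneg_right (abs_coef_le hτ ha) h0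
  simp only [point, Prog.size, Prog.size_ren, zero_add, abs_neg, abs_one, one_mul,
    abs_of_nonneg hs]
  linarith

/-- The smoothings and sizes inside a point of a call. -/
theorem point_wf (hr : 1 ≤ r) (hB : 1 ≤ B) (hT : 1 ≤ T) (hq : q.WF δ r B T) (s : ℝ) :
    (point τ a s q L U PL PU).WF δ r ((CL + CU + 3) * (B ^ 2 + r)) (2 * T) := by
  have hr0 : 0 ≤ r := by linarith
  have hQ : 0 ≤ B ^ 2 + r := by positivity
  have hBQ : B ≤ B ^ 2 + r := by nlinarith
  have hB' : B ≤ (CL + CU + 3) * (B ^ 2 + r) :=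
    hBQ.trans (le_mul_of_one_le_left hQ (by linarith))
  exact ⟨(Prog.wf_ren ..).2 (hq.mono hδ le_rfl hr0 le_rfl hB' (by linarith) (by linarith)),
    (Prog.wf_ren ..).2 ⟨trivial, hL.wf.mono hδ le_rfl hr0 le_rfl
      (mul_le_mul_of_nonneg_right (by linarith) hQ) (by linarith) le_rfl⟩,
    trivial, (Prog.wf_ren ..).2 ⟨trivial, hU.wf.mono hδ le_rfl hr0 le_rfl
      (mul_le_mul_of_nonneg_right (by linarith) hQ) (by linarith) le_rfl⟩⟩

omit hθ hθ1 hCL hCU hδ in
/-- The depth and the nodes of a point of a call. -/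
theorem point_count (hqd : q.depth ≤ K) (hKL : KL ≤ K) (hKU : KU ≤ K) (s : ℝ) :
    (point τ a s q L U PL PU).depth ≤ K ∧
    (point τ a s q L U PL PU).nodes ≤ q.nodes + K * L.nodes ^ K + K * U.nodes ^ K + 20 := by
  have h1 := hL.depth
  have h2 := hU.depth
  have h3 := hL.nodes.trans (nodes_mono L.nodes_pos hKL hKL)
  have h4 := hU.nodes.trans (nodes_mono U.nodes_pos hKU hKU)
  simp only [point, full, Prog.depth, Prog.depth_ren, Prog.nodes, Prog.nodes_ren]
  omega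

/-- The Lipschitz bounds of a point of a call. -/
theorem point_lip (hτ : τ ≤ 1) (ha : |a| ≤ 1 / 2) (hLn : 0 < L.norm' δ)
    (hUn : U.norm' δ ≤ θ ^ 2) {v : ℕ → ℝ} {x b B' : ℝ} (hv : ∀ i, 0 ≤ v i) (hx : 0 ≤ x)
    (hb : 0 ≤ b) (hB' : 0 ≤ B') (hql : q.lip δ v ≤ B') (hqS : q.SensLe δ B' v)
    (hLS : L.SensLe δ B' v) (hUS : U.SensLe δ B' v) :
    (point τ a (θ / L.norm' δ) q L U PL PU).SensLe δ ((CL + CU + 3) * (b + x + B'))
        (pushR x (pushR b v)) ∧
      (point τ a (θ / L.norm' δ) q L U PL PU).lip δ (pushR x (pushR b v))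
        ≤ (CL + CU + 3) * (θ * b + x + B') := by
  have hs : 0 ≤ θ / L.norm' δ := div_nonneg hθ.le hLn.le
  obtain ⟨hS1, hl1⟩ := (full_bounds hL hδ hθ).2 v b B' hv hb hB' hLS
  obtain ⟨hS2, hl2⟩ := (full_bounds hU hδ hθ).2 v x B' hv hx hB' hUS
  refine ⟨⟨(Prog.sensLe_ren ..).2 ?_, (Prog.sensLe_ren ..).2 ?_, trivial,
    (Prog.sensLe_ren ..).2 ?_⟩, ?_⟩
  · rw [pushR_two]
    refine hqS.mono hδ le_rfl ?_ hv fun _ => le_rfl
    calc B' ≤ 1 * (b + x + B') := by linarith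
      _ ≤ _ := mul_le_mul_of_nonneg_right (by linarith) (by positivity)
  · rw [pushR_succ]
    exact hS1.mono hδ le_rfl (mul_le_mul (by linarith) (by linarith) (by positivity) (by linarith))
      (pushR_nonneg hb hv) fun _ => le_rfl
  · rw [pushR_skip1]
    exact hS2.mono hδ le_rfl (mul_le_mul (by linarith) (by linarith) (by positivity) (by linarith))
      (pushR_nonneg hx hv) fun _ => le_rfl
  · have e1 : θ / L.norm' δ * (full L PL).lip δ (pushR b v) ≤ (1 + CL) * (θ * b + B') := by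
      rw [show θ / L.norm' δ * (full L PL).lip δ (pushR b v) =
        θ * (full L PL).lip δ (pushR b v) / L.norm' δ by ring, div_le_iff₀ hLn]
      exact hl1
    have e2 : (full U PU).lip δ (pushR x v) ≤ (1 + CU) * (x + B') := by
      refine le_of_mul_le_mul_left ?_ hθ
      refine (hl2.trans (mul_le_mul_of_nonneg_left hUn (by positivity))).trans ?_
      have h1 : θ * x + B' ≤ x + B' :=
        add_le_add (mul_le_of_le_one_left hx (by linarith)) le_rfl
      calc (1 + CU) * (θ * x + B') * θ ^ 2 ≤ (1 + CU) * (x + B') * θ ^ 2 :=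
            mul_le_mul_of_nonneg_right (mul_le_mul_of_nonneg_left h1 (by linarith)) (sq_nonneg θ)
        _ = θ * ((1 + CU) * (x + B') * θ) := by ring
        _ ≤ θ * ((1 + CU) * (x + B')) :=
            mul_le_mul_of_nonneg_left (mul_le_of_le_one_right (by positivity) (by linarith)) hθ.le
    have p1 : 0 ≤ θ / L.norm' δ * (full L PL).lip δ (pushR b v) :=
      mul_nonneg hs (Prog.lip_nonneg hδ _ (pushR_nonneg hb hv))
    have p2 : 0 ≤ (full U PU).lip δ (pushR x v) :=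
      Prog.lip_nonneg hδ _ (pushR_nonneg hx hv)
    have hsum : 0 ≤ θ / L.norm' δ * (full L PL).lip δ (pushR b v) +
        (x + (full U PU).lip δ (pushR x v)) := by positivity
    have h3 := mul_le_mul_of_nonneg_right (abs_coef_le hτ ha) hsum
    have hp : pushR x (pushR b v) 0 = x := rfl
    simp only [point, Prog.lip, Prog.lip_ren, pushR_two, pushR_succ, pushR_skip1, abs_neg,
      abs_one, one_mul, abs_of_nonneg hs, hp]
    have h4 : 0 ≤ θ * b := mul_nonneg hθ.le hb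
    have h5 : 0 ≤ CL * x := by positivity
    have h6 : 0 ≤ CU * (θ * b) := by positivity
    nlinarith

end point

section node

variable {K KL KU : ℕ} {CL CU τ : ℝ} {ℓ : ℕ} {q : Prog} {L : LProg} {PL PU : Prog}
  (hL : Syn δ θ r B T KL CL L PL) (hU : Syn δ θ r B T KU CU (L.sqrtWord (scale δ θ L) M) PU)
  (hδ : 0 ≤ δ) (hr : 1 ≤ r) (hB : 1 ≤ B) (hθ : 0 < θ) (hθ1 : θ ≤ 1 / 4) (hT : 1 ≤ T)
  (hCL : 1 ≤ CL) (hCU : 1 ≤ CU) (hn : L.norm' δ ≠ 0) (hW : (LProg.hess ℓ τ q L).WF δ r B T)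

omit hr hB hθ1 hCL hCU in
include hδ hθ hT hn hW in
/-- The coefficient of a call. -/
theorem coef_le (x : ℝ) : |x / (scale δ θ L * √τ)| ≤ |x| * √T * L.norm' δ / θ := by
  have hnp : 0 < L.norm' δ := lt_of_le_of_ne (LProg.norm'_nonneg hδ L) (Ne.symm hn)
  have hτp : 0 < τ := lt_of_lt_of_le (inv_pos.2 (by linarith)) hW.1
  have hsp : 0 < scale δ θ L := div_pos hθ hnp
  rw [abs_div, abs_of_pos (mul_pos hsp (Real.sqrt_pos.2 hτp))]
  have h1 : 1 / √τ ≤ √T := by
    rw [div_le_iff₀ (Real.sqrt_pos.2 hτp), ← Real.sqrt_mul (by linarith)]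
    refine Real.one_le_sqrt.2 ?_
    calc (1 : ℝ) = T * T⁻¹ := (mul_inv_cancel₀ (by linarith)).symm
      _ ≤ T * τ := mul_le_mul_of_nonneg_left hW.1 (by linarith)
  calc |x| / (scale δ θ L * √τ) = |x| * L.norm' δ / θ * (1 / √τ) := by
        rw [scale]; field_simp
    _ ≤ |x| * L.norm' δ / θ * √T := mul_le_mul_of_nonneg_left h1 (by positivity)
    _ = _ := by ring

/-- The sum of the calls of a node. -/
noncomputable def calls (c ρ : Fin m → ℝ) (M : ℕ) (δ : ℕ → ℝ) (θ : ℝ) (ℓ : ℕ) (τ : ℝ) (q : Prog)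
    (L : LProg) (PL PU : Prog) : Prog :=
  Prog.sumFin fun k => .smul (c k / (scale δ θ L * √τ))
    (.call ℓ (τ * (1 - ρ k ^ 2))
      (point τ (ρ k) (scale δ θ L) q L (L.sqrtWord (scale δ θ L) M) PL PU))

include hL hU hδ hθ hθ1 hT hCL hCU hn hW

omit hr hB in
/-- The Lipschitz bounds of the calls of a node. -/
theorem calls_lip (hρ : ∀ k, |ρ k| ≤ 1 / 2) {v : ℕ → ℝ} {x b B' : ℝ} (hv : ∀ i, 0 ≤ v i)
    (hx : 0 ≤ x) (hb : 0 ≤ b) (hB' : 0 ≤ B') (h1 : q.lip δ v ≤ B') (h2 : q.SensLe δ B' v)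
    (h3 : L.SensLe δ B' v) :
    (calls c ρ M δ θ ℓ τ q L PL PU).SensLe δ ((CL + CU + 3) * (b + x + B')) (pushR x (pushR b v)) ∧
      (calls c ρ M δ θ ℓ τ q L PL PU).lip δ (pushR x (pushR b v)) ≤
        (∑ k, |c k|) * √T * (CL + CU + 3) * (b + x / θ + B' / θ) * (δ ℓ * L.norm' δ) := by
  have hnp : 0 < L.norm' δ := lt_of_le_of_ne (LProg.norm'_nonneg hδ L) (Ne.symm hn)
  have hsp : 0 < scale δ θ L := div_pos hθ hnp
  have hUn : (L.sqrtWord (scale δ θ L) M).norm' δ ≤ θ ^ 2 :=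
    L.norm'_sqrtWord hθ.le (by linarith) hδ
      (le_of_eq (by rw [abs_of_pos hsp, scale, div_mul_cancel₀ _ hn])) M
  have hk := fun k => point_lip hL hU hδ hθ hθ1 hCL hCU hW.2.1 (hρ k) hnp hUn hv hx hb hB' h1 h2 h3
    (LProg.sensLe_sqrtWord _ _ h3 M)
  refine ⟨sensLe_sumFin fun k => ⟨(hk k).2.trans ?_, (hk k).1⟩, ?_⟩
  · refine mul_le_mul_of_nonneg_left ?_ (by positivity)
    linarith [mul_le_of_le_one_left hb (show θ ≤ 1 by linarith)]
  · unfold calls
    rw [lip_sumFin, Finset.sum_mul, Finset.sum_mul, Finset.sum_mul, Finset.sum_mul]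
    refine Finset.sum_le_sum fun k _ => ?_
    simp only [Prog.lip]
    calc |c k / (scale δ θ L * √τ)| * (δ ℓ * (point τ (ρ k) (scale δ θ L) q L
          (L.sqrtWord (scale δ θ L) M) PL PU).lip δ (pushR x (pushR b v)))
        ≤ |c k| * √T * L.norm' δ / θ * (δ ℓ * ((CL + CU + 3) * (θ * b + x + B'))) :=
          mul_le_mul (coef_le (r := r) (B := B) hδ hθ hT hn hW (c k))
            (mul_le_mul_of_nonneg_left (hk k).2 (hδ ℓ))
            (mul_nonneg (hδ ℓ) (Prog.lip_nonneg hδ _ (pushR_nonneg hx (pushR_nonneg hb hv))))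
            (by positivity)
      _ = _ := by field_simp

include hr hB

/-- The size of the calls of a node. -/
theorem calls_size (hρ : ∀ k, |ρ k| ≤ 1 / 2) :
    (calls c ρ M δ θ ℓ τ q L PL PU).size δ r ≤
      (∑ k, |c k|) * √T * (CL + CU + 3) * (2 * ((B ^ 2 + r) / θ)) * (δ ℓ * L.norm' δ) := by
  have hr0 : 0 ≤ r := by linarith
  have hnp : 0 < L.norm' δ := lt_of_le_of_ne (LProg.norm'_nonneg hδ L) (Ne.symm hn)
  have hsp : 0 < scale δ θ L := div_pos hθ hnp
  have hUn : (L.sqrtWord (scale δ θ L) M).norm' δ ≤ θ ^ 2 :=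
    L.norm'_sqrtWord hθ.le (by linarith) hδ
      (le_of_eq (by rw [abs_of_pos hsp, scale, div_mul_cancel₀ _ hn])) M
  unfold calls
  rw [size_sumFin, Finset.sum_mul, Finset.sum_mul, Finset.sum_mul, Finset.sum_mul]
  refine Finset.sum_le_sum fun k _ => ?_
  have h1 : (point τ (ρ k) (scale δ θ L) q L (L.sqrtWord (scale δ θ L) M) PL PU).size δ r ≤
      (CL + CU + 3) * (B ^ 2 + r) :=
    point_size hL hU hδ hθ hθ1 hCL hCU hr hB hW.2.1 (hρ k) hnp hUn hW.2.2.2.1
  have h2 : r ≤ (CL + CU + 3) * (B ^ 2 + r) := by nlinarith [sq_nonneg B]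
  simp only [Prog.size]
  calc |c k / (scale δ θ L * √τ)| * (δ ℓ * (r + (point τ (ρ k) (scale δ θ L) q L
        (L.sqrtWord (scale δ θ L) M) PL PU).size δ r))
      ≤ |c k| * √T * L.norm' δ / θ * (δ ℓ * ((CL + CU + 3) * (B ^ 2 + r) * 2)) :=
        mul_le_mul (coef_le hδ hθ hT hn hW (c k))
          (mul_le_mul_of_nonneg_left (by linarith) (hδ ℓ))
          (mul_nonneg (hδ ℓ) (add_nonneg hr0 (Prog.size_nonneg hδ hr0 _))) (by positivity)
    _ = _ := by field_simp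

omit hθ hθ1 hT hCL hCU hn hW hr hB hδ in
/-- The number of nodes of the calls of a node. -/
theorem calls_count (hqd : q.depth ≤ K) (hKL : KL ≤ K) (hKU : KU ≤ K) {e : ℕ}
    (he : ∀ (s : ℝ) (L' : LProg), (L'.sqrtWord s M).nodes ≤ (8 * L'.nodes) ^ e) :
    (calls c ρ M δ θ ℓ τ q L PL PU).depth ≤ K + 1 ∧
    (calls c ρ M δ θ ℓ τ q L PL PU).nodes + 2 ≤
      (2 * K * 8 ^ (e * K) + 25) * (m + 1) * (q.nodes + L.nodes + 1) ^ (e * K + K + 1) := by
  have hp := fun k => point_count (τ := τ) (a := ρ k) hL hU hqd hKL hKU (scale δ θ L)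
  refine ⟨depth_sumFin fun k => Nat.succ_le_succ (hp k).1, ?_⟩
  set n' := q.nodes + L.nodes + 1
  set U := L.sqrtWord (scale δ θ L) M
  set E := e * K + K + 1
  have hn1 : 1 ≤ n' := by omega
  have a1 : q.nodes ≤ n' ^ E := (show q.nodes ≤ n' by omega).trans (Nat.le_self_pow (by omega) _)
  have a2 : L.nodes ^ K ≤ n' ^ E :=
    (Nat.pow_le_pow_left (show L.nodes ≤ n' by omega) K).trans (Nat.pow_le_pow_right hn1 (by omega))
  have a3 : U.nodes ^ K ≤ 8 ^ (e * K) * n' ^ E := by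
    calc U.nodes ^ K ≤ ((8 * n') ^ e) ^ K := Nat.pow_le_pow_left ((he _ L).trans
          (Nat.pow_le_pow_left (by omega) e)) K
      _ = 8 ^ (e * K) * n' ^ (e * K) := by rw [← pow_mul, mul_pow]
      _ ≤ _ := Nat.mul_le_mul_left _ (Nat.pow_le_pow_right hn1 (by omega))
  have a4 : 1 ≤ n' ^ E := Nat.one_le_pow _ _ hn1
  have a5 : 1 * n' ^ E ≤ 8 ^ (e * K) * n' ^ E :=
    Nat.mul_le_mul_right _ (Nat.one_le_pow _ _ (by norm_num))
  have b2 := Nat.mul_le_mul_left K a2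
  have b3 := Nat.mul_le_mul_left K a3
  have b5 := Nat.mul_le_mul_left K a5
  have e2 : (2 * K * 8 ^ (e * K) + 22) * n' ^ E =
      K * (8 ^ (e * K) * n' ^ E) + K * (8 ^ (e * K) * n' ^ E) + 22 * n' ^ E := by ring
  have hX : ∀ k, (Prog.smul (c k / (scale δ θ L * √τ))
      (.call ℓ (τ * (1 - ρ k ^ 2)) (point τ (ρ k) (scale δ θ L) q L U PL PU))).nodes ≤
      (2 * K * 8 ^ (e * K) + 22) * n' ^ E + 2 := fun k => by
    have h1 := (hp k).2
    rw [one_mul] at b5
    simp only [Prog.nodes]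
    omega
  have h2 := nodes_sumFin hX
  have e3 : (2 * K * 8 ^ (e * K) + 25) * (m + 1) * n' ^ E =
      (2 * K * 8 ^ (e * K) + 22) * n' ^ E * m + 3 * (n' ^ E * m) +
        (2 * K * 8 ^ (e * K) + 25) * n' ^ E := by ring
  have e4 : m * ((2 * K * 8 ^ (e * K) + 22) * n' ^ E + 2 + 1) =
      (2 * K * 8 ^ (e * K) + 22) * n' ^ E * m + 3 * m := by ring
  have a6 : m ≤ n' ^ E * m := Nat.le_mul_of_pos_left _ a4
  have a7 : 25 * 1 ≤ (2 * K * 8 ^ (e * K) + 25) * n' ^ E := Nat.mul_le_mul (by omega) a4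
  rw [e3]
  rw [e4] at h2
  simp only [calls]
  nlinarith

/-- The bounds of one node. -/
theorem syn_node (hρ : ∀ k, |ρ k| ≤ 1 / 2) (hqd : q.depth ≤ K) (hKL : KL ≤ K) (hKU : KU ≤ K)
    {e : ℕ} (he : ∀ (s : ℝ) (L' : LProg), (L'.sqrtWord s M).nodes ≤ (8 * L'.nodes) ^ e) :
    Syn δ θ r B T
      (max (K + 2) (max (e * K + K + 1) ((2 * K * 8 ^ (e * K) + 25) * (m + 1))))
      ((1 + ∑ k, |c k|) * (3 * √T) * (CL + CU + 3)) (.hess ℓ τ q L)
      (node c ρ δ θ M ℓ τ q L PL PU) := by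
  have hr0 : 0 ≤ r := by linarith
  have hQ : 0 < B ^ 2 + r := by positivity
  have hnp : 0 < L.norm' δ := lt_of_le_of_ne (LProg.norm'_nonneg hδ L) (Ne.symm hn)
  have hsp : 0 < scale δ θ L := div_pos hθ hnp
  have hτp : 0 < τ := lt_of_lt_of_le (inv_pos.2 (by linarith)) hW.1
  have hS0 : 0 ≤ ∑ k, |c k| := Finset.sum_nonneg fun k _ => abs_nonneg _
  have hsT : 1 ≤ √T := Real.one_le_sqrt.2 hT
  set C0 := CL + CU + 3 with hC0
  have hC1 : 1 ≤ C0 := by linarith
  set S := ∑ k, |c k|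
  set C' := (1 + S) * (3 * √T) * C0 with hC'
  have hCC : C0 ≤ C' := le_mul_of_one_le_left (by linarith)
    (one_le_mul_of_one_le_of_one_le (by linarith) (by linarith))
  have hST : S * √T * C0 * 3 ≤ C' := by
    rw [hC']; nlinarith [mul_nonneg (mul_nonneg (show (0:ℝ) ≤ 3 by norm_num) (Real.sqrt_nonneg T))
      (show 0 ≤ C0 by linarith)]
  have hz : pushR (√1) (0 : ℕ → ℝ) = pushR 1 (pushR 0 0) := by rw [Real.sqrt_one, pushR_zero]
  obtain ⟨hb1, hb2⟩ := calls_lip (c := c) (M := M) hL hU hδ hθ hθ1 hT hCL hCU hn hW hρ (v := 0)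
    (x := 1) (b := 0) (B' := 0) (fun _ => le_rfl) zero_le_one le_rfl le_rfl
    (q.lip_zero_v δ).le (q.sensLe_zero le_rfl) (LProg.sensLe_zero le_rfl L)
  obtain ⟨hcd, hcn⟩ := calls_count (c := c) (ρ := ρ) (τ := τ) (ℓ := ℓ) (M := M) hL hU hqd hKL hKU he
  refine ⟨small_sumFin fun k => trivial, fun l hl => ⟨trivial, levelGe_sumFin fun k =>
    ⟨hl.1, (Prog.levelGe_ren ..).2 hl.2.1, (Prog.levelGe_ren ..).2 ⟨trivial, hL.level l hl.2.2⟩,
      trivial, (Prog.levelGe_ren ..).2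
        ⟨trivial, hU.level l (LProg.levelGe_sqrtWord _ _ hl.2.2 M)⟩⟩⟩,
    ?_, ?_, ?_, ?_, fun v a B' hv ha hB' hW' => ?_, fun v B' hv hB' hW' hN => ?_⟩
  · refine ⟨one_pos, trivial, wf_sumFin fun k => ⟨?_, ?_, ?_, ?_⟩, ?_,
      small_sumFin fun k => trivial, ?_⟩
    · have h1 : ρ k ^ 2 ≤ 1 / 4 := by
        rw [← sq_abs]; nlinarith [hρ k, abs_nonneg (ρ k)]
      calc (2 * T)⁻¹ = T⁻¹ * (1 / 2) := by rw [mul_inv]; ring
        _ ≤ τ * (1 - ρ k ^ 2) := mul_le_mul hW.1 (by linarith) (by norm_num) hτp.le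
    · nlinarith [sq_nonneg (ρ k), hW.2.1]
    · exact (point_wf hL hU hδ hθ hθ1 hCL hCU hr hB hT hW.2.2.1 _).mono hδ le_rfl hr0 le_rfl
        (mul_le_mul_of_nonneg_right hCC hQ.le) (by linarith) le_rfl
    · refine (point_size hL hU hδ hθ hθ1 hCL hCU hr hB hW.2.1 (hρ k) hnp ?_ hW.2.2.2.1).trans
        (mul_le_mul_of_nonneg_right hCC hQ.le)
      exact L.norm'_sqrtWord hθ.le (by linarith) hδ
        (le_of_eq (by rw [abs_of_pos hsp, scale, div_mul_cancel₀ _ hn])) M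
    · simp only [Prog.size]; positivity
    · rw [hz]
      refine hb1.mono hδ le_rfl ?_ (pushR_nonneg zero_le_one (pushR_nonneg le_rfl fun _ => le_rfl))
        fun _ => le_rfl
      calc C0 * (0 + 1 + 0) ≤ C' * 1 := by rw [zero_add, add_zero]; linarith
        _ ≤ C' * (B ^ 2 + r) := mul_le_mul_of_nonneg_left (by nlinarith) (by linarith)
  · exact le_trans (Nat.succ_le_succ (max_le (Nat.zero_le _) hcd)) (le_max_left _ _)
  · refine le_trans ?_ (nodes_mono (a := (2 * K * 8 ^ (e * K) + 25) * (m + 1)) (b := e * K + K + 1)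
      (LProg.nodes_pos _) (le_max_of_le_right (le_max_right _ _))
      (le_max_of_le_right (le_max_left _ _)))
    show 1 + (calls c ρ M δ θ ℓ τ q L PL PU).nodes + 1 ≤
      (2 * K * 8 ^ (e * K) + 25) * (m + 1) * (q.nodes + L.nodes + 1) ^ (e * K + K + 1)
    omega
  · show (calls c ρ M δ θ ℓ τ q L PL PU).size δ r +
      (calls c ρ M δ θ ℓ τ q L PL PU).lip δ (pushR (√1 + 0) 0) ≤ C' * ((B ^ 2 + r) / θ) * (δ ℓ * L.norm' δ)
    rw [add_zero, hz]
    have e1 := calls_size (c := c) (M := M) hL hU hδ hr hB hθ hθ1 hT hCL hCU hn hW hρ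
    have e2 : (0 : ℝ) + 1 / θ + 0 / θ ≤ (B ^ 2 + r) / θ := by
      rw [zero_add, zero_div, add_zero]; gcongr; nlinarith
    have e3 := hb2.trans (mul_le_mul_of_nonneg_right
      (mul_le_mul_of_nonneg_left e2 (by positivity)) (mul_nonneg (hδ ℓ) hnp.le))
    have e4 := mul_le_mul_of_nonneg_right (mul_le_mul_of_nonneg_right hST (div_pos hQ hθ).le)
      (mul_nonneg (hδ ℓ) hnp.le)
    linarith
  · obtain ⟨g1, g2⟩ := calls_lip (c := c) (M := M) hL hU hδ hθ hθ1 hT hCL hCU hn hW hρ hv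
      (x := 0) le_rfl ha hB' hW'.1 hW'.2.1 hW'.2.2
    refine ⟨⟨trivial, g1.mono hδ le_rfl ?_ (pushR_nonneg le_rfl (pushR_nonneg ha hv))
      fun _ => le_rfl⟩, ?_⟩
    · rw [add_zero]; exact mul_le_mul_of_nonneg_right hCC (by positivity)
    · show (calls c ρ M δ θ ℓ τ q L PL PU).lip δ (pushR 0 (pushR a v)) ≤
        C' * (a + B' / θ) * (δ ℓ * L.norm' δ)
      refine g2.trans (mul_le_mul_of_nonneg_right ?_ (mul_nonneg (hδ ℓ) hnp.le))
      rw [zero_div, add_zero]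
      refine mul_le_mul_of_nonneg_right (le_trans ?_ hST) (by positivity)
      exact le_mul_of_one_le_right (by positivity) (by norm_num)
  · obtain ⟨hN1, hN2, hN3⟩ := hN
    refine ⟨le_of_eq_of_le (by simp [Prog.lip]) (mul_nonneg (mul_nonneg (by linarith) hB')
      (Real.sqrt_nonneg _)), trivial, Prog.noiseLe_sumFin fun k => ⟨?_, ?_⟩⟩
    · refine (point_lip hL hU hδ hθ hθ1 hCL hCU hW.2.1 (hρ k) hnp ?_ hv le_rfl le_rfl hB' hW'.1
        hW'.2.1 hW'.2.2 (LProg.sensLe_sqrtWord _ _ hW'.2.2 M)).2.trans ?_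
      · exact L.norm'_sqrtWord hθ.le (by linarith) hδ
          (le_of_eq (by rw [abs_of_pos hsp, scale, div_mul_cancel₀ _ hn])) M
      · rw [mul_zero, zero_add, zero_add]; exact mul_le_mul_of_nonneg_right hCC hB'
    · refine ⟨(Prog.noiseLe_ren ..).2 ?_, (Prog.noiseLe_ren ..).2 ⟨trivial, ?_⟩, trivial,
        (Prog.noiseLe_ren ..).2 ⟨trivial, ?_⟩⟩
      · rw [pushR_two]
        exact hN2.mono hδ le_rfl (le_mul_of_one_le_left hB' (hC1.trans hCC)) hv fun _ => le_rfl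
      · rw [pushR_succ]
        exact (hL.noise v B' hv hB' hW'.2.2 hN3).mono hδ le_rfl
          (mul_le_mul_of_nonneg_right ((show CL ≤ C0 by linarith).trans hCC) hB')
          (pushR_nonneg le_rfl hv) fun _ => le_rfl
      · rw [pushR_skip1]
        exact (hU.noise v B' hv hB' (LProg.sensLe_sqrtWord _ _ hW'.2.2 M)
          (noiseLe_sqrtWord _ _ hN3 M)).mono hδ le_rfl
          (mul_le_mul_of_nonneg_right ((show CU ≤ C0 by linarith).trans hCC) hB')
          (pushR_nonneg le_rfl hv) fun _ => le_rfl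

end node

end Conv

end Vale.Agent.P347
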