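import Vale.Agent.P347Zero.ProgRen

/-!
P347 (module M5, algebra): products of programs of linear maps, the coefficient of the identity in
such a program, and the word of the truncated square-root series.
-/

open MeasureTheory ProbabilityTheory Real

namespace Vale.Agent.P347

/-- Every word of a program of linear maps contains a derivative of a field. -/
def LProg.Small : LProg → Prop
  | .id => False
  | .zero => True
  | .add L M => L.Small ∧ M.Small
  | .smul _ L => L.Small
  | .hess _ _ _ _ => True
  | .bind _ _ L => L.Small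

namespace LProg

theorem small_lift (L : LProg) : ∀ c : ℕ, (L.lift c).Small ↔ L.Small := by
  induction L with
  | id => intros; rfl
  | zero => intros; rfl
  | add L M hL hM => intro c; simp only [LProg.lift, LProg.Small, hL, hM]
  | smul a L hL => intro c; simp only [LProg.lift, LProg.Small, hL]
  | hess ℓ τ q L hL => intros; rfl
  | bind p Δ L hL => intro c; simp only [LProg.lift, LProg.Small, hL]

/-- The transposed derivative of any program, composed with a small word, is small. -/
theorem small_adj_arg (p : Prog) : ∀ (i : ℕ) {L : LProg}, L.Small → (p.adj i L).Small := by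
  induction p with
  | inp j => intro i L h; simp only [Prog.adj]; split <;> trivial
  | zero => intros; trivial
  | add p q hp hq => intro i L h; exact ⟨hp i h, hq i h⟩
  | smul c p hp => intro i L h; exact hp i (L := L) h
  | call ℓ τ p hp => intro i L h; exact hp i (L := .hess ℓ τ p L) trivial
  | bind p Δ b hp hb =>
    intro i L h
    exact ⟨hb (i + 1) ((small_lift L 0).2 h),
      hp i (L := .bind p Δ (b.adj 0 (L.lift 0))) (hb 0 ((small_lift L 0).2 h))⟩

/-- The transposed derivative of a small program is small. -/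
theorem small_adj {p : Prog} : p.Small → ∀ (i : ℕ) (L : LProg), (p.adj i L).Small := by
  induction p with
  | inp j => exact fun h => h.elim
  | zero => intros; trivial
  | add p q hp hq => intro h i L; exact ⟨hp h.1 i L, hq h.2 i L⟩
  | smul c p hp => intro h i L; exact hp h i L
  | call ℓ τ p hp => intro h i L; exact small_adj_arg p i (L := .hess ℓ τ p L) trivial
  | bind p Δ b hp hb =>
    intro h i L
    exact ⟨hb h _ _, small_adj_arg p i (L := .bind p Δ (b.adj 0 (L.lift 0))) (hb h _ _)⟩

variable {δ : ℕ → ℝ} {r B T : ℝ} {v : ℕ → ℝ}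

theorem sensLe_zero (hB : 0 ≤ B) (L : LProg) : L.SensLe δ B 0 := by
  induction L with
  | id => trivial
  | zero => trivial
  | add L M hL hM => exact ⟨hL, hM⟩
  | smul a L hL => exact hL
  | hess ℓ τ q L hL => exact ⟨(q.lip_zero_v δ).le.trans hB, q.sensLe_zero hB, hL⟩
  | bind p Δ L hL =>
    refine ⟨p.sensLe_zero hB, ?_⟩
    rw [Prog.lip_zero_v, pushR_zero]
    exact hL

theorem SensLe.smul {c : ℝ} (hc : 0 ≤ c) {L : LProg} :
    ∀ {v : ℕ → ℝ}, L.SensLe δ B v → L.SensLe δ (c * B) (c • v) := by
  induction L with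
  | id => intros; trivial
  | zero => intros; trivial
  | add L M hL hM => intro v h; exact ⟨hL h.1, hM h.2⟩
  | smul a L hL => intro v h; exact hL (v := v) h
  | hess ℓ τ q L hL =>
    intro v h
    exact ⟨by rw [Prog.lip_smul_v]; exact mul_le_mul_of_nonneg_left h.1 hc, h.2.1.smul hc,
      hL h.2.2⟩
  | bind p Δ L hL =>
    intro v h
    refine ⟨h.1.smul hc, ?_⟩
    rw [Prog.lip_smul_v, pushR_smul]
    exact hL h.2

/-- The product of two programs of linear maps. -/
def comp : LProg → LProg → LProg
  | .id, M => M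
  | .zero, _ => .zero
  | .add L L', M => .add (L.comp M) (L'.comp M)
  | .smul c L, M => .smul c (L.comp M)
  | .hess ℓ τ q L, M => .hess ℓ τ q (L.comp M)
  | .bind p Δ L, M => .bind p Δ (L.comp (M.lift 0))

theorem app_comp {d : ℕ} {h : ℕ → E d → E d} (L : LProg) : ∀ (M : LProg) (env : Env d) (x : E d),
    (L.comp M).app h env x = L.app h env (M.app h env x) := by
  induction L with
  | id => intros; rfl
  | zero => intros; rfl
  | add L L' hL hL' => intro M env x; simp only [comp, LProg.app, hL, hL']
  | smul c L hL => intro M env x; simp only [comp, LProg.app, hL]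
  | hess ℓ τ q L hL => intro M env x; simp only [comp, LProg.app, hL]
  | bind p Δ L hL => intro M env x; simp only [comp, LProg.app, hL, app_lift_push]

theorem norm'_comp (δ : ℕ → ℝ) (L : LProg) : ∀ M : LProg,
    (L.comp M).norm' δ = L.norm' δ * M.norm' δ := by
  induction L with
  | id => intro M; simp [comp, LProg.norm']
  | zero => intro M; simp [comp, LProg.norm']
  | add L L' hL hL' => intro M; simp only [comp, LProg.norm', hL, hL']; ring
  | smul c L hL => intro M; simp only [comp, LProg.norm', hL]; ring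
  | hess ℓ τ q L hL => intro M; simp only [comp, LProg.norm', hL]; ring
  | bind p Δ L hL => intro M; simp only [comp, LProg.norm', hL, norm'_lift]

theorem norm'_transp (δ : ℕ → ℝ) (L : LProg) : ∀ M : LProg,
    (L.transp M).norm' δ = L.norm' δ * M.norm' δ := by
  induction L with
  | id => intro M; simp [LProg.transp, LProg.norm']
  | zero => intro M; simp [LProg.transp, LProg.norm']
  | add L L' hL hL' => intro M; simp only [LProg.transp, LProg.norm', hL, hL']; ring
  | smul c L hL => intro M; simp only [LProg.transp, LProg.norm', hL]; ring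
  | hess ℓ τ q L hL => intro M; simp only [LProg.transp, LProg.norm', hL]; ring
  | bind p Δ L hL => intro M; simp only [LProg.transp, LProg.norm', hL, norm'_lift]

theorem depth_comp (L : LProg) : ∀ M : LProg, (L.comp M).depth ≤ L.depth + M.depth := by
  induction L with
  | id => intro M; simp [comp, LProg.depth]
  | zero => intro M; simp [comp, LProg.depth]
  | add L L' hL hL' =>
    intro M; have := hL M; have := hL' M; simp only [comp, LProg.depth]; omega
  | smul c L hL => intro M; exact hL M
  | hess ℓ τ q L hL => intro M; have := hL M; simp only [comp, LProg.depth]; omega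
  | bind p Δ L hL =>
    intro M; have := hL (M.lift 0); rw [depth_lift] at this; simp only [comp, LProg.depth]; omega

theorem depth_transp (L : LProg) : ∀ M : LProg,
    (L.transp M).depth ≤ L.depth * (L.depth + 1) + M.depth := by
  induction L with
  | id => intro M; simp [LProg.transp, LProg.depth]
  | zero => intro M; simp [LProg.transp, LProg.depth]
  | add L L' hL hL' =>
    intro M
    have h1 := hL M
    have h2 := hL' M
    simp only [LProg.transp, LProg.depth]
    set m := max L.depth L'.depth
    have a1 : L.depth * (L.depth + 1) ≤ m * (m + 1) := Nat.mul_le_mul (by omega) (by omega)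
    have a2 : L'.depth * (L'.depth + 1) ≤ m * (m + 1) := Nat.mul_le_mul (by omega) (by omega)
    omega
  | smul c L hL => intro M; exact hL M
  | hess ℓ τ q L hL =>
    intro M
    have h1 := hL (.hess ℓ τ q M)
    simp only [LProg.transp, LProg.depth] at *
    set m := max q.depth L.depth
    have a1 : L.depth * (L.depth + 1) ≤ m * (m + 1) := Nat.mul_le_mul (by omega) (by omega)
    have a2 : (m + 1) * (m + 1 + 1) = m * (m + 1) + 2 * (m + 1) := by ring
    omega
  | bind p Δ L hL =>
    intro M
    have h1 := hL (M.lift 0)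
    rw [depth_lift] at h1
    simp only [LProg.transp, LProg.depth]
    set m := max p.depth L.depth
    have a1 : L.depth * (L.depth + 1) ≤ m * (m + 1) := Nat.mul_le_mul (by omega) (by omega)
    have a2 : (m + 1) * (m + 1 + 1) = m * (m + 1) + 2 * (m + 1) := by ring
    omega

theorem nodes_pos (L : LProg) : 1 ≤ L.nodes := by
  cases L <;> simp [LProg.nodes]

theorem nodes_comp (L : LProg) : ∀ M : LProg, (L.comp M).nodes ≤ L.nodes * (M.nodes + 1) := by
  induction L with
  | id => intro M; simp [comp, LProg.nodes]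
  | zero => intro M; simp [comp, LProg.nodes]
  | add L L' hL hL' =>
    intro M; have := hL M; have := hL' M; simp only [comp, LProg.nodes]; nlinarith
  | smul c L hL => intro M; have := hL M; simp only [comp, LProg.nodes]; nlinarith
  | hess ℓ τ q L hL => intro M; have := hL M; simp only [comp, LProg.nodes]; nlinarith
  | bind p Δ L hL =>
    intro M; have := hL (M.lift 0); rw [nodes_lift] at this; simp only [comp, LProg.nodes]; nlinarith

theorem nodes_transp (L : LProg) : ∀ M : LProg,
    (L.transp M).nodes ≤ L.nodes * (L.nodes + M.nodes + 1) := by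
  induction L with
  | id => intro M; simp [LProg.transp, LProg.nodes]; omega
  | zero => intro M; simp [LProg.transp, LProg.nodes]
  | add L L' hL hL' =>
    intro M; have := hL M; have := hL' M; simp only [LProg.transp, LProg.nodes]; nlinarith
  | smul c L hL => intro M; have := hL M; simp only [LProg.transp, LProg.nodes]; nlinarith
  | hess ℓ τ q L hL =>
    intro M; have := hL (.hess ℓ τ q M); simp only [LProg.transp, LProg.nodes] at *; nlinarith
  | bind p Δ L hL =>
    intro M; have := hL (M.lift 0); rw [nodes_lift] at this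
    simp only [LProg.transp, LProg.nodes]; nlinarith

theorem sensLe_comp (L : LProg) : ∀ (M : LProg) {v : ℕ → ℝ}, L.SensLe δ B v → M.SensLe δ B v →
    (L.comp M).SensLe δ B v := by
  induction L with
  | id => intro M v h h'; exact h'
  | zero => intros; trivial
  | add L L' hL hL' => intro M v h h'; exact ⟨hL M h.1 h', hL' M h.2 h'⟩
  | smul c L hL => intro M v h h'; exact hL M (v := v) h h'
  | hess ℓ τ q L hL => intro M v h h'; exact ⟨h.1, h.2.1, hL M h.2.2 h'⟩
  | bind p Δ L hL =>
    intro M v h h'
    refine ⟨h.1, hL _ h.2 ?_⟩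
    rw [sensLe_lift, pushR_comp_shiftUp_zero]
    exact h'

theorem sensLe_transpW (L : LProg) : ∀ (M : LProg) {v : ℕ → ℝ}, L.SensLe δ B v → M.SensLe δ B v →
    (L.transp M).SensLe δ B v := by
  induction L with
  | id => intro M v h h'; exact h'
  | zero => intros; trivial
  | add L L' hL hL' => intro M v h h'; exact ⟨hL M h.1 h', hL' M h.2 h'⟩
  | smul c L hL => intro M v h h'; exact hL M (v := v) h h'
  | hess ℓ τ q L hL =>
    intro M v h h'; exact hL (.hess ℓ τ q M) (v := v) h.2.2 ⟨h.1, h.2.1, h'⟩
  | bind p Δ L hL =>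
    intro M v h h'
    refine ⟨h.1, hL _ h.2 ?_⟩
    rw [sensLe_lift, pushR_comp_shiftUp_zero]
    exact h'

theorem wf_comp (hB : 0 ≤ B) (L : LProg) : ∀ M : LProg, L.WF δ r B T → M.WF δ r B T →
    (L.comp M).WF δ r B T := by
  induction L with
  | id => intro M h h'; exact h'
  | zero => intros; trivial
  | add L L' hL hL' => intro M h h'; exact ⟨hL M h.1 h', hL' M h.2 h'⟩
  | smul c L hL => intro M h h'; exact hL M h h'
  | hess ℓ τ q L hL =>
    intro M h h'
    exact ⟨h.1, h.2.1, h.2.2.1, h.2.2.2.1, hL M h.2.2.2.2 h'⟩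
  | bind p Δ L hL =>
    intro M h h'
    refine ⟨h.1, h.2.1, hL _ h.2.2.1 ((wf_lift δ r B T M 0).2 h'), h.2.2.2.1,
      sensLe_comp L _ h.2.2.2.2 ?_⟩
    rw [sensLe_lift, pushR_comp_shiftUp_zero]
    exact sensLe_zero hB M

theorem wf_transpW (hB : 0 ≤ B) (L : LProg) : ∀ M : LProg, L.WF δ r B T → M.WF δ r B T →
    (L.transp M).WF δ r B T := by
  induction L with
  | id => intro M h h'; exact h'
  | zero => intros; trivial
  | add L L' hL hL' => intro M h h'; exact ⟨hL M h.1 h', hL' M h.2 h'⟩
  | smul c L hL => intro M h h'; exact hL M h h'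
  | hess ℓ τ q L hL =>
    intro M h h'
    exact hL (.hess ℓ τ q M) h.2.2.2.2 ⟨h.1, h.2.1, h.2.2.1, h.2.2.2.1, h'⟩
  | bind p Δ L hL =>
    intro M h h'
    refine ⟨h.1, h.2.1, hL _ h.2.2.1 ((wf_lift δ r B T M 0).2 h'), h.2.2.2.1,
      sensLe_transpW L _ h.2.2.2.2 ?_⟩
    rw [sensLe_lift, pushR_comp_shiftUp_zero]
    exact sensLe_zero hB M

theorem levelGe_comp {l : ℕ} (L : LProg) : ∀ M : LProg, L.LevelGe l → M.LevelGe l →
    (L.comp M).LevelGe l := by
  induction L with
  | id => intro M h h'; exact h'
  | zero => intros; trivial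
  | add L L' hL hL' => intro M h h'; exact ⟨hL M h.1 h', hL' M h.2 h'⟩
  | smul c L hL => intro M h h'; exact hL M h h'
  | hess ℓ τ q L hL => intro M h h'; exact ⟨h.1, h.2.1, hL M h.2.2 h'⟩
  | bind p Δ L hL => intro M h h'; exact ⟨h.1, hL _ h.2 ((levelGe_lift l M 0).2 h')⟩

theorem levelGe_transpW {l : ℕ} (L : LProg) : ∀ M : LProg, L.LevelGe l → M.LevelGe l →
    (L.transp M).LevelGe l := by
  induction L with
  | id => intro M h h'; exact h'
  | zero => intros; trivial
  | add L L' hL hL' => intro M h h'; exact ⟨hL M h.1 h', hL' M h.2 h'⟩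
  | smul c L hL => intro M h h'; exact hL M h h'
  | hess ℓ τ q L hL => intro M h h'; exact hL (.hess ℓ τ q M) h.2.2 ⟨h.1, h.2.1, h'⟩
  | bind p Δ L hL => intro M h h'; exact ⟨h.1, hL _ h.2 ((levelGe_lift l M 0).2 h')⟩

/-- The coefficient of the identity in a program of linear maps. -/
def idc : LProg → ℝ
  | .id => 1
  | .zero => 0
  | .add L M => L.idc + M.idc
  | .smul c L => c * L.idc
  | .hess _ _ _ _ => 0
  | .bind _ _ L => L.idc

theorem abs_idc_le (hδ : 0 ≤ δ) (L : LProg) : |L.idc| ≤ L.norm' δ := by
  induction L with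
  | id => simp [idc, LProg.norm']
  | zero => simp [idc, LProg.norm']
  | add L M hL hM => exact (abs_add_le _ _).trans (add_le_add hL hM)
  | smul c L hL =>
    rw [idc, abs_mul]
    exact mul_le_mul_of_nonneg_left hL (abs_nonneg c)
  | hess ℓ τ q L hL => simpa [idc, LProg.norm'] using mul_nonneg (hδ ℓ) (norm'_nonneg hδ L)
  | bind p Δ L hL => exact hL

theorem idc_eq_zero (L : LProg) : L.Small → L.idc = 0 := by
  induction L with
  | id => exact fun h => h.elim
  | zero => intro; rfl
  | add L M hL hM => intro h; simp [idc, hL h.1, hM h.2]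
  | smul c L hL => intro h; simp [idc, hL h]
  | hess ℓ τ q L hL => intro; rfl
  | bind p Δ L hL => intro h; simp [idc, hL h]

/-- The word whose map is a truncated series of `1 - √(1 - s² L L†)`: it starts at `0` and each
step replaces `U` by `(s² L L† + U²) / 2`. -/
noncomputable def sqrtWord (s : ℝ) (L : LProg) : ℕ → LProg
  | 0 => .zero
  | m + 1 => .smul (1 / 2) (.add (.smul (s ^ 2) (L.comp (L.transp .id)))
      ((sqrtWord s L m).comp (sqrtWord s L m)))

theorem norm'_sqrtWord {s θ : ℝ} (hθ0 : 0 ≤ θ) (hθ1 : θ ≤ 1) (hδ : 0 ≤ δ) (L : LProg)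
    (h : |s| * L.norm' δ ≤ θ) : ∀ m, (sqrtWord s L m).norm' δ ≤ θ ^ 2 := by
  intro m
  have hn := norm'_nonneg hδ L
  have h2 : s ^ 2 * (L.norm' δ * L.norm' δ) ≤ θ ^ 2 := by
    rw [← sq_abs s, ← sq (L.norm' δ), ← mul_pow]
    exact pow_le_pow_left₀ (mul_nonneg (abs_nonneg s) hn) h 2
  induction m with
  | zero => exact sq_nonneg θ
  | succ m ih =>
    simp only [sqrtWord, LProg.norm', norm'_comp, norm'_transp, abs_of_nonneg (sq_nonneg s), mul_one,
      abs_of_nonneg (show (0 : ℝ) ≤ 1 / 2 by norm_num)]
    have h0 := norm'_nonneg hδ (sqrtWord s L m)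
    nlinarith [mul_le_mul ih ih h0 (sq_nonneg θ), pow_le_one₀ (n := 2) hθ0 hθ1, sq_nonneg θ]

theorem sensLe_sqrtWord (s : ℝ) (L : LProg) {v : ℕ → ℝ} (h : L.SensLe δ B v) :
    ∀ m, (sqrtWord s L m).SensLe δ B v := by
  intro m
  induction m with
  | zero => trivial
  | succ m ih =>
    exact ⟨sensLe_comp _ _ h (sensLe_transpW _ _ h trivial), sensLe_comp _ _ ih ih⟩

theorem wf_sqrtWord (hB : 0 ≤ B) (s : ℝ) (L : LProg) (h : L.WF δ r B T) :
    ∀ m, (sqrtWord s L m).WF δ r B T := by
  intro m
  induction m with
  | zero => trivial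
  | succ m ih => exact ⟨wf_comp hB _ _ h (wf_transpW hB _ _ h trivial), wf_comp hB _ _ ih ih⟩

theorem levelGe_sqrtWord {l : ℕ} (s : ℝ) (L : LProg) (h : L.LevelGe l) :
    ∀ m, (sqrtWord s L m).LevelGe l := by
  intro m
  induction m with
  | zero => trivial
  | succ m ih => exact ⟨levelGe_comp _ _ h (levelGe_transpW _ _ h trivial), levelGe_comp _ _ ih ih⟩

theorem depth_sqrtWord (s : ℝ) (L : LProg) :
    ∀ m, (sqrtWord s L m).depth ≤ 2 ^ m * (L.depth * (L.depth + 2)) := by
  intro m
  induction m with
  | zero => simp [sqrtWord, LProg.depth]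
  | succ m ih =>
    have h1 := depth_comp L (L.transp .id)
    have h2 := depth_transp L .id
    have h3 := depth_comp (sqrtWord s L m) (sqrtWord s L m)
    have h4 := Nat.le_mul_of_pos_left (L.depth * (L.depth + 2)) (Nat.one_le_two_pow (n := m + 1))
    have h5 : L.depth * (L.depth + 2) = L.depth * (L.depth + 1) + L.depth := by ring
    have h6 : 2 ^ (m + 1) * (L.depth * (L.depth + 2)) = 2 * (2 ^ m * (L.depth * (L.depth + 2))) := by
      ring
    simp only [sqrtWord, LProg.depth] at *
    omega

theorem nodes_sqrtWord (m : ℕ) : ∃ e : ℕ, ∀ (s : ℝ) (L : LProg),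
    (sqrtWord s L m).nodes ≤ (8 * L.nodes) ^ e := by
  induction m with
  | zero => exact ⟨0, fun s L => by simp [sqrtWord, LProg.nodes]⟩
  | succ m ih =>
    obtain ⟨e, he⟩ := ih
    refine ⟨2 * e + 4, fun s L => ?_⟩
    have hL := nodes_pos L
    have h1 := nodes_comp L (L.transp .id)
    have h2 := nodes_transp L .id
    have h3 := nodes_comp (sqrtWord s L m) (sqrtWord s L m)
    have h4 := he s L
    have hp : 1 ≤ (8 * L.nodes) ^ e := Nat.one_le_pow _ _ (by omega)
    simp only [sqrtWord, LProg.nodes] at *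
    set n := L.nodes
    set P := (8 * n) ^ e
    have e1 : (8 * n) ^ (2 * e + 4) = P * P * (8 * n) ^ 4 := by
      rw [pow_add, two_mul, pow_add]
    have a1 : (L.transp .id).nodes ≤ 3 * n * n := h2.trans (by nlinarith)
    have a2 : (L.comp (L.transp .id)).nodes ≤ 4 * n ^ 3 := h1.trans (by
      nlinarith [Nat.mul_le_mul hL hL, Nat.mul_le_mul_left n a1])
    have a3 : ((sqrtWord s L m).comp (sqrtWord s L m)).nodes ≤ 2 * (P * P) :=
      h3.trans (by nlinarith)
    have a4 : n ^ 3 ≤ n ^ 4 := Nat.pow_le_pow_right hL (by norm_num)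
    have a5 : 1 ≤ n ^ 4 := Nat.one_le_pow _ _ hL
    have a6 : 1 * n ^ 4 ≤ P * P * n ^ 4 := Nat.mul_le_mul_right _ (Nat.mul_le_mul hp hp)
    have a7 : P * P * 1 ≤ P * P * n ^ 4 := Nat.mul_le_mul_left _ a5
    rw [e1, mul_pow]
    nlinarith

end LProg

end Vale.Agent.P347
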