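import Vale.Agent.P347Zero.Field

/-!
P347: the interfaces between programs and samplers.
-/

open MeasureTheory ProbabilityTheory Real

namespace Vale.Agent.P347

/-- The part of the size of a program that is due to the fields it samples last. -/
noncomputable def Prog.mass (δ : ℕ → ℝ) (r : ℝ) : Prog → ℝ
  | .inp _ => 0
  | .zero => 0
  | .add p q => p.mass δ r + q.mass δ r
  | .smul c p => |c| * p.mass δ r
  | .call ℓ _ _ => δ ℓ * r
  | .bind _ _ b => b.mass δ r

variable (d : ℕ)

/-- A random map computed with `q` queries whose mean distance to `m` is at most `e`. -/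
def Est (q : ℕ) {α : Type} [MeasurableSpace α] (m : (E d → ℝ) → α → E d) (e : α → ℝ) : Prop :=
  ∃ (S : Type) (_ : MeasurableSpace S) (_ : StandardBorelSpace S) (law : Measure S)
    (_ : IsProbabilityMeasure law) (F : (E d → ℝ) → α × S → E d),
    (∀ (β : Type) [MeasurableSpace β] (g : β → α × S), Measurable g →
      Comp d q fun V b => (b, F V (g b))) ∧
    ∀ V, InClass d V → ∀ a, Integrable (fun s => ‖F V (a, s) - m V a‖) law ∧
      ∫ s, ‖F V (a, s) - m V a‖ ∂law ≤ e a

/-- A family of fields depending on the potential and on the centre `y`. -/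
abbrev Fam := (E d → ℝ) → E d → ℕ → E d → E d

variable {d}

/-- Every field at levels at least `ℓ₀` has a crude estimator. -/
def LeafEst (H : Fam d) (δ : ℕ → ℝ) (r : ℝ) (ℓ₀ q : ℕ) (Λ : E d → ℝ) : Prop :=
  ∀ ℓ, ℓ₀ ≤ ℓ → Est d q (fun V (a : E d × E d) => H V a.1 ℓ a.2) fun a => δ ℓ * r * Λ a.1

/-- At the inflation `c` a value of a field at levels at least `ℓ₀` can be sampled, with noise below
`u` in units of its inflated size, up to `E₁` times that size and `e` in addition. -/
def LeafSmp (H : Fam d) (δ : ℕ → ℝ) (r c u : ℝ) (ℓ₀ q : ℕ) (E₁ e : E d → ℝ) : Prop :=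
  ∀ ℓ, ℓ₀ ≤ ℓ → ∀ lam : ℝ, 0 ≤ lam → lam * (c * δ ℓ * r) ≤ u →
    Smp d q (fun V (a : E d × E d) => lam • H V a.1 ℓ a.2)
      fun a => lam * (c * δ ℓ * r) * E₁ a.1 + e a.1

/-- The relative accuracy after `n` rounds of compensation at inflation level `m`. -/
noncomputable def accR (κ : ℝ) (n m : ℕ) : ℝ :=
  (√(√κ) ^ n)⁻¹ + (√(√κ) ^ (m * (m + 1)))⁻¹

end Vale.Agent.P347
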