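import Vale.Agent.P347.FlowBasic

/-!
P347: the cut-off of a potential. The value `R - R 0` is multiplied by `(1 + ‖x‖² / ρ²)⁻¹`: the
gradient becomes bounded by `3 δ ρ`, stays `9 δ`-Lipschitz, and is computed from the value and the
gradient of `R` at the same point.
-/

open MeasureTheory ProbabilityTheory Real Filter
open scoped RealInnerProductSpace Topology

noncomputable section

namespace Vale.Agent.P347

variable {d : ℕ}

/-- The cut-off factor. -/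
def cutP (ρ : ℝ) (x : E d) : ℝ := (1 + ‖x‖ ^ 2 / ρ ^ 2)⁻¹

/-- The cut-off gradient from the point, the value above the origin and the gradient there. -/
def cutOf (ρ : ℝ) (x : E d) (a : ℝ) (b : E d) : E d :=
  cutP ρ x • b + (a * (-(2 / ρ ^ 2) * cutP ρ x ^ 2)) • x

/-- The cut-off potential. -/
def cutPart (ρ : ℝ) (R : E d → ℝ) (x : E d) : ℝ := cutP ρ x * (R x - R 0)

/-- The gradient of the cut-off potential. -/
def cutG (ρ : ℝ) (R : E d → ℝ) (g : E d → E d) (x : E d) : E d := cutOf ρ x (R x - R 0) (g x)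

lemma cutP_pos (ρ : ℝ) (x : E d) : 0 < cutP ρ x := by unfold cutP; positivity

lemma cutP_le_one (ρ : ℝ) (x : E d) : cutP ρ x ≤ 1 :=
  inv_le_one_of_one_le₀ (le_add_of_nonneg_right (by positivity))

lemma cutP_zero (ρ : ℝ) : cutP ρ (0 : E d) = 1 := by simp [cutP]

lemma cutP_rel {ρ : ℝ} (hρ : 0 < ρ) (x : E d) :
    cutP ρ x * (‖x‖ / ρ) ^ 2 = 1 - cutP ρ x := by
  unfold cutP; field_simp; ring

lemma cutP_mul_le {ρ : ℝ} (hρ : 0 < ρ) (x : E d) : cutP ρ x * (‖x‖ / ρ) ≤ 1 / 2 := by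
  nlinarith [cutP_rel hρ x, mul_nonneg (cutP_pos ρ x).le (sq_nonneg (‖x‖ / ρ - 1))]

lemma hasFDerivAt_cutP (ρ : ℝ) (x : E d) :
    HasFDerivAt (cutP ρ) ((-(2 / ρ ^ 2) * cutP ρ x ^ 2) • innerSL ℝ x) x := by
  have h1 : HasFDerivAt (fun y : E d => 1 + ‖y‖ ^ 2 / ρ ^ 2) ((2 / ρ ^ 2) • innerSL ℝ x) x := by
    have h := (((hasStrictFDerivAt_norm_sq x).hasFDerivAt).mul_const (ρ ^ 2)⁻¹).const_add 1
    simp only [div_eq_mul_inv]
    refine h.congr_fderiv ?_
    ext v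
    simp only [smul_apply, innerSL_apply_apply, smul_eq_mul, nsmul_eq_mul,
      Nat.cast_ofNat]
    ring
  have h2 := (hasDerivAt_inv (x := 1 + ‖x‖ ^ 2 / ρ ^ 2) (by positivity)).comp_hasFDerivAt x h1
  refine h2.congr_fderiv ?_
  rw [smul_smul, cutP, inv_pow]
  congr 1
  ring

namespace Pot

variable {δ r0 ρ : ℝ} {R : E d → ℝ} {g : E d → E d}

lemma hasFDerivAt_cutR (h : Pot d δ r0 R g) (x : E d) :
    HasFDerivAt (cutPart ρ R) (innerSL ℝ (cutG ρ R g x)) x := by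
  refine ((hasFDerivAt_cutP ρ x).mul ((h.hasGrad x).sub_const (R 0))).congr_fderiv ?_
  ext v
  simp only [cutG, cutOf, add_apply, smul_apply,
    innerSL_apply_apply, smul_eq_mul, inner_add_left, real_inner_smul_left]
  ring

/-- The scalar part of the second term of the cut-off gradient. -/
def cutU (ρ : ℝ) (R : E d → ℝ) (x : E d) : ℝ := (R x - R 0) * (-(2 / ρ ^ 2) * cutP ρ x ^ 2)

lemma abs_val_le (h : Pot d δ r0 R g) (hρ : 0 < ρ) (hr : r0 ≤ δ * ρ) (x : E d) :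
    |R x - R 0| ≤ δ * ρ ^ 2 * ((‖x‖ / ρ) ^ 2 + ‖x‖ / ρ) := by
  refine (h.abs_sub_le x).trans ?_
  have h1 : r0 * ‖x‖ ≤ δ * ρ * ‖x‖ := mul_le_mul_of_nonneg_right hr (norm_nonneg x)
  have h2 : δ * ρ ^ 2 * ((‖x‖ / ρ) ^ 2 + ‖x‖ / ρ) = δ * ‖x‖ * ‖x‖ + δ * ρ * ‖x‖ := by
    field_simp
  linarith [add_mul (δ * ‖x‖) r0 ‖x‖]

lemma norm_grad_le (h : Pot d δ r0 R g) (hρ : 0 < ρ) (hr : r0 ≤ δ * ρ) (x : E d) :
    ‖g x‖ ≤ δ * ρ * (‖x‖ / ρ + 1) := by
  refine (h.norm_le x).trans ?_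
  have : δ * ρ * (‖x‖ / ρ + 1) = δ * ‖x‖ + δ * ρ := by field_simp
  linarith

lemma abs_cutU_le (h : Pot d δ r0 R g) (hρ : 0 < ρ) (hr : r0 ≤ δ * ρ) (x : E d) :
    |cutU ρ R x| ≤ 2 * δ * ((cutP ρ x * (‖x‖ / ρ)) ^ 2 + cutP ρ x * (cutP ρ x * (‖x‖ / ρ))) := by
  rw [cutU, abs_mul, abs_mul, abs_neg, abs_of_nonneg (by positivity : (0 : ℝ) ≤ 2 / ρ ^ 2),
    abs_of_nonneg (sq_nonneg (cutP ρ x))]
  refine (mul_le_mul_of_nonneg_right (h.abs_val_le hρ hr x) (by positivity)).trans_eq ?_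
  field_simp

lemma norm_cutG_le (h : Pot d δ r0 R g) (hρ : 0 < ρ) (hr : r0 ≤ δ * ρ) (x : E d) :
    ‖cutG ρ R g x‖ ≤ 3 * δ * ρ := by
  have hp := cutP_pos ρ x
  have h1 := cutP_le_one ρ x
  have hδ := h.pos
  refine (norm_add_le _ _).trans ?_
  rw [norm_smul, norm_smul, norm_eq_abs, norm_eq_abs, abs_of_pos hp]
  have ha := mul_le_mul_of_nonneg_left (h.norm_grad_le hρ hr x) hp.le
  have hb := mul_le_mul_of_nonneg_right (h.abs_cutU_le hρ hr x) (norm_nonneg x)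
  have hh := cutP_mul_le hρ x
  have hrel := cutP_rel hρ x
  rw [cutU] at hb
  set p := cutP ρ x with hpdef
  set w := ‖x‖ / ρ with hw
  have hw0 : 0 ≤ w := by positivity
  have hx : ‖x‖ = ρ * w := by rw [hw]; field_simp
  rw [hx] at hb ⊢
  have e1 : p * w * (p * w ^ 2) ≤ 1 / 2 := by
    nlinarith [mul_nonneg hp.le hw0, mul_nonneg hp.le (sq_nonneg w)]
  have e2 : p * w * (p * w) ≤ 1 / 4 := by nlinarith [mul_nonneg hp.le hw0]
  nlinarith [mul_le_mul_of_nonneg_left e1 (mul_pos hδ hρ).le,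
    mul_le_mul_of_nonneg_left e2 (mul_pos hδ hρ).le,
    mul_le_mul_of_nonneg_left hh (mul_pos hδ hρ).le,
    mul_le_mul_of_nonneg_left h1 (mul_pos hδ hρ).le]

lemma hasFDerivAt_cutU (h : Pot d δ r0 R g) (x : E d) :
    HasFDerivAt (cutU ρ R)
      ((-(2 / ρ ^ 2) * cutP ρ x ^ 2) • innerSL ℝ (g x)
        + ((R x - R 0) * (8 / ρ ^ 4 * cutP ρ x ^ 3)) • innerSL ℝ x) x := by
  refine (((h.hasGrad x).sub_const (R 0)).mul
    (((hasFDerivAt_cutP ρ x).pow 2).const_mul (-(2 / ρ ^ 2)))).congr_fderiv ?_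
  ext v
  simp only [add_apply, smul_apply, innerSL_apply_apply,
    smul_eq_mul, nsmul_eq_mul, Nat.cast_ofNat]
  ring

lemma contDiff_cutG (h : Pot d δ r0 R g) : ContDiff ℝ 1 (cutG ρ R g) := by
  have hP : ContDiff ℝ 1 (cutP ρ : E d → ℝ) :=
    ContDiff.inv (contDiff_const.add ((contDiff_norm_sq ℝ).div_const _)) fun x => by positivity
  exact (hP.smul h.smooth).add
    (((h.smoothR.sub contDiff_const).mul (contDiff_const.mul (hP.pow 2))).smul contDiff_id)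

lemma norm_fderiv_cutG_le (h : Pot d δ r0 R g) (hρ : 0 < ρ) (hr : r0 ≤ δ * ρ) (x : E d) :
    ‖fderiv ℝ (cutG ρ R g) x‖ ≤ 9 * δ := by
  have hd : HasFDerivAt (fun y => cutP ρ y • g y + cutU ρ R y • y) _ x :=
    ((hasFDerivAt_cutP ρ x).smul (h.smooth.differentiable one_ne_zero x).hasFDerivAt).add
      ((h.hasFDerivAt_cutU x).smul (hasFDerivAt_id x))
  show ‖fderiv ℝ (fun y => cutP ρ y • g y + cutU ρ R y • y) x‖ ≤ 9 * δ
  rw [hd.fderiv]
  have hp := cutP_pos ρ x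
  have h1 := cutP_le_one ρ x
  have hδ := h.pos
  have hh := cutP_mul_le hρ x
  have hrel := cutP_rel hρ x
  have hU := h.abs_cutU_le hρ hr x
  have hG := h.norm_grad_le hρ hr x
  have hA := h.abs_val_le hρ hr x
  set p := cutP ρ x with hpdef
  set w := ‖x‖ / ρ with hw
  have hw0 : 0 ≤ w := by positivity
  have hx : ‖x‖ = ρ * w := by rw [hw]; field_simp
  have f1 : ‖p • fderiv ℝ g x‖ ≤ δ := by
    rw [norm_smul, norm_eq_abs, abs_of_pos hp]
    nlinarith [h.norm_fderiv_g x, norm_nonneg (fderiv ℝ g x)]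
  have f2 : ‖((-(2 / ρ ^ 2) * p ^ 2) • innerSL ℝ x).smulRight (g x)‖ ≤ 2 * δ := by
    rw [ContinuousLinearMap.norm_smulRight_apply, norm_smul, innerSL_apply_norm, norm_eq_abs,
      abs_mul, abs_neg, abs_of_nonneg (by positivity : (0 : ℝ) ≤ 2 / ρ ^ 2),
      abs_of_nonneg (sq_nonneg p)]
    refine (mul_le_mul_of_nonneg_left hG (by positivity)).trans ?_
    rw [hx, show 2 / ρ ^ 2 * p ^ 2 * (ρ * w) * (δ * ρ * (w + 1))
      = δ * (2 * (p * w) * (p * w) + 2 * p * (p * w)) by field_simp]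
    have hi : 2 * (p * w) * (p * w) + 2 * p * (p * w) ≤ 2 := by
      nlinarith [mul_nonneg hp.le hw0]
    linarith [mul_le_mul_of_nonneg_left hi hδ.le]
  have f3 : |cutU ρ R x| ≤ 2 * δ := by
    refine hU.trans ?_
    have hi : (p * w) ^ 2 + p * (p * w) ≤ 1 := by nlinarith [mul_nonneg hp.le hw0]
    nlinarith [mul_le_mul_of_nonneg_left hi hδ.le]
  have f4 : ‖((-(2 / ρ ^ 2) * p ^ 2) • innerSL ℝ (g x)
        + ((R x - R 0) * (8 / ρ ^ 4 * p ^ 3)) • innerSL ℝ x).smulRight x‖ ≤ 4 * δ := by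
    rw [ContinuousLinearMap.norm_smulRight_apply]
    refine (mul_le_mul_of_nonneg_right (norm_add_le _ _) (norm_nonneg x)).trans ?_
    rw [norm_smul, norm_smul, innerSL_apply_norm, innerSL_apply_norm, norm_eq_abs, norm_eq_abs,
      abs_mul, abs_mul, abs_neg, abs_of_nonneg (by positivity : (0 : ℝ) ≤ 2 / ρ ^ 2),
      abs_of_nonneg (sq_nonneg p), abs_of_nonneg (by positivity : (0 : ℝ) ≤ 8 / ρ ^ 4 * p ^ 3)]
    calc (2 / ρ ^ 2 * p ^ 2 * ‖g x‖ + |R x - R 0| * (8 / ρ ^ 4 * p ^ 3) * ‖x‖) * ‖x‖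
        ≤ (2 / ρ ^ 2 * p ^ 2 * (δ * ρ * (w + 1))
            + δ * ρ ^ 2 * (w ^ 2 + w) * (8 / ρ ^ 4 * p ^ 3) * ‖x‖) * ‖x‖ := by gcongr
      _ = δ * (2 * (p * w) * (p * w) + 2 * p * (p * w) + 8 * (p * w) ^ 2 * (p * w ^ 2)
            + 8 * (p * w) ^ 3) := by rw [hx]; field_simp; ring
      _ ≤ δ * 4 := by
          refine mul_le_mul_of_nonneg_left ?_ hδ.le
          have hpw := mul_nonneg hp.le hw0
          nlinarith [mul_le_mul hh hh hpw (by norm_num : (0 : ℝ) ≤ 1 / 2), mul_nonneg hp.le hpw]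
      _ = 4 * δ := by ring
  have f5 : ‖cutU ρ R x • ContinuousLinearMap.id ℝ (E d)‖ ≤ 2 * δ := by
    rw [norm_smul, norm_eq_abs]
    exact (mul_le_of_le_one_right (abs_nonneg _) ContinuousLinearMap.norm_id_le).trans f3
  exact (norm_add_le _ _).trans
    ((add_le_add ((norm_add_le _ _).trans (add_le_add f1 f2))
      ((norm_add_le _ _).trans (add_le_add f5 f4))).trans (le_of_eq (by ring)))

/-- The cut-off potential is a potential. -/
theorem pot_cut (h : Pot d δ r0 R g) (hρ : 0 < ρ) (hr : r0 ≤ δ * ρ) (hδ : 9 * δ ≤ 1 / 16) :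
    Pot d (9 * δ) r0 (cutPart ρ R) (cutG ρ R g) where
  pos := by linarith [h.pos]
  le_eighth := hδ
  r0_nonneg := h.r0_nonneg
  hasGrad := h.hasFDerivAt_cutR
  smooth := h.contDiff_cutG
  lip x y := convex_univ.norm_image_sub_le_of_norm_fderiv_le (𝕜 := ℝ)
    (fun z _ => h.contDiff_cutG.differentiable one_ne_zero z)
    (fun z _ => h.norm_fderiv_cutG_le hρ hr z) (Set.mem_univ y) (Set.mem_univ x)
  at_zero := by simpa [cutG, cutOf, cutP_zero] using h.at_zero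

/-- The cut-off changes the gradient by little near the origin. -/
lemma norm_sub_cutG_le (h : Pot d δ r0 R g) (hρ : 0 < ρ) (x : E d) :
    ‖g x - cutG ρ R g x‖ ≤ 2 * (δ + r0) * (1 + ‖x‖ ^ 2) / ρ := by
  have hp := cutP_pos ρ x
  have h1 := cutP_le_one ρ x
  have hδ := h.pos
  have hr0 := h.r0_nonneg
  have hh := cutP_mul_le hρ x
  have hrel := cutP_rel hρ x
  have hG := h.norm_le x
  have hA := h.abs_sub_le x
  have he : g x - cutG ρ R g x = (1 - cutP ρ x) • g x - cutU ρ R x • x := by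
    simp only [cutG, cutOf, cutU, sub_smul, one_smul]; abel
  rw [he]
  refine (norm_sub_le _ _).trans ?_
  rw [norm_smul, norm_smul, norm_eq_abs, norm_eq_abs, abs_of_nonneg (by linarith), cutU, abs_mul,
    abs_mul, abs_neg, abs_of_nonneg (by positivity : (0 : ℝ) ≤ 2 / ρ ^ 2),
    abs_of_nonneg (sq_nonneg (cutP ρ x))]
  set p := cutP ρ x with hpdef
  set w := ‖x‖ / ρ with hw
  have hw0 : 0 ≤ w := by positivity
  have hx : ‖x‖ = ρ * w := by rw [hw]; field_simp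
  have e0 : 1 - p ≤ w / 2 := by rw [← hrel]; nlinarith
  have e1 : 2 / ρ ^ 2 * p ^ 2 * ‖x‖ * ‖x‖ ≤ w := by
    rw [hx, show 2 / ρ ^ 2 * p ^ 2 * (ρ * w) * (ρ * w) = 2 * (p * w) * (p * w) by field_simp]
    nlinarith [mul_nonneg hp.le hw0, mul_le_mul_of_nonneg_right h1 hw0]
  have e2 : (δ * ‖x‖ + r0) * ‖x‖ ≤ (δ + r0) * (1 + ‖x‖ ^ 2) := by
    nlinarith [sq_nonneg (‖x‖ - 1), norm_nonneg x, mul_nonneg hr0 (sq_nonneg (‖x‖ - 1))]
  calc (1 - p) * ‖g x‖ + |R x - R 0| * (2 / ρ ^ 2 * p ^ 2) * ‖x‖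
      ≤ (1 - p) * (δ * ‖x‖ + r0) + (δ * ‖x‖ + r0) * ‖x‖ * (2 / ρ ^ 2 * p ^ 2) * ‖x‖ := by
        gcongr
    _ = (δ * ‖x‖ + r0) * ((1 - p) + 2 / ρ ^ 2 * p ^ 2 * ‖x‖ * ‖x‖) := by ring
    _ ≤ (δ * ‖x‖ + r0) * (2 * w) :=
        mul_le_mul_of_nonneg_left (by linarith) (by positivity)
    _ = 2 * ((δ * ‖x‖ + r0) * ‖x‖) / ρ := by rw [hw]; ring
    _ ≤ 2 * (δ + r0) * (1 + ‖x‖ ^ 2) / ρ := by rw [mul_assoc 2 (δ + r0)]; gcongr

/-- The Stein identity of the tilted law. -/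
lemma stein_identity (h : Pot d δ r0 R g) {f : E d → ℝ} (hf : ContDiff ℝ 2 f) {L K : ℝ}
    (hL : ∀ x, ‖fderiv ℝ f x‖ ≤ L) (hK : ∀ x, ‖fderiv ℝ (fderiv ℝ f) x‖ ≤ K) :
    ∫ x, ((∑ i, fderiv ℝ (fderiv ℝ f) x (EuclideanSpace.single i 1) (EuclideanSpace.single i 1))
      - fderiv ℝ f x (x + g x)) ∂tilt R = 0 := by
  have := h.isProb
  have hδ := h.pos
  have hr0 := h.r0_nonneg
  have hL0 : 0 ≤ L := (norm_nonneg _).trans (hL 0)
  have hK0 : 0 ≤ K := (ContinuousLinearMap.opNorm_nonneg _).trans (hK 0)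
  have hDf : ContDiff ℝ 1 (fderiv ℝ f) := hf.fderiv_right (m := 1) (by norm_num)
  set e : Fin d → E d := fun i => EuclideanSpace.single i 1 with he
  have hn : ∀ i, ‖e i‖ = 1 := fun i => by simp [he]
  set F : Fin d → E d → ℝ := fun i x => fderiv ℝ f x (e i) with hF
  have hF' : ∀ i x, HasFDerivAt (F i)
      ((ContinuousLinearMap.apply ℝ ℝ (e i)).comp (fderiv ℝ (fderiv ℝ f) x)) x := fun i x =>
    (ContinuousLinearMap.apply ℝ ℝ (e i)).hasFDerivAt.comp x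
      (hDf.differentiable one_ne_zero x).hasFDerivAt
  have hFd : ∀ i x v, fderiv ℝ (F i) x v = fderiv ℝ (fderiv ℝ f) x v (e i) := fun i x v => by
    rw [(hF' i x).fderiv]; rfl
  have hF0 : ∀ i x, |F i x| ≤ L := fun i x => by
    have := ((fderiv ℝ f x).le_opNorm (e i)).trans
      (mul_le_mul_of_nonneg_right (hL x) (norm_nonneg _))
    simpa [hn i] using this
  have hF1 : ∀ i x v, |fderiv ℝ (F i) x v| ≤ K * ‖v‖ := fun i x v => by
    rw [hFd, ← norm_eq_abs]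
    refine ((fderiv ℝ (fderiv ℝ f) x).le_opNorm₂ v (e i)).trans ?_
    rw [hn i, mul_one]
    exact mul_le_mul_of_nonneg_right (hK x) (norm_nonneg _)
  have hc : ∀ x : E d, 0 ≤ ‖x‖ := fun x => norm_nonneg x
  have iD : ∀ i, Integrable (fun x => fderiv ℝ (F i) x (e i)) (tilt R) := fun i =>
    h.integrable_tilt (((contDiff_one_iff_fderiv.1 (hDf.clm_apply contDiff_const)).2).clm_apply
      continuous_const) K 0 fun x => by simpa [hn i] using hF1 i x (e i)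
  have iG : ∀ i, Integrable (fun x => F i x * ⟪g x, e i⟫) (tilt R) := fun i =>
    h.integrable_tilt ((hDf.clm_apply contDiff_const).continuous.mul
      (h.contg.inner continuous_const)) (L * (δ + r0)) 1 fun x => by
      rw [norm_mul, norm_eq_abs, norm_eq_abs, mul_assoc]
      refine mul_le_mul (hF0 i x) ((abs_real_inner_le_norm _ _).trans ?_) (abs_nonneg _) hL0
      rw [hn i, mul_one, pow_one]
      nlinarith [h.norm_le x, hc x]
  have iX : ∀ i, Integrable (fun x => ⟪x, e i⟫ * F i x) (tilt R) := fun i =>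
    h.integrable_tilt ((continuous_id.inner continuous_const).mul
      (hDf.clm_apply contDiff_const).continuous) L 1 fun x => by
      rw [norm_mul, norm_eq_abs, norm_eq_abs, mul_comm L]
      refine mul_le_mul ((abs_real_inner_le_norm _ _).trans ?_) (hF0 i x) (abs_nonneg _)
        (by positivity)
      rw [hn i, mul_one, pow_one]; linarith
  have key : ∀ i, ∫ x, (fderiv ℝ (F i) x (e i) - ⟪x, e i⟫ * F i x - F i x * ⟪g x, e i⟫) ∂tilt R
      = 0 := fun i => by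
    rw [integral_sub (f := fun x => fderiv ℝ (F i) x (e i) - ⟪x, e i⟫ * F i x)
      ((iD i).sub (iX i)) (iG i), integral_sub (iD i) (iX i),
      h.ibp (hDf.clm_apply contDiff_const) (L + K) 0
        (fun x => by simpa using (hF0 i x).trans (le_add_of_nonneg_right hK0))
        (fun x => by
          refine ContinuousLinearMap.opNorm_le_bound _ (by positivity) fun v => ?_
          rw [pow_zero, mul_one, norm_eq_abs]
          exact (hF1 i x v).trans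
            (mul_le_mul_of_nonneg_right (le_add_of_nonneg_left hL0) (norm_nonneg _))) (e i),
      integral_sub (iD i) (iG i)]
    ring
  have hsum : ∀ x, (∑ i, fderiv ℝ (fderiv ℝ f) x (e i) (e i)) - fderiv ℝ f x (x + g x)
      = ∑ i, (fderiv ℝ (F i) x (e i) - ⟪x, e i⟫ * F i x - F i x * ⟪g x, e i⟫) := fun x => by
    have hv : x + g x = ∑ i, (⟪x, e i⟫ + ⟪g x, e i⟫) • e i := by
      ext j
      simp [he, EuclideanSpace.inner_single_right, Pi.single_apply, Finset.sum_apply]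
    rw [hv, map_sum, ← Finset.sum_sub_distrib]
    refine Finset.sum_congr rfl fun i _ => ?_
    rw [map_smul, smul_eq_mul, hFd]
    ring
  have iA : ∀ i ∈ (Finset.univ : Finset (Fin d)), Integrable
      (fun x => fderiv ℝ (F i) x (e i) - ⟪x, e i⟫ * F i x - F i x * ⟪g x, e i⟫) (tilt R) :=
    fun i _ => ((iD i).sub (iX i)).sub (iG i)
  rw [integral_congr_ae (ae_of_all _ hsum), integral_finsetSum _ iA]
  exact Finset.sum_eq_zero fun i _ => key i

end Pot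

end Vale.Agent.P347
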