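import Vale.Agent.P347.Gauss
import Vale.Agent.P347Zero.Defs

/-!
P347: continuously differentiable functions with polynomial growth, and their integrals against
products of standard Gaussian laws.
-/

open MeasureTheory ProbabilityTheory Real

namespace Vale.Agent.P347

variable {X Y F G H : Type*} [NormedAddCommGroup X] [NormedSpace ℝ X] [NormedAddCommGroup Y]
  [NormedSpace ℝ Y] [NormedAddCommGroup F] [NormedSpace ℝ F] [NormedAddCommGroup G] [NormedSpace ℝ G]
  [NormedAddCommGroup H] [NormedSpace ℝ H]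

/-- Polynomial growth. -/
def PolyLe (f : X → F) (K : ℝ) (n : ℕ) : Prop :=
  ∀ x, ‖f x‖ ≤ K * (1 + ‖x‖) ^ n

/-- Continuously differentiable with polynomial growth of the function and of its derivative. -/
def Tame (f : X → F) : Prop :=
  ContDiff ℝ 1 f ∧ ∃ (K : ℝ) (n : ℕ), 0 ≤ K ∧ PolyLe f K n ∧ PolyLe (fderiv ℝ f) K n

lemma one_le_pw (x : X) (n : ℕ) : (1 : ℝ) ≤ (1 + ‖x‖) ^ n :=
  one_le_pow₀ (by linarith [norm_nonneg x])

lemma PolyLe.mono {f : X → F} {K K' : ℝ} {n n' : ℕ} (h : PolyLe f K n) (hK : K ≤ K')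
    (hn : n ≤ n') (h0 : 0 ≤ K') : PolyLe f K' n' := fun x =>
  (h x).trans (mul_le_mul hK (pow_le_pow_right₀ (by linarith [norm_nonneg x]) hn) (by positivity) h0)

lemma PolyLe.of_bound {f : X → F} {K : ℝ} (h : ∀ x, ‖f x‖ ≤ K) : PolyLe f K 0 := fun x => by
  simpa using h x

lemma PolyLe.add {f g : X → F} {K K' : ℝ} {n n' : ℕ} (hf : PolyLe f K n) (hg : PolyLe g K' n')
    (h0 : 0 ≤ K) (h0' : 0 ≤ K') : PolyLe (fun x => f x + g x) (K + K') (n + n') := fun x => by
  rw [add_mul]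
  exact (norm_add_le _ _).trans (add_le_add ((hf.mono le_rfl (by omega) h0) x)
    ((hg.mono le_rfl (by omega) h0') x))

lemma PolyLe.apply {A : X → F →L[ℝ] G} {v : X → F} {K K' : ℝ} {n n' : ℕ} (hA : PolyLe A K n)
    (hv : PolyLe v K' n') (h0 : 0 ≤ K) : PolyLe (fun x => A x (v x)) (K * K') (n + n') := fun x => by
  refine ((A x).le_opNorm _).trans ?_
  rw [pow_add]
  exact (mul_le_mul (hA x) (hv x) (norm_nonneg _) (by positivity)).trans (le_of_eq (by ring))

lemma tame_of_lip {f : X → F} (hf : ContDiff ℝ 1 f) {L : ℝ} (h1 : ∀ x, ‖fderiv ℝ f x‖ ≤ L) :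
    Tame f := by
  have hL : 0 ≤ L := (norm_nonneg (fderiv ℝ f 0)).trans (h1 0)
  refine ⟨hf, ‖f 0‖ + L, 1, by positivity, fun x => ?_, fun x => ?_⟩
  · have h := Convex.norm_image_sub_le_of_norm_fderiv_le (𝕜 := ℝ)
      (fun x _ => hf.differentiable one_ne_zero x) (fun x _ => h1 x) convex_univ
      (Set.mem_univ (0 : X)) (Set.mem_univ x)
    rw [sub_zero] at h
    have h' : ‖f x‖ ≤ ‖f 0‖ + ‖f x - f 0‖ := by
      simpa using norm_add_le (f 0) (f x - f 0)
    rw [pow_one]
    nlinarith [norm_nonneg x, norm_nonneg (f 0)]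
  · exact (h1 x).trans ((le_add_of_nonneg_left (norm_nonneg _)).trans
      (le_mul_of_one_le_right (by positivity) (one_le_pw x 1)))

lemma tame_const (c : F) : Tame (fun _ : X => c) :=
  tame_of_lip contDiff_const (L := 0) fun x => by
    rw [fderiv_const_apply]
    exact le_of_eq ContinuousLinearMap.opNorm_zero

lemma tame_clm (T : X →L[ℝ] F) : Tame (fun x => T x) :=
  tame_of_lip T.contDiff (L := ‖T‖) fun x => by rw [T.fderiv]

lemma Tame.add {f g : X → F} (hf : Tame f) (hg : Tame g) : Tame (fun x => f x + g x) := by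
  obtain ⟨hc, K, n, hK, h0, h1⟩ := hf
  obtain ⟨hc', K', n', hK', h0', h1'⟩ := hg
  refine ⟨hc.add hc', K + K', n + n', by positivity, h0.add h0' hK hK', fun x => ?_⟩
  rw [show fderiv ℝ (fun x => f x + g x) x = fderiv ℝ f x + fderiv ℝ g x from
    fderiv_fun_add (hc.differentiable one_ne_zero x) (hc'.differentiable one_ne_zero x)]
  exact h1.add h1' hK hK' x

lemma Tame.clm {f : X → F} (hf : Tame f) (T : F →L[ℝ] G) : Tame (fun x => T (f x)) := by
  obtain ⟨hc, K, n, hK, h0, h1⟩ := hf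
  refine ⟨T.contDiff.comp hc, ‖T‖ * K, n, by positivity, fun x => ?_, fun x => ?_⟩
  · rw [mul_assoc]
    exact (T.le_opNorm _).trans (mul_le_mul_of_nonneg_left (h0 x) (norm_nonneg _))
  · rw [show fderiv ℝ (fun x => T (f x)) x = T.comp (fderiv ℝ f x) from
      (T.hasFDerivAt.comp x (hc.differentiable one_ne_zero x).hasFDerivAt).fderiv, mul_assoc]
    exact (T.opNorm_comp_le _).trans (mul_le_mul_of_nonneg_left (h1 x) (norm_nonneg _))

lemma Tame.smul_const {f : X → F} (hf : Tame f) (c : ℝ) : Tame (fun x => c • f x) :=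
  hf.clm (c • ContinuousLinearMap.id ℝ F)

lemma Tame.sum {α : Type*} (s : Finset α) {f : α → X → F} (hf : ∀ i ∈ s, Tame (f i)) :
    Tame (fun x => ∑ i ∈ s, f i x) := by
  classical
  induction s using Finset.induction_on with
  | empty => simpa using tame_const (0 : F)
  | insert i s hi ih =>
    simp only [Finset.sum_insert hi]
    exact (hf i (Finset.mem_insert_self _ _)).add
      (ih fun j hj => hf j (Finset.mem_insert_of_mem hj))

lemma Tame.continuous {f : X → F} (hf : Tame f) : Continuous f := hf.1.continuous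

lemma Tame.differentiable {f : X → F} (hf : Tame f) : Differentiable ℝ f :=
  hf.1.differentiable one_ne_zero

lemma Tame.continuous_fderiv {f : X → F} (hf : Tame f) : Continuous (fderiv ℝ f) :=
  hf.1.continuous_fderiv one_ne_zero

/-- A point `a x + b y` inside a polynomial bound. -/
lemma pw_comb (a b : ℝ) (x y : X) (n : ℕ) :
    (1 + ‖a • x + b • y‖) ^ n ≤ ((1 + |a|) * (1 + |b|)) ^ n * ((1 + ‖x‖) ^ n * (1 + ‖y‖) ^ n) := by
  rw [← mul_pow, ← mul_pow]
  refine pow_le_pow_left₀ (by positivity) ?_ n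
  have h : ‖a • x + b • y‖ ≤ |a| * ‖x‖ + |b| * ‖y‖ :=
    (norm_add_le _ _).trans (by rw [norm_smul, norm_smul, Real.norm_eq_abs, Real.norm_eq_abs])
  have hx := norm_nonneg x
  have hy := norm_nonneg y
  have ha := abs_nonneg a
  have hb := abs_nonneg b
  have h1 : (1 + |a| * ‖x‖) * (1 + |b| * ‖y‖) ≤ ((1 + |a|) * (1 + ‖x‖)) * ((1 + |b|) * (1 + ‖y‖)) :=
    mul_le_mul (by nlinarith) (by nlinarith) (by positivity) (by positivity)
  have h2 : 0 ≤ |a| * ‖x‖ * (|b| * ‖y‖) := by positivity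
  nlinarith

section gauss

variable {ι κ : Type*} [Fintype ι] [Fintype κ] {T : Type*} [NormedAddCommGroup T] [NormedSpace ℝ T]

lemma integrable_pw (n : ℕ) :
    Integrable (fun x : EuclideanSpace ℝ ι => (1 + ‖x‖) ^ n) (gau ι) :=
  integrable_of_poly (K := 1) (k := n) (by fun_prop) fun x => by
    rw [one_mul, Real.norm_eq_abs, abs_of_nonneg (by positivity)]

lemma integrable_of_polyLe {f : EuclideanSpace ℝ ι → T}
    (hf : AEStronglyMeasurable f (gau ι)) {K : ℝ} {n : ℕ} (h : PolyLe f K n) :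
    Integrable f (gau ι) :=
  ((integrable_pw n).const_mul K).mono' hf (ae_of_all _ h)

lemma integrable_pw2 (K : ℝ) (m n : ℕ) :
    Integrable (fun p : EuclideanSpace ℝ ι × EuclideanSpace ℝ κ =>
      K * ((1 + ‖p.1‖) ^ m * (1 + ‖p.2‖) ^ n)) ((gau ι).prod (gau κ)) :=
  ((integrable_pw m).mul_prod (integrable_pw n)).const_mul K

lemma integrable_of_polyLe2 {f : EuclideanSpace ℝ ι × EuclideanSpace ℝ κ → T}
    (hf : AEStronglyMeasurable f ((gau ι).prod (gau κ))) {K : ℝ} {m n : ℕ}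
    (h : ∀ p, ‖f p‖ ≤ K * ((1 + ‖p.1‖) ^ m * (1 + ‖p.2‖) ^ n)) :
    Integrable f ((gau ι).prod (gau κ)) :=
  (integrable_pw2 K m n).mono' hf (ae_of_all _ h)

end gauss

end Vale.Agent.P347
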