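import Vale.Agent.P347.Smooth
import Vale.Agent.P347Zero.Tame

/-!
P347 (exponent zero): Hilbert-Schmidt lengths of linear maps, quadratic means over the Gaussian
law, and continuous maps of polynomial growth.
-/

open MeasureTheory ProbabilityTheory Real WithLp
open scoped RealInnerProductSpace

set_option maxSynthPendingDepth 3

namespace Vale.Agent.P347

noncomputable section

variable {ι κ μ : Type*} [Fintype ι] [Fintype κ] [Fintype μ]

/-! ### Hilbert-Schmidt lengths -/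

/-- The entries of a linear map as a vector. -/
def hentry : (EuclideanSpace ℝ ι →L[ℝ] EuclideanSpace ℝ κ) →L[ℝ] EuclideanSpace ℝ (ι × κ) :=
  LinearMap.toContinuousLinearMap
    { toFun := fun A => toLp 2 fun p => A (EuclideanSpace.basisFun ι ℝ p.1) p.2
      map_add' := fun A B => by ext p; simp
      map_smul' := fun c A => by ext p; simp }

/-- The Hilbert-Schmidt length. -/
def hn (A : EuclideanSpace ℝ ι →L[ℝ] EuclideanSpace ℝ κ) : ℝ := ‖hentry A‖

lemma hn_nonneg (A : EuclideanSpace ℝ ι →L[ℝ] EuclideanSpace ℝ κ) : 0 ≤ hn A := norm_nonneg _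

lemma hn_add_le (A B : EuclideanSpace ℝ ι →L[ℝ] EuclideanSpace ℝ κ) :
    hn (A + B) ≤ hn A + hn B := by simp only [hn, map_add]; exact norm_add_le _ _

lemma hn_smul (c : ℝ) (A : EuclideanSpace ℝ ι →L[ℝ] EuclideanSpace ℝ κ) :
    hn (c • A) = |c| * hn A := by simp [hn, map_smul, norm_smul]

lemma hn_zero : hn (0 : EuclideanSpace ℝ ι →L[ℝ] EuclideanSpace ℝ κ) = 0 := by simp [hn]

lemma hn_sum_le {J : Type*} (t : Finset J) (A : J → EuclideanSpace ℝ ι →L[ℝ] EuclideanSpace ℝ κ) :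
    hn (∑ j ∈ t, A j) ≤ ∑ j ∈ t, hn (A j) := by
  simp only [hn, map_sum]; exact norm_sum_le _ _

lemma hn_sq (A : EuclideanSpace ℝ ι →L[ℝ] EuclideanSpace ℝ κ) :
    hn A ^ 2 = ∑ i, ‖A (EuclideanSpace.basisFun ι ℝ i)‖ ^ 2 := by
  simp only [hn, hentry, LinearMap.coe_toContinuousLinearMap', LinearMap.coe_mk, AddHom.coe_mk,
    EuclideanSpace.real_norm_sq_eq, Fintype.sum_prod_type]

lemma hn_le_of_sq_le {A : EuclideanSpace ℝ ι →L[ℝ] EuclideanSpace ℝ κ} {c : ℝ} (hc : 0 ≤ c)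
    (h : ∑ i, ‖A (EuclideanSpace.basisFun ι ℝ i)‖ ^ 2 ≤ c ^ 2) : hn A ≤ c := by
  rw [← hn_sq] at h
  exact le_of_pow_le_pow_left₀ two_ne_zero hc h

lemma hn_adjoint (A : EuclideanSpace ℝ ι →L[ℝ] EuclideanSpace ℝ κ) :
    hn (ContinuousLinearMap.adjoint A) = hn A := by
  have h : ∀ i k, ContinuousLinearMap.adjoint A (EuclideanSpace.basisFun κ ℝ k) i
      = A (EuclideanSpace.basisFun ι ℝ i) k := by
    intro i k
    classical
    have h1 := ContinuousLinearMap.adjoint_inner_left A (EuclideanSpace.basisFun ι ℝ i)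
      (EuclideanSpace.basisFun κ ℝ k)
    simpa [EuclideanSpace.basisFun_apply, EuclideanSpace.inner_single_left,
      EuclideanSpace.inner_single_right] using h1
  refine (pow_left_inj₀ (hn_nonneg _) (hn_nonneg _) two_ne_zero).1 ?_
  simp only [hn_sq, EuclideanSpace.real_norm_sq_eq, h]
  exact Finset.sum_comm

lemma hn_comp_le (B : EuclideanSpace ℝ κ →L[ℝ] EuclideanSpace ℝ μ)
    (A : EuclideanSpace ℝ ι →L[ℝ] EuclideanSpace ℝ κ) : hn (B.comp A) ≤ ‖B‖ * hn A := by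
  refine hn_le_of_sq_le (mul_nonneg (norm_nonneg B) (hn_nonneg A)) ?_
  rw [mul_pow, hn_sq, Finset.mul_sum]
  refine Finset.sum_le_sum fun i _ => ?_
  rw [← mul_pow]
  exact pow_le_pow_left₀ (norm_nonneg _) (B.le_opNorm _) 2

lemma hn_comp_le' (B : EuclideanSpace ℝ κ →L[ℝ] EuclideanSpace ℝ μ)
    (A : EuclideanSpace ℝ ι →L[ℝ] EuclideanSpace ℝ κ) : hn (B.comp A) ≤ hn B * ‖A‖ := by
  rw [← hn_adjoint, ContinuousLinearMap.adjoint_comp, ← hn_adjoint B, mul_comm]
  refine (hn_comp_le _ _).trans (le_of_eq ?_)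
  rw [LinearIsometryEquiv.norm_map]

lemma hn_le_op (A : EuclideanSpace ℝ ι →L[ℝ] EuclideanSpace ℝ κ) :
    hn A ≤ √(Fintype.card ι : ℝ) * ‖A‖ := by
  refine hn_le_of_sq_le (mul_nonneg (Real.sqrt_nonneg _) (norm_nonneg A)) ?_
  rw [mul_pow, Real.sq_sqrt (Nat.cast_nonneg _)]
  calc ∑ i, ‖A (EuclideanSpace.basisFun ι ℝ i)‖ ^ 2 ≤ ∑ _i : ι, ‖A‖ ^ 2 :=
        Finset.sum_le_sum fun i _ => pow_le_pow_left₀ (norm_nonneg _)
          ((A.le_opNorm _).trans (by rw [OrthonormalBasis.norm_eq_one, mul_one])) 2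
    _ = _ := by simp

lemma hn_comp_sub_le (A A' : EuclideanSpace ℝ κ →L[ℝ] EuclideanSpace ℝ μ)
    (B B' : EuclideanSpace ℝ ι →L[ℝ] EuclideanSpace ℝ κ) :
    hn (A.comp B - A'.comp B') ≤ hn (A - A') * ‖B‖ + ‖A'‖ * hn (B - B') := by
  have e : A.comp B - A'.comp B' = (A - A').comp B + A'.comp (B - B') := by ext; simp
  rw [e]
  exact (hn_add_le _ _).trans (add_le_add (hn_comp_le' _ _) (hn_comp_le _ _))

lemma hn_pow_sub_le {A A' : EuclideanSpace ℝ ι →L[ℝ] EuclideanSpace ℝ ι} {u : ℝ}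
    (hA : ‖A‖ ≤ u) (hA' : ‖A'‖ ≤ u) (n : ℕ) :
    hn (A ^ n - A' ^ n) ≤ n * u ^ (n - 1) * hn (A - A') := by
  have hu : 0 ≤ u := (norm_nonneg A).trans hA
  induction n with
  | zero => simp [hn_zero]
  | succ n ih =>
    rcases Nat.eq_zero_or_pos n with rfl | hn0
    · simp
    rw [pow_succ', pow_succ', ContinuousLinearMap.mul_def, ContinuousLinearMap.mul_def]
    refine (hn_comp_sub_le _ _ _ _).trans ?_
    have h1 : ‖A ^ n‖ ≤ u ^ n := (norm_pow_le' A hn0).trans (pow_le_pow_left₀ (norm_nonneg _) hA n)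
    have h2 : u * u ^ (n - 1) = u ^ n := by rw [← pow_succ']; congr 1; omega
    calc hn (A - A') * ‖A ^ n‖ + ‖A'‖ * hn (A ^ n - A' ^ n)
        ≤ hn (A - A') * u ^ n + u * (n * u ^ (n - 1) * hn (A - A')) :=
          add_le_add (mul_le_mul_of_nonneg_left h1 (hn_nonneg _))
            (mul_le_mul hA' ih (hn_nonneg _) hu)
      _ = _ := by rw [Nat.add_sub_cancel, ← h2]; push_cast; ring

lemma integrable_sq_apply_gau (A : EuclideanSpace ℝ ι →L[ℝ] EuclideanSpace ℝ κ) :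
    Integrable (fun u => ‖A u‖ ^ 2) (gau ι) :=
  (integrable_gau_nrm_sq.const_mul (‖A‖ ^ 2)).mono' (by fun_prop) (ae_of_all _ fun u => by
    rw [Real.norm_of_nonneg (sq_nonneg _), ← mul_pow]
    exact pow_le_pow_left₀ (norm_nonneg _) (A.le_opNorm u) 2)

/-- The mean square of a linear map of a Gaussian vector. -/
lemma integral_sq_apply (A : EuclideanSpace ℝ ι →L[ℝ] EuclideanSpace ℝ κ) :
    ∫ u, ‖A u‖ ^ 2 ∂gau ι = hn A ^ 2 := by
  classical
  set row : κ → EuclideanSpace ℝ ι := fun k =>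
    ContinuousLinearMap.adjoint A (EuclideanSpace.basisFun κ ℝ k) with hrow
  have e : ∀ u, ‖A u‖ ^ 2 = ∑ k, ⟪u, row k⟫ * ⟪u, row k⟫ := by
    intro u
    rw [EuclideanSpace.real_norm_sq_eq]
    refine Finset.sum_congr rfl fun k _ => ?_
    rw [hrow, ContinuousLinearMap.adjoint_inner_right, EuclideanSpace.basisFun_apply,
      EuclideanSpace.inner_single_right]
    simp [sq]
  have hi : ∀ k, Integrable (fun u => ⟪u, row k⟫ * ⟪u, row k⟫) (gau ι) := fun k =>
    (integrable_gau_nrm_sq.const_mul (‖row k‖ ^ 2)).mono' (by fun_prop) (ae_of_all _ fun u => by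
      rw [norm_mul, Real.norm_eq_abs]
      have h := abs_real_inner_le_norm u (row k)
      calc |⟪u, row k⟫| * |⟪u, row k⟫| ≤ (‖u‖ * ‖row k‖) * (‖u‖ * ‖row k‖) := by gcongr
        _ = _ := by ring)
  simp only [e]
  rw [integral_finsetSum _ fun k _ => hi k, ← hn_adjoint, hn_sq]
  exact Finset.sum_congr rfl fun k _ => by
    rw [integral_gau_inner_mul, real_inner_self_eq_norm_sq]

/-! ### Maps of polynomial growth and quadratic means -/

variable {F : Type*} [NormedAddCommGroup F] [NormedSpace ℝ F]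

/-- A continuous map of polynomial growth. -/
def PG (f : EuclideanSpace ℝ ι → F) : Prop :=
  Continuous f ∧ ∃ (K : ℝ) (n : ℕ), 0 ≤ K ∧ PolyLe f K n

lemma PG.of_tame {f : EuclideanSpace ℝ ι → F} (hf : Tame f) : PG f := by
  obtain ⟨hc, K, n, hK, h0, -⟩ := hf
  exact ⟨hc.continuous, K, n, hK, h0⟩

lemma PG.add {f g : EuclideanSpace ℝ ι → F} (hf : PG f) (hg : PG g) : PG fun x => f x + g x := by
  obtain ⟨hfc, K, n, hK, h⟩ := hf
  obtain ⟨hgc, K', n', hK', h'⟩ := hg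
  exact ⟨hfc.add hgc, K + K', n + n', add_nonneg hK hK', h.add h' hK hK'⟩

lemma PG.clm {G : Type*} [NormedAddCommGroup G] [NormedSpace ℝ G] {f : EuclideanSpace ℝ ι → F}
    (hf : PG f) (L : F →L[ℝ] G) : PG fun x => L (f x) := by
  obtain ⟨hfc, K, n, hK, h⟩ := hf
  refine ⟨L.continuous.comp hfc, ‖L‖ * K, n, mul_nonneg (norm_nonneg L) hK, fun x => ?_⟩
  rw [mul_assoc]
  exact (L.le_opNorm _).trans (mul_le_mul_of_nonneg_left (h x) (norm_nonneg L))

lemma PG.smul {f : EuclideanSpace ℝ ι → F} (hf : PG f) (c : ℝ) : PG fun x => c • f x :=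
  hf.clm (c • ContinuousLinearMap.id ℝ F)

lemma pg_zero : PG fun _ : EuclideanSpace ℝ ι => (0 : F) :=
  ⟨continuous_const, 0, 0, le_rfl, fun x => by simp⟩

lemma PG.sum {J : Type*} (t : Finset J) {f : J → EuclideanSpace ℝ ι → F}
    (hf : ∀ j ∈ t, PG (f j)) : PG fun x => ∑ j ∈ t, f j x := by
  classical
  induction t using Finset.induction_on with
  | empty => simpa using (pg_zero : PG fun _ : EuclideanSpace ℝ ι => (0 : F))
  | @insert j t hj ih =>
    simp only [Finset.sum_insert hj]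
    exact (hf j (Finset.mem_insert_self j t)).add (ih fun k hk => hf k (Finset.mem_insert_of_mem hk))

lemma PG.slice {f : EuclideanSpace ℝ ι → F} (hf : PG f) (x : EuclideanSpace ℝ ι) (s : ℝ) :
    PG fun g => f (x + s • g) := by
  obtain ⟨hc, K, n, hK, h⟩ := hf
  refine ⟨hc.comp (by fun_prop), K * (((1 + |(1 : ℝ)|) * (1 + |s|)) ^ n * (1 + ‖x‖) ^ n), n,
    by positivity, fun g => (h _).trans ?_⟩
  have := pw_comb 1 s x g n
  rw [one_smul] at this
  exact (mul_le_mul_of_nonneg_left this hK).trans_eq (by ring)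

lemma PG.integrable {f : EuclideanSpace ℝ ι → F} (hf : PG f) : Integrable f (gau ι) := by
  obtain ⟨hfc, K, n, -, h⟩ := hf
  exact integrable_of_polyLe hfc.aestronglyMeasurable h

lemma PG.integrable_sq {f : EuclideanSpace ℝ ι → F} (hf : PG f) :
    Integrable (fun x => ‖f x‖ ^ 2) (gau ι) := by
  obtain ⟨hfc, K, n, -, h⟩ := hf
  refine integrable_of_polyLe (K := K ^ 2) (n := n * 2) (hfc.norm.pow 2).aestronglyMeasurable
    fun x => ?_
  rw [Real.norm_of_nonneg (sq_nonneg _), pow_mul, ← mul_pow]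
  exact pow_le_pow_left₀ (norm_nonneg _) (h x) 2

/-- A Gaussian average of a kernel of polynomial growth has polynomial growth. -/
lemma pg_average [CompleteSpace F] {k : EuclideanSpace ℝ ι × EuclideanSpace ℝ ι → F}
    (hk : Continuous k) {C : ℝ} {n m : ℕ} (hC : 0 ≤ C)
    (h : ∀ x g, ‖k (x, g)‖ ≤ C * ((1 + ‖x‖) ^ n * (1 + ‖g‖) ^ m)) :
    PG fun x => ∫ g, k (x, g) ∂gau ι := by
  refine ⟨continuous_iff_continuousAt.2 fun x => ?_, C * ∫ g : EuclideanSpace ℝ ι, (1 + ‖g‖) ^ m ∂gau ι,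
    n, mul_nonneg hC (integral_nonneg fun g => by positivity), fun x => ?_⟩
  · refine continuousAt_of_dominated (bound := fun g => C * (2 + ‖x‖) ^ n * (1 + ‖g‖) ^ m)
      (.of_forall fun y => (hk.comp (Continuous.prodMk_right y)).aestronglyMeasurable) ?_
      ((integrable_pw m).const_mul _)
      (ae_of_all _ fun g => (hk.comp (Continuous.prodMk_left g)).continuousAt)
    filter_upwards [Metric.ball_mem_nhds x zero_lt_one] with y hy
    rw [Metric.mem_ball, dist_eq_norm] at hy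
    refine ae_of_all _ fun g => (h y g).trans ?_
    rw [← mul_assoc]
    refine mul_le_mul_of_nonneg_right (mul_le_mul_of_nonneg_left ?_ hC) (by positivity)
    exact pow_le_pow_left₀ (by positivity) (by linarith [norm_le_norm_add_norm_sub' y x]) n
  · refine (norm_integral_le_of_norm_le ((integrable_pw m).const_mul (C * (1 + ‖x‖) ^ n))
      (ae_of_all _ fun g => (h x g).trans_eq (mul_assoc _ _ _).symm)).trans (le_of_eq ?_)
    rw [integral_const_mul]
    ring

/-- The quadratic mean over the Gaussian law. -/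
def l2 (f : EuclideanSpace ℝ ι → F) : ℝ := √(∫ x, ‖f x‖ ^ 2 ∂gau ι)

lemma l2_nonneg (f : EuclideanSpace ℝ ι → F) : 0 ≤ l2 f := Real.sqrt_nonneg _

lemma l2_sq (f : EuclideanSpace ℝ ι → F) : l2 f ^ 2 = ∫ x, ‖f x‖ ^ 2 ∂gau ι :=
  Real.sq_sqrt (integral_nonneg fun _ => sq_nonneg _)

lemma l2_le {f : EuclideanSpace ℝ ι → F} {c : ℝ} (hc : 0 ≤ c)
    (h : ∫ x, ‖f x‖ ^ 2 ∂gau ι ≤ c ^ 2) : l2 f ≤ c :=
  (Real.sqrt_le_sqrt h).trans_eq (Real.sqrt_sq hc)

lemma l2_mono {G : Type*} [NormedAddCommGroup G] [NormedSpace ℝ G]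
    {f : EuclideanSpace ℝ ι → F} {g : EuclideanSpace ℝ ι → G} (hg : PG g)
    (h : ∀ x, ‖f x‖ ≤ ‖g x‖) : l2 f ≤ l2 g :=
  Real.sqrt_le_sqrt (integral_mono_of_nonneg (ae_of_all _ fun _ => sq_nonneg _) hg.integrable_sq
    (ae_of_all _ fun x => pow_le_pow_left₀ (norm_nonneg _) (h x) 2))

lemma l2_smul (c : ℝ) (f : EuclideanSpace ℝ ι → F) : l2 (fun x => c • f x) = |c| * l2 f := by
  simp only [l2, norm_smul, mul_pow, integral_const_mul, Real.norm_eq_abs,
    Real.sqrt_mul (sq_nonneg |c|), Real.sqrt_sq (abs_nonneg c)]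

lemma l2_add {f g : EuclideanSpace ℝ ι → F} (hf : PG f) (hg : PG g) :
    l2 (fun x => f x + g x) ≤ l2 f + l2 g := by
  refine le_of_forall_pos_le_add fun η hη => ?_
  set A := l2 f + η / 2 with hA
  set B := l2 g + η / 2 with hB
  have hA0 : 0 < A := by have := l2_nonneg f; rw [hA]; linarith
  have hB0 : 0 < B := by have := l2_nonneg g; rw [hB]; linarith
  refine (l2_le (c := A + B) (by positivity) ?_).trans (by rw [hA, hB]; linarith)
  have hpt : ∀ x, ‖f x + g x‖ ^ 2 ≤ (1 + B / A) * ‖f x‖ ^ 2 + (1 + A / B) * ‖g x‖ ^ 2 := by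
    intro x
    refine (pow_le_pow_left₀ (norm_nonneg _) (norm_add_le _ _) 2).trans (le_of_sub_nonneg ?_)
    have e : (1 + B / A) * ‖f x‖ ^ 2 + (1 + A / B) * ‖g x‖ ^ 2 - (‖f x‖ + ‖g x‖) ^ 2
        = (B * ‖f x‖ - A * ‖g x‖) ^ 2 / (A * B) := by field_simp; ring
    rw [e]
    positivity
  refine (integral_mono_of_nonneg (ae_of_all _ fun _ => sq_nonneg _)
    ((hf.integrable_sq.const_mul _).add (hg.integrable_sq.const_mul _)) (ae_of_all _ hpt)).trans ?_
  simp only [Pi.add_apply]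
  rw [integral_add (hf.integrable_sq.const_mul _) (hg.integrable_sq.const_mul _),
    integral_const_mul, integral_const_mul, ← l2_sq, ← l2_sq]
  calc (1 + B / A) * l2 f ^ 2 + (1 + A / B) * l2 g ^ 2
      ≤ (1 + B / A) * A ^ 2 + (1 + A / B) * B ^ 2 := by
        gcongr
        · exact l2_nonneg f
        · rw [hA]; linarith
        · exact l2_nonneg g
        · rw [hB]; linarith
    _ = (A + B) ^ 2 := by field_simp; ring

lemma l2_sum {J : Type*} (t : Finset J) {f : J → EuclideanSpace ℝ ι → F}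
    (hf : ∀ j ∈ t, PG (f j)) : l2 (fun x => ∑ j ∈ t, f j x) ≤ ∑ j ∈ t, l2 (f j) := by
  classical
  induction t using Finset.induction_on with
  | empty => simp [l2]
  | @insert j t hj ih =>
    simp only [Finset.sum_insert hj]
    have ht : ∀ k ∈ t, PG (f k) := fun k hk => hf k (Finset.mem_insert_of_mem hk)
    exact (l2_add (hf j (Finset.mem_insert_self j t)) (PG.sum t ht)).trans
      (add_le_add le_rfl (ih ht))

end

end Vale.Agent.P347
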