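import Vale.Agent.P347Zero.Pilot
import Vale.Agent.P347Zero.HsNorm
import Vale.Agent.P347.Quad

/-!
P347 (exponent zero): tools for the Picard engines. The operators form a semigroup on maps of
polynomial growth and commute with their average over the correlation; a quadrature rule reproduces
that average in quadratic mean without any Lipschitz hypothesis.
-/

open MeasureTheory ProbabilityTheory Real WithLp Filter
open scoped RealInnerProductSpace Topology

set_option maxSynthPendingDepth 3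

namespace Vale.Agent.P347

open Quad

variable {ι κ : Type*} [Fintype ι] [Fintype κ] {T : Type*} [NormedAddCommGroup T] [NormedSpace ℝ T]

/-- The average of the Ornstein–Uhlenbeck operators over the correlation. -/
noncomputable def mean01 (g : EuclideanSpace ℝ ι → T) (x : EuclideanSpace ℝ ι) : T :=
  ∫ u in (0 : ℝ)..1, ou u g x

lemma inv1N_eq_mean01 {d : ℕ} (S : EuclideanSpace ℝ ι → E d) : inv1N S = mean01 S := rfl

lemma covD_eq_mean01 {d : ℕ} (S : EuclideanSpace ℝ ι → E d) : covD S = mean01 (fderiv ℝ S) := rfl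

variable [CompleteSpace T]

omit [CompleteSpace T] in
lemma pg_mean01 {g : EuclideanSpace ℝ ι → T} (hg : PG g) : PG (mean01 g) := by
  obtain ⟨hc, K, n, hK, h⟩ := hg
  have hM : 0 ≤ pwMom ι n := integral_nonneg fun w => by positivity
  refine ⟨intervalIntegral.continuous_parametric_intervalIntegral_of_continuous' (μ := volume)
    (f := fun x u => ou u g x) ((continuous_ou_poly hc hK h).comp continuous_swap) 0 1,
    K * (2 * (1 + (1 : ℝ))) ^ n * pwMom ι n, n, by positivity, fun x => ?_⟩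
  refine (intervalIntegral.norm_integral_le_of_norm_le_const fun u hu => ?_).trans
    (le_of_eq (by norm_num : K * (2 * (1 + (1 : ℝ))) ^ n * pwMom ι n * (1 + ‖x‖) ^ n *
      |(1 : ℝ) - 0| = K * (2 * (1 + (1 : ℝ))) ^ n * pwMom ι n * (1 + ‖x‖) ^ n))
  rw [Set.uIoc_of_le zero_le_one] at hu
  exact norm_ou_poly hK h (by rw [abs_of_pos hu.1]; exact hu.2) x

/-- A linear map commutes with the average. -/
lemma clm_mean01 {G : Type*} [NormedAddCommGroup G] [NormedSpace ℝ G] [CompleteSpace G]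
    {g : EuclideanSpace ℝ ι → T} (hg : PG g) (L : T →L[ℝ] G) (x : EuclideanSpace ℝ ι) :
    L (mean01 g x) = mean01 (fun y => L (g y)) x := by
  obtain ⟨hc, K, n, hK, h⟩ := hg
  have hi : IntervalIntegrable (fun u => ou u g x) volume 0 1 :=
    ((continuous_ou_poly hc hK h).comp (Continuous.prodMk_left x)).intervalIntegrable _ _
  rw [mean01, ← L.intervalIntegral_comp_comm hi]
  refine intervalIntegral.integral_congr fun u _ => ?_
  exact (L.integral_comp_comm (integrable_slice2 hc hK h _ _ x)).symm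

/-- A combination of two independent standard vectors is a multiple of one. -/
lemma integral_two_noise {g : EuclideanSpace ℝ ι → T} (hg : PG g) (x : EuclideanSpace ℝ ι)
    {u v c : ℝ} (hc : c ^ 2 = u ^ 2 + v ^ 2) :
    ∫ h, ∫ h', g (x + u • h + v • h') ∂gau ι ∂gau ι = ∫ w, g (x + c • w) ∂gau ι := by
  rcases eq_or_ne c 0 with rfl | hne
  · have hu : u = 0 := by nlinarith
    have hv : v = 0 := by nlinarith
    simp [hu, hv]
  have h1 : (u / c) ^ 2 + (v / c) ^ 2 = 1 := by
    rw [div_pow, div_pow, ← add_div, ← hc, div_self (pow_ne_zero 2 hne)]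
  obtain ⟨hgc, K, n, hK, h⟩ := hg
  have hi : Integrable (fun p : EuclideanSpace ℝ ι × EuclideanSpace ℝ ι =>
      g (x + u • p.1 + v • p.2)) ((gau ι).prod (gau ι)) := by
    refine integrable_of_polyLe2
      (K := K * (((1 + |(1 : ℝ)|) * (1 + |v|)) ^ n *
        (((1 + |(1 : ℝ)|) * (1 + |u|)) ^ n * (1 + ‖x‖) ^ n)))
      (m := n) (n := n) (hgc.comp (by fun_prop)).aestronglyMeasurable fun p => ?_
    have a1 := pw_comb 1 v (x + u • p.1) p.2 n
    have a2 := pw_comb 1 u x p.1 n
    rw [one_smul] at a1 a2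
    refine (h _).trans ((mul_le_mul_of_nonneg_left (a1.trans (mul_le_mul_of_nonneg_left
      (mul_le_mul_of_nonneg_right a2 (by positivity)) (by positivity))) hK).trans_eq ?_)
    ring
  rw [← integral_prod _ hi]
  conv_rhs => rw [← gau_rotate_fst (ι := ι) h1]
  rw [integral_map (f := fun w => g (x + c • w)) (by fun_prop)
    (hgc.comp (by fun_prop)).aestronglyMeasurable]
  refine integral_congr_ae (ae_of_all _ fun p => ?_)
  simp only [smul_add, smul_smul, mul_div_cancel₀ _ hne, add_assoc]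

/-- The semigroup law. -/
theorem ou_ou_pg {g : EuclideanSpace ℝ ι → T} (hg : PG g) {a b : ℝ} (ha : a ^ 2 ≤ 1) (hb : b ^ 2 ≤ 1)
    (x : EuclideanSpace ℝ ι) : ou a (ou b g) x = ou (a * b) g x := by
  have h1 : 0 ≤ 1 - (a * b) ^ 2 := by
    rw [mul_pow]; nlinarith [sq_nonneg a, sq_nonneg b]
  simp only [ou]
  rw [← integral_two_noise hg ((a * b) • x) (u := b * √(1 - a ^ 2)) (v := √(1 - b ^ 2))
    (c := √(1 - (a * b) ^ 2)) (by
      rw [Real.sq_sqrt h1, mul_pow, mul_pow, Real.sq_sqrt (by linarith), Real.sq_sqrt (by linarith)]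
      ring)]
  refine integral_congr_ae (ae_of_all _ fun h => ?_)
  refine integral_congr_ae (ae_of_all _ fun h' => ?_)
  simp only [smul_add, smul_smul, mul_comm b a]

/-- The operators commute with their average. -/
theorem ou_mean01 {g : EuclideanSpace ℝ ι → T} (hg : PG g) {a : ℝ} (ha : a ^ 2 ≤ 1)
    (x : EuclideanSpace ℝ ι) : ou a (mean01 g) x = mean01 (ou a g) x := by
  have hu : ∀ u ∈ Set.Icc (0 : ℝ) 1, u ^ 2 ≤ 1 := fun u h => sq_le_one_of_mem h
  have hr : mean01 (ou a g) x = ∫ u in (0 : ℝ)..1, ou a (ou u g) x := by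
    refine intervalIntegral.integral_congr fun u hu' => ?_
    rw [Set.uIcc_of_le zero_le_one] at hu'
    simp only [ou_ou_pg hg (hu u hu') ha, ou_ou_pg hg ha (hu u hu'), mul_comm u a]
  obtain ⟨hc, K, n, hK, h⟩ := hg
  have hM : 0 ≤ pwMom ι n := integral_nonneg fun w => by positivity
  set C := K * (2 * (1 + (1 : ℝ))) ^ n * pwMom ι n with hC
  have hC0 : 0 ≤ C := by rw [hC]; positivity
  have : IsFiniteMeasure (volume.restrict (Set.Ioc (0 : ℝ) 1)) := ⟨by simp⟩
  have hi : Integrable (fun q : ℝ × EuclideanSpace ℝ ι =>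
      ou q.1 g (a • x + √(1 - a ^ 2) • q.2))
      ((volume.restrict (Set.Ioc (0 : ℝ) 1)).prod (gau ι)) := by
    have hco : Continuous fun q : ℝ × EuclideanSpace ℝ ι =>
        ou q.1 g (a • x + √(1 - a ^ 2) • q.2) :=
      (continuous_ou_poly hc hK h).comp (by fun_prop : Continuous fun q : ℝ × EuclideanSpace ℝ ι =>
        (q.1, a • x + √(1 - a ^ 2) • q.2))
    refine ((((integrable_pw n).const_mul (C * (((1 + |a|) * (1 + |√(1 - a ^ 2)|)) ^ n *
      (1 + ‖x‖) ^ n))).comp_snd _)).mono' hco.aestronglyMeasurable ?_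
    refine Measure.ae_prod_iff_ae_ae (measurableSet_le hco.norm.measurable (by fun_prop)) |>.2 ?_
    filter_upwards [ae_restrict_mem measurableSet_Ioc] with u hu'
    refine ae_of_all _ fun w => ((norm_ou_poly hK h (by rw [abs_of_pos hu'.1]; exact hu'.2) _).trans
      ((mul_le_mul_of_nonneg_left (pw_comb a √(1 - a ^ 2) x w n) hC0).trans_eq ?_))
    rw [hC]; ring
  rw [hr, intervalIntegral.integral_of_le zero_le_one]
  simp only [ou, mean01, intervalIntegral.integral_of_le zero_le_one]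
  simp only [ou] at hi
  exact (integral_integral_swap hi).symm

/-- A combination of operators with symbol at most `ε` on monomials contracts quadratic means. -/
lemma combo_le_pg {J : Type*} [Fintype J] {c ρ : J → ℝ} {ε : ℝ}
    (h : ∀ k, ρ k ∈ Set.Icc (0 : ℝ) 1) (hb : ∀ n : ℕ, |∑ k, c k * ρ k ^ n| ≤ ε)
    {g : EuclideanSpace ℝ ι → EuclideanSpace ℝ κ} (hg : PG g) :
    ∫ x, ‖∑ k, c k • ou (ρ k) g x‖ ^ 2 ∂gau ι ≤ ε ^ 2 * ∫ x, ‖g x‖ ^ 2 ∂gau ι := by
  have hsq : ∀ k, ρ k ^ 2 ≤ 1 := fun k => sq_le_one_of_mem (h k)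
  obtain ⟨hgc, K, n, hK, hgb⟩ := id hg
  have hgi : ∀ i, MemLp (fun x => g x i) 2 (gau ι) := fun i =>
    (EuclideanSpace.proj i : EuclideanSpace ℝ κ →L[ℝ] ℝ).comp_memLp'
      ((memLp_two_iff_integrable_sq_norm hgc.aestronglyMeasurable).2 hg.integrable_sq)
  have e : ∀ x i, (∑ k, c k • ou (ρ k) g x) i = combo c ρ (fun y => g y i) x := by
    intro x i
    unfold combo
    rw [WithLp.ofLp_sum, Finset.sum_apply]
    refine Finset.sum_congr rfl fun k _ => ?_
    rw [PiLp.smul_apply]
    congr 1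
    exact ((EuclideanSpace.proj i : EuclideanSpace ℝ κ →L[ℝ] ℝ).integral_comp_comm
      (integrable_slice2 hgc hK hgb _ _ x)).symm
  simp only [EuclideanSpace.real_norm_sq_eq, e]
  rw [integral_finsetSum _ fun i _ => (combo_contract c hsq (hgi i)).1.integrable_sq,
    integral_finsetSum _ fun i _ => (hgi i).integrable_sq, Finset.mul_sum]
  exact Finset.sum_le_sum fun i _ => combo_le_real hsq hb (hgi i)

/-- The quadrature rule reproduces the average in quadratic mean. -/
theorem rule_L2_pg {N : ℕ} {ε : ℝ} (R : Rule N ε) (U : ℝ)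
    {g : EuclideanSpace ℝ ι → EuclideanSpace ℝ κ} (hg : PG g) :
    l2 (fun x => mean01 g x - ∑ k, R.weight k U • ou (R.node k U) g x) ≤ ε * l2 g := by
  have hε : 0 ≤ ε := (abs_nonneg _).trans (R.moment 0 U)
  have hnode : ∀ k, R.node k U ∈ Set.Icc (0 : ℝ) 1 := fun k =>
    ⟨R.lo_nonneg.trans (R.node_mem k U).1, (R.node_mem k U).2.trans R.hi_lt_one.le⟩
  obtain ⟨hgc, K, n, hK, hgb⟩ := id hg
  let c : ∀ m : ℕ, Fin N ⊕ Fin (m + 1) → ℝ := fun m =>
    Sum.elim (fun k => R.weight k U) fun _ => -(1 / ((m + 1 : ℕ) : ℝ))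
  let ρ : ∀ m : ℕ, Fin N ⊕ Fin (m + 1) → ℝ := fun m =>
    Sum.elim (fun k => R.node k U) fun i => ((i : ℕ) + 1) / ((m + 1 : ℕ) : ℝ)
  have hρ : ∀ m k, ρ m k ∈ Set.Icc (0 : ℝ) 1 := by
    rintro m (k | i)
    · exact hnode k
    · have hm : (0 : ℝ) < ((m + 1 : ℕ) : ℝ) := by positivity
      refine ⟨div_nonneg (by positivity) hm.le, (div_le_one hm).2 ?_⟩
      exact_mod_cast i.2
  have hb : ∀ m j, |∑ k, c m k * ρ m k ^ j| ≤ ε + 1 / ((m + 1 : ℕ) : ℝ) := by
    intro m j
    have e : ∑ k, c m k * ρ m k ^ j = (∑ k, R.weight k U * R.node k U ^ j) -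
        riemann (m + 1) fun u : ℝ => u ^ j := by
      simp only [Fintype.sum_sum_type, c, ρ, Sum.elim_inl, Sum.elim_inr, riemann, smul_eq_mul,
        sub_eq_add_neg, ← Finset.sum_neg_distrib, neg_mul]
    rw [e]
    refine (abs_sub_le _ (1 / ((j : ℝ) + 1)) _).trans (add_le_add (R.moment j U) ?_)
    rw [abs_sub_comm]
    exact riemann_pow (Nat.succ_pos m) j
  have hco : ∀ m x, ∑ k, c m k • ou (ρ m k) g x =
      (∑ k, R.weight k U • ou (R.node k U) g x) - riemann (m + 1) fun u => ou u g x := by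
    intro m x
    simp only [Fintype.sum_sum_type, c, ρ, Sum.elim_inl, Sum.elim_inr, riemann, neg_smul,
      Finset.sum_neg_distrib, sub_eq_add_neg]
  have hw : ∑ k, |R.weight k U| ≤ 1 + ε := by
    have := (abs_le.1 (R.moment 0 U)).2
    simp only [pow_zero, mul_one, Nat.cast_zero, zero_add, div_one] at this
    calc ∑ k, |R.weight k U| = ∑ k, R.weight k U :=
          Finset.sum_congr rfl fun k _ => abs_of_nonneg (R.weight_nonneg k U)
      _ ≤ _ := by linarith
  set C := K * (2 * (1 + (1 : ℝ))) ^ n * pwMom ι n with hC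
  have hM : 0 ≤ pwMom ι n := integral_nonneg fun w => by positivity
  have hbound : ∀ m x, ‖∑ k, c m k • ou (ρ m k) g x‖ ≤ (2 + ε) * C * (1 + ‖x‖) ^ n := by
    intro m x
    refine (norm_sum_le _ _).trans ((Finset.sum_le_sum fun k _ => (norm_smul_le _ _).trans
      (mul_le_mul_of_nonneg_left (norm_ou_poly hK hgb (r := 1)
        (by rw [abs_of_nonneg (hρ m k).1]; exact (hρ m k).2) x) (norm_nonneg _))).trans ?_)
    rw [← Finset.sum_mul, Fintype.sum_sum_type, mul_assoc (2 + ε)]
    refine mul_le_mul_of_nonneg_right ?_ (show 0 ≤ C * (1 + ‖x‖) ^ n from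
      mul_nonneg (by rw [hC]; positivity) (by positivity))
    simp only [c, Sum.elim_inl, Sum.elim_inr, Real.norm_eq_abs, abs_neg, Finset.sum_const,
      Finset.card_univ, Fintype.card_fin, nsmul_eq_mul]
    rw [abs_of_nonneg (by positivity), mul_one_div, div_self (by positivity)]
    linarith
  have hlim := tendsto_integral_of_dominated_convergence (μ := gau ι)
    (F := fun m x => ‖∑ k, c m k • ou (ρ m k) g x‖ ^ 2)
    (f := fun x => ‖(∑ k, R.weight k U • ou (R.node k U) g x) - mean01 g x‖ ^ 2)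
    (fun x => ((2 + ε) * C) ^ 2 * (1 + ‖x‖) ^ (n * 2))
    (fun m => ((PG.sum _ fun k _ => (show PG (ou (ρ m k) g) from
      ⟨(continuous_ou_poly hgc hK hgb).comp (Continuous.prodMk_right _), C, n,
        by rw [hC]; positivity, fun x => norm_ou_poly hK hgb
          (by rw [abs_of_nonneg (hρ m k).1]; exact (hρ m k).2) x⟩).smul (c m k)).1.norm.pow
      2).aestronglyMeasurable)
    ((integrable_pw _).const_mul _)
    (fun m => ae_of_all _ fun x => by
      rw [Real.norm_of_nonneg (sq_nonneg _), pow_mul, ← mul_pow]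
      exact pow_le_pow_left₀ (norm_nonneg _) (hbound m x) 2)
    (ae_of_all _ fun x => by
      simp only [hco]
      exact (((riemann_tendsto ((continuous_ou_poly hgc hK hgb).comp
        (Continuous.prodMk_left x)).continuousOn).const_sub _).norm).pow 2)
  have hr : Tendsto (fun m : ℕ => (ε + 1 / ((m + 1 : ℕ) : ℝ)) ^ 2 * ∫ x, ‖g x‖ ^ 2 ∂gau ι)
      atTop (𝓝 (ε ^ 2 * ∫ x, ‖g x‖ ^ 2 ∂gau ι)) := by
    have h0 := (((tendsto_one_div_add_atTop_nhds_zero_nat (𝕜 := ℝ)).const_add ε).pow 2).mul_const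
      (∫ x, ‖g x‖ ^ 2 ∂gau ι)
    simpa using h0
  refine l2_le (mul_nonneg hε (l2_nonneg _)) ?_
  rw [mul_pow, l2_sq]
  refine le_of_eq_of_le ?_
    (le_of_tendsto_of_tendsto' hlim hr fun m => combo_le_pg (hρ m) (hb m) hg)
  exact integral_congr_ae (ae_of_all _ fun x => by simp only; rw [norm_sub_rev])

end Vale.Agent.P347
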