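import Vale.Agent.P347Zero.Pilot
import Vale.Agent.P347Zero.HsNorm
import Vale.Agent.P347.Quad

/-!
P347 (exponent zero, M6b): the Mehler divergence `psi`, its identity and bounds, and the contraction
estimate for one step of the Picard iteration with an arbitrary rule of nonnegative weights.
-/

open MeasureTheory ProbabilityTheory Real WithLp
open scoped RealInnerProductSpace

set_option maxSynthPendingDepth 3

namespace Vale.Agent.P347

open Quad

noncomputable section

variable {ι : Type*} [Fintype ι] {d : ℕ}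

/-- The Mehler form of the adjoint of the derivative along `P`. -/
def psi (P : EuclideanSpace ℝ ι →L[ℝ] E d) (ρ : ℝ) (M : EuclideanSpace ℝ ι → E d →L[ℝ] E d)
    (x : EuclideanSpace ℝ ι) : E d :=
  (√(1 - ρ ^ 2))⁻¹ • ∫ v, M (mix ρ (x, v)) (P (√(1 - ρ ^ 2) • x - ρ • v)) ∂gau ι

/-! ### Smoothing of maps of polynomial growth -/

section growth

variable {F : Type*} [NormedAddCommGroup F] [NormedSpace ℝ F] [FiniteDimensional ℝ F]
  [MeasurableSpace F] [BorelSpace F] {u : EuclideanSpace ℝ ι → F} {t : ℝ}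

omit [FiniteDimensional ℝ F] [MeasurableSpace F] [BorelSpace F] in
lemma continuous_psmKer (hu : Continuous u) :
    Continuous fun p : EuclideanSpace ℝ ι × EuclideanSpace ℝ ι => psmKer t u p.1 p.2 := by
  have hc : Continuous fun p : EuclideanSpace ℝ ι × F => (innerSL ℝ p.1).smulRight p.2 :=
    (ContinuousLinearMap.smulRightL ℝ (EuclideanSpace ℝ ι) F).continuous₂.comp
      (((innerSL ℝ).continuous.comp continuous_fst).prodMk continuous_snd)
  exact (hc.comp (continuous_snd.prodMk (hu.comp (by fun_prop)))).const_smul (1 / √t)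

lemma norm_psmKer_growth {K : ℝ} {n : ℕ} (hK : 0 ≤ K) (h : PolyLe u K n)
    (x g : EuclideanSpace ℝ ι) :
    ‖psmKer t u x g‖ ≤ 1 / √t * (K * ((1 + |(1 : ℝ)|) * (1 + |√t|)) ^ n) *
      ((1 + ‖x‖) ^ n * (1 + ‖g‖) ^ (n + 1)) := by
  rw [psmKer, norm_smul, Real.norm_eq_abs, abs_of_nonneg (by positivity),
    ContinuousLinearMap.norm_smulRight_apply, innerSL_apply_norm, mul_assoc (1 / √t)]
  refine mul_le_mul_of_nonneg_left ?_ (by positivity)
  have h1 := ou_slice_le hK h 1 √t x g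
  rw [one_smul] at h1
  refine (mul_le_mul (le_add_of_nonneg_left zero_le_one) h1 (norm_nonneg _) (by positivity)).trans
    (le_of_eq ?_)
  ring

lemma integrable_psmKer_growth (hu : PG u) (x : EuclideanSpace ℝ ι) :
    Integrable (psmKer t u x) (gau ι) := by
  obtain ⟨hc, K, n, hK, h⟩ := hu
  exact integrable_of_polyLe (n := n + 1)
    (((continuous_psmKer hc).comp (Continuous.prodMk_right x))).aestronglyMeasurable
    fun g => (norm_psmKer_growth hK h x g).trans_eq (mul_assoc _ _ _).symm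

/-- The smoothing of a map of polynomial growth is differentiable. -/
theorem hasFDerivAt_Psm_growth (ht : 0 < t) (hu : PG u) (x : EuclideanSpace ℝ ι) :
    HasFDerivAt (Psm t u) (∫ g, psmKer t u x g ∂gau ι) x := by
  have hul := hu.slice x √t
  obtain ⟨hc, K, n, hK0, hK⟩ := hu
  rw [funext (Psm_eq_cmd (u := u) ht x)]
  set s := 1 / √t with hs
  have hs0 : 0 ≤ s := by positivity
  have hm : ∀ y, AEStronglyMeasurable (fun g => cmd (s • (y - x)) g • u (x + √t • g)) (gau ι) :=
    fun y => ((by unfold cmd; fun_prop : Continuous fun g =>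
      cmd (s • (y - x)) g).aestronglyMeasurable).smul (aesm_slice hc.measurable x √t)
  have hi : Integrable (fun g => cmd (s • (x - x)) g • u (x + √t • g)) (gau ι) := by
    simpa [cmd] using hul.integrable
  set K' := K * (((1 + |(1 : ℝ)|) * (1 + |√t|)) ^ n * (1 + ‖x‖) ^ n) with hK'
  have hK'0 : 0 ≤ K' := by positivity
  have hb : ∀ g : EuclideanSpace ℝ ι, ∀ y ∈ Metric.ball x 1,
      ‖(cmd (s • (y - x)) g • s • innerSL ℝ (g - s • (y - x))).smulRight (u (x + √t • g))‖ ≤
        K' * s * (1 + s) * Real.exp (0 * ‖g‖ ^ 2 + (1 + n + s) * ‖g‖) := fun g y hy => by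
    rw [Metric.mem_ball, dist_eq_norm] at hy
    have hg : ‖u (x + √t • g)‖ ≤ K' * Real.exp (n * ‖g‖) := by
      have h1 := ou_slice_le hK0 hK 1 √t x g
      rw [one_smul] at h1
      have he : (1 + ‖g‖) ^ n ≤ Real.exp (n * ‖g‖) := by
        rw [Real.exp_nat_mul]
        exact pow_le_pow_left₀ (by positivity) (by linarith [Real.add_one_le_exp ‖g‖]) n
      refine h1.trans ((le_of_eq ?_).trans (mul_le_mul_of_nonneg_left he hK'0))
      rw [hK']; ring
    refine (norm_cmd_affine_le hg hs0 ?_).trans (le_of_eq ?_)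
    · rw [norm_smul, Real.norm_eq_abs, abs_of_nonneg hs0]
      exact mul_le_of_le_one_right hs0 hy.le
    · rw [show (0 : ℝ) * ‖g‖ ^ 2 + (1 + n + s) * ‖g‖
          = n * ‖g‖ + (0 * ‖g‖ ^ 2 + (1 + s) * ‖g‖) by ring, Real.exp_add (n * ‖g‖)]
      ring
  refine (hasFDerivAt_integral_of_dominated_of_fderiv_le
    (F' := fun y g =>
      (cmd (s • (y - x)) g • s • innerSL ℝ (g - s • (y - x))).smulRight (u (x + √t • g)))
    (Metric.ball_mem_nhds x zero_lt_one) (.of_forall hm) hi (aesm_cmd_slice hc.measurable x _ _ s)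
    (ae_of_all _ hb) ((integrable_gau_exp_sq (by norm_num) _).const_mul _)
    (ae_of_all _ fun g y _ => hasFDerivAt_cmd_affine _ g x y s)).congr_fderiv
      (integral_congr_ae (ae_of_all _ fun g => ?_))
  ext v
  simp only [psmKer, ContinuousLinearMap.smulRight_apply, smul_apply, innerSL_apply_apply,
    smul_eq_mul, sub_self, smul_zero, sub_zero, cmd, inner_zero_left, norm_zero, hs]
  rw [← mul_smul]
  norm_num

/-- The derivative of the smoothing as a map of polynomial growth. -/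
theorem pg_fderiv_Psm (ht : 0 < t) (hu : PG u) : PG fun x => fderiv ℝ (Psm t u) x := by
  rw [show (fun x => fderiv ℝ (Psm t u) x) = fun x => ∫ g, psmKer t u x g ∂gau ι from
    funext fun x => (hasFDerivAt_Psm_growth ht hu x).fderiv]
  obtain ⟨hc, K, n, hK, h⟩ := hu
  exact pg_average (k := fun p => psmKer t u p.1 p.2) (continuous_psmKer hc) (by positivity)
    fun x g => norm_psmKer_growth hK h x g

end growth

variable {Fv : EuclideanSpace ℝ ι → E d} {a : ℝ}

/-- Bessel's inequality for the derivative of a smoothing. -/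
theorem hn_fderiv_Psm_le {t : ℝ} (ht : 0 < t) (hF : PG Fv) (x : EuclideanSpace ℝ ι) :
    hn (fderiv ℝ (Psm t Fv) x) ^ 2 ≤ (1 / √t) ^ 2 * ∫ g, ‖Fv (x + √t • g)‖ ^ 2 ∂gau ι := by
  rw [(hasFDerivAt_Psm_growth ht hF x).fderiv]
  set f := fun g => Fv (x + √t • g) with hf
  set L := ∫ g, psmKer t Fv x g ∂gau ι with hL
  set c := 1 / √t with hc
  set b := EuclideanSpace.basisFun ι ℝ with hb
  have hfl : PG f := hF.slice x √t
  have hLb : ∀ i, L (b i) = c • ∫ g, ⟪g, b i⟫ • f g ∂gau ι := by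
    intro i
    rw [hL, ContinuousLinearMap.integral_apply (integrable_psmKer_growth hF x), ← integral_smul]
    simp [psmKer, hf, hc]
  have hgi : ∀ i, Integrable (fun g => ⟪g, b i⟫ • f g) (gau ι) := by
    intro i
    obtain ⟨hfc, K, n, hK0, hK⟩ := hfl
    refine integrable_of_polyLe (K := K) (n := n + 1)
      (((by fun_prop : Continuous fun g : EuclideanSpace ℝ ι => ⟪g, b i⟫).smul hfc)).aestronglyMeasurable
      fun g => ?_
    rw [norm_smul, Real.norm_eq_abs, mul_comm, pow_succ, ← mul_assoc]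
    refine mul_le_mul (hK g) ?_ (abs_nonneg _) (by positivity)
    refine (abs_real_inner_le_norm _ _).trans ?_
    rw [b.norm_eq_one, mul_one]
    linarith
  have hpt : ∀ g, ⟪f g, L g⟫ = ∑ i, ⟪L (b i), ⟪g, b i⟫ • f g⟫ := by
    intro g
    have hg : L g = ∑ i, ⟪b i, g⟫ • L (b i) := by
      conv_lhs => rw [← b.sum_repr' g]
      simp only [map_sum, map_smul]
    simp only [hg, inner_sum, real_inner_smul_right]
    refine Finset.sum_congr rfl fun i _ => ?_
    rw [real_inner_comm (f g), real_inner_comm g]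
  have hi1 : Integrable (fun g => ⟪f g, L g⟫) (gau ι) := by
    simp only [hpt]
    exact integrable_finsetSum _ fun i _ => (hgi i).const_inner _
  have hkey : c * ∫ g, ⟪f g, L g⟫ ∂gau ι = hn L ^ 2 := by
    simp only [hpt]
    rw [integral_finsetSum _ fun i _ => (hgi i).const_inner _, Finset.mul_sum, hn_sq]
    refine Finset.sum_congr rfl fun i _ => ?_
    rw [integral_inner (hgi i), ← real_inner_smul_right, ← hLb, real_inner_self_eq_norm_sq]
  have h0 : 0 ≤ ∫ g, ‖c • f g - L g‖ ^ 2 ∂gau ι := integral_nonneg fun g => sq_nonneg _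
  have e : ∀ g, ‖c • f g - L g‖ ^ 2 = c ^ 2 * ‖f g‖ ^ 2 - 2 * c * ⟪f g, L g⟫ + ‖L g‖ ^ 2 := by
    intro g
    rw [norm_sub_sq_real, norm_smul, mul_pow, real_inner_smul_left, Real.norm_eq_abs, sq_abs]
    ring
  have i2 := hfl.integrable_sq.const_mul (c ^ 2)
  have i3 := hi1.const_mul (2 * c)
  simp only [e] at h0
  rw [integral_add (i2.sub' i3) (integrable_sq_apply_gau L), integral_sub i2 i3, integral_const_mul,
    integral_const_mul, mul_assoc, hkey, integral_sq_apply] at h0
  simp only [hf] at h0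
  linarith

lemma ou_eq_Psm (ha : a ^ 2 ≤ 1) (u : EuclideanSpace ℝ ι → E d) :
    ou a u = fun x => Psm (1 - a ^ 2) u (a • x) := by
  funext x; simp only [ou, Psm]

theorem hasFDerivAt_ou_growth (ha : a ^ 2 < 1) (hF : PG Fv) (x : EuclideanSpace ℝ ι) :
    HasFDerivAt (ou a Fv) (a • fderiv ℝ (Psm (1 - a ^ 2) Fv) (a • x)) x := by
  rw [ou_eq_Psm ha.le]
  have h := (hasFDerivAt_Psm_growth (by linarith : 0 < 1 - a ^ 2) hF (a • x)).comp x
    ((hasFDerivAt_id x).const_smul a)
  rw [(hasFDerivAt_Psm_growth (by linarith : 0 < 1 - a ^ 2) hF (a • x)).fderiv]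
  refine h.congr_fderiv (ContinuousLinearMap.ext fun v => ?_)
  simp

lemma pg_fderiv_ou (ha : a ^ 2 < 1) (hF : PG Fv) : PG fun x => fderiv ℝ (ou a Fv) x := by
  rw [show (fun x => fderiv ℝ (ou a Fv) x) = fun x => a • fderiv ℝ (Psm (1 - a ^ 2) Fv) (a • x) from
    funext fun x => (hasFDerivAt_ou_growth ha hF x).fderiv]
  have h := (pg_fderiv_Psm (by linarith : 0 < 1 - a ^ 2) hF).slice 0 a
  simpa only [zero_add] using h.smul a

lemma pg_ou {G : Type*} [NormedAddCommGroup G] [NormedSpace ℝ G] {f : EuclideanSpace ℝ ι → G}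
    (hF : PG f) (ρ : ℝ) : PG (ou ρ f) := by
  obtain ⟨hc, K, n, hK, h⟩ := hF
  exact ⟨(continuous_ou_poly hc hK h).comp (Continuous.prodMk_right ρ),
    K * (2 * (1 + |ρ|)) ^ n * pwMom ι n, n,
    mul_nonneg (by positivity) (integral_nonneg fun w => by positivity),
    fun x => norm_ou_poly hK h le_rfl x⟩

lemma l2_ou_le (hρ : a ^ 2 ≤ 1) (hF : PG Fv) : l2 (ou a Fv) ≤ l2 Fv :=
  Real.sqrt_le_sqrt (ou_contract hρ
    ((memLp_two_iff_integrable_sq_norm hF.1.aestronglyMeasurable).2 hF.integrable_sq)).2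

/-- The derivative of the Ornstein-Uhlenbeck operator gains `a / √(1 - a²)` in quadratic mean. -/
theorem l2_fderiv_ou_le (ha : a ^ 2 < 1) (hF : PG Fv) :
    l2 (fun x => hentry (fderiv ℝ (ou a Fv) x)) ≤ |a| / √(1 - a ^ 2) * l2 Fv := by
  refine l2_le (mul_nonneg (by positivity) (l2_nonneg _)) ?_
  have h1 : 0 < 1 - a ^ 2 := by linarith
  have hsq : Integrable (fun x => ‖Fv x‖ ^ 2) (gau ι) := hF.integrable_sq
  have hH := integrable_comp_mix ha.le hsq
  have hpt : ∀ x, ‖hentry (fderiv ℝ (ou a Fv) x)‖ ^ 2 ≤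
      (|a| / √(1 - a ^ 2)) ^ 2 * ∫ g, ‖Fv (mix a (x, g))‖ ^ 2 ∂gau ι := by
    intro x
    rw [(hasFDerivAt_ou_growth ha hF x).fderiv]
    change hn (a • fderiv ℝ (Psm (1 - a ^ 2) Fv) (a • x)) ^ 2 ≤ _
    rw [hn_smul, mul_pow]
    refine (mul_le_mul_of_nonneg_left (hn_fderiv_Psm_le h1 hF (a • x)) (sq_nonneg _)).trans
      (le_of_eq ?_)
    simp only [mix]
    ring
  refine (integral_mono_of_nonneg (ae_of_all _ fun x => sq_nonneg _)
    (hH.integral_prod_left.const_mul _) (ae_of_all _ hpt)).trans (le_of_eq ?_)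
  rw [integral_const_mul, ← integral_prod _ hH, mul_pow, l2_sq]
  congr 1
  conv_rhs => rw [← map_mix (ι := ι) ha.le]
  rw [integral_map (continuous_mix (ι := ι) a).measurable.aemeasurable]
  rw [map_mix ha.le]
  exact hsq.1

/-! ### The Mehler form -/

variable {P : EuclideanSpace ℝ ι →L[ℝ] E d} {M : EuclideanSpace ℝ ι → E d →L[ℝ] E d} {ρ : ℝ}

lemma continuous_psi_integrand (hM : Continuous M) (ρ s : ℝ) :
    Continuous fun p : EuclideanSpace ℝ ι × EuclideanSpace ℝ ι =>
      M (mix ρ p) (P (s • p.1 - ρ • p.2)) :=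
  (hM.comp (continuous_mix ρ)).clm_apply
    (P.continuous.comp ((continuous_fst.const_smul s).sub (continuous_snd.const_smul ρ)))

lemma exists_psi_bound (hM : PG M) (ρ s : ℝ) : ∃ (C : ℝ) (m : ℕ), 0 ≤ C ∧ ∀ x v,
    ‖M (mix ρ (x, v)) (P (s • x - ρ • v))‖ ≤ C * ((1 + ‖x‖) ^ m * (1 + ‖v‖) ^ m) := by
  obtain ⟨-, K, n, hK, h⟩ := hM
  refine ⟨K * ((1 + |ρ|) * (1 + |√(1 - ρ ^ 2)|)) ^ n * (‖P‖ * (|s| + |ρ|)), n + 1,
    by positivity, fun x v => ?_⟩
  have h2 : ‖P (s • x - ρ • v)‖ ≤ ‖P‖ * ((|s| + |ρ|) * ((1 + ‖x‖) * (1 + ‖v‖))) := by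
    refine (P.le_opNorm _).trans (mul_le_mul_of_nonneg_left ((norm_sub_le _ _).trans ?_)
      (norm_nonneg P))
    rw [norm_smul, norm_smul, Real.norm_eq_abs, Real.norm_eq_abs, add_mul]
    refine add_le_add (mul_le_mul_of_nonneg_left ?_ (abs_nonneg s))
      (mul_le_mul_of_nonneg_left ?_ (abs_nonneg ρ)) <;>
    nlinarith [norm_nonneg x, norm_nonneg v, mul_nonneg (norm_nonneg x) (norm_nonneg v)]
  refine ((M _).le_opNorm _).trans ((mul_le_mul (ou_slice_le hK h ρ _ x v) h2 (norm_nonneg _)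
    (by positivity)).trans_eq ?_)
  ring

lemma integrable_psi_integrand (hM : PG M) (ρ s : ℝ) (x : EuclideanSpace ℝ ι) :
    Integrable (fun v => M (mix ρ (x, v)) (P (s • x - ρ • v))) (gau ι) := by
  obtain ⟨C, m, hC, h⟩ := exists_psi_bound (P := P) hM ρ s
  exact integrable_of_polyLe (n := m)
    ((continuous_psi_integrand hM.1 ρ s).comp (Continuous.prodMk_right x)).aestronglyMeasurable
    fun v => (h x v).trans_eq (mul_assoc _ _ _).symm

lemma pg_psi (hM : PG M) (ρ : ℝ) : PG (psi P ρ M) := by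
  obtain ⟨C, m, hC, h⟩ := exists_psi_bound (P := P) hM ρ √(1 - ρ ^ 2)
  exact (pg_average (continuous_psi_integrand hM.1 ρ √(1 - ρ ^ 2)) hC h).smul _

lemma psi_sub {M' : EuclideanSpace ℝ ι → E d →L[ℝ] E d} (hM : PG M) (hM' : PG M') (ρ : ℝ)
    (x : EuclideanSpace ℝ ι) :
    psi P ρ (fun y => M y - M' y) x = psi P ρ M x - psi P ρ M' x := by
  simp only [psi, sub_apply]
  rw [integral_sub (integrable_psi_integrand hM ρ _ x) (integrable_psi_integrand hM' ρ _ x),
    smul_sub]

/-- The trace against a map composed with an adjoint. -/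
lemma trd_comp_adjoint (B : EuclideanSpace ℝ ι →L[ℝ] E d →L[ℝ] ℝ) (A : E d →L[ℝ] E d)
    (J : E d →L[ℝ] EuclideanSpace ℝ ι) :
    trd B (A.comp (ContinuousLinearMap.adjoint J)) =
      ∑ i, B (J (EuclideanSpace.basisFun (Fin d) ℝ i)) (A (EuclideanSpace.basisFun (Fin d) ℝ i)) := by
  set b := EuclideanSpace.basisFun ι ℝ with hb
  set c := EuclideanSpace.basisFun (Fin d) ℝ with hc
  have h1 : ∀ k, A (ContinuousLinearMap.adjoint J (b k)) = ∑ i, ⟪J (c i), b k⟫ • A (c i) := by
    intro k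
    conv_lhs => rw [← c.sum_repr' (ContinuousLinearMap.adjoint J (b k))]
    simp [map_sum, map_smul, ContinuousLinearMap.adjoint_inner_right]
  simp only [trd, ContinuousLinearMap.comp_apply, ← hb, h1, map_sum, map_smul, smul_eq_mul]
  rw [Finset.sum_comm]
  refine Finset.sum_congr rfl fun i _ => ?_
  conv_rhs => rw [← b.sum_repr' (J (c i))]
  simp [map_sum, map_smul, real_inner_comm]

/-- The rotation behind the Mehler form. -/
lemma integral_pair_rot {F : Type*} [NormedAddCommGroup F] [NormedSpace ℝ F] {c s : ℝ}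
    (h : c ^ 2 + s ^ 2 = 1) {f : EuclideanSpace ℝ ι × EuclideanSpace ℝ ι → F} (hf : Continuous f)
    [SecondCountableTopology F] :
    ∫ p, f p ∂(gau ι).prod (gau ι) =
      ∫ p, f (c • p.1 + -s • p.2, s • p.1 + c • p.2) ∂(gau ι).prod (gau ι) := by
  have h' : c ^ 2 + (-s) ^ 2 = 1 := by linear_combination h
  conv_lhs => rw [← gau_rotate (ι := ι) h']
  rw [integral_map (by fun_prop) hf.aestronglyMeasurable, neg_neg]

/-- The Mehler form moves one derivative to the test. -/
theorem psi_ibp {Φ0 : EuclideanSpace ℝ ι → E d →L[ℝ] ℝ} (hΦ : Tame Φ0) (hM : PG M)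
    (hρ : ρ ^ 2 < 1) :
    ∫ x, Φ0 x (psi P ρ M x) ∂gau ι =
      ∫ x, trd (fderiv ℝ Φ0 x) ((ou ρ M x).comp P) ∂gau ι := by
  set s := √(1 - ρ ^ 2) with hs
  have hs0 : 0 < s := Real.sqrt_pos.2 (by linarith)
  have hcs : ρ ^ 2 + s ^ 2 = 1 := by rw [hs, Real.sq_sqrt (by linarith)]; ring
  have hΦc := hΦ.continuous
  have hΦ'c := hΦ.continuous_fderiv
  obtain ⟨C, m, hC, hb⟩ := exists_psi_bound (P := P) hM ρ s
  obtain ⟨-, K1, n1, hK1, hΦb, hΦ'⟩ := id hΦ
  obtain ⟨hMc, K, n, hK, hKb⟩ := id hM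
  set f := fun p : EuclideanSpace ℝ ι × EuclideanSpace ℝ ι =>
    Φ0 p.1 (M (mix ρ p) (P (s • p.1 - ρ • p.2))) with hf
  set h := fun p : EuclideanSpace ℝ ι × EuclideanSpace ℝ ι =>
    trd (fderiv ℝ Φ0 p.1) ((M (mix ρ p)).comp P) with hh
  have hfc : Continuous f :=
    (hΦc.comp continuous_fst).clm_apply (continuous_psi_integrand hMc ρ s)
  have hhc : Continuous h := by
    simp only [hh, trd, ContinuousLinearMap.comp_apply]
    exact continuous_finsetSum _ fun k _ =>
      ((hΦ'c.comp continuous_fst).clm_apply continuous_const).clm_apply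
        ((hMc.comp (continuous_mix ρ)).clm_apply continuous_const)
  have hfi : Integrable f ((gau ι).prod (gau ι)) :=
    integrable_of_polyLe2 (K := K1 * C) (m := n1 + m) (n := m) hfc.aestronglyMeasurable fun p =>
      ((Φ0 p.1).le_opNorm _).trans ((mul_le_mul (hΦb _) (hb p.1 p.2) (norm_nonneg _)
        (by positivity)).trans_eq (by ring))
  have hhi : Integrable h ((gau ι).prod (gau ι)) :=
    integrable_of_polyLe2
      (K := Fintype.card ι * (K1 * (K * ((1 + |ρ|) * (1 + |√(1 - ρ ^ 2)|)) ^ n * ‖P‖)))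
      (m := n1 + n) (n := n) hhc.aestronglyMeasurable fun p =>
        (norm_trd_le (hΦ' _) ((ContinuousLinearMap.opNorm_comp_le _ _).trans
          (mul_le_mul_of_nonneg_right (ou_slice_le hK hKb ρ _ p.1 p.2) (norm_nonneg P)))).trans_eq
            (by ring)
  have hinner : ∀ p, ∫ t, f (ρ • p + -s • t, s • p + ρ • t) ∂gau ι
      = s * ∫ t, h (ρ • p + -s • t, s • p + ρ • t) ∂gau ι := by
    intro p
    have e1 : ∀ t, mix ρ (ρ • p + -s • t, s • p + ρ • t) = p := fun t => by
      have e : mix ρ (ρ • p + -s • t, s • p + ρ • t) = (ρ ^ 2 + s ^ 2) • p := by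
        simp only [mix, ← hs]; module
      rw [e, hcs, one_smul]
    have e2 : ∀ t : EuclideanSpace ℝ ι,
        s • (ρ • p + -s • t) - ρ • (s • p + ρ • t) = -t := fun t => by
      have e : s • (ρ • p + -s • t) - ρ • (s • p + ρ • t) = -((ρ ^ 2 + s ^ 2) • t) := by module
      rw [e, hcs, one_smul]
    have key := ibp_slice hΦ (-((M p).comp P)) (ρ • p) s
    simp only [hf, hh, e1, e2, map_neg]
    simp only [ContinuousLinearMap.neg_apply, ContinuousLinearMap.comp_apply, map_neg] at key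
    rw [key, ← integral_const_mul, ← integral_const_mul]
    refine integral_congr_ae (ae_of_all _ fun t => ?_)
    simp [trd, Finset.mul_sum]
  have hrot : ∀ {u : EuclideanSpace ℝ ι × EuclideanSpace ℝ ι → ℝ}, Continuous u →
      Integrable u ((gau ι).prod (gau ι)) →
      Integrable (fun p => u (ρ • p.1 + -s • p.2, s • p.1 + ρ • p.2)) ((gau ι).prod (gau ι)) := by
    intro u hu hui
    have hm := gau_rotate (ι := ι) (show ρ ^ 2 + (-s) ^ 2 = 1 by linear_combination hcs)
    rw [← hm] at hui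
    have := hui.comp_measurable (by fun_prop)
    simpa only [neg_neg, Function.comp_def] using this
  calc ∫ x, Φ0 x (psi P ρ M x) ∂gau ι
      = s⁻¹ * ∫ p, f p ∂(gau ι).prod (gau ι) := by
        rw [integral_prod _ hfi, ← integral_const_mul]
        refine integral_congr_ae (ae_of_all _ fun x => ?_)
        simp only [psi, ← hs, map_smul, smul_eq_mul, hf]
        congr 1
        exact ((Φ0 x).integral_comp_comm (integrable_psi_integrand hM ρ s x)).symm
    _ = s⁻¹ * (s * ∫ p, h (ρ • p.1 + -s • p.2, s • p.1 + ρ • p.2) ∂(gau ι).prod (gau ι)) := by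
        rw [integral_pair_rot hcs hfc, integral_prod _ (hrot hfc hfi),
          integral_prod _ (hrot hhc hhi), ← integral_const_mul s]
        simp only [hinner]
    _ = ∫ p, h p ∂(gau ι).prod (gau ι) := by
        rw [← mul_assoc, inv_mul_cancel₀ hs0.ne', one_mul, ← integral_pair_rot hcs hhc]
    _ = _ := by
        rw [integral_prod _ hhi]
        refine integral_congr_ae (ae_of_all _ fun x => ?_)
        have hA : Integrable (fun v => M (mix ρ (x, v))) (gau ι) :=
          integrable_slice2 hMc hK hKb ρ _ x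
        simp only [hh, trd, ContinuousLinearMap.comp_apply, ou_eq]
        rw [integral_finsetSum _ fun k _ =>
          ContinuousLinearMap.integrable_comp _ (hA.apply_continuousLinearMap _)]
        refine Finset.sum_congr rfl fun k _ => ?_
        rw [ContinuousLinearMap.integral_apply hA,
          ContinuousLinearMap.integral_comp_comm _ (hA.apply_continuousLinearMap _)]

/-- Semigroup law: the operators shift the correlation of the Mehler form. -/
theorem ou_psi (hM : PG M) {a b : ℝ} (ha : a ^ 2 ≤ 1)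
    (hb : b ^ 2 < 1) (x : EuclideanSpace ℝ ι) :
    ou a (psi P b M) x = a • psi P (a * b) M x := by
  set sa := √(1 - a ^ 2) with hsa
  set sb := √(1 - b ^ 2) with hsb
  set sc := √(1 - (a * b) ^ 2) with hsc
  have hab : (a * b) ^ 2 < 1 := by
    rw [mul_pow]; exact lt_of_le_of_lt (mul_le_of_le_one_left (sq_nonneg b) ha) hb
  have hsb0 : 0 < sb := Real.sqrt_pos.2 (by linarith)
  have hsc0 : 0 < sc := Real.sqrt_pos.2 (by linarith)
  have ea : sa ^ 2 = 1 - a ^ 2 := Real.sq_sqrt (by linarith)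
  have eb : sb ^ 2 = 1 - b ^ 2 := Real.sq_sqrt (by linarith)
  have ec : sc ^ 2 = 1 - (a * b) ^ 2 := Real.sq_sqrt (by linarith)
  set C := b * sa / sc with hC
  set S := sb / sc with hS
  have hCS : C ^ 2 + S ^ 2 = 1 := by
    rw [hC, hS, div_pow, div_pow, ← add_div, div_eq_one_iff_eq (by positivity), mul_pow, ea, eb, ec]
    ring
  set f := fun p : EuclideanSpace ℝ ι × EuclideanSpace ℝ ι =>
    M (mix b (mix a (x, p.1), p.2)) (P (sb • mix a (x, p.1) - b • p.2)) with hf
  have hfc : Continuous f :=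
    (continuous_psi_integrand hM.1 b sb).comp
      (((continuous_mix a).comp ((continuous_const.prodMk continuous_fst))).prodMk continuous_snd)
  obtain ⟨D, m, hD, hb'⟩ := exists_psi_bound (P := P) hM b sb
  have hfi : Integrable f ((gau ι).prod (gau ι)) :=
    integrable_of_polyLe2 (K := D * (((1 + |a|) * (1 + |sa|)) ^ m * (1 + ‖x‖) ^ m)) (m := m) (n := m)
      hfc.aestronglyMeasurable fun p => (hb' _ _).trans
        ((mul_le_mul_of_nonneg_left (mul_le_mul_of_nonneg_right
          (pw_comb a sa x p.1 m) (by positivity)) hD).trans_eq (by ring))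
  have hpt : ∀ v t, f (C • v + -S • t, S • v + C • t)
      = (sb * a / sc) • M (mix (a * b) (x, v)) (P (sc • x - (a * b) • v))
        + (-(sb * sa * S + b * C)) • M (mix (a * b) (x, v)) (P t) := by
    intro v t
    have h1 : b * sa * C + sb * S = sc := by
      rw [hC, hS, mul_div_assoc', mul_div_assoc', ← add_div, div_eq_iff hsc0.ne']
      nlinarith [ea, eb, ec]
    have h2 : b * sa * -S + sb * C = 0 := by rw [hC, hS]; ring
    have h3 : sb * sa * C - b * S = -(sb * a / sc) * (a * b) := by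
      rw [hC, hS, mul_div_assoc', mul_div_assoc', ← sub_div, ← neg_div, div_mul_eq_mul_div,
        div_eq_div_iff hsc0.ne' hsc0.ne']
      linear_combination (sb * b * sc) * ea
    have e1 : mix b (mix a (x, C • v + -S • t), S • v + C • t) = mix (a * b) (x, v) := by
      have e : mix b (mix a (x, C • v + -S • t), S • v + C • t)
          = (a * b) • x + (b * sa * C + sb * S) • v + (b * sa * -S + sb * C) • t := by
        simp only [mix, ← hsa, ← hsb]; module
      rw [e, h1, h2, zero_smul, add_zero]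
      simp only [mix, ← hsc]
    have e2 : sb • mix a (x, C • v + -S • t) - b • (S • v + C • t)
        = (sb * a / sc) • (sc • x - (a * b) • v) + (-(sb * sa * S + b * C)) • t := by
      have e : sb • mix a (x, C • v + -S • t) - b • (S • v + C • t)
          = (sb * a) • x + (sb * sa * C - b * S) • v + (-(sb * sa * S + b * C)) • t := by
        simp only [mix, ← hsa]; module
      rw [e, h3, smul_sub, smul_smul, div_mul_cancel₀ _ hsc0.ne', smul_smul]
      module
    simp only [hf, e1, e2, map_add, map_smul]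
  have hzero : ∀ v, ∫ t, M (mix (a * b) (x, v)) (P t) ∂gau ι = 0 := by
    intro v
    have hl := ((M (mix (a * b) (x, v))).comp P).integral_comp_comm
      (φ := fun t : EuclideanSpace ℝ ι => t) (μ := gau ι)
      ((integrable_gau_nrm).mono' (by fun_prop) (ae_of_all _ fun _ => le_rfl))
    simp only [ContinuousLinearMap.comp_apply] at hl
    rw [hl]
    have h0 : ∫ t : EuclideanSpace ℝ ι, t ∂gau ι = 0 := by
      refine ext_inner_right ℝ fun z => ?_
      rw [inner_zero_left, ← integral_gau_inner z, real_inner_comm z, ← integral_inner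
        (f := fun t : EuclideanSpace ℝ ι => t)
        ((integrable_gau_nrm).mono' (by fun_prop) (ae_of_all _ fun _ => le_rfl)) z]
      simp [real_inner_comm]
    rw [h0, map_zero, map_zero]
  calc ou a (psi P b M) x = sb⁻¹ • ∫ p, f p ∂(gau ι).prod (gau ι) := by
        rw [integral_prod _ hfi, ← integral_smul, ou_eq]
        rfl
    _ = sb⁻¹ • ((sb * a / sc) • ∫ v, M (mix (a * b) (x, v)) (P (sc • x - (a * b) • v)) ∂gau ι) := by
        congr 1
        have hm := gau_rotate (ι := ι) (show C ^ 2 + (-S) ^ 2 = 1 by linear_combination hCS)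
        have hri : Integrable (fun p => f (C • p.1 + -S • p.2, S • p.1 + C • p.2))
            ((gau ι).prod (gau ι)) := by
          rw [← hm] at hfi
          simpa only [neg_neg, Function.comp_def] using hfi.comp_measurable (by fun_prop)
        rw [integral_pair_rot hCS hfc, integral_prod _ hri, ← integral_smul]
        refine integral_congr_ae (ae_of_all _ fun v => ?_)
        simp only [hpt]
        have hti : Integrable (fun t => M (mix (a * b) (x, v)) (P t)) (gau ι) :=
          ((M _).comp P).integrable_comp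
            ((integrable_gau_nrm).mono' (by fun_prop) (ae_of_all _ fun _ => le_rfl))
        have hti' : Integrable (fun t => (-(sb * sa * S + b * C)) • M (mix (a * b) (x, v)) (P t))
            (gau ι) := by simpa only [Pi.smul_def] using hti.smul (-(sb * sa * S + b * C))
        rw [integral_add (integrable_const _) hti', integral_const, probReal_univ, one_smul,
          integral_smul, hzero, smul_zero, add_zero]
    _ = _ := by
        simp only [psi, ← hsc, smul_smul]
        congr 1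
        field_simp

/-- The smoothing of a map that is Lipschitz in Hilbert-Schmidt length stays close to it. -/
theorem l2_sub_ou_le {L : ℝ} (hM : PG M) (hL0 : 0 ≤ L)
    (hL : ∀ x y, hn (M x - M y) ≤ L * ‖x - y‖) (hρ : ρ ∈ Set.Icc (0 : ℝ) 1) :
    l2 (fun x => hentry (M x - ou ρ M x)) ≤ L * √(2 * (1 - ρ) * Fintype.card ι) := by
  set s := √(1 - ρ ^ 2) with hs
  have hs2 : s ^ 2 = 1 - ρ ^ 2 := Real.sq_sqrt (sub_nonneg.2 (sq_le_one_of_mem hρ))
  refine l2_le (mul_nonneg hL0 (Real.sqrt_nonneg _)) ?_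
  obtain ⟨hMc, K, n, hK, hKb⟩ := id hM
  have hw : Integrable (fun w : EuclideanSpace ℝ ι => w) (gau ι) :=
    (integrable_gau_nrm).mono' (by fun_prop) (ae_of_all _ fun _ => le_rfl)
  have hpt : ∀ x, ‖hentry (M x - ou ρ M x)‖ ^ 2 ≤
      L ^ 2 * ((1 - ρ) ^ 2 * ‖x‖ ^ 2 + s ^ 2 * Fintype.card ι) := by
    intro x
    have hi : Integrable (fun w => M (mix ρ (x, w))) (gau ι) := integrable_slice2 hMc hK hKb ρ _ x
    have e : hentry (M x - ou ρ M x) = ∫ w, hentry (M x - M (mix ρ (x, w))) ∂gau ι := by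
      rw [hentry.integral_comp_comm (φ := fun w => M x - M (mix ρ (x, w))) ((integrable_const _).sub' hi),
        integral_sub (integrable_const _) hi, integral_const, probReal_univ, one_smul, ou_eq]
    have hg : PG fun w => hentry (M x - M (mix ρ (x, w))) := by
      obtain ⟨hc, K', n', hK', h'⟩ := hM.slice (ρ • x) s
      exact PG.clm ⟨continuous_const.sub hc, ‖M x‖ + K', n', add_nonneg (norm_nonneg _) hK', fun w =>
        (norm_sub_le _ _).trans (by
          rw [add_mul]
          exact add_le_add (le_mul_of_one_le_right (norm_nonneg _) (one_le_pw w n')) (h' w))⟩ hentry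
    rw [e]
    refine (norm_sq_integral_le hg.integrable hg.integrable_sq).trans ?_
    have h2 : ∀ w, ‖hentry (M x - M (mix ρ (x, w)))‖ ^ 2 ≤
        L ^ 2 * ((1 - ρ) ^ 2 * ‖x‖ ^ 2 - 2 * ((1 - ρ) * s) * ⟪w, x⟫ + s ^ 2 * ‖w‖ ^ 2) := by
      intro w
      refine (pow_le_pow_left₀ (norm_nonneg _) (hL x _) 2).trans (le_of_eq ?_)
      rw [mul_pow, show x - mix ρ (x, w) = (1 - ρ) • x - s • w by simp only [mix, ← hs]; module,
        norm_sub_sq_real, norm_smul, norm_smul, mul_pow, mul_pow, Real.norm_eq_abs, Real.norm_eq_abs,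
        sq_abs, sq_abs, real_inner_smul_left, real_inner_smul_right, real_inner_comm x w]
      ring
    have i2 : Integrable (fun w => 2 * ((1 - ρ) * s) * ⟪w, x⟫) (gau ι) :=
      (hw.inner_const x).const_mul _
    refine (integral_mono_of_nonneg (ae_of_all _ fun _ => sq_nonneg _)
      ((((integrable_const _).sub' i2).add (integrable_gau_nrm_sq.const_mul _)).const_mul _)
      (ae_of_all _ h2)).trans (le_of_eq ?_)
    simp only [Pi.add_apply]
    rw [integral_const_mul, integral_add ((integrable_const _).sub' i2)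
      (integrable_gau_nrm_sq.const_mul _), integral_sub (integrable_const _) i2, integral_const,
      probReal_univ, one_smul, integral_const_mul, integral_const_mul, integral_gau_inner, mul_zero,
      sub_zero, integral_gau_norm_sq]
  refine (integral_mono_of_nonneg (ae_of_all _ fun _ => sq_nonneg _)
    (((integrable_gau_nrm_sq.const_mul _).add (integrable_const _)).const_mul _)
    (ae_of_all _ hpt)).trans (le_of_eq ?_)
  simp only [Pi.add_apply]
  rw [integral_const_mul, integral_add (integrable_gau_nrm_sq.const_mul _) (integrable_const _),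
    integral_const_mul, integral_gau_norm_sq, integral_const, probReal_univ, one_smul, hs2, mul_pow,
    Real.sq_sqrt (by have := hρ.2; have : 0 ≤ 1 - ρ := by linarith
                     positivity)]
  ring

/-- A rule against the kernel `x / (1 - ρ₀ x)`. -/
theorem rule_sum_geom_le {n : ℕ} {ε ρ0 : ℝ} (Rl : Rule n ε) (h0 : 0 ≤ ρ0) (h1 : ρ0 < 1) (U : ℝ) :
    ∑ k, Rl.weight k U * (Rl.node k U / (1 - Rl.node k U * ρ0))
      ≤ 1 + Real.log (1 / (1 - ρ0)) + ε / (1 - ρ0) := by
  have hu : 0 < 1 - ρ0 := by linarith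
  have hε : 0 ≤ ε := (abs_nonneg _).trans (Rl.moment 0 0)
  have hn0 : ∀ k, 0 ≤ Rl.node k U ∧ Rl.node k U ≤ 1 := fun k =>
    ⟨Rl.lo_nonneg.trans (Rl.node_mem k U).1, (Rl.node_mem k U).2.trans Rl.hi_lt_one.le⟩
  have hs : HasSum (fun j : ℕ => ∑ k, Rl.weight k U * Rl.node k U * (Rl.node k U * ρ0) ^ j)
      (∑ k, Rl.weight k U * (Rl.node k U / (1 - Rl.node k U * ρ0))) := by
    refine hasSum_sum fun k _ => ?_
    rw [show Rl.weight k U * (Rl.node k U / (1 - Rl.node k U * ρ0)) =
      Rl.weight k U * Rl.node k U * (1 - Rl.node k U * ρ0)⁻¹ by ring]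
    exact (hasSum_geometric_of_lt_one (mul_nonneg (hn0 k).1 h0)
      (lt_of_le_of_lt (mul_le_of_le_one_left h0 (hn0 k).2) h1)).mul_left _
  refine hasSum_le_of_sum_le hs fun S => ?_
  have hterm : ∀ j : ℕ, ∑ k, Rl.weight k U * Rl.node k U * (Rl.node k U * ρ0) ^ j ≤
      ρ0 ^ (j + 1) / ((j : ℝ) + 1) + (1 - ρ0) * ρ0 ^ j + ε * ρ0 ^ j := by
    intro j
    have hm := (abs_le.1 (Rl.moment (j + 1) U)).2
    push_cast at hm
    have hj : (1 : ℝ) / ((j : ℝ) + 1 + 1) ≤ 1 / ((j : ℝ) + 1) := by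
      apply one_div_le_one_div_of_le <;> linarith [Nat.cast_nonneg (α := ℝ) j]
    have e : ρ0 ^ j * (1 / ((j : ℝ) + 1))
        = ρ0 ^ (j + 1) / ((j : ℝ) + 1) + (1 - ρ0) * ρ0 ^ j / ((j : ℝ) + 1) := by ring
    calc _ = ρ0 ^ j * ∑ k, Rl.weight k U * Rl.node k U ^ (j + 1) := by
          rw [Finset.mul_sum]
          exact Finset.sum_congr rfl fun k _ => by ring
      _ ≤ ρ0 ^ j * (1 / ((j : ℝ) + 1) + ε) :=
          mul_le_mul_of_nonneg_left (by linarith) (pow_nonneg h0 _)
      _ ≤ _ := by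
          rw [mul_add, e, mul_comm ε]
          gcongr
          exact div_le_self (by positivity) (by linarith [Nat.cast_nonneg (α := ℝ) j])
  refine (Finset.sum_le_sum fun j _ => hterm j).trans ?_
  have hl : HasSum (fun j : ℕ => ρ0 ^ (j + 1) / ((j : ℝ) + 1)) (Real.log (1 / (1 - ρ0))) := by
    rw [one_div, Real.log_inv]
    exact Real.hasSum_pow_div_log_of_abs_lt_one (abs_lt.2 ⟨by linarith, h1⟩)
  have hg := hasSum_geometric_of_lt_one h0 h1
  refine (sum_le_hasSum S (fun j _ => ?_) ((hl.add (hg.mul_left (1 - ρ0))).add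
    (hg.mul_left ε))).trans (le_of_eq ?_)
  · positivity
  · rw [mul_inv_cancel₀ hu.ne', div_eq_mul_inv]
    ring

variable (hPn : ‖P‖ ≤ 1)

include hPn

/-- The Mehler form costs `1 / √(1 - ρ²)` in quadratic mean. -/
theorem l2_psi_le (hM : PG M) (hρ : ρ ^ 2 < 1) :
    l2 (psi P ρ M) ≤ (√(1 - ρ ^ 2))⁻¹ * l2 (fun x => hentry (M x)) := by
  set s := √(1 - ρ ^ 2) with hs
  have hs0 : 0 < s := Real.sqrt_pos.2 (by linarith)
  have hcs : ρ ^ 2 + s ^ 2 = 1 := by rw [hs, Real.sq_sqrt (by linarith)]; ring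
  refine l2_le (mul_nonneg (by positivity) (l2_nonneg _)) ?_
  set f := fun p : EuclideanSpace ℝ ι × EuclideanSpace ℝ ι =>
    ‖M (mix ρ p) (P (s • p.1 - ρ • p.2))‖ ^ 2 with hf
  have hfc : Continuous f := (continuous_psi_integrand hM.1 ρ s).norm.pow 2
  obtain ⟨C, m, hC, hb⟩ := exists_psi_bound (P := P) hM ρ s
  have hfi : Integrable f ((gau ι).prod (gau ι)) :=
    integrable_of_polyLe2 (K := C ^ 2) (m := m * 2) (n := m * 2) hfc.aestronglyMeasurable fun p => by
      rw [Real.norm_of_nonneg (sq_nonneg _), pow_mul, pow_mul, ← mul_pow, ← mul_pow]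
      exact pow_le_pow_left₀ (norm_nonneg _) (hb p.1 p.2) 2
  have hpt : ∀ x, ‖psi P ρ M x‖ ^ 2 ≤ s⁻¹ ^ 2 * ∫ v, f (x, v) ∂gau ι := by
    intro x
    simp only [psi, ← hs, norm_smul, mul_pow, Real.norm_of_nonneg (inv_nonneg.2 hs0.le)]
    exact mul_le_mul_of_nonneg_left (norm_sq_integral_le (integrable_psi_integrand hM ρ s x)
      (PG.integrable_sq ⟨(continuous_psi_integrand hM.1 ρ s).comp (Continuous.prodMk_right x),
        C * (1 + ‖x‖) ^ m, m, by positivity, fun v => (hb x v).trans_eq (mul_assoc _ _ _).symm⟩))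
      (sq_nonneg _)
  refine (integral_mono_of_nonneg (ae_of_all _ fun _ => sq_nonneg _)
    (hfi.integral_prod_left.const_mul _) (ae_of_all _ hpt)).trans ?_
  rw [integral_const_mul, ← integral_prod _ hfi, mul_pow, l2_sq]
  refine mul_le_mul_of_nonneg_left ?_ (sq_nonneg _)
  have hm := gau_rotate (ι := ι) (show ρ ^ 2 + (-s) ^ 2 = 1 by linear_combination hcs)
  have hri : Integrable (fun p => f (ρ • p.1 + -s • p.2, s • p.1 + ρ • p.2))
      ((gau ι).prod (gau ι)) := by
    rw [← hm] at hfi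
    simpa only [neg_neg, Function.comp_def] using hfi.comp_measurable (by fun_prop)
  rw [integral_pair_rot hcs hfc, integral_prod _ hri]
  have hpt2 : ∀ p, ∫ t, f (ρ • p + -s • t, s • p + ρ • t) ∂gau ι ≤ ‖hentry (M p)‖ ^ 2 := by
    intro p
    have e : ∀ t, f (ρ • p + -s • t, s • p + ρ • t) = ‖((M p).comp P) t‖ ^ 2 := fun t => by
      have e1 : mix ρ (ρ • p + -s • t, s • p + ρ • t) = p := by
        have e : mix ρ (ρ • p + -s • t, s • p + ρ • t) = (ρ ^ 2 + s ^ 2) • p := by
          simp only [mix, ← hs]; module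
        rw [e, hcs, one_smul]
      have e2 : s • (ρ • p + -s • t) - ρ • (s • p + ρ • t) = -t := by
        have e : s • (ρ • p + -s • t) - ρ • (s • p + ρ • t) = -((ρ ^ 2 + s ^ 2) • t) := by module
        rw [e, hcs, one_smul]
      simp only [hf, e1, e2, map_neg, norm_neg, ContinuousLinearMap.comp_apply]
    simp only [e, integral_sq_apply]
    change hn ((M p).comp P) ^ 2 ≤ hn (M p) ^ 2
    exact pow_le_pow_left₀ (hn_nonneg _)
      ((hn_comp_le' _ _).trans (mul_le_of_le_one_right (hn_nonneg _) hPn)) 2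
  refine integral_mono_of_nonneg (ae_of_all _ fun p => integral_nonneg fun t => sq_nonneg _)
    ?_ (ae_of_all _ hpt2)
  exact (hM.clm hentry).integrable_sq

/-- A shifted Mehler form costs `ρ / √(1 - (ρ ρ₀)²)` in quadratic mean. -/
theorem l2_ou_psi_le (hM : PG M) {ρ0 : ℝ} (hρ : ρ ∈ Set.Icc (0 : ℝ) 1) (h0 : ρ0 ^ 2 < 1) :
    l2 (ou ρ (psi P ρ0 M)) ≤
      ρ / √(1 - (ρ * ρ0) ^ 2) * l2 (fun x => hentry (M x)) := by
  have hρ2 : ρ ^ 2 ≤ 1 := sq_le_one_of_mem hρ
  have hab : (ρ * ρ0) ^ 2 < 1 := by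
    rw [mul_pow]; exact lt_of_le_of_lt (mul_le_of_le_one_left (sq_nonneg ρ0) hρ2) h0
  rw [show ou ρ (psi P ρ0 M) = fun x => ρ • psi P (ρ * ρ0) M x from
    funext fun x => ou_psi hM hρ2 h0 x, l2_smul, abs_of_nonneg hρ.1, div_eq_mul_inv, mul_assoc]
  exact mul_le_mul_of_nonneg_left (l2_psi_le hPn hM hab) hρ.1

/-- The derivative of a shifted Mehler form. -/
theorem l2_fderiv_ou_psi_le (hM : PG M) {ρ0 : ℝ}
    (hρ : ρ ∈ Set.Ico (0 : ℝ) 1) (h0 : ρ0 ∈ Set.Ioo (0 : ℝ) 1) :
    l2 (fun x => hentry (fderiv ℝ (ou ρ (psi P ρ0 M)) x)) ≤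
      ρ / (1 - ρ * ρ0) * l2 (fun x => hentry (M x)) := by
  have hρ1 : ρ ^ 2 ≤ 1 := pow_le_one₀ hρ.1 hρ.2.le
  have h01 : ρ0 ^ 2 < 1 := pow_lt_one₀ h0.1.le h0.2 two_ne_zero
  rcases hρ.1.eq_or_lt with rfl | hpos
  · have e : ou 0 (psi P ρ0 M) = fun _ => (0 : E d) := funext fun x => by
      rw [ou_psi hM hρ1 h01, zero_smul]
    have hz : ∀ x, fderiv ℝ (ou 0 (psi P ρ0 M)) x = 0 := fun x => by
      rw [e, fderiv_const_apply]
    simp [hz, l2]
  set a := √(ρ * ρ0) with ha
  have hc0 : 0 < ρ * ρ0 := mul_pos hpos h0.1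
  have hc1 : ρ * ρ0 < 1 := by nlinarith [hρ.2, h0.1, h0.2]
  have ha0 : 0 < a := Real.sqrt_pos.2 hc0
  have ha2 : a ^ 2 = ρ * ρ0 := Real.sq_sqrt hc0.le
  have hψ := pg_psi (P := P) hM a
  have e : ou ρ (psi P ρ0 M) = fun x => (ρ / a) • ou a (psi P a M) x := funext fun x => by
    rw [ou_psi hM hρ1 h01, ou_psi hM (by linarith) (by linarith), smul_smul,
      div_mul_cancel₀ _ ha0.ne', ← sq, ha2]
  have e' : ∀ x, fderiv ℝ (ou ρ (psi P ρ0 M)) x = (ρ / a) • fderiv ℝ (ou a (psi P a M)) x :=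
    fun x => by
    rw [e]
    exact ((hasFDerivAt_ou_growth (by linarith) hψ x).const_smul (ρ / a)).fderiv.trans
      (by rw [(hasFDerivAt_ou_growth (by linarith) hψ x).fderiv])
  simp only [e', map_smul]
  rw [l2_smul, abs_of_nonneg (by positivity)]
  refine (mul_le_mul_of_nonneg_left ((l2_fderiv_ou_le (by linarith) hψ).trans
    (mul_le_mul_of_nonneg_left (l2_psi_le hPn hM (by linarith)) (by positivity)))
    (by positivity)).trans (le_of_eq ?_)
  have hsa : √(1 - a ^ 2) * √(1 - a ^ 2) = 1 - ρ * ρ0 := by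
    rw [Real.mul_self_sqrt (by linarith), ha2]
  rw [abs_of_pos ha0, ← hsa]
  field_simp

/-- One Picard step: the quadratic means of a combination of the operators applied to a value
part plus a Mehler form, and of its derivative. -/
theorem picard_le {J : Type*} [Fintype J] {w r : J → ℝ} (hw : ∀ k, 0 ≤ w k)
    (hr : ∀ k, r k ∈ Set.Ico (0 : ℝ) 1) {ρ0 : ℝ} (h0 : ρ0 ∈ Set.Ioo (0 : ℝ) 1)
    {G : EuclideanSpace ℝ ι → E d} (hG : PG G) (hM : PG M)
    (σ : ℝ) :
    Differentiable ℝ (fun x => ∑ k, w k • (ou (r k) G x + σ • ou (r k) (psi P ρ0 M) x)) ∧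
    l2 (fun x => ∑ k, w k • (ou (r k) G x + σ • ou (r k) (psi P ρ0 M) x)) ≤
      (∑ k, w k) * l2 G +
        (∑ k, w k * (r k / √(1 - (r k * ρ0) ^ 2))) * (|σ| * l2 (fun x => hentry (M x))) ∧
    l2 (fun x => hentry (fderiv ℝ
        (fun x => ∑ k, w k • (ou (r k) G x + σ • ou (r k) (psi P ρ0 M) x)) x)) ≤
      (∑ k, w k * (r k / √(1 - r k ^ 2))) * l2 G +
        (∑ k, w k * (r k / (1 - r k * ρ0))) * (|σ| * l2 (fun x => hentry (M x))) := by
  have hr2 : ∀ k, r k ^ 2 < 1 := fun k => pow_lt_one₀ (hr k).1 (hr k).2 two_ne_zero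
  have hψ := pg_psi (P := P) hM ρ0
  set A := fun k x => w k • (ou (r k) G x + σ • ou (r k) (psi P ρ0 M) x) with hA
  have hAl : ∀ k, PG (A k) := fun k =>
    ((pg_ou hG _).add ((pg_ou hψ _).smul σ)).smul (w k)
  have hd : ∀ k x, HasFDerivAt (A k)
      (w k • (fderiv ℝ (ou (r k) G) x + σ • fderiv ℝ (ou (r k) (psi P ρ0 M)) x)) x := by
    intro k x
    have h1 := hasFDerivAt_ou_growth (hr2 k) hG x
    have h2 := hasFDerivAt_ou_growth (hr2 k) hψ x
    rw [h1.fderiv, h2.fderiv]
    exact (h1.add (h2.const_smul σ)).const_smul (w k)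
  have hD : ∀ x, HasFDerivAt (fun x => ∑ k, A k x)
      (∑ k, w k • (fderiv ℝ (ou (r k) G) x + σ • fderiv ℝ (ou (r k) (psi P ρ0 M)) x)) x :=
    fun x => HasFDerivAt.fun_sum fun k _ => hd k x
  refine ⟨fun x => (hD x).differentiableAt, ?_, ?_⟩
  · refine (l2_sum _ fun k _ => hAl k).trans ?_
    rw [Finset.sum_mul, Finset.sum_mul, ← Finset.sum_add_distrib]
    refine Finset.sum_le_sum fun k _ => ?_
    rw [l2_smul, abs_of_nonneg (hw k), mul_assoc, ← mul_add]
    refine mul_le_mul_of_nonneg_left ((l2_add (pg_ou hG _) ((pg_ou hψ _).smul σ)).trans ?_) (hw k)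
    refine add_le_add (l2_ou_le (hr2 k).le hG) ?_
    rw [l2_smul, mul_left_comm]
    exact mul_le_mul_of_nonneg_left (l2_ou_psi_le hPn hM ⟨(hr k).1, (hr k).2.le⟩
      (pow_lt_one₀ h0.1.le h0.2 two_ne_zero)) (abs_nonneg σ)
  · have e : ∀ x, hentry (fderiv ℝ (fun x => ∑ k, A k x) x) = ∑ k, w k •
        (hentry (fderiv ℝ (ou (r k) G) x) + σ • hentry (fderiv ℝ (ou (r k) (psi P ρ0 M)) x)) :=
      fun x => by rw [(hD x).fderiv]; simp [map_sum]
    have hl1 : ∀ k, PG fun x => hentry (fderiv ℝ (ou (r k) G) x) := fun k =>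
      (pg_fderiv_ou (hr2 k) hG).clm _
    have hl2 : ∀ k, PG fun x => hentry (fderiv ℝ (ou (r k) (psi P ρ0 M)) x) := fun k =>
      (pg_fderiv_ou (hr2 k) hψ).clm _
    simp only [hA] at e ⊢
    simp only [e]
    refine (l2_sum _ fun k _ => ((hl1 k).add ((hl2 k).smul σ)).smul (w k)).trans ?_
    rw [Finset.sum_mul, Finset.sum_mul, ← Finset.sum_add_distrib]
    refine Finset.sum_le_sum fun k _ => ?_
    rw [l2_smul, abs_of_nonneg (hw k), mul_assoc, mul_assoc, ← mul_add]
    refine mul_le_mul_of_nonneg_left ((l2_add (hl1 k) ((hl2 k).smul σ)).trans ?_) (hw k)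
    refine add_le_add ?_ ?_
    · refine (l2_fderiv_ou_le (hr2 k) hG).trans (le_of_eq ?_)
      rw [abs_of_nonneg (hr k).1]
    · rw [l2_smul, mul_left_comm]
      exact mul_le_mul_of_nonneg_left (l2_fderiv_ou_psi_le hPn hM (hr k) h0) (abs_nonneg σ)

end

end Vale.Agent.P347
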