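import Vale.Agent.P347.Smooth

/-!
P347 (exponent zero): replacing a random shift by a constant. A bound on the Stein operator of the
standard Gaussian law on tests with bounded gradient gives the same bound on Lipschitz tests,
by the Ornstein-Uhlenbeck interpolation (no Stein solution is needed).
-/

open MeasureTheory ProbabilityTheory Real Set Filter
open scoped RealInnerProductSpace Topology

set_option maxSynthPendingDepth 3

namespace Vale.Agent.P347

noncomputable section

variable {Ω : Type*} [MeasurableSpace Ω] {μ : Measure Ω} {d : ℕ}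

/-- The Stein operator of the standard Gaussian law. -/
def steinOp (φ : E d → ℝ) (x : E d) : ℝ :=
  (∑ i, fderiv ℝ (fderiv ℝ φ) x (EuclideanSpace.single i 1) (EuclideanSpace.single i 1))
    - fderiv ℝ φ x x

/-- The mean of the Stein operator is at most `e` on tests with gradient at most one. -/
def SteinLe (μ : Measure Ω) (Y : Ω → E d) (e : ℝ) : Prop :=
  ∀ φ : E d → ℝ, ContDiff ℝ 2 φ → (∀ x, ‖fderiv ℝ φ x‖ ≤ 1) →
    (∃ K, ∀ x, ‖fderiv ℝ (fderiv ℝ φ) x‖ ≤ K) → |∫ ω, steinOp φ (Y ω) ∂μ| ≤ e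

/-- The same on tests whose second derivative is at most `K`. -/
def SteinLeAt (μ : Measure Ω) (Y : Ω → E d) (K e : ℝ) : Prop :=
  ∀ φ : E d → ℝ, ContDiff ℝ 2 φ → (∀ x, ‖fderiv ℝ φ x‖ ≤ 1) →
    (∀ x, ‖fderiv ℝ (fderiv ℝ φ) x‖ ≤ K) → |∫ ω, steinOp φ (Y ω) ∂μ| ≤ e

namespace SteinTest

variable {ψ : E d → ℝ} {W K c s : ℝ}

lemma abs_sub_le (hψ : Differentiable ℝ ψ) (h1 : ∀ x, ‖fderiv ℝ ψ x‖ ≤ W) (a b : E d) :
    |ψ a - ψ b| ≤ W * ‖a - b‖ :=
  Convex.norm_image_sub_le_of_norm_fderiv_le (𝕜 := ℝ) (fun z _ => hψ z) (fun z _ => h1 z)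
    convex_univ (mem_univ b) (mem_univ a)

lemma integrable_test (hψ : Differentiable ℝ ψ) (h1 : ∀ x, ‖fderiv ℝ ψ x‖ ≤ W) {Ω' : Type*}
    [MeasurableSpace Ω'] {ν : Measure Ω'} [IsFiniteMeasure ν] {Z : Ω' → E d} (hZ : Measurable Z)
    (hZi : Integrable (fun ω => ‖Z ω‖) ν) : Integrable (fun ω => ψ (Z ω)) ν := by
  refine ((integrable_const ‖ψ 0‖).add (hZi.const_mul W)).mono'
    ((hψ.continuous.measurable.comp hZ).aestronglyMeasurable) (ae_of_all _ fun ω => ?_)
  have h := abs_sub_le hψ h1 (Z ω) 0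
  rw [sub_zero] at h
  simp only [Pi.add_apply, norm_eq_abs]
  linarith [abs_sub_abs_le_abs_sub (ψ (Z ω)) (ψ 0)]

/-- The interpolated test. -/
def interTest (ψ : E d → ℝ) (c s : ℝ) (y : E d) : ℝ := c⁻¹ * Psm (s ^ 2) ψ (c • y)

variable (hψ : ContDiff ℝ 2 ψ) (h1 : ∀ x, ‖fderiv ℝ ψ x‖ ≤ W)
  (h2 : ∀ x, ‖fderiv ℝ (fderiv ℝ ψ) x‖ ≤ K)

include hψ h1

lemma hasFDerivAt_inter (hc : c ≠ 0) (y : E d) :
    HasFDerivAt (interTest ψ c s) (Psm (s ^ 2) (fderiv ℝ ψ) (c • y)) y := by
  have h := ((hasFDerivAt_Psm_comm (t := s ^ 2) (hψ.differentiable two_ne_zero) h1 (c • y)).comp y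
    ((hasFDerivAt_id y).const_smul c)).const_mul c⁻¹
  refine h.congr_fderiv (ContinuousLinearMap.ext fun v => ?_)
  simp [smul_smul, inv_mul_cancel₀ hc]

lemma fderiv_inter (hc : c ≠ 0) :
    fderiv ℝ (interTest ψ c s) = fun y => Psm (s ^ 2) (fderiv ℝ ψ) (c • y) :=
  funext fun y => (hasFDerivAt_inter hψ h1 hc y).fderiv

include h2

lemma hasFDerivAt_fderiv_inter (hc : c ≠ 0) (y : E d) :
    HasFDerivAt (fderiv ℝ (interTest ψ c s))
      (c • Psm (s ^ 2) (fderiv ℝ (fderiv ℝ ψ)) (c • y)) y := by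
  rw [fderiv_inter hψ h1 hc]
  have hd : Differentiable ℝ (fderiv ℝ ψ) :=
    (hψ.fderiv_right (m := 1) le_rfl).differentiable one_ne_zero
  have h := (hasFDerivAt_Psm_comm (t := s ^ 2) hd h2 (c • y)).comp y
    ((hasFDerivAt_id y).const_smul c)
  refine h.congr_fderiv (ContinuousLinearMap.ext fun v => ?_)
  simp

lemma contDiff_inter (hc : c ≠ 0) : ContDiff ℝ 2 (interTest ψ c s) := by
  rw [show (2 : WithTop ℕ∞) = 1 + 1 from rfl, contDiff_succ_iff_fderiv]
  refine ⟨fun y => (hasFDerivAt_inter hψ h1 hc y).differentiableAt, by simp, ?_⟩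
  rw [contDiff_one_iff_fderiv]
  refine ⟨fun y => (hasFDerivAt_fderiv_inter hψ h1 h2 hc y).differentiableAt, ?_⟩
  have e : fderiv ℝ (fderiv ℝ (interTest ψ c s))
      = fun y => c • Psm (s ^ 2) (fderiv ℝ (fderiv ℝ ψ)) (c • y) :=
    funext fun y => (hasFDerivAt_fderiv_inter hψ h1 h2 hc y).fderiv
  rw [e]
  refine Continuous.const_smul ?_ c
  refine (continuous_of_dominated (μ := gau (Fin d)) (bound := fun _ => K)
    (F := fun (z : E d) g => fderiv ℝ (fderiv ℝ ψ) (z + √(s ^ 2) • g)) ?_ ?_ (integrable_const K)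
    ?_).comp (continuous_const_smul c)
  · exact fun z => ((measurable_fderiv ℝ _).comp (by fun_prop)).stronglyMeasurable.aestronglyMeasurable
  · exact fun z => ae_of_all _ fun g => h2 _
  · exact ae_of_all _ fun g => ((hψ.fderiv_right (m := 1) le_rfl).continuous_fderiv one_ne_zero).comp
      (by fun_prop)

/-- Integration by parts in the noise: the interpolation derivative at one point is the Stein
operator of the interpolated test. -/
lemma inner_deriv (hs : 0 ≤ s) (hc : c ≠ 0) (y : E d) :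
    ∫ w, fderiv ℝ ψ (c • y + s • w) ((-s) • y + c • w) ∂gau (Fin d)
      = s * steinOp (interTest ψ c s) y := by
  have hd : ContDiff ℝ 1 (fderiv ℝ ψ) := hψ.fderiv_right (m := 1) le_rfl
  have hW : 0 ≤ W := (norm_nonneg _).trans (h1 0)
  have hK : 0 ≤ K := (norm_nonneg (fderiv ℝ (fderiv ℝ ψ) 0)).trans (h2 0)
  set A : E d → E d →L[ℝ] ℝ := fun w => fderiv ℝ ψ (c • y + s • w) with hA
  have hAd : ∀ w, HasFDerivAt A ((fderiv ℝ (fderiv ℝ ψ) (c • y + s • w)).comp
      (s • ContinuousLinearMap.id ℝ (E d))) w := fun w =>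
    (hd.differentiable one_ne_zero _).hasFDerivAt.comp w
      (((hasFDerivAt_id w).const_smul s).const_add (c • y))
  have hAc : ContDiff ℝ 1 A := hd.comp (contDiff_const.add (contDiff_id.const_smul s))
  have hAi : Integrable A (gau (Fin d)) :=
    Integrable.of_bound hAc.continuous.aestronglyMeasurable W (ae_of_all _ fun w => h1 _)
  have hAv : ∀ v, Integrable (fun w => A w v) (gau (Fin d)) := fun v =>
    Integrable.of_bound (hAc.continuous.clm_apply continuous_const).aestronglyMeasurable (W * ‖v‖)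
      (ae_of_all _ fun w => ((A w).le_opNorm v).trans
        (mul_le_mul_of_nonneg_right (h1 _) (norm_nonneg v)))
  have hHi : Integrable (fun w => fderiv ℝ (fderiv ℝ ψ) (c • y + s • w)) (gau (Fin d)) :=
    Integrable.of_bound (((hd.continuous_fderiv one_ne_zero).comp (by fun_prop)).aestronglyMeasurable)
      K (ae_of_all _ fun w => h2 _)
  set e : Fin d → E d := fun i => EuclideanSpace.single i 1 with he
  have hibp : ∀ i, ∫ w, w i * A w (e i) ∂gau (Fin d)
      = s * ∫ w, fderiv ℝ (fderiv ℝ ψ) (c • y + s • w) (e i) (e i) ∂gau (Fin d) := by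
    intro i
    have hf : ContDiff ℝ 1 fun w => A w (e i) := hAc.clm_apply contDiff_const
    have hfd : ∀ w, fderiv ℝ (fun w => A w (e i)) w (e i)
        = s * fderiv ℝ (fderiv ℝ ψ) (c • y + s • w) (e i) (e i) := by
      intro w
      rw [(((hAd w).clm_apply (hasFDerivAt_const (e i) w))).fderiv]
      simp
    have h := gau_ibp_smul hf (a := 0) (b := 0) (K := max W (|s| * K)) (by norm_num) (fun w => ?_)
      (fun w => ?_) (e i)
    · simp only [smul_eq_mul] at h
      rw [← integral_const_mul, ← integral_congr_ae (ae_of_all _ hfd), ← h]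
      exact integral_congr_ae (ae_of_all _ fun w => by simp [he, EuclideanSpace.inner_single_right])
    · simp only [zero_mul, add_zero, Real.exp_zero, mul_one]
      refine ((A w).le_opNorm _).trans ((le_of_eq (?_ : _ = ‖A w‖)).trans ((h1 _).trans (le_max_left _ _)))
      simp [he]
    · simp only [zero_mul, add_zero, Real.exp_zero, mul_one]
      refine le_trans ?_ (le_max_right _ _)
      refine ContinuousLinearMap.opNorm_le_bound _ (by positivity) fun v => ?_
      rw [(((hAd w).clm_apply (hasFDerivAt_const (e i) w))).fderiv]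
      have := (fderiv ℝ (fderiv ℝ ψ) (c • y + s • w)).le_opNorm₂ (s • v) (e i)
      simp only [he, EuclideanSpace.norm_single, norm_one, mul_one, norm_smul, norm_eq_abs] at this ⊢
      simpa [mul_assoc, mul_comm, mul_left_comm, abs_mul] using
        this.trans (mul_le_mul_of_nonneg_right (h2 _) (by positivity))
  have hww : Integrable (fun w => A w w) (gau (Fin d)) :=
    (integrable_gau_nrm.const_mul W).mono'
      (hAc.continuous.clm_apply continuous_id).aestronglyMeasurable
      (ae_of_all _ fun w => ((A w).le_opNorm w).trans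
        (mul_le_mul_of_nonneg_right (h1 _) (norm_nonneg w)))
  have hw : ∫ w, A w w ∂gau (Fin d)
      = s * ∑ i, ∫ w, fderiv ℝ (fderiv ℝ ψ) (c • y + s • w) (e i) (e i) ∂gau (Fin d) := by
    rw [Finset.mul_sum]
    simp only [← hibp]
    rw [← integral_finsetSum]
    · refine integral_congr_ae (ae_of_all _ fun w => ?_)
      dsimp only
      conv_lhs => arg 2; rw [← (EuclideanSpace.basisFun (Fin d) ℝ).sum_repr w]
      simp [map_sum, he, EuclideanSpace.basisFun_apply]
    · intro i _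
      refine (integrable_gau_nrm.const_mul W).mono' ?_ (ae_of_all _ fun w => ?_)
      · exact ((by fun_prop : Continuous fun w : E d => w i).mul
          (hAc.continuous.clm_apply continuous_const)).aestronglyMeasurable
      · rw [norm_mul, mul_comm W]
        refine mul_le_mul (PiLp.norm_apply_le (p := 2) w i) ?_ (norm_nonneg _) (norm_nonneg _)
        refine ((A w).le_opNorm _).trans ((le_of_eq (?_ : _ = ‖A w‖)).trans (h1 _))
        simp [he]
  calc ∫ w, fderiv ℝ ψ (c • y + s • w) ((-s) • y + c • w) ∂gau (Fin d)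
      = ∫ w, ((-s) * A w y + c * A w w) ∂gau (Fin d) :=
        integral_congr_ae (ae_of_all _ fun w => by simp [hA, map_add, map_smul])
    _ = (-s) * ∫ w, A w y ∂gau (Fin d) + c * ∫ w, A w w ∂gau (Fin d) := by
        rw [integral_add ((hAv y).const_mul _) (hww.const_mul _), integral_const_mul,
          integral_const_mul]
    _ = _ := by
        rw [hw, steinOp]
        simp only [(hasFDerivAt_fderiv_inter hψ h1 h2 hc y).fderiv,
          (hasFDerivAt_inter hψ h1 hc y).fderiv, smul_apply]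
        simp only [Psm, Real.sqrt_sq hs]
        rw [ContinuousLinearMap.integral_apply hAi y]
        simp only [ContinuousLinearMap.integral_apply hHi,
          ContinuousLinearMap.integral_apply (hHi.apply_continuousLinearMap _), he]
        simp only [hA, smul_eq_mul, ← Finset.mul_sum]
        ring

/-- The estimate for a test of class two with gradient at most one. -/
theorem sub_le [IsProbabilityMeasure μ] (hW : W = 1) {Y : Ω → E d} (hY : Measurable Y)
    (hYi : Integrable (fun ω => ‖Y ω‖) μ) {e : ℝ} (he : SteinLeAt μ Y K e) :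
    |∫ ω, ψ (Y ω) ∂μ - ∫ w, ψ w ∂gau (Fin d)| ≤ e := by
  subst hW
  have hψd : Differentiable ℝ ψ := hψ.differentiable two_ne_zero
  set ν := μ.prod (gau (Fin d)) with hν
  set Z : ℝ → Ω × E d → E d := fun θ p => cos θ • Y p.1 + sin θ • p.2 with hZ
  set Z' : ℝ → Ω × E d → E d := fun θ p => (-sin θ) • Y p.1 + cos θ • p.2 with hZ'
  set F : ℝ → ℝ := fun θ => ∫ p, ψ (Z θ p) ∂ν with hF
  have hY1 : Measurable fun p : Ω × E d => Y p.1 := hY.comp measurable_fst
  have hZm : ∀ θ, Measurable (Z θ) := fun θ =>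
    (hY1.const_smul (cos θ)).add (measurable_snd.const_smul (sin θ))
  have hn : Integrable (fun p : Ω × E d => ‖Y p.1‖ + ‖p.2‖) ν :=
    (hYi.comp_fst _).add (integrable_gau_nrm.comp_snd _)
  have hle : ∀ (θ : ℝ) (a b : E d), ‖cos θ • a + sin θ • b‖ ≤ ‖a‖ + ‖b‖ := fun θ a b => by
    refine (norm_add_le _ _).trans (add_le_add ?_ ?_) <;> rw [norm_smul, norm_eq_abs]
    · exact mul_le_of_le_one_left (norm_nonneg a) (abs_cos_le_one θ)
    · exact mul_le_of_le_one_left (norm_nonneg b) (abs_sin_le_one θ)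
  have hle' : ∀ (θ : ℝ) (p : Ω × E d), ‖Z' θ p‖ ≤ ‖Y p.1‖ + ‖p.2‖ := fun θ p => by
    refine (norm_add_le _ _).trans (add_le_add ?_ ?_) <;> rw [norm_smul, norm_eq_abs]
    · rw [abs_neg]; exact mul_le_of_le_one_left (norm_nonneg _) (abs_sin_le_one θ)
    · exact mul_le_of_le_one_left (norm_nonneg _) (abs_cos_le_one θ)
  have hψi : ∀ θ, Integrable (fun p => ψ (Z θ p)) ν := fun θ =>
    integrable_test hψd h1 (hZm θ) (hn.mono' (hZm θ).norm.aestronglyMeasurable
      (ae_of_all _ fun p => by rw [norm_norm]; exact hle θ _ _))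
  have hD : ∀ θ, HasDerivAt F (∫ p, fderiv ℝ ψ (Z θ p) (Z' θ p) ∂ν) θ := by
    intro θ
    refine (hasDerivAt_integral_of_dominated_loc_of_deriv_le (μ := ν)
      (F := fun θ p => ψ (Z θ p)) (F' := fun θ p => fderiv ℝ ψ (Z θ p) (Z' θ p))
      (bound := fun p => ‖Y p.1‖ + ‖p.2‖) Filter.univ_mem
      (Eventually.of_forall fun θ => (hψi θ).aestronglyMeasurable) (hψi θ) ?_
      (ae_of_all _ fun p θ _ => ?_) hn (ae_of_all _ fun p θ _ => ?_)).2
    · have hc : Continuous fun q : E d × E d => fderiv ℝ ψ q.1 q.2 :=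
        ((hψ.continuous_fderiv two_ne_zero).comp continuous_fst).clm_apply continuous_snd
      exact (hc.measurable.comp ((hZm θ).prodMk
        ((hY1.const_smul (-sin θ)).add (measurable_snd.const_smul (cos θ))))).aestronglyMeasurable
    · exact ((fderiv ℝ ψ _).le_opNorm _).trans
        ((mul_le_mul (h1 _) (hle' θ p) (norm_nonneg _) zero_le_one).trans_eq (one_mul _))
    · exact (hψd _).hasFDerivAt.comp_hasDerivAt θ
        (((hasDerivAt_cos θ).smul_const (Y p.1)).add ((hasDerivAt_sin θ).smul_const p.2))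
  have hbd : ∀ θ ∈ Ioo (0 : ℝ) (π / 2),
      |∫ p, fderiv ℝ ψ (Z θ p) (Z' θ p) ∂ν| ≤ sin θ * e := by
    intro θ hθ
    have hs : 0 ≤ sin θ := sin_nonneg_of_nonneg_of_le_pi hθ.1.le (by linarith [hθ.2, pi_pos])
    have hc : cos θ ≠ 0 := (cos_pos_of_mem_Ioo ⟨by linarith [hθ.1, pi_pos], hθ.2⟩).ne'
    have hi : Integrable (fun p => fderiv ℝ ψ (Z θ p) (Z' θ p)) ν := by
      have hc : Continuous fun q : E d × E d => fderiv ℝ ψ q.1 q.2 :=
        ((hψ.continuous_fderiv two_ne_zero).comp continuous_fst).clm_apply continuous_snd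
      refine hn.mono' (hc.measurable.comp ((hZm θ).prodMk
        ((hY1.const_smul (-sin θ)).add (measurable_snd.const_smul (cos θ))))).aestronglyMeasurable
        (ae_of_all _ fun p => ?_)
      exact ((fderiv ℝ ψ _).le_opNorm _).trans
        ((mul_le_mul (h1 _) (hle' θ p) (norm_nonneg _) zero_le_one).trans_eq (one_mul _))
    rw [integral_prod _ hi]
    simp only [hZ, hZ', inner_deriv hψ h1 h2 hs hc]
    rw [integral_const_mul, abs_mul, abs_of_nonneg hs]
    refine mul_le_mul_of_nonneg_left (he _ (contDiff_inter hψ h1 h2 hc) (fun x => ?_)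
      fun x => ?_) hs
    · rw [fderiv_inter hψ h1 hc]; exact norm_Psm_le h1 _
    · rw [(hasFDerivAt_fderiv_inter hψ h1 h2 hc x).fderiv, norm_smul, norm_eq_abs]
      exact (mul_le_mul_of_nonneg_left (norm_Psm_le h2 _) (abs_nonneg _)).trans
        (mul_le_of_le_one_left ((norm_nonneg _).trans (h2 0)) (abs_cos_le_one θ))
  have h0 : F 0 = ∫ ω, ψ (Y ω) ∂μ := by
    simp only [hF, hZ, cos_zero, sin_zero, one_smul, zero_smul, add_zero]
    rw [hν, integral_fun_fst (fun ω => ψ (Y ω))]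
    simp
  have h9 : F (π / 2) = ∫ w, ψ w ∂gau (Fin d) := by
    simp only [hF, hZ, cos_pi_div_two, sin_pi_div_two, one_smul, zero_smul, zero_add]
    rw [hν, integral_fun_snd ψ]
    simp
  have key : ∀ σ : ℝ, |σ| = 1 → σ * (F (π / 2) - F 0) ≤ e := by
    intro σ hσ
    have hG : ∀ θ, HasDerivAt (fun θ => σ * F θ + e * cos θ)
        (σ * (∫ p, fderiv ℝ ψ (Z θ p) (Z' θ p) ∂ν) + e * (-sin θ)) θ := fun θ =>
      ((hD θ).const_mul σ).add ((hasDerivAt_cos θ).const_mul e)
    have hanti : AntitoneOn (fun θ => σ * F θ + e * cos θ) (Icc 0 (π / 2)) := by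
      refine antitoneOn_of_deriv_nonpos (convex_Icc _ _)
        (continuous_iff_continuousAt.2 fun θ => (hG θ).continuousAt).continuousOn
        (fun θ _ => (hG θ).differentiableAt.differentiableWithinAt) fun θ hθ => ?_
      rw [interior_Icc] at hθ
      rw [(hG θ).deriv]
      have h := le_abs_self (σ * ∫ p, fderiv ℝ ψ (Z θ p) (Z' θ p) ∂ν)
      rw [abs_mul, hσ, one_mul] at h
      linarith [h.trans (hbd θ hθ)]
    have hp : (0 : ℝ) ≤ π / 2 := by positivity
    have h := hanti (left_mem_Icc.2 hp) (right_mem_Icc.2 hp) hp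
    simp only [cos_zero, cos_pi_div_two, mul_one, mul_zero, add_zero] at h
    linarith
  rw [abs_le]
  constructor
  · linarith [key 1 (by simp), h0, h9]
  · linarith [key (-1) (by simp), h0, h9]

end SteinTest

namespace SteinTest

variable {u : E d → ℝ} {W t : ℝ}

lemma abs_sub_Psm_le (hud : Differentiable ℝ u) (hu1 : ∀ x, ‖fderiv ℝ u x‖ ≤ W) (x : E d) :
    |u x - Psm t u x| ≤ W * (√t * √(d : ℝ)) := by
  have hW0 : 0 ≤ W := (norm_nonneg _).trans (hu1 0)
  have hn : Integrable (fun g : E d => ‖x + √t • g‖) (gau (Fin d)) :=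
    ((integrable_const ‖x‖).add (integrable_gau_nrm.const_mul √t)).mono' (by fun_prop)
      (ae_of_all _ fun g => by
        rw [norm_norm]
        refine (norm_add_le _ _).trans (le_of_eq ?_)
        simp [norm_smul, abs_of_nonneg (Real.sqrt_nonneg t)])
  have hui : Integrable (fun g => u (x + √t • g)) (gau (Fin d)) :=
    integrable_test hud hu1 (by fun_prop) hn
  have e1 : u x - Psm t u x = ∫ g, (u x - u (x + √t • g)) ∂gau (Fin d) := by
    rw [integral_sub (integrable_const _) hui, integral_const, probReal_univ, one_smul]; rfl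
  rw [e1]
  refine abs_integral_le_integral_abs.trans ?_
  refine (integral_mono_of_nonneg (ae_of_all _ fun g => abs_nonneg _)
    (integrable_gau_nrm.const_mul (W * √t)) (ae_of_all _ fun g => ?_)).trans ?_
  · refine (abs_sub_le hud hu1 _ _).trans (le_of_eq ?_)
    rw [sub_add_cancel_left, norm_neg, norm_smul, norm_eq_abs,
      abs_of_nonneg (Real.sqrt_nonneg t)]
    ring
  · rw [integral_const_mul, mul_assoc]
    refine mul_le_mul_of_nonneg_left (mul_le_mul_of_nonneg_left ?_ (Real.sqrt_nonneg t)) hW0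
    simpa using integral_gau_norm (ι := Fin d)

lemma psm_gap (hud : Differentiable ℝ u) (hu1 : ∀ x, ‖fderiv ℝ u x‖ ≤ W) {Ω' : Type*}
    [MeasurableSpace Ω'] (ν : Measure Ω') [IsProbabilityMeasure ν] {Z : Ω' → E d}
    (hZ : Measurable Z) (hZi : Integrable (fun ω => ‖Z ω‖) ν) :
    |∫ ω, u (Z ω) ∂ν - ∫ ω, Psm t u (Z ω) ∂ν| ≤ W * (√t * √(d : ℝ)) := by
  have hPd : Differentiable ℝ (Psm t u) := fun x =>
    (hasFDerivAt_Psm_comm hud hu1 x).differentiableAt
  have hP1 : ∀ x, ‖fderiv ℝ (Psm t u) x‖ ≤ W := fun x => by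
    rw [fderiv_Psm_comm hud hu1]; exact norm_Psm_le hu1 x
  rw [← integral_sub (integrable_test hud hu1 hZ hZi) (integrable_test hPd hP1 hZ hZi)]
  exact abs_integral_le_integral_abs.trans ((integral_mono_of_nonneg
    (ae_of_all _ fun ω => abs_nonneg _) (integrable_const _)
    (ae_of_all _ fun ω => abs_sub_Psm_le hud hu1 _)).trans (by simp))

/-- The estimate before letting the smoothing time tend to zero. -/
lemma smooth_le [IsProbabilityMeasure μ] (hud : Differentiable ℝ u)
    (hu1 : ∀ x, ‖fderiv ℝ u x‖ ≤ W) {Y : Ω → E d} (hY : Measurable Y)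
    (hYi : Integrable (fun ω => ‖Y ω‖) μ) {e : ℝ} {W' : ℝ} (hW' : W < W')
    (he : SteinLeAt μ Y (W'⁻¹ * (W / √t)) e) (ht : 0 < t) :
    |∫ ω, u (Y ω) ∂μ - ∫ w, u w ∂gau (Fin d)| ≤ W' * e + 2 * W * (√t * √(d : ℝ)) := by
  have hW'0 : 0 < W' := ((norm_nonneg _).trans (hu1 0)).trans_lt hW'
  have hDm : Measurable (fderiv ℝ u) := measurable_fderiv ℝ u
  set ψ : E d → ℝ := fun x => W'⁻¹ * Psm t u x with hψ
  have hψd : ∀ x, HasFDerivAt ψ (W'⁻¹ • Psm t (fderiv ℝ u) x) x := fun x =>
    (hasFDerivAt_Psm_comm hud hu1 x).const_mul W'⁻¹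
  have hfd : fderiv ℝ ψ = W'⁻¹ • Psm t (fderiv ℝ u) :=
    funext fun x => (hψd x).fderiv
  have hψ2 : ContDiff ℝ 2 ψ := by
    rw [show (2 : WithTop ℕ∞) = 1 + 1 from rfl, contDiff_succ_iff_fderiv, hfd]
    exact ⟨fun x => (hψd x).differentiableAt, by simp,
      (by exact (contDiff_one_Psm ht hDm hu1).const_smul W'⁻¹)⟩
  have hψ1 : ∀ x, ‖fderiv ℝ ψ x‖ ≤ 1 := fun x => by
    rw [hfd, Pi.smul_apply, norm_smul, norm_inv, norm_eq_abs, abs_of_pos hW'0,
      inv_mul_le_iff₀ hW'0, mul_one]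
    exact (norm_Psm_le hu1 x).trans hW'.le
  have hψK : ∀ x, ‖fderiv ℝ (fderiv ℝ ψ) x‖ ≤ W'⁻¹ * (W / √t) := fun x => by
    rw [hfd, fderiv_const_smul_field, Pi.smul_apply, norm_smul, norm_inv, norm_eq_abs,
      abs_of_pos hW'0]
    exact mul_le_mul_of_nonneg_left (norm_fderiv_Psm_le ht hDm hu1 x) (by positivity)
  have h := sub_le hψ2 hψ1 hψK rfl hY hYi he
  simp only [hψ, integral_const_mul] at h
  rw [← mul_sub, abs_mul, abs_inv, abs_of_pos hW'0, inv_mul_le_iff₀ hW'0] at h
  have g1 := abs_le.1 (psm_gap (t := t) hud hu1 μ hY hYi)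
  have g2 := abs_le.1 (psm_gap (t := t) hud hu1 (gau (Fin d)) measurable_id integrable_gau_nrm)
  simp only [id_eq] at g2
  rw [abs_le] at h ⊢
  constructor <;> linarith

end SteinTest

open SteinTest in
/-- A bound on tests with second derivative at most `1 / √t` bounds Lipschitz tests up to `√t`. -/
theorem abs_sub_le_of_steinLeAt [IsProbabilityMeasure μ] {X : Ω → E d} (hX : Measurable X)
    (hXi : Integrable (fun ω => ‖X ω‖) μ) (m : E d) {e t : ℝ} (ht : 0 < t)
    (he : SteinLeAt μ (fun ω => X ω - m) (1 / √t) e) {Φ : E d → ℝ} (hΦ : ContDiff ℝ 1 Φ)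
    (hW : ∀ x, ‖fderiv ℝ Φ x‖ ≤ 1) :
    |∫ ω, Φ (X ω) ∂μ - ∫ w, Φ (m + w) ∂gau (Fin d)| ≤ 2 * e + 2 * (√t * √(d : ℝ)) := by
  have hY : Measurable fun ω => X ω - m := hX.sub_const m
  have hYi : Integrable (fun ω => ‖X ω - m‖) μ :=
    (hXi.add (integrable_const ‖m‖)).mono' hY.norm.aestronglyMeasurable
      (ae_of_all _ fun ω => by rw [norm_norm]; exact norm_sub_le _ _)
  set u : E d → ℝ := fun y => Φ (m + y) with hu
  have hud : Differentiable ℝ u :=
    (hΦ.differentiable one_ne_zero).comp (differentiable_id.const_add m)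
  have hu1 : ∀ x, ‖fderiv ℝ u x‖ ≤ 1 := fun x => by
    rw [hu, fderiv_comp_add_left]; exact hW _
  have h := smooth_le hud hu1 hY hYi (W' := 2) one_lt_two
    (fun φ h2 h1 hK => he φ h2 h1 fun x => (hK x).trans (mul_le_of_le_one_left (by positivity)
      (by norm_num))) ht
  simpa [hu] using h

end

end Vale.Agent.P347
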