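import Vale.Agent.P347.Gauss
import Vale.Agent.P347Zero.Tame

/-!
P347: the exact Gaussian identities behind the Stein engine: `stein_inv` (`inv1N` inverts `1 + N`),
`stein_cov` (covariance), `ibp_slice` (integration by parts against a linear map), and the traces
along the derivative of a point `a + U x + Φ x`.
-/

open MeasureTheory ProbabilityTheory Real WithLp
open scoped RealInnerProductSpace

namespace Vale.Agent.P347

variable {ι : Type*} [Fintype ι] {d : ℕ}

section core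

variable {Φ0 : EuclideanSpace ℝ ι → E d →L[ℝ] ℝ} {S : EuclideanSpace ℝ ι → E d}

/-- The contraction of two derivatives over a basis of the Gaussian space. -/
noncomputable def trd (P : EuclideanSpace ℝ ι →L[ℝ] E d →L[ℝ] ℝ)
    (A : EuclideanSpace ℝ ι →L[ℝ] E d) : ℝ :=
  ∑ k, P (EuclideanSpace.basisFun ι ℝ k) (A (EuclideanSpace.basisFun ι ℝ k))

/-- The contraction as a continuous linear map of the second argument. -/
noncomputable def trdL (P : EuclideanSpace ℝ ι →L[ℝ] E d →L[ℝ] ℝ) :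
    (EuclideanSpace ℝ ι →L[ℝ] E d) →L[ℝ] ℝ :=
  ∑ k, (P (EuclideanSpace.basisFun ι ℝ k)).comp
    (ContinuousLinearMap.apply ℝ (E d) (EuclideanSpace.basisFun ι ℝ k))

lemma trdL_apply (P : EuclideanSpace ℝ ι →L[ℝ] E d →L[ℝ] ℝ)
    (A : EuclideanSpace ℝ ι →L[ℝ] E d) : trdL P A = trd P A := by
  simp [trdL, trd]

/-- The inverse of `1 + N`. -/
noncomputable def inv1N (S : EuclideanSpace ℝ ι → E d) (x : EuclideanSpace ℝ ι) : E d :=
  ∫ ρ in (0 : ℝ)..1, ou ρ S x

/-- The derivative of `inv1N S`. -/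
noncomputable def invD (S : EuclideanSpace ℝ ι → E d) (x : EuclideanSpace ℝ ι) :
    EuclideanSpace ℝ ι →L[ℝ] E d :=
  ∫ ρ in (0 : ℝ)..1, ρ • ou ρ (fderiv ℝ S) x

/-- The kernel of the covariance identity. -/
noncomputable def covD (S : EuclideanSpace ℝ ι → E d) (x : EuclideanSpace ℝ ι) :
    EuclideanSpace ℝ ι →L[ℝ] E d :=
  ∫ ρ in (0 : ℝ)..1, ou ρ (fderiv ℝ S) x

lemma norm_trd_le {P : EuclideanSpace ℝ ι →L[ℝ] E d →L[ℝ] ℝ}
    {A : EuclideanSpace ℝ ι →L[ℝ] E d} {a b : ℝ} (hP : ‖P‖ ≤ a) (hA : ‖A‖ ≤ b) :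
    ‖trd P A‖ ≤ Fintype.card ι * (a * b) := by
  refine (norm_sum_le _ _).trans ((Finset.sum_le_card_nsmul _ _ (a * b) fun k _ => ?_).trans ?_)
  · refine (ContinuousLinearMap.le_opNorm₂ _ _ _).trans ?_
    rw [OrthonormalBasis.norm_eq_one, mul_one]
    refine mul_le_mul hP ?_ (norm_nonneg _) ((norm_nonneg P).trans hP)
    exact (A.le_opNorm _).trans (by rw [OrthonormalBasis.norm_eq_one, mul_one]; exact hA)
  · simp [Finset.card_univ]

section ou

variable {T : Type*} [NormedAddCommGroup T] [NormedSpace ℝ T] {f : EuclideanSpace ℝ ι → T} {K : ℝ}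
  {n : ℕ}

/-- The moment in the bounds for the Ornstein–Uhlenbeck operator. -/
noncomputable def pwMom (ι : Type*) [Fintype ι] (n : ℕ) : ℝ :=
  ∫ w : EuclideanSpace ℝ ι, (1 + ‖w‖) ^ n ∂gau ι

omit [NormedSpace ℝ T] in
lemma ou_slice_le (hK : 0 ≤ K) (h : PolyLe f K n) (a b : ℝ) (x w : EuclideanSpace ℝ ι) :
    ‖f (a • x + b • w)‖ ≤
      K * (((1 + |a|) * (1 + |b|)) ^ n * ((1 + ‖x‖) ^ n * (1 + ‖w‖) ^ n)) :=
  (h _).trans (mul_le_mul_of_nonneg_left (pw_comb a b x w n) hK)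

lemma integrable_slice2 (hf : Continuous f) (hK : 0 ≤ K) (h : PolyLe f K n) (a b : ℝ)
    (x : EuclideanSpace ℝ ι) : Integrable (fun w => f (a • x + b • w)) (gau ι) :=
  integrable_of_polyLe (Continuous.aestronglyMeasurable (by fun_prop)) (K := K * (((1 + |a|) * (1 + |b|)) ^ n * (1 + ‖x‖) ^ n))
    (n := n) fun w => (ou_slice_le hK h a b x w).trans (le_of_eq (by ring))

lemma abs_sc_le (ρ : ℝ) : |√(1 - ρ ^ 2)| ≤ 1 := by
  rw [abs_of_nonneg (Real.sqrt_nonneg _), Real.sqrt_le_one]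
  nlinarith [sq_nonneg ρ]

lemma norm_ou_poly (hK : 0 ≤ K) (h : PolyLe f K n) {ρ r : ℝ} (hρ : |ρ| ≤ r)
    (x : EuclideanSpace ℝ ι) :
    ‖ou ρ f x‖ ≤ K * (2 * (1 + r)) ^ n * pwMom ι n * (1 + ‖x‖) ^ n := by
  have hr : 0 ≤ r := (abs_nonneg ρ).trans hρ
  refine (norm_integral_le_of_norm_le
    (g := fun w => K * (2 * (1 + r)) ^ n * (1 + ‖x‖) ^ n * (1 + ‖w‖) ^ n)
    ((integrable_pw n).const_mul _) (ae_of_all _ fun w => ?_)).trans (le_of_eq ?_)
  · refine (ou_slice_le hK h _ _ x w).trans ?_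
    have h2 : (1 + |ρ|) * (1 + |√(1 - ρ ^ 2)|) ≤ 2 * (1 + r) := by
      have := abs_sc_le ρ
      nlinarith [abs_nonneg ρ]
    calc _ ≤ K * ((2 * (1 + r)) ^ n * ((1 + ‖x‖) ^ n * (1 + ‖w‖) ^ n)) := by gcongr
      _ = _ := by ring
  · rw [integral_const_mul, pwMom]
    ring

lemma continuous_ou_poly (hf : Continuous f) (hK : 0 ≤ K) (h : PolyLe f K n) :
    Continuous fun q : ℝ × EuclideanSpace ℝ ι => ou q.1 f q.2 := by
  refine continuous_iff_continuousAt.2 fun q => ?_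
  set r : ℝ := |q.1| + 1 with hr
  set R : ℝ := ‖q.2‖ + 1 with hR
  have h1 : ∀ᶠ q' in nhds q, |q'.1| ≤ r := by
    filter_upwards [(isOpen_Iio.preimage (by fun_prop :
      Continuous fun q' : ℝ × EuclideanSpace ℝ ι => |q'.1|)).mem_nhds
      (show |q.1| < r by rw [hr]; linarith)] with q' hq' using le_of_lt hq'
  have h2 : ∀ᶠ q' in nhds q, ‖q'.2‖ ≤ R := by
    filter_upwards [(isOpen_Iio.preimage (by fun_prop :
      Continuous fun q' : ℝ × EuclideanSpace ℝ ι => ‖q'.2‖)).mem_nhds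
      (show ‖q.2‖ < R by rw [hR]; linarith)] with q' hq' using le_of_lt hq'
  refine continuousAt_of_dominated
    (bound := fun w => K * (2 * (1 + r)) ^ n * (1 + R) ^ n * (1 + ‖w‖) ^ n)
    (.of_forall fun q' => (Continuous.aestronglyMeasurable (by fun_prop))) ?_ ((integrable_pw n).const_mul _)
    (ae_of_all _ fun w => (Continuous.continuousAt (by fun_prop)))
  filter_upwards [h1, h2] with q' e1 e2
  refine ae_of_all _ fun w => (ou_slice_le hK h _ _ _ w).trans ?_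
  have h3 : (1 + |q'.1|) * (1 + |√(1 - q'.1 ^ 2)|) ≤ 2 * (1 + r) := by
    have := abs_sc_le q'.1
    have : 0 ≤ r := (abs_nonneg _).trans e1
    nlinarith [abs_nonneg q'.1]
  calc _ ≤ K * ((2 * (1 + r)) ^ n * ((1 + R) ^ n * (1 + ‖w‖) ^ n)) := by gcongr
    _ = _ := by ring

end ou

lemma tame_ou (hS : Tame S) :
    (Continuous fun q : ℝ × EuclideanSpace ℝ ι => ou q.1 S q.2) ∧
      Continuous fun q : ℝ × EuclideanSpace ℝ ι => ou q.1 (fderiv ℝ S) q.2 := by
  obtain ⟨hc, K, n, hK, h0, h1⟩ := hS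
  exact ⟨continuous_ou_poly hc.continuous hK h0,
    continuous_ou_poly (hc.continuous_fderiv one_ne_zero) hK h1⟩

/-- The derivative of a covariance along a rotation. -/
lemma hasDerivAt_pair_raw (hΦ : Tame Φ0) (hS : Tame S) (θ : ℝ) :
    HasDerivAt (fun θ => ∫ p, Φ0 p.1 (S (cos θ • p.1 + sin θ • p.2)) ∂(gau ι).prod (gau ι))
      (∫ p, Φ0 p.1 (fderiv ℝ S (cos θ • p.1 + sin θ • p.2) (-sin θ • p.1 + cos θ • p.2))
        ∂(gau ι).prod (gau ι)) θ := by
  have hS' := hS.continuous_fderiv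
  have hSc := hS.continuous
  have hΦc := hΦ.continuous
  have hSd := hS.differentiable
  obtain ⟨-, K, n, hK, hΦb, -⟩ := hΦ
  obtain ⟨-, L, m, hL, hSb, hS'b⟩ := hS
  have hpt : ∀ (θ : ℝ) (p : EuclideanSpace ℝ ι × EuclideanSpace ℝ ι),
      (1 + ‖cos θ • p.1 + sin θ • p.2‖) ^ m ≤ 4 ^ m * ((1 + ‖p.1‖) ^ m * (1 + ‖p.2‖) ^ m) := by
    intro θ p
    refine (pw_comb _ _ _ _ m).trans (mul_le_mul_of_nonneg_right ?_ (by positivity))
    refine pow_le_pow_left₀ (by positivity) ?_ m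
    nlinarith [abs_cos_le_one θ, abs_sin_le_one θ, abs_nonneg (cos θ), abs_nonneg (sin θ)]
  refine (hasDerivAt_integral_of_dominated_loc_of_deriv_le (μ := (gau ι).prod (gau ι))
    (F := fun θ (p : EuclideanSpace ℝ ι × EuclideanSpace ℝ ι) =>
      Φ0 p.1 (S (cos θ • p.1 + sin θ • p.2)))
    (F' := fun θ p => Φ0 p.1
      (fderiv ℝ S (cos θ • p.1 + sin θ • p.2) (-sin θ • p.1 + cos θ • p.2)))
    (bound := fun p => K * L * 4 ^ m * ((1 + ‖p.1‖) ^ (n + m + 1) * (1 + ‖p.2‖) ^ (m + 1)))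
    Filter.univ_mem (.of_forall fun θ => (((hΦc.comp continuous_fst).clm_apply (hSc.comp (by fun_prop))).aestronglyMeasurable))
    (integrable_of_polyLe2 (K := K * L * 4 ^ m) (m := n + m) (n := m) 
      (((hΦc.comp continuous_fst).clm_apply (hSc.comp (by fun_prop))).aestronglyMeasurable) fun p => ?_)
    (((hΦc.comp continuous_fst).clm_apply ((hS'.comp (by fun_prop)).clm_apply (by fun_prop))).aestronglyMeasurable) (ae_of_all _ fun p t _ => ?_) (integrable_pw2 _ _ _)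
    (ae_of_all _ fun p t _ => ?_)).2
  · refine ((Φ0 p.1).le_opNorm _).trans ((mul_le_mul (hΦb p.1) ((hSb _).trans
      (mul_le_mul_of_nonneg_left (hpt θ p) hL)) (norm_nonneg _) (by positivity)).trans
        (le_of_eq ?_))
    ring
  · have h2 : ‖-sin t • p.1 + cos t • p.2‖ ≤ (1 + ‖p.1‖) * (1 + ‖p.2‖) :=
      (norm_rot_le t p.1 p.2).2.trans
        (by nlinarith [mul_nonneg (norm_nonneg p.1) (norm_nonneg p.2)])
    refine ((Φ0 p.1).le_opNorm _).trans ((mul_le_mul (hΦb p.1)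
      (((fderiv ℝ S _).le_opNorm _).trans (mul_le_mul ((hS'b _).trans
        (mul_le_mul_of_nonneg_left (hpt t p) hL)) h2 (norm_nonneg _) (by positivity)))
      (norm_nonneg _) (by positivity)).trans (le_of_eq ?_))
    ring
  · have e : HasDerivAt (fun θ => cos θ • p.1 + sin θ • p.2) (-sin t • p.1 + cos t • p.2) t :=
      ((Real.hasDerivAt_cos t).smul_const p.1).add ((Real.hasDerivAt_sin t).smul_const p.2)
    exact (Φ0 p.1).hasFDerivAt.comp_hasDerivAt t ((hSd _).hasFDerivAt.comp_hasDerivAt t e)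

/-- Integration by parts in a translated scaled variable. -/
lemma ibp_slice (hΦ : Tame Φ0) (A : EuclideanSpace ℝ ι →L[ℝ] E d) (u : EuclideanSpace ℝ ι)
    (s : ℝ) :
    ∫ x, Φ0 (u + -s • x) (A x) ∂gau ι =
      -s * ∫ x, trd (fderiv ℝ Φ0 (u + -s • x)) A ∂gau ι := by
  have hΦd := hΦ.differentiable
  have hΦC := hΦ.1
  obtain ⟨-, K, n, hK, hΦb, hΦ'⟩ := hΦ
  set b := EuclideanSpace.basisFun ι ℝ with hb
  set C := ((1 + |(1 : ℝ)|) * (1 + |s|)) ^ n * (1 + ‖u‖) ^ n with hC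
  have hP : ∀ x : EuclideanSpace ℝ ι, (1 + ‖u + -s • x‖) ^ n ≤ C * (1 + ‖x‖) ^ n := fun x => by
    have := pw_comb 1 (-s) u x n
    rw [one_smul, abs_neg] at this
    exact this.trans (le_of_eq (by rw [hC]; ring))
  let f : ι → EuclideanSpace ℝ ι → ℝ := fun k x => Φ0 (u + -s • x) (A (b k))
  have hfd : ∀ k x, HasFDerivAt (f k) ((ContinuousLinearMap.apply ℝ ℝ (A (b k))).comp
      ((fderiv ℝ Φ0 (u + -s • x)).comp (-s • ContinuousLinearMap.id ℝ (EuclideanSpace ℝ ι)))) x := by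
    intro k x
    have e1 : HasFDerivAt (fun x : EuclideanSpace ℝ ι => u + -s • x)
        (-s • ContinuousLinearMap.id ℝ (EuclideanSpace ℝ ι)) x :=
      ((hasFDerivAt_id x).const_smul (-s)).const_add u
    exact (ContinuousLinearMap.apply ℝ ℝ (A (b k))).hasFDerivAt.comp x
      (((hΦd _).hasFDerivAt).comp x e1)
  have hbk : ∀ k, ‖A (b k)‖ ≤ ‖A‖ := fun k => by
    simpa [b.norm_eq_one] using A.le_opNorm (b k)
  have hfb : ∀ k x, ‖f k x‖ ≤ K * C * ‖A‖ * (1 + ‖x‖) ^ n := fun k x =>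
    ((Φ0 _).le_opNorm _).trans ((mul_le_mul ((hΦb _).trans
      (mul_le_mul_of_nonneg_left (hP x) hK)) (hbk k) (norm_nonneg _)
        (by positivity)).trans (le_of_eq (by ring)))
  have hdb : ∀ k x h, ‖fderiv ℝ (f k) x h‖ ≤ K * C * |s| * ‖A‖ * (1 + ‖x‖) ^ n * ‖h‖ :=
    fun k x h => by
    rw [(hfd k x).fderiv]
    change ‖fderiv ℝ Φ0 (u + -s • x) (-s • h) (A (b k))‖ ≤ _
    refine (ContinuousLinearMap.le_opNorm₂ _ _ _).trans ((mul_le_mul (mul_le_mul_of_nonneg_right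
      ((hΦ' _).trans (mul_le_mul_of_nonneg_left (hP x) hK)) (norm_nonneg _)) (hbk k)
        (norm_nonneg _) (by positivity)).trans (le_of_eq ?_))
    rw [norm_smul, Real.norm_eq_abs, abs_neg]
    ring
  have hfc : ∀ k, ContDiff ℝ 1 (f k) := fun k =>
    (hΦC.comp (contDiff_const.add (contDiff_id.const_smul (-s)))).clm_apply contDiff_const
  have hibp : ∀ k, ∫ x, ⟪x, b k⟫ * f k x ∂gau ι = ∫ x, fderiv ℝ (f k) x (b k) ∂gau ι :=
    fun k => gau_ibp (hfc k) (a := 0) (by norm_num) (K * C * ‖A‖ + K * C * |s| * ‖A‖) n 0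
      (fun x => by
        simp only [zero_mul, Real.exp_zero, mul_one, add_mul]
        exact (hfb k x).trans (le_add_of_nonneg_right (by positivity)))
      (fun x => by
        simp only [zero_mul, Real.exp_zero, mul_one, add_mul]
        exact (ContinuousLinearMap.opNorm_le_bound _ (by positivity) (hdb k x)).trans
          (le_add_of_nonneg_left (by positivity))) (b k)
  have hi1 : ∀ k, Integrable (fun x => ⟪x, b k⟫ * f k x) (gau ι) := fun k =>
    integrable_of_polyLe ((Continuous.inner continuous_id continuous_const).mul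
      (hfc k).continuous).aestronglyMeasurable
      (K := K * C * ‖A‖) (n := n + 1) fun x => by
      rw [norm_mul, pow_succ, ← mul_assoc, mul_comm]
      refine mul_le_mul (hfb k x) ?_ (norm_nonneg _) (by positivity)
      refine (Real.norm_eq_abs _).trans_le ((abs_real_inner_le_norm _ _).trans ?_)
      rw [b.norm_eq_one, mul_one]
      linarith
  have hi2 : ∀ k, Integrable (fun x => fderiv ℝ (f k) x (b k)) (gau ι) := fun k =>
    integrable_of_polyLe
      (((hfc k).continuous_fderiv one_ne_zero).clm_apply continuous_const).aestronglyMeasurable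
      (K := K * C * |s| * ‖A‖) (n := n)
      fun x => (hdb k x _).trans (by rw [b.norm_eq_one, mul_one])
  have e : ∀ x, Φ0 (u + -s • x) (A x) = ∑ k, ⟪x, b k⟫ * f k x := fun x => by
    conv_lhs => rw [show A x = A (∑ k, ⟪b k, x⟫ • b k) by rw [b.sum_repr']]
    simp [f, map_sum, map_smul, real_inner_comm]
  simp only [e]
  rw [integral_finsetSum _ fun k _ => hi1 k, Finset.sum_congr rfl fun k _ => hibp k,
    ← integral_finsetSum _ fun k _ => hi2 k, ← integral_const_mul]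
  refine integral_congr_ae (ae_of_all _ fun x => ?_)
  simp only [trd, Finset.mul_sum]
  refine Finset.sum_congr rfl fun k _ => ?_
  rw [(hfd k x).fderiv]
  simp [hb]

/-- The derivative of a covariance along a rotation, after integration by parts. -/
lemma hasDerivAt_pair' (hΦ : Tame Φ0) (hS : Tame S) (θ : ℝ) :
    HasDerivAt (fun θ => ∫ p, Φ0 p.1 (S (cos θ • p.1 + sin θ • p.2)) ∂(gau ι).prod (gau ι))
      (-sin θ * ∫ p, trd (fderiv ℝ Φ0 p.1) (fderiv ℝ S (cos θ • p.1 + sin θ • p.2))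
        ∂(gau ι).prod (gau ι)) θ := by
  have hd := hasDerivAt_pair_raw hΦ hS θ
  have hS' := hS.continuous_fderiv
  have hΦc := hΦ.continuous
  have hΦ'c := hΦ.continuous_fderiv
  have hibp := fun u (A : EuclideanSpace ℝ ι →L[ℝ] E d) => ibp_slice hΦ A u (sin θ)
  obtain ⟨-, K, n, hK, hΦb, hΦ'⟩ := hΦ
  obtain ⟨-, L, m, hL, -, hS'b⟩ := hS
  have hcs : cos θ ^ 2 + sin θ ^ 2 = 1 := Real.cos_sq_add_sin_sq θ
  set c := cos θ with hc
  set s := sin θ with hs
  let Fr : EuclideanSpace ℝ ι × EuclideanSpace ℝ ι → ℝ := fun r =>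
    Φ0 (c • r.1 + -s • r.2) (fderiv ℝ S r.1 r.2)
  let T : EuclideanSpace ℝ ι × EuclideanSpace ℝ ι → ℝ := fun r =>
    trd (fderiv ℝ Φ0 (c • r.1 + -s • r.2)) (fderiv ℝ S r.1)
  have hFc : Continuous Fr :=
    (hΦc.comp (by fun_prop)).clm_apply ((hS'.comp continuous_fst).clm_apply continuous_snd)
  have hTc : Continuous T := by simp only [T, trd]; fun_prop
  have back : ∀ p : EuclideanSpace ℝ ι × EuclideanSpace ℝ ι,
      c • (c • p.1 + s • p.2) + -s • (-s • p.1 + c • p.2) = p.1 := by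
    intro p
    have e : c • (c • p.1 + s • p.2) + -s • (-s • p.1 + c • p.2) = (c ^ 2 + s ^ 2) • p.1 := by
      module
    rw [e, hcs, one_smul]
  have hrot : (∫ p, Φ0 p.1 (fderiv ℝ S (c • p.1 + s • p.2) (-s • p.1 + c • p.2))
      ∂(gau ι).prod (gau ι)) = ∫ r, Fr r ∂(gau ι).prod (gau ι) := by
    conv_rhs => rw [← gau_rotate (ι := ι) hcs]
    rw [integral_map (by fun_prop) hFc.aestronglyMeasurable]
    simp only [Fr, back]
  have hrot' : (∫ p, trd (fderiv ℝ Φ0 p.1) (fderiv ℝ S (c • p.1 + s • p.2))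
      ∂(gau ι).prod (gau ι)) = ∫ r, T r ∂(gau ι).prod (gau ι) := by
    conv_rhs => rw [← gau_rotate (ι := ι) hcs]
    rw [integral_map (by fun_prop) hTc.aestronglyMeasurable]
    simp only [T, back]
  set C := ((1 + |c|) * (1 + |s|)) ^ n with hC
  have hP : ∀ r : EuclideanSpace ℝ ι × EuclideanSpace ℝ ι,
      (1 + ‖c • r.1 + -s • r.2‖) ^ n ≤ C * ((1 + ‖r.1‖) ^ n * (1 + ‖r.2‖) ^ n) := fun r => by
    simpa [hC] using pw_comb c (-s) r.1 r.2 n
  have hFi : Integrable Fr ((gau ι).prod (gau ι)) :=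
    integrable_of_polyLe2 hFc.aestronglyMeasurable (K := K * L * C) (m := n + m) (n := n + 1)
      fun r => by
      refine ((Φ0 _).le_opNorm _).trans ((mul_le_mul ((hΦb _).trans
        (mul_le_mul_of_nonneg_left (hP r) hK))
        (((fderiv ℝ S r.1).le_opNorm r.2).trans
          (mul_le_mul (hS'b r.1) (le_add_of_nonneg_left zero_le_one) (norm_nonneg _)
            (by positivity))) (norm_nonneg _) (by positivity)).trans (le_of_eq ?_))
      ring
  have hTi : Integrable T ((gau ι).prod (gau ι)) :=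
    integrable_of_polyLe2 hTc.aestronglyMeasurable (K := Fintype.card ι * (K * L * C))
      (m := n + m) (n := n) fun r => by
      refine (norm_trd_le ((hΦ' _).trans (mul_le_mul_of_nonneg_left (hP r) hK))
        (hS'b r.1)).trans (le_of_eq ?_)
      ring
  rw [hrot, integral_prod _ hFi] at hd
  rw [hrot', integral_prod _ hTi, ← integral_const_mul]
  simp only [Fr, T, hibp] at hd ⊢
  exact hd

lemma sqrt_one_sub_cos_sq {θ : ℝ} (hθ : θ ∈ Set.Icc (0 : ℝ) (π / 2)) :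
    √(1 - cos θ ^ 2) = sin θ := by
  rw [show 1 - cos θ ^ 2 = sin θ ^ 2 by linarith [Real.cos_sq_add_sin_sq θ],
    Real.sqrt_sq (Real.sin_nonneg_of_nonneg_of_le_pi hθ.1 (by linarith [hθ.2, Real.pi_pos]))]

lemma integral_pair_ou (hΦ : Tame Φ0) (hS : Tame S) {θ : ℝ} (hθ : θ ∈ Set.Icc (0 : ℝ) (π / 2)) :
    ∫ p, Φ0 p.1 (S (cos θ • p.1 + sin θ • p.2)) ∂(gau ι).prod (gau ι) =
      ∫ x, Φ0 x (ou (cos θ) S x) ∂gau ι := by
  have hΦc := hΦ.continuous
  have hSc := hS.continuous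
  obtain ⟨-, K, n, hK, hΦb, -⟩ := hΦ
  obtain ⟨-, L, m, hL, hSb, -⟩ := hS
  have hi : Integrable (fun p : EuclideanSpace ℝ ι × EuclideanSpace ℝ ι =>
      Φ0 p.1 (S (cos θ • p.1 + sin θ • p.2))) ((gau ι).prod (gau ι)) :=
    integrable_of_polyLe2 (((hΦc.comp continuous_fst).clm_apply (hSc.comp (by fun_prop))).aestronglyMeasurable) (K := K * L * ((1 + |cos θ|) * (1 + |sin θ|)) ^ m)
      (m := n + m) (n := m) fun p => by
      refine ((Φ0 p.1).le_opNorm _).trans ((mul_le_mul (hΦb p.1) ((hSb _).trans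
        (mul_le_mul_of_nonneg_left (pw_comb _ _ _ _ m) hL)) (norm_nonneg _)
          (by positivity)).trans (le_of_eq ?_))
      ring
  rw [integral_prod _ hi]
  refine integral_congr_ae (ae_of_all _ fun x => ?_)
  simp only [ou, sqrt_one_sub_cos_sq hθ]
  exact (Φ0 x).integral_comp_comm (integrable_slice2 hSc hL hSb _ _ x)

lemma integral_trd_ou (hΦ : Tame Φ0) (hS : Tame S) {θ : ℝ} (hθ : θ ∈ Set.Icc (0 : ℝ) (π / 2)) :
    ∫ p, trd (fderiv ℝ Φ0 p.1) (fderiv ℝ S (cos θ • p.1 + sin θ • p.2)) ∂(gau ι).prod (gau ι) =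
      ∫ x, trd (fderiv ℝ Φ0 x) (ou (cos θ) (fderiv ℝ S) x) ∂gau ι := by
  have hΦ'c := hΦ.continuous_fderiv
  have hS' := hS.continuous_fderiv
  obtain ⟨-, K, n, hK, -, hΦ'⟩ := hΦ
  obtain ⟨-, L, m, hL, -, hS'b⟩ := hS
  have hi : Integrable (fun p : EuclideanSpace ℝ ι × EuclideanSpace ℝ ι =>
      trd (fderiv ℝ Φ0 p.1) (fderiv ℝ S (cos θ • p.1 + sin θ • p.2)))
      ((gau ι).prod (gau ι)) :=
    integrable_of_polyLe2 (Continuous.aestronglyMeasurable (by simp only [trd]; fun_prop))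
      (K := Fintype.card ι * (K * L * ((1 + |cos θ|) * (1 + |sin θ|)) ^ m))
      (m := n + m) (n := m) fun p => by
      refine (norm_trd_le (hΦ' p.1) ((hS'b _).trans
        (mul_le_mul_of_nonneg_left (pw_comb _ _ _ _ m) hL))).trans (le_of_eq ?_)
      ring
  rw [integral_prod _ hi]
  refine integral_congr_ae (ae_of_all _ fun x => ?_)
  simp only [ou, sqrt_one_sub_cos_sq hθ, ← trdL_apply]
  exact (trdL _).integral_comp_comm (integrable_slice2 hS' hL hS'b _ _ x)

/-- The derivative of the covariance along a rotation, in the Ornstein–Uhlenbeck form. -/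
lemma hasDerivAt_pair (hΦ : Tame Φ0) (hS : Tame S) {θ : ℝ}
    (hθ : θ ∈ Set.Icc (0 : ℝ) (π / 2)) :
    HasDerivAt (fun θ => ∫ p, Φ0 p.1 (S (cos θ • p.1 + sin θ • p.2)) ∂(gau ι).prod (gau ι))
      (-sin θ * ∫ x, trd (fderiv ℝ Φ0 x) (ou (cos θ) (fderiv ℝ S) x) ∂gau ι) θ := by
  have h := hasDerivAt_pair' hΦ hS θ
  rwa [integral_trd_ou hΦ hS hθ] at h

lemma continuous_trd_ou (hΦ : Tame Φ0) (hS : Tame S) :
    Continuous fun ρ : ℝ => ∫ x, trd (fderiv ℝ Φ0 x) (ou ρ (fderiv ℝ S) x) ∂gau ι := by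
  have hA := (tame_ou hS).2
  have hΦ'c := hΦ.continuous_fderiv
  obtain ⟨-, K, n, hK, -, hΦ'⟩ := hΦ
  obtain ⟨-, L, m, hL, -, hS'b⟩ := hS
  refine continuous_iff_continuousAt.2 fun ρ0 => continuousAt_of_dominated
    (bound := fun x => Fintype.card ι *
      (K * (L * (2 * (1 + (|ρ0| + 1))) ^ m * pwMom ι m)) * (1 + ‖x‖) ^ (n + m))
    (.of_forall fun ρ => ?_) ?_ ((integrable_pw _).const_mul _) (ae_of_all _ fun x => ?_)
  · have h1 : Continuous fun x => ou ρ (fderiv ℝ S) x := hA.comp (Continuous.prodMk_right ρ)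
    exact Continuous.aestronglyMeasurable (by simp only [trd]; fun_prop)
  · filter_upwards [(isOpen_Iio.preimage continuous_abs).mem_nhds
      (show |ρ0| < |ρ0| + 1 by linarith)] with ρ hρ
    refine ae_of_all _ fun x => (norm_trd_le (hΦ' x)
      (norm_ou_poly hL hS'b (le_of_lt hρ) x)).trans (le_of_eq ?_)
    ring
  · have h1 : Continuous fun ρ => ou ρ (fderiv ℝ S) x := hA.comp (Continuous.prodMk_left x)
    simp only [trd]
    exact Continuous.continuousAt (by fun_prop)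

lemma continuous_phi_ou (hΦ : Tame Φ0) (hS : Tame S) :
    Continuous fun ρ : ℝ => ∫ x, Φ0 x (ou ρ S x) ∂gau ι := by
  have hA := (tame_ou hS).1
  have hΦc := hΦ.continuous
  obtain ⟨-, K, n, hK, hΦb, -⟩ := hΦ
  obtain ⟨-, L, m, hL, hSb, -⟩ := hS
  refine continuous_iff_continuousAt.2 fun ρ0 => continuousAt_of_dominated
    (bound := fun x => K * (L * (2 * (1 + (|ρ0| + 1))) ^ m * pwMom ι m) * (1 + ‖x‖) ^ (n + m))
    (.of_forall fun ρ => ?_) ?_ ((integrable_pw _).const_mul _) (ae_of_all _ fun x => ?_)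
  · have h1 : Continuous fun x => ou ρ S x := hA.comp (Continuous.prodMk_right ρ)
    exact (hΦc.clm_apply h1).aestronglyMeasurable
  · filter_upwards [(isOpen_Iio.preimage continuous_abs).mem_nhds
      (show |ρ0| < |ρ0| + 1 by linarith)] with ρ hρ
    refine ae_of_all _ fun x => ((Φ0 x).le_opNorm _).trans ((mul_le_mul (hΦb x)
      (norm_ou_poly hL hSb (le_of_lt hρ) x) (norm_nonneg _) (by positivity)).trans (le_of_eq ?_))
    ring
  · have h1 : Continuous fun ρ => ou ρ S x := hA.comp (Continuous.prodMk_left x)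
    exact ((continuous_const (y := Φ0 x)).clm_apply h1).continuousAt

lemma pair_endpoints (hΦ : Tame Φ0) (hS : Tame S) :
    (∫ p, Φ0 p.1 (S (cos 0 • p.1 + sin 0 • p.2)) ∂(gau ι).prod (gau ι)) =
        ∫ x, Φ0 x (S x) ∂gau ι ∧
    (∫ p, Φ0 p.1 (S (cos (π / 2) • p.1 + sin (π / 2) • p.2)) ∂(gau ι).prod (gau ι)) =
        (∫ x, Φ0 x ∂gau ι) (∫ x, S x ∂gau ι) := by
  constructor
  · simp only [Real.cos_zero, Real.sin_zero, one_smul, zero_smul, add_zero]
    simpa using integral_fun_fst (μ := gau ι) (ν := gau ι) fun x => Φ0 x (S x)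
  · have hπ : (π / 2) ∈ Set.Icc (0 : ℝ) (π / 2) := ⟨by positivity, le_rfl⟩
    rw [integral_pair_ou hΦ hS hπ, Real.cos_pi_div_two]
    have e : ∀ x, ou 0 S x = ∫ w, S w ∂gau ι := fun x => by
      simp [ou]
    simp only [e]
    obtain ⟨-, K, n, -, hΦb, -⟩ := id hΦ
    rw [ContinuousLinearMap.integral_apply
      (integrable_of_polyLe hΦ.continuous.aestronglyMeasurable hΦb)]

/-- The covariance identity, integrated in the correlation. -/
theorem cov_identity (hΦ : Tame Φ0) (hS : Tame S) :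
    (∫ x, Φ0 x (S x) ∂gau ι) - (∫ x, Φ0 x ∂gau ι) (∫ x, S x ∂gau ι) =
      ∫ ρ in (0 : ℝ)..1, ∫ x, trd (fderiv ℝ Φ0 x) (ou ρ (fderiv ℝ S) x) ∂gau ι := by
  set G : ℝ → ℝ := fun ρ => ∫ x, trd (fderiv ℝ Φ0 x) (ou ρ (fderiv ℝ S) x) ∂gau ι with hG
  have hGc : Continuous G := continuous_trd_ou hΦ hS
  have hI : Set.uIcc (0 : ℝ) (π / 2) = Set.Icc 0 (π / 2) := Set.uIcc_of_le (by positivity)
  have h := intervalIntegral.integral_eq_sub_of_hasDerivAt
    (f := fun θ => ∫ p, Φ0 p.1 (S (cos θ • p.1 + sin θ • p.2)) ∂(gau ι).prod (gau ι))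
    (f' := fun θ => -sin θ * G (cos θ)) (a := 0) (b := π / 2)
    (fun θ hθ => hasDerivAt_pair hΦ hS (by rwa [hI] at hθ))
    ((Continuous.intervalIntegrable (by fun_prop)) _ _)
  have hsub : ∫ θ in (0 : ℝ)..(π / 2), -sin θ * G (cos θ) = -∫ ρ in (0 : ℝ)..1, G ρ := by
    have e := intervalIntegral.integral_comp_mul_deriv (a := 0) (b := π / 2) (f := cos)
      (f' := fun θ => -sin θ) (g := G) (fun θ _ => Real.hasDerivAt_cos θ) (by fun_prop) hGc
    simp only [Function.comp_def, Real.cos_zero, Real.cos_pi_div_two] at e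
    rw [intervalIntegral.integral_symm 0 1] at e
    simp_rw [mul_comm (-sin _)]
    exact e
  obtain ⟨e0, e1⟩ := pair_endpoints hΦ hS
  rw [hsub, e0, e1] at h
  linarith

/-- The identity behind `inv1N`, integrated in the correlation. -/
theorem inv_identity (hΦ : Tame Φ0) (hS : Tame S) :
    ∫ x, Φ0 x (S x) ∂gau ι =
      ∫ ρ in (0 : ℝ)..1, ((∫ x, Φ0 x (ou ρ S x) ∂gau ι) +
        ρ * ∫ x, trd (fderiv ℝ Φ0 x) (ou ρ (fderiv ℝ S) x) ∂gau ι) := by
  set G : ℝ → ℝ := fun ρ => ∫ x, trd (fderiv ℝ Φ0 x) (ou ρ (fderiv ℝ S) x) ∂gau ι with hG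
  set H : ℝ → ℝ := fun ρ => ∫ x, Φ0 x (ou ρ S x) ∂gau ι with hH
  set K : ℝ → ℝ := fun θ => ∫ p, Φ0 p.1 (S (cos θ • p.1 + sin θ • p.2)) ∂(gau ι).prod (gau ι)
    with hK
  have hGc : Continuous G := continuous_trd_ou hΦ hS
  have hI : Set.uIcc (0 : ℝ) (π / 2) = Set.Icc 0 (π / 2) := Set.uIcc_of_le (by positivity)
  have hKc : Continuous K :=
    continuous_iff_continuousAt.2 fun θ => (hasDerivAt_pair' hΦ hS θ).continuousAt
  have hKH : ∀ θ ∈ Set.Icc (0 : ℝ) (π / 2), K θ = H (cos θ) := fun θ hθ =>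
    integral_pair_ou hΦ hS hθ
  have h := intervalIntegral.integral_eq_sub_of_hasDerivAt
    (f := fun θ => cos θ * K θ) (f' := fun θ => -sin θ * (K θ + cos θ * G (cos θ)))
    (a := 0) (b := π / 2)
    (fun θ hθ => by
      have := (Real.hasDerivAt_cos θ).mul (hasDerivAt_pair hΦ hS (by rwa [hI] at hθ))
      refine this.congr_deriv ?_
      simp only [hK, hG]
      ring)
    ((Continuous.intervalIntegrable (by fun_prop)) _ _)
  have hsub : ∫ θ in (0 : ℝ)..(π / 2), -sin θ * (K θ + cos θ * G (cos θ)) =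
      -∫ ρ in (0 : ℝ)..1, (H ρ + ρ * G ρ) := by
    have e := intervalIntegral.integral_comp_mul_deriv' (a := 0) (b := π / 2) (f := cos)
      (f' := fun θ => -sin θ) (g := fun ρ => H ρ + ρ * G ρ) (fun θ _ => Real.hasDerivAt_cos θ)
      (by fun_prop) (((continuous_phi_ou hΦ hS).add (by fun_prop)).continuousOn)
    simp only [Function.comp_def, Real.cos_zero, Real.cos_pi_div_two] at e
    rw [intervalIntegral.integral_symm 0 1] at e
    refine (intervalIntegral.integral_congr fun θ hθ => ?_).trans e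
    rw [hI] at hθ
    simp only [hKH θ hθ]
    ring
  rw [hsub] at h
  simp only [Real.cos_zero, Real.cos_pi_div_two, one_mul, zero_mul] at h
  have e0 := (pair_endpoints hΦ hS).1
  simp only [hK] at h
  rw [e0] at h
  simp only [hH, hG] at h
  linarith

end core

section inverse

variable {S : EuclideanSpace ℝ ι → E d} {Φ0 : EuclideanSpace ℝ ι → E d →L[ℝ] ℝ}

lemma norm_ou_fderiv_le {L : ℝ} (hSL : ∀ x, ‖fderiv ℝ S x‖ ≤ L) (ρ : ℝ) (x : EuclideanSpace ℝ ι) :
    ‖ou ρ (fderiv ℝ S) x‖ ≤ L := by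
  refine (norm_integral_le_of_norm_le (integrable_const L) (ae_of_all _ fun w => hSL _)).trans ?_
  simp

/-- The derivative of the Ornstein–Uhlenbeck operator. -/
lemma hasFDerivAt_ou (hS : Tame S) (ρ : ℝ) (x : EuclideanSpace ℝ ι) :
    HasFDerivAt (ou ρ S) (ρ • ou ρ (fderiv ℝ S) x) x := by
  have hS' := hS.continuous_fderiv
  have hSc := hS.continuous
  have hSd := hS.differentiable
  obtain ⟨-, L, m, hL, hSb, hS'b⟩ := hS
  have h := hasFDerivAt_integral_of_dominated_of_fderiv_le (μ := gau ι)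
    (F := fun y w => S (ρ • y + √(1 - ρ ^ 2) • w))
    (F' := fun y w => ρ • fderiv ℝ S (ρ • y + √(1 - ρ ^ 2) • w))
    (bound := fun w => |ρ| * (L * (((1 + |ρ|) * (1 + |√(1 - ρ ^ 2)|)) ^ m *
      ((2 + ‖x‖) ^ m * (1 + ‖w‖) ^ m))))
    (Metric.ball_mem_nhds x zero_lt_one) (.of_forall fun y => (Continuous.aestronglyMeasurable (by fun_prop)))
    (integrable_slice2 hSc hL hSb _ _ x) (Continuous.aestronglyMeasurable (by fun_prop))
    (ae_of_all _ fun w y hy => by
      have hy' : ‖y‖ ≤ ‖x‖ + 1 := by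
        rw [Metric.mem_ball, dist_eq_norm] at hy
        linarith [norm_le_norm_add_norm_sub' y x]
      rw [norm_smul, Real.norm_eq_abs]
      refine mul_le_mul_of_nonneg_left ((ou_slice_le hL hS'b _ _ y w).trans ?_) (abs_nonneg ρ)
      gcongr _ * (_ * (?_ ^ m * _))
      linarith)
    ((((((integrable_pw m).const_mul _).const_mul _).const_mul _).const_mul _))
    (ae_of_all _ fun w y _ => by
      have e : HasFDerivAt (fun y : EuclideanSpace ℝ ι => ρ • y + √(1 - ρ ^ 2) • w)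
          (ρ • ContinuousLinearMap.id ℝ (EuclideanSpace ℝ ι)) y :=
        ((hasFDerivAt_id y).const_smul ρ).add_const _
      refine ((hSd _).hasFDerivAt.comp y e).congr_fderiv ?_
      ext v
      simp)
  rw [integral_smul] at h
  exact h

/-- The derivative of `inv1N S`. -/
theorem hasFDerivAt_inv1N (hS : Tame S) (x : EuclideanSpace ℝ ι) :
    HasFDerivAt (inv1N S) (invD S x) x := by
  obtain ⟨hA, hB⟩ := tame_ou hS
  obtain ⟨-, L, m, hL, -, hS'b⟩ := id hS
  have hcA : ∀ y, Continuous fun ρ => ou ρ S y := fun y => hA.comp (Continuous.prodMk_left y)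
  have hcB : ∀ y, Continuous fun ρ => ρ • ou ρ (fderiv ℝ S) y := fun y =>
    continuous_id.smul (hB.comp (Continuous.prodMk_left y))
  exact intervalIntegral.hasFDerivAt_integral_of_dominated_of_fderiv_le
    (F := fun y ρ => ou ρ S y) (F' := fun y ρ => ρ • ou ρ (fderiv ℝ S) y)
    (bound := fun _ => L * (2 * (1 + (1 : ℝ))) ^ m * pwMom ι m * (2 + ‖x‖) ^ m)
    (Metric.ball_mem_nhds x zero_lt_one) (.of_forall fun y => (hcA y).aestronglyMeasurable)
    ((hcA x).intervalIntegrable _ _) (hcB x).aestronglyMeasurable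
    (ae_of_all _ fun ρ hρ y hy => by
      rw [Set.uIoc_of_le zero_le_one] at hρ
      have hy' : ‖y‖ ≤ ‖x‖ + 1 := by
        rw [Metric.mem_ball, dist_eq_norm] at hy
        linarith [norm_le_norm_add_norm_sub' y x]
      rw [norm_smul, Real.norm_eq_abs, abs_of_pos hρ.1]
      refine (mul_le_of_le_one_left (norm_nonneg _) hρ.2).trans
        ((norm_ou_poly hL hS'b (r := 1) (by rw [abs_of_pos hρ.1]; exact hρ.2) y).trans ?_)
      have : 0 ≤ pwMom ι m := integral_nonneg fun w => by positivity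
      exact mul_le_mul_of_nonneg_left
        (pow_le_pow_left₀ (by positivity) (by linarith) m) (by positivity))
    intervalIntegrable_const
    (ae_of_all _ fun ρ _ y _ => hasFDerivAt_ou hS ρ y)

lemma continuous_invD (hS : Tame S) : Continuous (invD S) :=
  intervalIntegral.continuous_parametric_intervalIntegral_of_continuous' (μ := volume)
    (f := fun x ρ => ρ • ou ρ (fderiv ℝ S) x)
    (continuous_snd.smul ((tame_ou hS).2.comp continuous_swap)) 0 1

lemma norm_invD_le {L : ℝ} (hSL : ∀ x, ‖fderiv ℝ S x‖ ≤ L) (x : EuclideanSpace ℝ ι) :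
    ‖invD S x‖ ≤ L := by
  refine (intervalIntegral.norm_integral_le_of_norm_le_const fun ρ hρ => ?_).trans
    (le_of_eq (by norm_num : L * |(1 : ℝ) - 0| = L))
  rw [Set.uIoc_of_le zero_le_one] at hρ
  rw [norm_smul, Real.norm_eq_abs, abs_of_pos hρ.1]
  exact (mul_le_of_le_one_left (norm_nonneg _) hρ.2).trans (norm_ou_fderiv_le hSL _ _)

theorem fderiv_inv1N (hS : Tame S) : fderiv ℝ (inv1N S) = invD S :=
  funext fun x => (hasFDerivAt_inv1N hS x).fderiv

theorem contDiff_inv1N (hS : Tame S) : ContDiff ℝ 1 (inv1N S) := by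
  rw [contDiff_one_iff_fderiv]
  refine ⟨fun x => (hasFDerivAt_inv1N hS x).differentiableAt, ?_⟩
  rw [fderiv_inv1N hS]
  exact continuous_invD hS

theorem tame_inv1N (hS : Tame S) : Tame (inv1N S) := by
  obtain ⟨-, L, m, hL, hSb, hS'b⟩ := id hS
  have hM : 0 ≤ pwMom ι m := integral_nonneg fun w => by positivity
  refine ⟨contDiff_inv1N hS, L * (2 * (1 + (1 : ℝ))) ^ m * pwMom ι m, m, by positivity,
    fun x => ?_, fun x => ?_⟩
  · refine (intervalIntegral.norm_integral_le_of_norm_le_const fun ρ hρ => ?_).trans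
      (le_of_eq (by norm_num : L * (2 * (1 + (1 : ℝ))) ^ m * pwMom ι m * (1 + ‖x‖) ^ m *
        |(1 : ℝ) - 0| = L * (2 * (1 + (1 : ℝ))) ^ m * pwMom ι m * (1 + ‖x‖) ^ m))
    rw [Set.uIoc_of_le zero_le_one] at hρ
    exact norm_ou_poly hL hSb (by rw [abs_of_pos hρ.1]; exact hρ.2) x
  · rw [fderiv_inv1N hS]
    refine (intervalIntegral.norm_integral_le_of_norm_le_const fun ρ hρ => ?_).trans
      (le_of_eq (by norm_num : L * (2 * (1 + (1 : ℝ))) ^ m * pwMom ι m * (1 + ‖x‖) ^ m *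
        |(1 : ℝ) - 0| = L * (2 * (1 + (1 : ℝ))) ^ m * pwMom ι m * (1 + ‖x‖) ^ m))
    rw [Set.uIoc_of_le zero_le_one] at hρ
    rw [norm_smul, Real.norm_eq_abs, abs_of_pos hρ.1]
    exact (mul_le_of_le_one_left (norm_nonneg _) hρ.2).trans
      (norm_ou_poly hL hS'b (by rw [abs_of_pos hρ.1]; exact hρ.2) x)

lemma integrable_unit_prod {f : ℝ × EuclideanSpace ℝ ι → ℝ} (hf : Continuous f) {C : ℝ} {n : ℕ}
    (h : ∀ ρ ∈ Set.Icc (0 : ℝ) 1, ∀ x, ‖f (ρ, x)‖ ≤ C * (1 + ‖x‖) ^ n) :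
    Integrable f ((volume.restrict (Set.Ioc (0 : ℝ) 1)).prod (gau ι)) := by
  have : IsFiniteMeasure (volume.restrict (Set.Ioc (0 : ℝ) 1)) := ⟨by simp⟩
  refine (((integrable_pw n).const_mul C).comp_snd _).mono' hf.aestronglyMeasurable ?_
  refine Measure.ae_prod_iff_ae_ae (measurableSet_le (by fun_prop) (by fun_prop)) |>.2 ?_
  filter_upwards [ae_restrict_mem measurableSet_Ioc] with ρ hρ
  exact ae_of_all _ fun x => h ρ ⟨hρ.1.le, hρ.2⟩ x

/-- `inv1N` inverts `1 + N` weakly. -/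
theorem stein_inv (hΦ : Tame Φ0) (hS : Tame S) :
    ∫ x, Φ0 x (S x) ∂gau ι =
      (∫ x, Φ0 x (inv1N S x) ∂gau ι) + ∫ x, trd (fderiv ℝ Φ0 x) (invD S x) ∂gau ι := by
  obtain ⟨hA, hB⟩ := tame_ou hS
  obtain ⟨-, L, m, hL, hSb, hS'b⟩ := id hS
  obtain ⟨-, K, n, hK, hΦb, hΦ'⟩ := id hΦ
  have hΦc := hΦ.continuous
  have hΦ'c := hΦ.continuous_fderiv
  set M : ℝ := L * (2 * (1 + (1 : ℝ))) ^ m * pwMom ι m with hM
  set f1 : ℝ × EuclideanSpace ℝ ι → ℝ := fun q => Φ0 q.2 (ou q.1 S q.2) with hf1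
  set f2 : ℝ × EuclideanSpace ℝ ι → ℝ := fun q =>
    trd (fderiv ℝ Φ0 q.2) (q.1 • ou q.1 (fderiv ℝ S) q.2) with hf2
  have c1 : Continuous f1 := (hΦc.comp continuous_snd).clm_apply hA
  have c2 : Continuous f2 := by
    have : Continuous fun q : ℝ × EuclideanSpace ℝ ι => q.1 • ou q.1 (fderiv ℝ S) q.2 :=
      continuous_fst.smul hB
    simp only [hf2, trd]; fun_prop
  have i1 : Integrable f1 ((volume.restrict (Set.Ioc (0 : ℝ) 1)).prod (gau ι)) :=
    integrable_unit_prod c1 (C := K * M) (n := n + m) fun ρ hρ x => by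
      refine ((Φ0 x).le_opNorm _).trans ((mul_le_mul (hΦb x)
        (norm_ou_poly hL hSb (r := 1) (by rw [abs_of_nonneg hρ.1]; exact hρ.2) x) (norm_nonneg _)
          (by positivity)).trans (le_of_eq ?_))
      rw [hM]; ring
  have i2 : Integrable f2 ((volume.restrict (Set.Ioc (0 : ℝ) 1)).prod (gau ι)) :=
    integrable_unit_prod c2 (C := Fintype.card ι * (K * M)) (n := n + m) fun ρ hρ x => by
      refine (norm_trd_le (b := M * (1 + ‖x‖) ^ m) (hΦ' x) ?_).trans (le_of_eq (by ring))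
      rw [norm_smul, Real.norm_eq_abs, abs_of_nonneg hρ.1]
      exact (mul_le_of_le_one_left (norm_nonneg _) hρ.2).trans
        (norm_ou_poly hL hS'b (by rw [abs_of_nonneg hρ.1]; exact hρ.2) x)
  have s1 : ∫ x, Φ0 x (inv1N S x) ∂gau ι = ∫ ρ in (0 : ℝ)..1, ∫ x, f1 (ρ, x) ∂gau ι := by
    rw [intervalIntegral.integral_of_le zero_le_one,
      integral_integral_swap (f := fun ρ x => f1 (ρ, x)) i1]
    refine integral_congr_ae (ae_of_all _ fun x => ?_)
    have hi : IntervalIntegrable (fun ρ => ou ρ S x) volume 0 1 :=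
      (hA.comp (Continuous.prodMk_left x)).intervalIntegrable _ _
    simp only [inv1N, hf1]
    rw [← intervalIntegral.integral_of_le zero_le_one]
    exact ((Φ0 x).intervalIntegral_comp_comm hi).symm
  have s2 : ∫ x, trd (fderiv ℝ Φ0 x) (invD S x) ∂gau ι =
      ∫ ρ in (0 : ℝ)..1, ∫ x, f2 (ρ, x) ∂gau ι := by
    rw [intervalIntegral.integral_of_le zero_le_one,
      integral_integral_swap (f := fun ρ x => f2 (ρ, x)) i2]
    refine integral_congr_ae (ae_of_all _ fun x => ?_)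
    have hi : IntervalIntegrable (fun ρ => ρ • ou ρ (fderiv ℝ S) x) volume 0 1 :=
      (continuous_id.smul (hB.comp (Continuous.prodMk_left x))).intervalIntegrable _ _
    simp only [invD, hf2, ← trdL_apply]
    rw [← intervalIntegral.integral_of_le zero_le_one]
    exact ((trdL _).intervalIntegral_comp_comm hi).symm
  rw [inv_identity hΦ hS, s1, s2, ← intervalIntegral.integral_add]
  · refine intervalIntegral.integral_congr fun ρ _ => ?_
    simp only [hf1, hf2, ← trdL_apply, map_smul, smul_eq_mul, integral_const_mul]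
  · exact ((continuous_phi_ou hΦ hS)).intervalIntegrable _ _
  · refine (continuous_id.mul (continuous_trd_ou hΦ hS)).intervalIntegrable _ _ |>.congr ?_
    intro ρ _
    simp only [hf2, ← trdL_apply, map_smul, smul_eq_mul, integral_const_mul, id, Pi.mul_apply]

/-- The covariance identity. -/
theorem stein_cov (hΦ : Tame Φ0) (hS : Tame S) :
    (∫ x, Φ0 x (S x) ∂gau ι) - (∫ x, Φ0 x ∂gau ι) (∫ x, S x ∂gau ι) =
      ∫ x, trd (fderiv ℝ Φ0 x) (covD S x) ∂gau ι := by
  obtain ⟨-, hB⟩ := tame_ou hS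
  obtain ⟨-, L, m, hL, -, hS'b⟩ := id hS
  obtain ⟨-, K, n, hK, -, hΦ'⟩ := id hΦ
  have hΦ'c := hΦ.continuous_fderiv
  set M : ℝ := L * (2 * (1 + (1 : ℝ))) ^ m * pwMom ι m with hM
  set f2 : ℝ × EuclideanSpace ℝ ι → ℝ := fun q =>
    trd (fderiv ℝ Φ0 q.2) (ou q.1 (fderiv ℝ S) q.2) with hf2
  have c2 : Continuous f2 := by simp only [hf2, trd]; fun_prop
  have i2 : Integrable f2 ((volume.restrict (Set.Ioc (0 : ℝ) 1)).prod (gau ι)) :=
    integrable_unit_prod c2 (C := Fintype.card ι * (K * M)) (n := n + m) fun ρ hρ x =>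
      (norm_trd_le (hΦ' x) (norm_ou_poly hL hS'b (r := 1)
        (by rw [abs_of_nonneg hρ.1]; exact hρ.2) x)).trans (le_of_eq (by rw [hM]; ring))
  rw [cov_identity hΦ hS, intervalIntegral.integral_of_le zero_le_one,
    integral_integral_swap (f := fun ρ x => f2 (ρ, x)) i2]
  refine integral_congr_ae (ae_of_all _ fun x => ?_)
  have hi : IntervalIntegrable (fun ρ => ou ρ (fderiv ℝ S) x) volume 0 1 :=
    (hB.comp (Continuous.prodMk_left x)).intervalIntegrable _ _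
  simp only [covD, hf2, ← trdL_apply]
  rw [← intervalIntegral.integral_of_le zero_le_one]
  exact (trdL _).intervalIntegral_comp_comm hi

end inverse

section master

/-- The trace of a bilinear form along two maps. -/
noncomputable def trPair (B : E d →L[ℝ] E d →L[ℝ] ℝ) (A A' : EuclideanSpace ℝ ι →L[ℝ] E d) : ℝ :=
  ∑ k, B (A (EuclideanSpace.basisFun ι ℝ k)) (A' (EuclideanSpace.basisFun ι ℝ k))

/-- A trace along `A` and `A'` is the trace of `A' A†`. -/
lemma trPair_eq (B : E d →L[ℝ] E d →L[ℝ] ℝ) (A A' : EuclideanSpace ℝ ι →L[ℝ] E d) :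
    trPair B A A' = ∑ i, B (EuclideanSpace.basisFun (Fin d) ℝ i)
      (A' (A.adjoint (EuclideanSpace.basisFun (Fin d) ℝ i))) := by
  set e := EuclideanSpace.basisFun (Fin d) ℝ with he
  set b := EuclideanSpace.basisFun ι ℝ with hb
  calc trPair B A A' = ∑ k, ∑ i, ⟪e i, A (b k)⟫ * B (e i) (A' (b k)) := by
        refine Finset.sum_congr rfl fun k _ => ?_
        rw [← hb]
        conv_lhs => rw [← e.sum_repr' (A (b k))]
        simp [sum_apply, smul_eq_mul]
    _ = _ := by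
        rw [Finset.sum_comm]
        refine Finset.sum_congr rfl fun i _ => ?_
        conv_rhs => rw [← b.sum_repr' (A.adjoint (e i))]
        simp [map_sum, map_smul, smul_eq_mul, ContinuousLinearMap.adjoint_inner_right,
          real_inner_comm]

lemma trPair_id {U : EuclideanSpace ℝ ι →L[ℝ] E d} (hU : ∀ v, U (U.adjoint v) = v)
    (B : E d →L[ℝ] E d →L[ℝ] ℝ) :
    trPair B U U = ∑ i, B (EuclideanSpace.basisFun (Fin d) ℝ i)
      (EuclideanSpace.basisFun (Fin d) ℝ i) := by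
  simp [trPair_eq, hU]

lemma norm_trPair_le {B : E d →L[ℝ] E d →L[ℝ] ℝ} {A A' : EuclideanSpace ℝ ι →L[ℝ] E d}
    {K a a' : ℝ} (hB : ‖B‖ ≤ K) (hA : ‖A‖ ≤ a) (hA' : ‖A'‖ ≤ a') :
    |trPair B A A'| ≤ Fintype.card ι * (K * a * a') := by
  refine (Finset.abs_sum_le_sum_abs _ _).trans
    ((Finset.sum_le_card_nsmul _ _ (K * a * a') fun k _ => ?_).trans (by simp))
  have hK : 0 ≤ K := (norm_nonneg B).trans hB
  have h0 : 0 ≤ a := (norm_nonneg A).trans hA
  refine (Real.norm_eq_abs _).symm.trans_le ((B.le_opNorm₂ _ _).trans ?_)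
  have h1 := A.le_opNorm (EuclideanSpace.basisFun ι ℝ k)
  have h2 := A'.le_opNorm (EuclideanSpace.basisFun ι ℝ k)
  rw [OrthonormalBasis.norm_eq_one, mul_one] at h1 h2
  exact mul_le_mul (mul_le_mul hB (h1.trans hA) (norm_nonneg _) hK) (h2.trans hA') (norm_nonneg _)
    (mul_nonneg hK h0)

/-- The point `a + U x + Φ x`. -/
noncomputable def pt (U : EuclideanSpace ℝ ι →L[ℝ] E d) (Φ : EuclideanSpace ℝ ι → E d) (a : E d)
    (x : EuclideanSpace ℝ ι) : E d :=
  a + U x + Φ x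

variable {f : E d → ℝ} {U : EuclideanSpace ℝ ι →L[ℝ] E d} {Φ S : EuclideanSpace ℝ ι → E d}
  {K1 K2 : ℝ}

lemma hasFDerivAt_pt (hΦ : Tame Φ) (a : E d) (x : EuclideanSpace ℝ ι) :
    HasFDerivAt (pt U Φ a) (U + fderiv ℝ Φ x) x :=
  (U.hasFDerivAt.const_add a).add (hΦ.differentiable x).hasFDerivAt

lemma tame_pt (hΦ : Tame Φ) (a : E d) : Tame (pt U Φ a) :=
  ((tame_const a).add (tame_clm U)).add hΦ

lemma fderiv_test (hf : ContDiff ℝ 2 f) (hΦ : Tame Φ) (a : E d) (x : EuclideanSpace ℝ ι) :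
    fderiv ℝ (fun x => fderiv ℝ f (pt U Φ a x)) x =
      (fderiv ℝ (fderiv ℝ f) (pt U Φ a x)).comp (U + fderiv ℝ Φ x) :=
  (((hf.fderiv_right (by norm_num)).differentiable one_ne_zero _).hasFDerivAt.comp x
    (hasFDerivAt_pt hΦ a x)).fderiv

lemma trd_test (hf : ContDiff ℝ 2 f) (hΦ : Tame Φ) (a : E d) (x : EuclideanSpace ℝ ι)
    (A : EuclideanSpace ℝ ι →L[ℝ] E d) :
    trd (fderiv ℝ (fun x => fderiv ℝ f (pt U Φ a x)) x) A =
      trPair (fderiv ℝ (fderiv ℝ f) (pt U Φ a x)) (U + fderiv ℝ Φ x) A := by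
  simp [trd, trPair, fderiv_test hf hΦ a x]

lemma tame_test (hf : ContDiff ℝ 2 f) (h1 : ∀ x, ‖fderiv ℝ f x‖ ≤ K1)
    (h2 : ∀ x, ‖fderiv ℝ (fderiv ℝ f) x‖ ≤ K2) (hΦ : Tame Φ) (a : E d) :
    Tame (fun x => fderiv ℝ f (pt U Φ a x)) := by
  have hK1 : 0 ≤ K1 := (norm_nonneg _).trans (h1 0)
  have hK2 : 0 ≤ K2 := (norm_nonneg (fderiv ℝ (fderiv ℝ f) 0)).trans (h2 0)
  obtain ⟨-, K, n, hK, -, hΦ'⟩ := id hΦ
  refine ⟨(hf.fderiv_right (by norm_num)).comp (tame_pt hΦ a).1, K1 + K2 * (‖U‖ + K), n,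
    by positivity, fun x => (h1 _).trans ?_, fun x => ?_⟩
  · exact (le_add_of_nonneg_right (by positivity)).trans
      (le_mul_of_one_le_right (by positivity) (one_le_pw x n))
  · rw [fderiv_test hf hΦ a x]
    refine (ContinuousLinearMap.opNorm_comp_le _ _).trans ((mul_le_mul (h2 _)
      ((norm_add_le _ _).trans (add_le_add (le_mul_of_one_le_right (norm_nonneg U) (one_le_pw x n))
        (hΦ' x))) (norm_nonneg _) hK2).trans ?_)
    have := mul_nonneg hK1 (zero_le_one.trans (one_le_pw x n))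
    linarith

lemma integrable_test (hf : ContDiff ℝ 2 f) (h1 : ∀ x, ‖fderiv ℝ f x‖ ≤ K1)
    (hΦ : Tame Φ) (a : E d) {v : EuclideanSpace ℝ ι → E d} (hv : Continuous v) {K : ℝ} {n : ℕ}
    (hvb : PolyLe v K n) :
    Integrable (fun x => fderiv ℝ f (pt U Φ a x) (v x)) (gau ι) := by
  have hc := (hf.continuous_fderiv two_ne_zero).comp (tame_pt (U := U) hΦ a).continuous
  refine integrable_of_polyLe (hc.clm_apply hv).aestronglyMeasurable (K := K1 * K) (n := n)
    fun x => ((fderiv ℝ f _).le_opNorm _).trans ((mul_le_mul (h1 _) (hvb x) (norm_nonneg _)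
      ((norm_nonneg _).trans (h1 0))).trans (le_of_eq (mul_assoc _ _ _).symm))

lemma integrable_trPair (hf : ContDiff ℝ 2 f) (h2 : ∀ x, ‖fderiv ℝ (fderiv ℝ f) x‖ ≤ K2)
    (hΦ : Tame Φ) (a : E d) {A A' : EuclideanSpace ℝ ι → EuclideanSpace ℝ ι →L[ℝ] E d}
    (hA : Continuous A) (hA' : Continuous A') {α α' : ℝ} {n n' : ℕ} (hAb : PolyLe A α n)
    (hA'b : PolyLe A' α' n') :
    Integrable (fun x => trPair (fderiv ℝ (fderiv ℝ f) (pt U Φ a x)) (A x) (A' x)) (gau ι) := by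
  have hc : Continuous fun x => fderiv ℝ (fderiv ℝ f) (pt U Φ a x) :=
    ((hf.fderiv_right (m := 1) (by norm_num)).continuous_fderiv one_ne_zero).comp
      (tame_pt (U := U) hΦ a).continuous
  refine integrable_of_polyLe
    (Continuous.aestronglyMeasurable (by
      simp only [trPair]
      exact continuous_finsetSum _ fun k _ =>
        (hc.clm_apply (hA.clm_apply continuous_const)).clm_apply (hA'.clm_apply continuous_const)))
    (K := Fintype.card ι * (K2 * α * α')) (n := n + n') fun x => ?_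
  refine (Real.norm_eq_abs _).trans_le ((norm_trPair_le (h2 _) (hAb x) (hA'b x)).trans
    (le_of_eq ?_))
  ring

end master

end Vale.Agent.P347
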