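import Vale.Agent.P347.Quad
import Vale.Agent.P347Zero.Pilot

/-!
P347 (exponent zero): the Stein engine, semantic level. For `X = a + U w + Gv w + Φ w` the mean of
the Stein operator of the tilt is computed exactly; with `Φ1 = inv1N F`, the field `F` built from a
Hessian-to-gradient map `Ψ` and the truncated series in the derivative of `Φ` along the block of `J`,
only the Picard differences `Φ1 - Φ`, `DΦ1 - DΦ`, a high power and the mismatch `PN - N` remain.
-/

open MeasureTheory ProbabilityTheory Real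
open scoped RealInnerProductSpace

namespace Vale.Agent.P347

variable {ι : Type*} [Fintype ι] {d : ℕ}

/-- The Stein operator of the law proportional to `exp (-|x - a - m|² / 2 - R x)`, with `c = ∇ R`. -/
noncomputable def genOp (f : E d → ℝ) (a m : E d) (c : E d → E d) (x : E d) : ℝ :=
  (∑ i, fderiv ℝ (fderiv ℝ f) x (EuclideanSpace.basisFun (Fin d) ℝ i)
    (EuclideanSpace.basisFun (Fin d) ℝ i)) - fderiv ℝ f x (x - a - m + c x)

/-- The contraction of a bilinear form with a matrix. -/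
noncomputable def hdot (B : E d →L[ℝ] E d →L[ℝ] ℝ) (M : E d →L[ℝ] E d) : ℝ :=
  ∑ i, B (EuclideanSpace.basisFun (Fin d) ℝ i) (M (EuclideanSpace.basisFun (Fin d) ℝ i))

/-- The squared Hilbert–Schmidt norm. -/
noncomputable def hsq (A : EuclideanSpace ℝ ι →L[ℝ] E d) : ℝ :=
  ∑ k, ‖A (EuclideanSpace.basisFun ι ℝ k)‖ ^ 2

lemma hsq_nonneg (A : EuclideanSpace ℝ ι →L[ℝ] E d) : 0 ≤ hsq A :=
  Finset.sum_nonneg fun _ _ => sq_nonneg _

lemma hsq_le (A : EuclideanSpace ℝ ι →L[ℝ] E d) : hsq A ≤ d * ‖A‖ ^ 2 := by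
  set b := EuclideanSpace.basisFun ι ℝ with hb
  set e := EuclideanSpace.basisFun (Fin d) ℝ with he
  calc hsq A = ∑ k, ∑ i, ⟪e i, A (b k)⟫ ^ 2 := Finset.sum_congr rfl fun k _ =>
        (e.sum_sq_inner_right (A (b k))).symm
    _ = ∑ i, ‖A.adjoint (e i)‖ ^ 2 := by
        rw [Finset.sum_comm]
        refine Finset.sum_congr rfl fun i _ => ?_
        rw [← b.sum_sq_inner_left]
        simp [ContinuousLinearMap.adjoint_inner_left]
    _ ≤ ∑ _i : Fin d, ‖A‖ ^ 2 := Finset.sum_le_sum fun i _ => by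
        refine pow_le_pow_left₀ (norm_nonneg _) ((A.adjoint.le_opNorm _).trans ?_) 2
        rw [LinearIsometryEquiv.norm_map, e.norm_eq_one, mul_one]
    _ = _ := by simp

lemma abs_hdot_le (B : E d →L[ℝ] E d →L[ℝ] ℝ) (M : E d →L[ℝ] E d) {K : ℝ} (hB : ‖B‖ ≤ K) :
    |hdot B M| ≤ K * ∑ i, ‖M (EuclideanSpace.basisFun (Fin d) ℝ i)‖ := by
  rw [Finset.mul_sum]
  refine (Finset.abs_sum_le_sum_abs _ _).trans (Finset.sum_le_sum fun i _ => ?_)
  refine (Real.norm_eq_abs _).symm.trans_le ((B.le_opNorm₂ _ _).trans ?_)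
  rw [OrthonormalBasis.norm_eq_one, mul_one]
  gcongr

lemma abs_trPair_le (B : E d →L[ℝ] E d →L[ℝ] ℝ) (A A' : EuclideanSpace ℝ ι →L[ℝ] E d) {K : ℝ}
    (hB : ‖B‖ ≤ K) : |trPair B A A'| ≤ K * (√(hsq A) * √(hsq A')) := by
  have hK : 0 ≤ K := (norm_nonneg B).trans hB
  refine (Finset.abs_sum_le_sum_abs _ _).trans ((Finset.sum_le_sum fun k _ => ?_).trans
    (le_of_eq_of_le (Finset.mul_sum _ _ _).symm
      (mul_le_mul_of_nonneg_left (Real.sum_mul_le_sqrt_mul_sqrt Finset.univ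
        (fun k => ‖A (EuclideanSpace.basisFun ι ℝ k)‖)
        (fun k => ‖A' (EuclideanSpace.basisFun ι ℝ k)‖)) hK)))
  refine (Real.norm_eq_abs _).symm.trans_le ((B.le_opNorm₂ _ _).trans ?_)
  rw [mul_assoc]
  exact mul_le_mul_of_nonneg_right hB (by positivity)

variable {f : E d → ℝ} {U : EuclideanSpace ℝ ι →L[ℝ] E d} {Gv Φ : EuclideanSpace ℝ ι → E d}
  {K1 K2 : ℝ}

section poly

variable {X F G H : Type*} [NormedAddCommGroup X] [NormedSpace ℝ X] [NormedAddCommGroup F]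
  [NormedSpace ℝ F] [NormedAddCommGroup G] [NormedSpace ℝ G] [NormedAddCommGroup H]
  [NormedSpace ℝ H]

lemma PolyLe.neg {A : X → F} {K : ℝ} {n : ℕ} (hA : PolyLe A K n) : PolyLe (fun x => -A x) K n :=
  fun x => by rw [norm_neg]; exact hA x

lemma PolyLe.comp_clm {A : X → G →L[ℝ] H} {B : X → F →L[ℝ] G} {K K' : ℝ} {n n' : ℕ}
    (hA : PolyLe A K n) (hB : PolyLe B K' n') (h0 : 0 ≤ K) :
    PolyLe (fun x => (A x).comp (B x)) (K * K') (n + n') := fun x => by
  refine ((A x).opNorm_comp_le _).trans ?_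
  rw [pow_add]
  exact (mul_le_mul (hA x) (hB x) (norm_nonneg _) (by positivity)).trans (le_of_eq (by ring))

lemma exists_polyLe_pow {A : X → F →L[ℝ] F} {K : ℝ} {n : ℕ} (hA : PolyLe A K n) (h0 : 0 ≤ K)
    (q : ℕ) : ∃ (K' : ℝ) (n' : ℕ), 0 ≤ K' ∧ PolyLe (fun x => A x ^ q) K' n' := by
  induction q with
  | zero =>
    refine ⟨1, 0, zero_le_one, PolyLe.of_bound fun x => ?_⟩
    rw [pow_zero]
    exact ContinuousLinearMap.norm_id_le
  | succ q ih =>
    obtain ⟨K', n', hK', h⟩ := ih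
    refine ⟨K' * K, n' + n, by positivity, fun x => ?_⟩
    change ‖A x ^ (q + 1)‖ ≤ _
    rw [pow_succ]
    exact h.comp_clm hA hK' x

end poly

lemma polyLe_covD {S : EuclideanSpace ℝ ι → E d} (hS : Tame S) :
    Continuous (covD S) ∧ ∃ (K : ℝ) (n : ℕ), 0 ≤ K ∧ PolyLe (covD S) K n := by
  obtain ⟨-, hB⟩ := tame_ou hS
  obtain ⟨-, L, m, hL, -, hS'b⟩ := hS
  have hM : 0 ≤ pwMom ι m := integral_nonneg fun w => by positivity
  refine ⟨intervalIntegral.continuous_parametric_intervalIntegral_of_continuous' (μ := volume)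
    (f := fun x ρ => ou ρ (fderiv ℝ S) x) (hB.comp continuous_swap) 0 1,
    L * (2 * (1 + (1 : ℝ))) ^ m * pwMom ι m, m, by positivity, fun x => ?_⟩
  refine (intervalIntegral.norm_integral_le_of_norm_le_const fun ρ hρ => ?_).trans
    (le_of_eq (by norm_num : L * (2 * (1 + (1 : ℝ))) ^ m * pwMom ι m * (1 + ‖x‖) ^ m *
      |(1 : ℝ) - 0| = L * (2 * (1 + (1 : ℝ))) ^ m * pwMom ι m * (1 + ‖x‖) ^ m))
  rw [Set.uIoc_of_le zero_le_one] at hρ
  exact norm_ou_poly hL hS'b (by rw [abs_of_pos hρ.1]; exact hρ.2) x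

/-- `covD` vanishes in the directions in which the field does not move. -/
lemma covD_apply_eq_zero {S : EuclideanSpace ℝ ι → E d} (hS : Tame S) {v : EuclideanSpace ℝ ι}
    (hv : ∀ x, fderiv ℝ S x v = 0) (x : EuclideanSpace ℝ ι) : covD S x v = 0 := by
  obtain ⟨-, hB⟩ := tame_ou hS
  obtain ⟨-, L, m, hL, -, hS'b⟩ := id hS
  have h0 : ∀ ρ, ou ρ (fderiv ℝ S) x v = 0 := fun ρ => by
    simp only [ou]
    rw [ContinuousLinearMap.integral_apply (integrable_slice2 hS.continuous_fderiv hL hS'b _ _ x)]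
    simp [hv]
  have hi : IntervalIntegrable (fun ρ => ou ρ (fderiv ℝ S) x) volume 0 1 :=
    (hB.comp (Continuous.prodMk_left x)).intervalIntegrable _ _
  exact ((ContinuousLinearMap.apply ℝ (E d) v).intervalIntegral_comp_comm hi).symm.trans
    (by simp [h0])

lemma continuous_hess (hf : ContDiff ℝ 2 f) (hΦ : Tame Φ) (a : E d) :
    Continuous fun w => fderiv ℝ (fderiv ℝ f) (pt U Φ a w) :=
  ((hf.fderiv_right (m := 1) (by norm_num)).continuous_fderiv one_ne_zero).comp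
    (tame_pt (U := U) hΦ a).continuous

lemma integrable_hdot (hf : ContDiff ℝ 2 f) (h2 : ∀ x, ‖fderiv ℝ (fderiv ℝ f) x‖ ≤ K2)
    (hΦ : Tame Φ) (a : E d) {M : EuclideanSpace ℝ ι → E d →L[ℝ] E d} (hM : Continuous M) {K : ℝ}
    {n : ℕ} (hMb : PolyLe M K n) :
    Integrable (fun w => hdot (fderiv ℝ (fderiv ℝ f) (pt U Φ a w)) (M w)) (gau ι) := by
  refine integrable_finsetSum _ fun i _ => integrable_of_polyLe
    (((continuous_hess hf hΦ a).clm_apply continuous_const).clm_apply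
      (hM.clm_apply continuous_const)).aestronglyMeasurable (K := K2 * K) (n := n) fun w => ?_
  refine ((fderiv ℝ (fderiv ℝ f) (pt U Φ a w)).le_opNorm₂ _ _).trans ?_
  rw [OrthonormalBasis.norm_eq_one, mul_one, mul_assoc]
  refine mul_le_mul (h2 _) (((M w).le_opNorm _).trans ?_) (norm_nonneg _)
    ((norm_nonneg (fderiv ℝ (fderiv ℝ f) 0)).trans (h2 0))
  rw [OrthonormalBasis.norm_eq_one, mul_one]
  exact hMb w

/-- The master identity: the Stein operator at `a + U w + Gv w + Φ w`, for `Gv` constant in the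
directions of `U†`. -/
theorem engine_master (hf : ContDiff ℝ 2 f) (h1 : ∀ x, ‖fderiv ℝ f x‖ ≤ K1)
    (h2 : ∀ x, ‖fderiv ℝ (fderiv ℝ f) x‖ ≤ K2) (hU : ∀ v, U (U.adjoint v) = v)
    (hGv : Tame Gv) (hΦ : Tame Φ) (hGU : ∀ w v, fderiv ℝ Gv w (U.adjoint v) = 0) (a : E d)
    {c : E d → E d} (hc : Continuous c) {Kc : ℝ} (hcb : ∀ x, ‖c x‖ ≤ Kc * (1 + ‖x‖)) :
    ∫ w, genOp f a (∫ w, Gv w ∂gau ι) c (pt U (fun w => Gv w + Φ w) a w) ∂gau ι =
      (-∫ w, fderiv ℝ f (pt U (fun w => Gv w + Φ w) a w)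
          (Φ w + c (pt U (fun w => Gv w + Φ w) a w)) ∂gau ι) -
        (∫ w, trPair (fderiv ℝ (fderiv ℝ f) (pt U (fun w => Gv w + Φ w) a w))
          (U + fderiv ℝ (fun w => Gv w + Φ w) w) (fderiv ℝ Φ w) ∂gau ι) +
        ∫ w, trPair (fderiv ℝ (fderiv ℝ f) (pt U (fun w => Gv w + Φ w) a w))
          (fderiv ℝ Gv w + fderiv ℝ Φ w) (fderiv ℝ Φ w - covD Gv w) ∂gau ι := by
  set m := ∫ w, Gv w ∂gau ι with hm
  set H : EuclideanSpace ℝ ι → E d := fun w => Gv w + Φ w with hHdef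
  have hH : Tame H := hGv.add hΦ
  have hHd : ∀ w, fderiv ℝ H w = fderiv ℝ Gv w + fderiv ℝ Φ w := fun w =>
    fderiv_fun_add (hGv.differentiable w) (hΦ.differentiable w)
  set X := pt U H a with hX
  set T : EuclideanSpace ℝ ι → E d →L[ℝ] ℝ := fun w => fderiv ℝ f (X w) with hT
  set B : EuclideanSpace ℝ ι → E d →L[ℝ] E d →L[ℝ] ℝ := fun w => fderiv ℝ (fderiv ℝ f) (X w)
    with hB
  have hTd : Tame T := tame_test hf h1 h2 hH a
  obtain ⟨hCc, KC, nC, hKC, hCb⟩ := polyLe_covD hGv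
  have hCU : ∀ w v, covD Gv w (U.adjoint v) = 0 := fun w v =>
    covD_apply_eq_zero hGv (fun x => hGU x v) w
  obtain ⟨-, KG, nG, hKG, hGb, hG'b⟩ := id hGv
  obtain ⟨-, KP, nP, hKP, hPb, hP'b⟩ := id hΦ
  obtain ⟨-, KX, nX, hKX, hXb, -⟩ := tame_pt (U := U) hH a
  have hKc : 0 ≤ Kc := by simpa using (norm_nonneg _).trans (hcb 0)
  have hXc : Continuous X := (tame_pt hH a).continuous
  have hUc : PolyLe (fun _ : EuclideanSpace ℝ ι => U) ‖U‖ 0 := PolyLe.of_bound fun _ => le_rfl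
  have hDc : Continuous fun w => U + fderiv ℝ H w := continuous_const.add hH.continuous_fderiv
  obtain ⟨-, KH, nH, hKH, -, hH'b⟩ := id hH
  have hDb := hUc.add hH'b (norm_nonneg _) hKH
  -- the linear part and the covariance
  have e1 : ∫ w, T w (U w) ∂gau ι = ∫ w, trPair (B w) (U + fderiv ℝ H w) U ∂gau ι := by
    have := ibp_slice hTd U 0 (-1)
    simp only [zero_add, neg_neg, one_smul, one_mul] at this
    rw [this]
    exact integral_congr_ae (ae_of_all _ fun w => trd_test (U := U) hf hH a w U)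
  have e2 : (∫ w, T w (Gv w) ∂gau ι) - (∫ w, T w ∂gau ι) m =
      ∫ w, trPair (B w) (U + fderiv ℝ H w) (covD Gv w) ∂gau ι := by
    rw [stein_cov hTd hGv]
    exact integral_congr_ae (ae_of_all _ fun w => trd_test (U := U) hf hH a w _)
  obtain ⟨-, KT, nT, hKT, hTb, -⟩ := id hTd
  have iT : Integrable T (gau ι) := integrable_of_polyLe hTd.continuous.aestronglyMeasurable hTb
  have iG : Integrable (fun w => T w (Gv w)) (gau ι) :=
    integrable_test hf h1 hH a hGv.continuous hGb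
  have im : Integrable (fun w => T w m) (gau ι) := iT.apply_continuousLinearMap m
  have iU : Integrable (fun w => T w (U w)) (gau ι) :=
    integrable_test hf h1 hH a U.continuous (K := ‖U‖) (n := 1) fun w =>
      (U.le_opNorm w).trans (by rw [pow_one]; nlinarith [norm_nonneg w, norm_nonneg U])
  have hPc : PolyLe (fun w => Φ w + c (X w)) (KP + Kc * (1 + KX)) (nP + nX) := by
    refine hPb.add (K' := Kc * (1 + KX)) (n' := nX) (fun w => (hcb _).trans ?_) hKP (by positivity)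
    rw [mul_assoc]
    refine mul_le_mul_of_nonneg_left ?_ hKc
    rw [add_mul, one_mul]
    exact add_le_add (one_le_pw w nX) (hXb w)
  have iP : Integrable (fun w => T w (Φ w + c (X w))) (gau ι) :=
    integrable_test hf h1 hH a (hΦ.continuous.add (hc.comp hXc)) hPc
  have hG1 : Continuous fun w => fderiv ℝ Gv w + fderiv ℝ Φ w :=
    hGv.continuous_fderiv.add hΦ.continuous_fderiv
  have iUU := integrable_trPair (U := U) hf h2 hH a continuous_const continuous_const hUc hUc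
  have iDU := integrable_trPair (U := U) hf h2 hH a hDc continuous_const hDb hUc
  have iDC := integrable_trPair (U := U) hf h2 hH a hDc hCc hDb hCb
  have iDP : Integrable (fun w => trPair (B w) (U + fderiv ℝ H w) (fderiv ℝ Φ w)) (gau ι) :=
    integrable_trPair (U := U) hf h2 hH a hDc hΦ.continuous_fderiv hDb hP'b
  have iGP : Integrable (fun w => trPair (B w) (fderiv ℝ Gv w + fderiv ℝ Φ w)
      (fderiv ℝ Φ w - covD Gv w)) (gau ι) :=
    integrable_trPair (U := U) hf h2 hH a hG1 (hΦ.continuous_fderiv.sub hCc)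
      (hG'b.add hP'b hKG hKP) (α' := KP + KC) (n' := nP + nC) fun w => by
        simpa [sub_eq_add_neg] using hP'b.add hCb.neg hKP hKC w
  -- pointwise algebra
  have hpt : ∀ w, trPair (B w) U U - trPair (B w) (U + fderiv ℝ H w) U -
      trPair (B w) (U + fderiv ℝ H w) (covD Gv w) =
      -trPair (B w) (U + fderiv ℝ H w) (fderiv ℝ Φ w) +
        trPair (B w) (fderiv ℝ Gv w + fderiv ℝ Φ w) (fderiv ℝ Φ w - covD Gv w) := fun w => by
    have hs : IsSymmSndFDerivAt ℝ f (X w) := (hf.contDiffAt).isSymmSndFDerivAt (by simp)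
    have s1 : trPair (B w) U (fderiv ℝ Φ w) = trPair (B w) (fderiv ℝ Φ w) U :=
      Finset.sum_congr rfl fun k _ => hs.eq _ _
    have hUG : U.comp (fderiv ℝ Gv w).adjoint = 0 := by
      rw [← ContinuousLinearMap.adjoint_adjoint U, ← ContinuousLinearMap.adjoint_comp,
        show (fderiv ℝ Gv w).comp U.adjoint = 0 from ContinuousLinearMap.ext fun v => hGU w v,
        map_zero]
    have z1 : trPair (B w) (fderiv ℝ Gv w) U = 0 := by
      rw [trPair_eq]
      refine Finset.sum_eq_zero fun i _ => ?_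
      have := DFunLike.congr_fun hUG (EuclideanSpace.basisFun (Fin d) ℝ i)
      rw [ContinuousLinearMap.comp_apply] at this
      rw [this]
      simp
    have z2 : trPair (B w) U (covD Gv w) = 0 := by
      rw [trPair_eq]
      simp [hCU]
    simp only [trPair, hHd, map_add, map_sub, add_apply, sub_apply, Finset.sum_add_distrib,
      Finset.sum_sub_distrib] at s1 z1 z2 ⊢
    linarith
  have lhs : ∀ w, genOp f a m c (X w) =
      (trPair (B w) U U - T w (U w) - (T w (Gv w) - T w m)) - T w (Φ w + c (X w)) := fun w => by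
    have hz : X w - a - m + c (X w) = U w + (Gv w - m) + (Φ w + c (X w)) := by
      simp only [hX, pt, hHdef]; abel
    rw [trPair_id hU, genOp, hz, map_add, map_add, map_sub]
    simp only [hT, hB]
    ring
  have i1 : Integrable (fun w => trPair (B w) U U - T w (U w)) (gau ι) := iUU.sub iU
  have i2 : Integrable (fun w => T w (Gv w) - T w m) (gau ι) := iG.sub im
  have i3 : Integrable
      (fun w => trPair (B w) U U - T w (U w) - (T w (Gv w) - T w m)) (gau ι) := i1.sub i2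
  have i4 : Integrable (fun w => trPair (B w) U U - trPair (B w) (U + fderiv ℝ H w) U) (gau ι) :=
    iUU.sub iDU
  have hcomb : ∫ w, (trPair (B w) U U - trPair (B w) (U + fderiv ℝ H w) U -
      trPair (B w) (U + fderiv ℝ H w) (covD Gv w)) ∂gau ι =
      -(∫ w, trPair (B w) (U + fderiv ℝ H w) (fderiv ℝ Φ w) ∂gau ι) +
        ∫ w, trPair (B w) (fderiv ℝ Gv w + fderiv ℝ Φ w) (fderiv ℝ Φ w - covD Gv w) ∂gau ι := by
    simp only [hpt]
    rw [integral_add iDP.fun_neg iGP, integral_neg]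
  rw [integral_sub i4 iDC, integral_sub iUU iDU] at hcomb
  simp only [lhs]
  rw [integral_sub i3 iP, integral_sub i1 i2, integral_sub iUU iU, integral_sub iG im, e1,
    ← ContinuousLinearMap.integral_apply iT m, e2]
  linarith

/-- The truncated series applied to a matrix: `∑ i < q, M (-A) ^ i`. -/
noncomputable def series (M A : E d →L[ℝ] E d) (q : ℕ) : E d →L[ℝ] E d :=
  M * ∑ i ∈ Finset.range q, (-A) ^ i

/-- The matrix that the engine has to cancel. -/
noncomputable def target (Gv Φ : EuclideanSpace ℝ ι → E d) (w : EuclideanSpace ℝ ι) :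
    E d →L[ℝ] E d :=
  (fderiv ℝ Φ w - covD Gv w).comp (fderiv ℝ Gv w + fderiv ℝ Φ w).adjoint

/-- The derivative of `Φ` in the block of `J`, transposed, in units of `σ`. -/
noncomputable def blockD (Φ : EuclideanSpace ℝ ι → E d) (J : E d →L[ℝ] EuclideanSpace ℝ ι) (σ : ℝ)
    (w : EuclideanSpace ℝ ι) : E d →L[ℝ] E d :=
  σ⁻¹ • ((fderiv ℝ Φ w).comp J).adjoint

lemma hdot_add (B : E d →L[ℝ] E d →L[ℝ] ℝ) (M M' : E d →L[ℝ] E d) :
    hdot B (M + M') = hdot B M + hdot B M' := by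
  simp [hdot, Finset.sum_add_distrib]

lemma hdot_sub (B : E d →L[ℝ] E d →L[ℝ] ℝ) (M M' : E d →L[ℝ] E d) :
    hdot B (M - M') = hdot B M - hdot B M' := by
  simp [hdot, Finset.sum_sub_distrib]

lemma hdot_smul (B : E d →L[ℝ] E d →L[ℝ] ℝ) (r : ℝ) (M : E d →L[ℝ] E d) :
    hdot B (r • M) = r * hdot B M := by
  simp [hdot, Finset.mul_sum]

/-- The Stein residual when `Φ1 = inv1N F` with `F = -c(X) + σ⁻¹ Ψ`, for any `Ψ` that turns the
Hessian term of `PN` into a gradient term. -/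
theorem engine_residual_eq (hf : ContDiff ℝ 2 f) (h1 : ∀ x, ‖fderiv ℝ f x‖ ≤ K1)
    (h2 : ∀ x, ‖fderiv ℝ (fderiv ℝ f) x‖ ≤ K2) (hU : ∀ v, U (U.adjoint v) = v)
    (hGv : Tame Gv) (hΦ : Tame Φ) (hGU : ∀ w v, fderiv ℝ Gv w (U.adjoint v) = 0) (a : E d)
    {c : E d → E d} (hc : Continuous c) {Kc : ℝ} (hcb : ∀ x, ‖c x‖ ≤ Kc * (1 + ‖x‖))
    {σ : ℝ} (hσ : σ ≠ 0) {J : E d →L[ℝ] EuclideanSpace ℝ ι} {Ψ F : EuclideanSpace ℝ ι → E d}
    (hF : Tame F) (hFdef : ∀ w, F w = -c (pt U (fun w => Gv w + Φ w) a w) + σ⁻¹ • Ψ w)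
    {PN : EuclideanSpace ℝ ι → E d →L[ℝ] E d} (hPNc : Continuous PN) {KN : ℝ} {nN : ℕ}
    (hKN : 0 ≤ KN) (hPNb : PolyLe PN KN nN) (q : ℕ)
    (hψ : ∫ w, fderiv ℝ f (pt U (fun w => Gv w + Φ w) a w) (Ψ w) ∂gau ι =
      ∫ w, ∑ i, fderiv ℝ (fderiv ℝ f) (pt U (fun w => Gv w + Φ w) a w)
        (σ • EuclideanSpace.basisFun (Fin d) ℝ i +
          fderiv ℝ Φ w (J (EuclideanSpace.basisFun (Fin d) ℝ i)))
        (PN w (EuclideanSpace.basisFun (Fin d) ℝ i)) ∂gau ι) :
    ∫ w, genOp f a (∫ w, Gv w ∂gau ι) c (pt U (fun w => Gv w + Φ w) a w) ∂gau ι =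
      (∫ w, fderiv ℝ f (pt U (fun w => Gv w + Φ w) a w) (inv1N F w - Φ w) ∂gau ι) +
        (∫ w, trPair (fderiv ℝ (fderiv ℝ f) (pt U (fun w => Gv w + Φ w) a w))
          (U + fderiv ℝ (fun w => Gv w + Φ w) w) (invD F w - fderiv ℝ Φ w) ∂gau ι) +
        (∫ w, hdot (fderiv ℝ (fderiv ℝ f) (pt U (fun w => Gv w + Φ w) a w))
          (target Gv Φ w * (-blockD Φ J σ w) ^ q) ∂gau ι) -
        ∫ w, hdot (fderiv ℝ (fderiv ℝ f) (pt U (fun w => Gv w + Φ w) a w))
          ((PN w - series (target Gv Φ w) (blockD Φ J σ w) q) * (1 + blockD Φ J σ w)) ∂gau ι := by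
  rw [engine_master hf h1 h2 hU hGv hΦ hGU a hc hcb]
  set H : EuclideanSpace ℝ ι → E d := fun w => Gv w + Φ w with hHdef
  have hH : Tame H := hGv.add hΦ
  set X := pt U H a with hX
  set T : EuclideanSpace ℝ ι → E d →L[ℝ] ℝ := fun w => fderiv ℝ f (X w) with hT
  set B : EuclideanSpace ℝ ι → E d →L[ℝ] E d →L[ℝ] ℝ := fun w => fderiv ℝ (fderiv ℝ f) (X w)
    with hB
  set A := blockD Φ J σ with hA
  set M0 := target Gv Φ with hM0
  -- polynomial bounds
  obtain ⟨hCc, KC, nC, hKC, hCb⟩ := polyLe_covD hGv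
  obtain ⟨-, KG, nG, hKG, hGb, hG'b⟩ := id hGv
  obtain ⟨-, KP, nP, hKP, hPb, hP'b⟩ := id hΦ
  obtain ⟨-, KF, nF, hKF, hFb, -⟩ := id hF
  obtain ⟨-, KI, nI, hKI, hIb, hI'b⟩ := tame_inv1N hF
  obtain ⟨-, KH, nH, hKH, -, hH'b⟩ := id hH
  obtain ⟨-, KX, nX, hKX, hXb, -⟩ := tame_pt (U := U) hH a
  have hI'b' : PolyLe (invD F) KI nI := fun w => by
    rw [← fderiv_inv1N hF]; exact hI'b w
  have hsub : PolyLe (fun w => fderiv ℝ Φ w - covD Gv w) (KP + KC) (nP + nC) := fun w => by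
    simpa [sub_eq_add_neg] using hP'b.add hCb.neg hKP hKC w
  have hadjb : PolyLe (fun w => (fderiv ℝ Gv w + fderiv ℝ Φ w).adjoint) (KG + KP) (nG + nP) :=
    fun w => by
      rw [LinearIsometryEquiv.norm_map]
      exact hG'b.add hP'b hKG hKP w
  have hM0b : PolyLe M0 _ _ := hsub.comp_clm hadjb (by positivity)
  have hadjc : Continuous fun L : EuclideanSpace ℝ ι →L[ℝ] E d => L.adjoint :=
    (ContinuousLinearMap.adjoint (𝕜 := ℝ) (E := EuclideanSpace ℝ ι) (F := E d)).continuous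
  have hM0c : Continuous M0 := (hΦ.continuous_fderiv.sub hCc).clm_comp
    (hadjc.comp (hGv.continuous_fderiv.add hΦ.continuous_fderiv))
  have hAc : Continuous A :=
    ((ContinuousLinearMap.adjoint (𝕜 := ℝ) (E := E d) (F := E d)).continuous.comp
      (hΦ.continuous_fderiv.clm_comp continuous_const)).const_smul σ⁻¹
  have hAb : PolyLe A (|σ⁻¹| * (KP * ‖J‖)) nP := fun w => by
    rw [hA, blockD, norm_smul, Real.norm_eq_abs, LinearIsometryEquiv.norm_map, mul_assoc]
    refine mul_le_mul_of_nonneg_left (((fderiv ℝ Φ w).opNorm_comp_le J).trans ?_) (abs_nonneg _)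
    exact (mul_le_mul_of_nonneg_right (hP'b w) (norm_nonneg _)).trans (le_of_eq (by ring))
  obtain ⟨Kq, nq, hKq, hqb⟩ := exists_polyLe_pow hAb.neg (by positivity) q
  have h1A : PolyLe (fun w => 1 + A w) (1 + |σ⁻¹| * (KP * ‖J‖)) (0 + nP) :=
    (PolyLe.of_bound (f := fun _ : EuclideanSpace ℝ ι => (1 : E d →L[ℝ] E d)) (K := 1)
      fun _ => ContinuousLinearMap.norm_id_le).add hAb zero_le_one (by positivity)
  have h1Ac : Continuous fun w => 1 + A w := continuous_const.add hAc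
  have iM0 := integrable_hdot (U := U) hf h2 hH a hM0c hM0b
  have iMq : Integrable (fun w => hdot (B w) (M0 w * (-A w) ^ q)) (gau ι) :=
    integrable_hdot (U := U) hf h2 hH a (M := fun w => M0 w * (-A w) ^ q)
      (hM0c.mul (hAc.neg.pow q)) (hM0b.comp_clm hqb (by positivity))
  have iPA : Integrable (fun w => hdot (B w) (PN w * (1 + A w))) (gau ι) :=
    integrable_hdot (U := U) hf h2 hH a (M := fun w => PN w * (1 + A w)) (hPNc.mul h1Ac)
      (hPNb.comp_clm h1A hKN)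
  -- the series
  have hser : ∀ w, (PN w - series (M0 w) (A w) q) * (1 + A w) =
      PN w * (1 + A w) - M0 w + M0 w * (-A w) ^ q := fun w => by
    have h : (∑ i ∈ Finset.range q, (-A w) ^ i) * (1 + A w) = 1 - (-A w) ^ q := by
      have := geom_sum_mul_neg (-A w) q
      rwa [sub_neg_eq_add] at this
    rw [series, sub_mul, mul_assoc, h, mul_sub, mul_one]
    abel
  -- the gradient terms
  have hcX : ∀ w, c (X w) = σ⁻¹ • Ψ w - F w := fun w => by rw [hFdef]; abel
  have hKc : 0 ≤ Kc := by simpa using (norm_nonneg _).trans (hcb 0)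
  have hXc : Continuous X := (tame_pt hH a).continuous
  have hcXb : PolyLe (fun w => c (X w)) (Kc * (1 + KX)) nX := fun w => by
    refine (hcb _).trans ?_
    rw [mul_assoc]
    refine mul_le_mul_of_nonneg_left ?_ hKc
    rw [add_mul, one_mul]
    exact add_le_add (one_le_pw w nX) (hXb w)
  have iFc : Integrable (fun w => T w (F w + c (X w))) (gau ι) :=
    integrable_test hf h1 hH a (hF.continuous.add (hc.comp hXc))
      (hFb.add hcXb hKF (by positivity))
  have iF : Integrable (fun w => T w (F w)) (gau ι) := integrable_test hf h1 hH a hF.continuous hFb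
  have iI : Integrable (fun w => T w (inv1N F w)) (gau ι) :=
    integrable_test hf h1 hH a (tame_inv1N hF).continuous hIb
  have iP : Integrable (fun w => T w (Φ w)) (gau ι) := integrable_test hf h1 hH a hΦ.continuous hPb
  have iC : Integrable (fun w => T w (c (X w))) (gau ι) :=
    integrable_test hf h1 hH a (hc.comp hXc) hcXb
  have hUc : PolyLe (fun _ : EuclideanSpace ℝ ι => U) ‖U‖ 0 := PolyLe.of_bound fun _ => le_rfl
  have hDc : Continuous fun w => U + fderiv ℝ H w := continuous_const.add hH.continuous_fderiv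
  have hDb := hUc.add hH'b (norm_nonneg _) hKH
  have iDI : Integrable (fun w => trPair (B w) (U + fderiv ℝ H w) (invD F w)) (gau ι) :=
    integrable_trPair (U := U) hf h2 hH a hDc (continuous_invD hF) hDb hI'b'
  have iDP : Integrable (fun w => trPair (B w) (U + fderiv ℝ H w) (fderiv ℝ Φ w)) (gau ι) :=
    integrable_trPair (U := U) hf h2 hH a hDc hΦ.continuous_fderiv hDb hP'b
  -- inversion of `1 + N`
  have e1 : ∫ w, T w (F w) ∂gau ι = (∫ w, T w (inv1N F w) ∂gau ι) +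
      ∫ w, trPair (B w) (U + fderiv ℝ H w) (invD F w) ∂gau ι := by
    rw [stein_inv (tame_test hf h1 h2 hH a) hF]
    congr 1
    exact integral_congr_ae (ae_of_all _ fun w => trd_test (U := U) hf hH a w _)
  -- the Hessian term of `PN`
  have e2 : ∫ w, T w (F w + c (X w)) ∂gau ι = ∫ w, hdot (B w) (PN w * (1 + A w)) ∂gau ι := by
    have hl : ∀ w, T w (F w + c (X w)) = σ⁻¹ * T w (Ψ w) := fun w => by
      rw [hcX, add_sub_cancel, map_smul, smul_eq_mul]
    simp only [hl]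
    rw [integral_const_mul, hψ, ← integral_const_mul]
    refine integral_congr_ae (ae_of_all _ fun w => ?_)
    have e3 : ∑ i, fderiv ℝ (fderiv ℝ f) (X w)
        (fderiv ℝ Φ w (J (EuclideanSpace.basisFun (Fin d) ℝ i)))
        (PN w (EuclideanSpace.basisFun (Fin d) ℝ i)) =
        σ * hdot (B w) (PN w * A w) := by
      rw [← hdot_smul]
      have := trPair_eq (B w) ((fderiv ℝ Φ w).comp J) (PN w)
      simp only [trPair, ContinuousLinearMap.comp_apply] at this
      rw [this, hdot]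
      refine Finset.sum_congr rfl fun i _ => ?_
      simp [hA, blockD, smul_smul, mul_inv_cancel₀ hσ]
    simp only [map_add, add_apply, Finset.sum_add_distrib, e3, map_smul, smul_apply, smul_eq_mul,
      ← Finset.mul_sum, mul_add, mul_one, hdot_add]
    rw [← mul_assoc, ← mul_assoc, inv_mul_cancel₀ hσ, one_mul, one_mul]
    rfl
  have hsplit : ∀ w, trPair (B w) (U + fderiv ℝ H w) (invD F w - fderiv ℝ Φ w) =
      trPair (B w) (U + fderiv ℝ H w) (invD F w) -
        trPair (B w) (U + fderiv ℝ H w) (fderiv ℝ Φ w) := fun w => by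
    rw [trPair, trPair, trPair, ← Finset.sum_sub_distrib]
    refine Finset.sum_congr rfl fun k _ => ?_
    rw [sub_apply, map_sub]
  have hM0' : ∀ w, trPair (B w) (fderiv ℝ Gv w + fderiv ℝ Φ w) (fderiv ℝ Φ w - covD Gv w) =
      hdot (B w) (M0 w) := fun w => by
    rw [trPair_eq]
    rfl
  have iM1 : Integrable (fun w => hdot (B w) (PN w * (1 + A w)) - hdot (B w) (M0 w)) (gau ι) :=
    iPA.sub iM0
  simp only [hB, hT] at hM0' hsplit e1 iM1 iMq iDI iDP iPA iM0 iF iC iI iP e2 ⊢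
  simp only [hM0', hsplit, hser, hdot_add, hdot_sub, map_sub, map_add]
  simp only [map_add] at e2
  rw [integral_add iF iC] at e2
  rw [integral_add iP iC, integral_sub iI iP, integral_sub iDI iDP, integral_add iM1 iMq,
    integral_sub iPA iM0]
  linarith

/-- The residual bound of the engine. -/
theorem engine_residual (hf : ContDiff ℝ 2 f) (h1 : ∀ x, ‖fderiv ℝ f x‖ ≤ K1)
    (h2 : ∀ x, ‖fderiv ℝ (fderiv ℝ f) x‖ ≤ K2) (hU : ∀ v, U (U.adjoint v) = v)
    (hGv : Tame Gv) (hΦ : Tame Φ) (hGU : ∀ w v, fderiv ℝ Gv w (U.adjoint v) = 0) (a : E d)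
    {c : E d → E d} (hc : Continuous c) {Kc : ℝ} (hcb : ∀ x, ‖c x‖ ≤ Kc * (1 + ‖x‖))
    {σ : ℝ} (hσ : σ ≠ 0) {J : E d →L[ℝ] EuclideanSpace ℝ ι} {Ψ F : EuclideanSpace ℝ ι → E d}
    (hF : Tame F) (hFdef : ∀ w, F w = -c (pt U (fun w => Gv w + Φ w) a w) + σ⁻¹ • Ψ w)
    {PN : EuclideanSpace ℝ ι → E d →L[ℝ] E d} (hPNc : Continuous PN) {KN : ℝ} {nN : ℕ}
    (hKN : 0 ≤ KN) (hPNb : PolyLe PN KN nN) (q : ℕ)
    (hψ : ∫ w, fderiv ℝ f (pt U (fun w => Gv w + Φ w) a w) (Ψ w) ∂gau ι =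
      ∫ w, ∑ i, fderiv ℝ (fderiv ℝ f) (pt U (fun w => Gv w + Φ w) a w)
        (σ • EuclideanSpace.basisFun (Fin d) ℝ i +
          fderiv ℝ Φ w (J (EuclideanSpace.basisFun (Fin d) ℝ i)))
        (PN w (EuclideanSpace.basisFun (Fin d) ℝ i)) ∂gau ι)
    {C : ℝ} (hX : ∀ w, ‖U + fderiv ℝ (fun w => Gv w + Φ w) w‖ ≤ C) :
    |∫ w, genOp f a (∫ w, Gv w ∂gau ι) c (pt U (fun w => Gv w + Φ w) a w) ∂gau ι| ≤
      K1 * √(∫ w, ‖inv1N F w - Φ w‖ ^ 2 ∂gau ι) +
        K2 * (√(d : ℝ) * C) * √(∫ w, hsq (invD F w - fderiv ℝ Φ w) ∂gau ι) +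
        K2 * (∫ w, ∑ i, ‖(target Gv Φ w * (-blockD Φ J σ w) ^ q)
          (EuclideanSpace.basisFun (Fin d) ℝ i)‖ ∂gau ι) +
        K2 * ∫ w, ∑ i, ‖((PN w - series (target Gv Φ w) (blockD Φ J σ w) q) *
          (1 + blockD Φ J σ w)) (EuclideanSpace.basisFun (Fin d) ℝ i)‖ ∂gau ι := by
  rw [engine_residual_eq hf h1 h2 hU hGv hΦ hGU a hc hcb hσ hF hFdef hPNc hKN hPNb q hψ]
  have hK1 : 0 ≤ K1 := (norm_nonneg _).trans (h1 0)
  have hK2 : 0 ≤ K2 := (norm_nonneg (fderiv ℝ (fderiv ℝ f) 0)).trans (h2 0)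
  have hC : 0 ≤ C := (norm_nonneg _).trans (hX 0)
  obtain ⟨hCc, KC, nC, hKC, hCb⟩ := polyLe_covD hGv
  obtain ⟨-, KG, nG, hKG, -, hG'b⟩ := id hGv
  obtain ⟨-, KP, nP, hKP, hPb, hP'b⟩ := id hΦ
  obtain ⟨-, KI, nI, hKI, hIb, hI'b⟩ := tame_inv1N hF
  set A := blockD Φ J σ with hA
  set M0 := target Gv Φ with hM0
  have hsub : PolyLe (fun w => fderiv ℝ Φ w - covD Gv w) (KP + KC) (nP + nC) := fun w => by
    simpa [sub_eq_add_neg] using hP'b.add hCb.neg hKP hKC w
  have hadjb : PolyLe (fun w => (fderiv ℝ Gv w + fderiv ℝ Φ w).adjoint) (KG + KP) (nG + nP) :=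
    fun w => by
      rw [LinearIsometryEquiv.norm_map]
      exact hG'b.add hP'b hKG hKP w
  have hM0b : PolyLe M0 ((KP + KC) * (KG + KP)) (nP + nC + (nG + nP)) :=
    hsub.comp_clm hadjb (by positivity)
  have hadjc : Continuous fun L : EuclideanSpace ℝ ι →L[ℝ] E d => L.adjoint :=
    (ContinuousLinearMap.adjoint (𝕜 := ℝ) (E := EuclideanSpace ℝ ι) (F := E d)).continuous
  have hM0c : Continuous M0 := (hΦ.continuous_fderiv.sub hCc).clm_comp
    (hadjc.comp (hGv.continuous_fderiv.add hΦ.continuous_fderiv))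
  have hAc : Continuous A :=
    ((ContinuousLinearMap.adjoint (𝕜 := ℝ) (E := E d) (F := E d)).continuous.comp
      (hΦ.continuous_fderiv.clm_comp continuous_const)).const_smul σ⁻¹
  have hAb : PolyLe A (|σ⁻¹| * (KP * ‖J‖)) nP := fun w => by
    rw [hA, blockD, norm_smul, Real.norm_eq_abs, LinearIsometryEquiv.norm_map, mul_assoc]
    refine mul_le_mul_of_nonneg_left (((fderiv ℝ Φ w).opNorm_comp_le J).trans ?_) (abs_nonneg _)
    exact (mul_le_mul_of_nonneg_right (hP'b w) (norm_nonneg _)).trans (le_of_eq (by ring))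
  obtain ⟨Kq, nq, hKq, hqb⟩ := exists_polyLe_pow hAb.neg (by positivity) q
  obtain ⟨Ks, ns, hKs, hsb⟩ : ∃ (K : ℝ) (n : ℕ), 0 ≤ K ∧
      PolyLe (fun w => ∑ i ∈ Finset.range q, (-A w) ^ i) K n := by
    clear hqb
    induction q with
    | zero => exact ⟨0, 0, le_rfl, fun w => by simp⟩
    | succ p ih =>
      obtain ⟨K, n, hK, h⟩ := ih
      obtain ⟨K', n', hK', h'⟩ := exists_polyLe_pow hAb.neg (by positivity) p
      refine ⟨K + K', n + n', by positivity, fun w => ?_⟩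
      change ‖∑ i ∈ Finset.range (p + 1), (-A w) ^ i‖ ≤ _
      rw [Finset.sum_range_succ]
      exact h.add h' hK hK' w
  have h1A : PolyLe (fun w => 1 + A w) (1 + |σ⁻¹| * (KP * ‖J‖)) (0 + nP) :=
    (PolyLe.of_bound (f := fun _ : EuclideanSpace ℝ ι => (1 : E d →L[ℝ] E d)) (K := 1)
      fun _ => ContinuousLinearMap.norm_id_le).add hAb zero_le_one (by positivity)
  -- integrability of the majorants
  have hcol : ∀ (M : EuclideanSpace ℝ ι → E d →L[ℝ] E d), Continuous M → ∀ {K : ℝ} {n : ℕ},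
      PolyLe M K n →
      Integrable (fun w => ∑ i, ‖M w (EuclideanSpace.basisFun (Fin d) ℝ i)‖) (gau ι) := by
    intro M hM K n hMb
    refine integrable_finsetSum _ fun i _ => integrable_of_polyLe
      (hM.clm_apply continuous_const).norm.aestronglyMeasurable (K := K) (n := n) fun w => ?_
    rw [norm_norm]
    refine ((M w).le_opNorm _).trans ?_
    rw [OrthonormalBasis.norm_eq_one, mul_one]
    exact hMb w
  have iq := hcol (fun w => M0 w * (-A w) ^ q) (hM0c.mul (hAc.neg.pow q))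
    (hM0b.comp_clm hqb (by positivity))
  have hser : PolyLe (fun w => PN w - series (M0 w) (A w) q)
      (KN + (KP + KC) * (KG + KP) * Ks) (nN + (nP + nC + (nG + nP) + ns)) := fun w => by
    have := hPNb.add (hM0b.comp_clm hsb (by positivity)).neg hKN (by positivity) w
    simpa [sub_eq_add_neg, series, ContinuousLinearMap.mul_def] using this
  have im := hcol (fun w => (PN w - series (M0 w) (A w) q) * (1 + A w))
    ((hPNc.sub (hM0c.mul (continuous_finsetSum _ fun i _ => hAc.neg.pow i))).mul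
      (continuous_const.add hAc)) (hser.comp_clm h1A (by positivity))
  have hΔ : PolyLe (fun w => inv1N F w - Φ w) (KI + KP) (nI + nP) := fun w => by
    simpa [sub_eq_add_neg] using hIb.add hPb.neg hKI hKP w
  have hΔc : Continuous fun w => inv1N F w - Φ w :=
    (tame_inv1N hF).continuous.sub hΦ.continuous
  have hΔ' : PolyLe (fun w => invD F w - fderiv ℝ Φ w) (KI + KP) (nI + nP) := fun w => by
    rw [← fderiv_inv1N hF]
    simpa [sub_eq_add_neg] using hI'b.add hP'b.neg hKI hKP w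
  have hΔ'c : Continuous fun w => invD F w - fderiv ℝ Φ w :=
    (continuous_invD hF).sub hΦ.continuous_fderiv
  -- Cauchy-Schwarz
  have cs : ∀ (g : EuclideanSpace ℝ ι → ℝ), Continuous g → (∀ w, 0 ≤ g w) → ∀ {K : ℝ} {n : ℕ},
      PolyLe g K n → Integrable g (gau ι) ∧ ∫ w, g w ∂gau ι ≤ √(∫ w, g w ^ 2 ∂gau ι) := by
    intro g hg hg0 K n hgb
    have i1 : Integrable g (gau ι) := integrable_of_polyLe hg.aestronglyMeasurable hgb
    have i2 : Integrable (fun w => ‖g w‖ ^ 2) (gau ι) :=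
      integrable_of_polyLe (hg.norm.pow 2).aestronglyMeasurable (K := K ^ 2) (n := n * 2) fun w => by
        rw [norm_pow, norm_norm, pow_mul, ← mul_pow]
        exact pow_le_pow_left₀ (norm_nonneg _) (hgb w) 2
    refine ⟨i1, ?_⟩
    have h := Quad.norm_sq_integral_le i1 i2
    simp only [Real.norm_eq_abs, sq_abs] at h
    exact (le_abs_self _).trans (by rw [← Real.sqrt_sq_eq_abs]; exact Real.sqrt_le_sqrt h)
  have hhs : ∀ w, hsq (invD F w - fderiv ℝ Φ w) ≤ d * ((KI + KP) * (1 + ‖w‖) ^ (nI + nP)) ^ 2 :=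
    fun w => (hsq_le _).trans (by gcongr; exact hΔ' w)
  obtain ⟨ig1, cg1⟩ := cs (fun w => ‖inv1N F w - Φ w‖) hΔc.norm (fun w => norm_nonneg _)
    (K := KI + KP) (n := nI + nP) fun w => by rw [norm_norm]; exact hΔ w
  obtain ⟨ig2, cg2⟩ := cs (fun w => √(hsq (invD F w - fderiv ℝ Φ w)))
    (Real.continuous_sqrt.comp (by simp only [hsq]; fun_prop)) (fun w => Real.sqrt_nonneg _)
    (K := √(d : ℝ) * (KI + KP)) (n := nI + nP) fun w => by
    rw [Real.norm_eq_abs, abs_of_nonneg (Real.sqrt_nonneg _)]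
    refine (Real.sqrt_le_sqrt (hhs w)).trans (le_of_eq ?_)
    rw [Real.sqrt_mul (Nat.cast_nonneg d), Real.sqrt_sq (by positivity)]
    ring
  simp only [Real.sq_sqrt (hsq_nonneg _)] at cg2
  set H : EuclideanSpace ℝ ι → E d := fun w => Gv w + Φ w with hHdef
  have b1 : |∫ w, fderiv ℝ f (pt U H a w) (inv1N F w - Φ w) ∂gau ι| ≤
      K1 * √(∫ w, ‖inv1N F w - Φ w‖ ^ 2 ∂gau ι) := by
    refine (abs_integral_le_integral_abs).trans
      ((integral_mono_of_nonneg (ae_of_all _ fun w => abs_nonneg _) (ig1.const_mul K1)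
        (ae_of_all _ fun w => ?_)).trans ?_)
    · exact (Real.norm_eq_abs _).symm.trans_le
        (((fderiv ℝ f _).le_opNorm _).trans (mul_le_mul_of_nonneg_right (h1 _) (norm_nonneg _)))
    · rw [integral_const_mul]
      exact mul_le_mul_of_nonneg_left cg1 hK1
  have b2 : |∫ w, trPair (fderiv ℝ (fderiv ℝ f) (pt U H a w)) (U + fderiv ℝ H w)
      (invD F w - fderiv ℝ Φ w) ∂gau ι| ≤
      K2 * (√(d : ℝ) * C) * √(∫ w, hsq (invD F w - fderiv ℝ Φ w) ∂gau ι) := by
    refine (abs_integral_le_integral_abs).trans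
      ((integral_mono_of_nonneg (ae_of_all _ fun w => abs_nonneg _)
        (ig2.const_mul (K2 * (√(d : ℝ) * C))) (ae_of_all _ fun w => ?_)).trans ?_)
    · refine (abs_trPair_le _ _ _ (h2 _)).trans ?_
      simp only []
      rw [mul_assoc K2]
      refine mul_le_mul_of_nonneg_left (mul_le_mul_of_nonneg_right ?_ (Real.sqrt_nonneg _)) hK2
      refine (Real.sqrt_le_sqrt ((hsq_le _).trans (mul_le_mul_of_nonneg_left
        (pow_le_pow_left₀ (norm_nonneg _) (hX w) 2) (Nat.cast_nonneg d)))).trans (le_of_eq ?_)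
      rw [Real.sqrt_mul (Nat.cast_nonneg d), Real.sqrt_sq hC]
    · rw [integral_const_mul]
      exact mul_le_mul_of_nonneg_left cg2 (by positivity)
  have b34 : ∀ (M : EuclideanSpace ℝ ι → E d →L[ℝ] E d),
      Integrable (fun w => ∑ i, ‖M w (EuclideanSpace.basisFun (Fin d) ℝ i)‖) (gau ι) →
      |∫ w, hdot (fderiv ℝ (fderiv ℝ f) (pt U H a w)) (M w) ∂gau ι| ≤
        K2 * ∫ w, ∑ i, ‖M w (EuclideanSpace.basisFun (Fin d) ℝ i)‖ ∂gau ι := by
    intro M hM
    refine (abs_integral_le_integral_abs).trans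
      ((integral_mono_of_nonneg (ae_of_all _ fun w => abs_nonneg _) (hM.const_mul K2)
        (ae_of_all _ fun w => abs_hdot_le _ _ (h2 _))).trans (le_of_eq (integral_const_mul _ _)))
  have b3 := b34 _ iq
  have b4 := b34 _ im
  simp only [hA, hM0] at b3 b4
  have habs : ∀ x y z t : ℝ, |x + y + z - t| ≤ |x| + |y| + |z| + |t| := fun x y z t => by
    refine (abs_sub _ _).trans (add_le_add ?_ le_rfl)
    exact (abs_add_le _ _).trans (add_le_add (abs_add_le _ _) le_rfl)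
  exact (habs _ _ _ _).trans (add_le_add (add_le_add (add_le_add b1 b2) b3) b4)

end Vale.Agent.P347
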