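import Vale.Agent.P347Zero.Mehler
import Vale.Agent.P347Zero.Engine
import Vale.Agent.P347Zero.Tail

/-!
P347 (exponent zero, M10): the semantic residual of one Picard step for the map of a tilt. For
`X w = w + Φ w` the mean of the Stein operator of the drift `p` is bounded by the distance of `Φ` to
the next iterate, computed with a rule of nonnegative weights and a final smoothing `ρ1`, and by
mismatch terms; no regularity of the Mehler form is used.
-/

open MeasureTheory ProbabilityTheory Real Filter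
open scoped RealInnerProductSpace Topology

set_option maxSynthPendingDepth 3

namespace Vale.Agent.P347

open Quad

noncomputable section

variable {d : ℕ}

/-! ### Semigroup, pairings, quadrature of maps of polynomial growth -/

/-- The semigroup law. -/
theorem ou_ou {F : E d → E d} (hF : PG F) {a b : ℝ} (ha : a ^ 2 ≤ 1) (hb : b ^ 2 ≤ 1) (x : E d) :
    ou a (ou b F) x = ou (a * b) F x := by
  obtain ⟨hc, K, n, hK, hKb⟩ := id hF
  rcases eq_or_ne ((a * b) ^ 2) 1 with hab | hab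
  · have hb1 : b ^ 2 = 1 := le_antisymm hb (by
      rw [← hab, mul_pow]; exact mul_le_of_le_one_left (sq_nonneg b) ha)
    have ha1 : a ^ 2 = 1 := by rwa [mul_pow, hb1, mul_one] at hab
    simp [ou, ha1, hb1, hab, smul_smul, mul_comm]
  have hab' : (a * b) ^ 2 < 1 := lt_of_le_of_ne
    (by rw [mul_pow]; exact mul_le_one₀ ha (sq_nonneg b) hb) hab
  set sa := √(1 - a ^ 2) with hsa
  set sb := √(1 - b ^ 2) with hsb
  set sc := √(1 - (a * b) ^ 2) with hsc
  have hsc0 : 0 < sc := Real.sqrt_pos.2 (by linarith)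
  have ea : sa ^ 2 = 1 - a ^ 2 := Real.sq_sqrt (by linarith)
  have eb : sb ^ 2 = 1 - b ^ 2 := Real.sq_sqrt (by linarith)
  have ec : sc ^ 2 = 1 - (a * b) ^ 2 := Real.sq_sqrt (by linarith)
  set C := b * sa / sc with hC
  set S := sb / sc with hS
  have hCS : C ^ 2 + S ^ 2 = 1 := by
    rw [hC, hS, div_pow, div_pow, ← add_div, div_eq_one_iff_eq (by positivity), mul_pow, ea, eb, ec]
    ring
  set f := fun p : E d × E d => F (mix b (mix a (x, p.1), p.2)) with hf
  have hfc : Continuous f := hc.comp ((continuous_mix b).comp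
    (((continuous_mix a).comp (continuous_const.prodMk continuous_fst)).prodMk continuous_snd))
  have hfi : Integrable f ((gau (Fin d)).prod (gau (Fin d))) :=
    integrable_of_polyLe2 (K := K * (((1 + |b|) * (1 + |sb|)) ^ n *
        (((1 + |a|) * (1 + |sa|)) ^ n * (1 + ‖x‖) ^ n))) (m := n) (n := n)
      hfc.aestronglyMeasurable fun p => (ou_slice_le hK hKb b _ _ p.2).trans
        ((mul_le_mul_of_nonneg_left (mul_le_mul_of_nonneg_left (mul_le_mul_of_nonneg_right
          (pw_comb a sa x p.1 n) (by positivity)) (by positivity)) hK).trans_eq (by rw [hsb]; ring))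
  have hpt : ∀ v t, f (C • v + -S • t, S • v + C • t) = F (mix (a * b) (x, v)) := by
    intro v t
    have h1 : b * sa * C + sb * S = sc := by
      rw [hC, hS, mul_div_assoc', mul_div_assoc', ← add_div, div_eq_iff hsc0.ne']
      nlinarith [ea, eb, ec]
    have h2 : b * sa * -S + sb * C = 0 := by rw [hC, hS]; ring
    have e : mix b (mix a (x, C • v + -S • t), S • v + C • t)
        = (a * b) • x + (b * sa * C + sb * S) • v + (b * sa * -S + sb * C) • t := by
      simp only [mix, ← hsa, ← hsb]; module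
    simp only [hf, e, h1, h2, zero_smul, add_zero]
    simp only [mix, ← hsc]
  calc ou a (ou b F) x = ∫ p, f p ∂(gau (Fin d)).prod (gau (Fin d)) := by
        rw [integral_prod _ hfi, ou_eq]; rfl
    _ = ∫ v, F (mix (a * b) (x, v)) ∂gau (Fin d) := by
        have hm := gau_rotate (ι := Fin d) (show C ^ 2 + (-S) ^ 2 = 1 by linear_combination hCS)
        have hri : Integrable (fun p => f (C • p.1 + -S • p.2, S • p.1 + C • p.2))
            ((gau (Fin d)).prod (gau (Fin d))) := by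
          rw [← hm] at hfi
          simpa only [neg_neg, Function.comp_def] using hfi.comp_measurable (by fun_prop)
        rw [integral_pair_rot hCS hfc, integral_prod _ hri]
        refine integral_congr_ae (ae_of_all _ fun v => ?_)
        simp only [hpt]
        simp
    _ = _ := (ou_eq _ _ _).symm

/-- A map smoothed at a correlation below one is tame. -/
theorem tame_ou_pg {F : E d → E d} (hF : PG F) {a : ℝ} (ha : a ^ 2 < 1) : Tame (ou a F) := by
  obtain ⟨-, K, n, hK, h⟩ := pg_ou hF a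
  obtain ⟨hc', K', n', hK', h'⟩ := pg_fderiv_ou ha hF
  refine ⟨contDiff_one_iff_fderiv.2 ⟨fun x => (hasFDerivAt_ou_growth ha hF x).differentiableAt, hc'⟩,
    K + K', n + n', add_nonneg hK hK', fun x => ?_, fun x => ?_⟩
  · exact (h.mono (le_add_of_nonneg_right hK') (by omega) (add_nonneg hK hK')) x
  · exact ((show PolyLe (fderiv ℝ (ou a F)) K' n' from h').mono (le_add_of_nonneg_left hK) (by omega)
      (add_nonneg hK hK')) x

section pairings

variable {ι : Type*} [Fintype ι] {F G : Type*} [NormedAddCommGroup F] [NormedSpace ℝ F]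
  [NormedAddCommGroup G] [NormedSpace ℝ G]

/-- Cauchy-Schwarz for the quadratic means. -/
theorem integral_norm_mul_le {f : EuclideanSpace ℝ ι → F} {g : EuclideanSpace ℝ ι → G}
    (hf : PG f) (hg : PG g) : ∫ x, ‖f x‖ * ‖g x‖ ∂gau ι ≤ l2 f * l2 g := by
  refine le_of_forall_pos_le_add fun η hη => ?_
  have hf2 := hf.integrable_sq
  have hg2 := hg.integrable_sq
  have key : ∀ A B : ℝ, 0 < A → 0 < B → l2 f ≤ A → l2 g ≤ B →
      ∫ x, ‖f x‖ * ‖g x‖ ∂gau ι ≤ A * B := by
    intro A B hA hB h1 h2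
    refine (integral_mono_of_nonneg (ae_of_all _ fun x => by positivity)
      (((hf2.const_mul (B / (2 * A)))).add (hg2.const_mul (A / (2 * B)))) (ae_of_all _ fun x => ?_)).trans ?_
    · simp only [Pi.add_apply]
      refine le_of_sub_nonneg ?_
      have e : B / (2 * A) * ‖f x‖ ^ 2 + A / (2 * B) * ‖g x‖ ^ 2 - ‖f x‖ * ‖g x‖
          = (B * ‖f x‖ - A * ‖g x‖) ^ 2 / (2 * A * B) := by field_simp; ring
      rw [e]; positivity
    · simp only [Pi.add_apply]
      rw [integral_add (hf2.const_mul _) (hg2.const_mul _), integral_const_mul, integral_const_mul,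
        ← l2_sq, ← l2_sq]
      calc B / (2 * A) * l2 f ^ 2 + A / (2 * B) * l2 g ^ 2
          ≤ B / (2 * A) * A ^ 2 + A / (2 * B) * B ^ 2 := by
            gcongr
            · exact l2_nonneg f
            · exact l2_nonneg g
        _ = _ := by field_simp; ring
  set S := l2 f + l2 g + 1 with hS
  have hS0 : 0 < S := by have := l2_nonneg f; have := l2_nonneg g; positivity
  set t := min 1 (η / (2 * S)) with ht
  have ht0 : 0 < t := lt_min one_pos (by positivity)
  refine (key (l2 f + t) (l2 g + t) (by have := l2_nonneg f; linarith)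
    (by have := l2_nonneg g; linarith) (by linarith) (by linarith)).trans ?_
  have h1 : t * (l2 f + l2 g + t) ≤ η / (2 * S) * S := by
    refine mul_le_mul (min_le_right _ _) ?_ (by have := l2_nonneg f; have := l2_nonneg g; positivity)
      (by positivity)
    rw [hS]; linarith [min_le_left 1 (η / (2 * S))]
  rw [show η / (2 * S) * S = η / 2 by field_simp] at h1
  nlinarith

lemma integral_norm_le_l2 {f : EuclideanSpace ℝ ι → F} (hf : PG f) :
    ∫ x, ‖f x‖ ∂gau ι ≤ l2 f := by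
  have h := integral_norm_mul_le hf (g := fun _ => (1 : ℝ))
    ⟨continuous_const, 1, 0, zero_le_one, fun x => by simp⟩
  simpa [l2] using h

/-- An integral against a bounded weight. -/
lemma abs_integral_le_l2 {φ : EuclideanSpace ℝ ι → ℝ} {v : EuclideanSpace ℝ ι → F} {A : ℝ}
    (hA : 0 ≤ A) (hv : PG v) (h : ∀ x, |φ x| ≤ A * ‖v x‖) : |∫ x, φ x ∂gau ι| ≤ A * l2 v := by
  refine (abs_integral_le_integral_abs).trans ((integral_mono_of_nonneg
    (ae_of_all _ fun x => abs_nonneg _) (hv.integrable.norm.const_mul A) (ae_of_all _ h)).trans ?_)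
  rw [integral_const_mul]
  exact mul_le_mul_of_nonneg_left (integral_norm_le_l2 hv) hA

end pairings

/-- A Lipschitz test barely sees a smoothing. -/
theorem abs_pair_sub_ou_le {Φ0 : E d → E d →L[ℝ] ℝ} {L K1 : ℝ} (hΦc : Continuous Φ0)
    (hb : ∀ x, ‖Φ0 x‖ ≤ K1) (hL0 : 0 ≤ L) (hL : ∀ x y, ‖Φ0 x - Φ0 y‖ ≤ L * ‖x - y‖)
    {F : E d → E d} (hF : PG F) {a : ℝ} (ha : a ∈ Set.Icc (0 : ℝ) 1) :
    |(∫ x, Φ0 x (F x) ∂gau (Fin d)) - ∫ x, Φ0 x (ou a F x) ∂gau (Fin d)| ≤
      L * √(2 * (1 - a) * d) * l2 F := by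
  obtain ⟨hFc, K, n, hK, hKb⟩ := id hF
  have hK1 : 0 ≤ K1 := (norm_nonneg _).trans (hb 0)
  set s := √(1 - a ^ 2) with hs
  have hs2 : s ^ 2 = 1 - a ^ 2 := Real.sq_sqrt (sub_nonneg.2 (sq_le_one_of_mem ha))
  have hcs : a ^ 2 + s ^ 2 = 1 := by rw [hs2]; ring
  set f := fun p : E d × E d => Φ0 p.1 (F (mix a p)) with hf
  have hfc : Continuous f := (hΦc.comp continuous_fst).clm_apply (hFc.comp (continuous_mix a))
  have hfi : Integrable f ((gau (Fin d)).prod (gau (Fin d))) :=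
    integrable_of_polyLe2 (K := K1 * (K * ((1 + |a|) * (1 + |s|)) ^ n)) (m := n) (n := n)
      hfc.aestronglyMeasurable fun p => ((Φ0 p.1).le_opNorm _).trans
        ((mul_le_mul (hb _) (ou_slice_le hK hKb a _ p.1 p.2) (norm_nonneg _) hK1).trans_eq
          (by rw [hs]; ring))
  have hm := gau_rotate (ι := Fin d) (show a ^ 2 + (-s) ^ 2 = 1 by linear_combination hcs)
  have hri : Integrable (fun p => f (a • p.1 + -s • p.2, s • p.1 + a • p.2))
      ((gau (Fin d)).prod (gau (Fin d))) := by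
    rw [← hm] at hfi
    simpa only [neg_neg, Function.comp_def] using hfi.comp_measurable (by fun_prop)
  have hpt : ∀ x w, f (a • x + -s • w, s • x + a • w) = Φ0 (a • x + -s • w) (F x) := fun x w => by
    have e : mix a (a • x + -s • w, s • x + a • w) = (a ^ 2 + s ^ 2) • x := by
      simp only [mix, ← hs]; module
    simp only [hf, e, hcs, one_smul]
  have hi1 : Integrable (fun x => Φ0 x (F x)) (gau (Fin d)) :=
    integrable_of_polyLe (hΦc.clm_apply hFc).aestronglyMeasurable (K := K1 * K) (n := n) fun x =>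
      ((Φ0 x).le_opNorm _).trans ((mul_le_mul (hb _) (hKb x) (norm_nonneg _) hK1).trans_eq
        (mul_assoc _ _ _).symm)
  have e2 : ∫ x, Φ0 x (ou a F x) ∂gau (Fin d) =
      ∫ x, ∫ w, Φ0 (a • x + -s • w) (F x) ∂gau (Fin d) ∂gau (Fin d) := by
    calc ∫ x, Φ0 x (ou a F x) ∂gau (Fin d) = ∫ p, f p ∂(gau (Fin d)).prod (gau (Fin d)) := by
          rw [integral_prod _ hfi]
          refine integral_congr_ae (ae_of_all _ fun x => ?_)
          exact ((Φ0 x).integral_comp_comm (integrable_slice2 hFc hK hKb a _ x)).symm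
      _ = _ := by
          rw [integral_pair_rot hcs hfc, integral_prod _ hri]
          simp only [hpt]
  have hi2 : Integrable (fun x => ∫ w, Φ0 (a • x + -s • w) (F x) ∂gau (Fin d)) (gau (Fin d)) := by
    have := hri.integral_prod_left
    simpa only [hpt] using this
  rw [e2, ← integral_sub hi1 hi2]
  have hin : ∀ x, Integrable (fun w => Φ0 (a • x + -s • w) (F x)) (gau (Fin d)) := fun x =>
    Integrable.of_bound (((hΦc.comp (by fun_prop)).clm_apply continuous_const)).aestronglyMeasurable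
      (K1 * ‖F x‖) (ae_of_all _ fun w => ((Φ0 _).le_opNorm _).trans
        (mul_le_mul_of_nonneg_right (hb _) (norm_nonneg _)))
  set g : E d → ℝ := fun x => √((1 - a) ^ 2 * ‖x‖ ^ 2 + s ^ 2 * d) with hg
  have hgPG : PG g := by
    refine ⟨by fun_prop, (1 - a) + |s| * √(d : ℝ), 1,
      add_nonneg (by linarith [ha.2]) (mul_nonneg (abs_nonneg s) (Real.sqrt_nonneg _)),
      fun x => ?_⟩
    rw [hg, Real.norm_eq_abs, abs_of_nonneg (Real.sqrt_nonneg _), pow_one]
    refine (Real.sqrt_le_iff).2 ⟨by have := ha.2; positivity, ?_⟩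
    have h1 : 0 ≤ (1 - a) * ‖x‖ := mul_nonneg (by linarith [ha.2]) (norm_nonneg x)
    have h2 : 0 ≤ |s| * √(d : ℝ) := by positivity
    have h3 : (|s| * √(d : ℝ)) ^ 2 = s ^ 2 * d := by
      rw [mul_pow, sq_abs, Real.sq_sqrt (Nat.cast_nonneg d)]
    nlinarith [mul_nonneg h2 (norm_nonneg x), ha.2, mul_nonneg h1 h2]
  have hbd : ∀ x, |Φ0 x (F x) - ∫ w, Φ0 (a • x + -s • w) (F x) ∂gau (Fin d)| ≤
      L * (‖g x‖ * ‖F x‖) := by
    intro x
    have e : Φ0 x (F x) - ∫ w, Φ0 (a • x + -s • w) (F x) ∂gau (Fin d)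
        = ∫ w, (Φ0 x - Φ0 (a • x + -s • w)) (F x) ∂gau (Fin d) := by
      simp only [sub_apply]
      rw [integral_sub (integrable_const _) (hin x), integral_const, probReal_univ, one_smul]
    set y := fun w : E d => (1 - a) • x + s • w with hy
    have hyPG : PG y := ⟨by fun_prop, ‖(1 - a) • x‖ + |s|, 1, by positivity, fun w =>
      (norm_add_le _ _).trans (by
        rw [norm_smul s, Real.norm_eq_abs s, pow_one]
        nlinarith [norm_nonneg ((1 - a) • x), norm_nonneg w, abs_nonneg s,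
          mul_nonneg (norm_nonneg ((1 - a) • x)) (norm_nonneg w)])⟩
    rw [e]
    refine (abs_integral_le_l2 (A := L * ‖F x‖) (by positivity) hyPG fun w => ?_).trans ?_
    · refine (Real.norm_eq_abs _).symm.trans_le (((Φ0 x - _).le_opNorm _).trans ?_)
      rw [mul_comm L, mul_assoc, mul_comm ‖Φ0 x - _‖]
      refine mul_le_mul_of_nonneg_left ((hL _ _).trans (le_of_eq ?_)) (norm_nonneg _)
      congr 2
      simp only [hy]; module
    · rw [mul_assoc, mul_comm ‖g x‖]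
      refine mul_le_mul_of_nonneg_left (mul_le_mul_of_nonneg_left (l2_le (norm_nonneg _) ?_)
        (norm_nonneg _)) hL0
      rw [Real.norm_eq_abs, sq_abs, hg, Real.sq_sqrt (by positivity)]
      have e3 : ∀ w, ‖y w‖ ^ 2 = (1 - a) ^ 2 * ‖x‖ ^ 2 + 2 * ((1 - a) * s) * ⟪w, x⟫
          + s ^ 2 * ‖w‖ ^ 2 := fun w => by
        simp only [hy]
        rw [norm_add_sq_real, norm_smul, norm_smul, mul_pow, mul_pow, Real.norm_eq_abs,
          Real.norm_eq_abs, sq_abs, sq_abs, real_inner_smul_left, real_inner_smul_right,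
          real_inner_comm x w]
        ring
      simp only [e3]
      have i2 : Integrable (fun w => 2 * ((1 - a) * s) * ⟪w, x⟫) (gau (Fin d)) :=
        (((integrable_gau_nrm).mono' (f := fun w : E d => w) (by fun_prop)
          (ae_of_all _ fun _ => le_rfl)).inner_const x).const_mul _
      have i12 : Integrable
          (fun w => (1 - a) ^ 2 * ‖x‖ ^ 2 + 2 * ((1 - a) * s) * ⟪w, x⟫) (gau (Fin d)) :=
        (integrable_const _).add i2
      rw [integral_add i12 (integrable_gau_nrm_sq.const_mul _), integral_add (integrable_const _) i2,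
        integral_const, probReal_univ, one_smul, integral_const_mul, integral_const_mul,
        integral_gau_inner, mul_zero, add_zero, integral_gau_norm_sq, Fintype.card_fin]
  refine abs_integral_le_integral_abs.trans ((integral_mono_of_nonneg
    (ae_of_all _ fun x => abs_nonneg _) ?_ (ae_of_all _ hbd)).trans ?_)
  · obtain ⟨hgc, Kg, ng, hKg, hgb⟩ := hgPG
    refine (integrable_of_polyLe (hgc.norm.mul hFc.norm).aestronglyMeasurable (K := Kg * K)
      (n := ng + n) fun x => ?_).const_mul L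
    rw [Pi.mul_apply, norm_mul, norm_norm, norm_norm, pow_add]
    exact (mul_le_mul (hgb x) (hKb x) (norm_nonneg _) (by positivity)).trans_eq (by ring)
  · rw [integral_const_mul, mul_assoc L]
    refine mul_le_mul_of_nonneg_left ((integral_norm_mul_le hgPG hF).trans
      (mul_le_mul_of_nonneg_right (l2_le (Real.sqrt_nonneg _) ?_) (l2_nonneg _))) hL0
    have e4 : ∀ x, ‖g x‖ ^ 2 = (1 - a) ^ 2 * ‖x‖ ^ 2 + s ^ 2 * d := fun x => by
      rw [hg, Real.norm_eq_abs, sq_abs, Real.sq_sqrt (by positivity)]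
    simp only [e4]
    rw [integral_add (integrable_gau_nrm_sq.const_mul _) (integrable_const _), integral_const_mul,
      integral_gau_norm_sq, Fintype.card_fin, integral_const, probReal_univ, one_smul, hs2,
      Real.sq_sqrt (by have := ha.2; have : 0 ≤ 1 - a := by linarith
                       positivity)]
    linarith

/-- The next iterate without conversion errors: the rule applied to the smoothed operators. -/
def ruleSum {n : ℕ} (w r : Fin n → ℝ) (ρ1 : ℝ) (F : E d → E d) (x : E d) : E d :=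
  ∑ k, w k • ou (ρ1 * r k) F x

/-- A rule inverts `1 + N` after a smoothing, tested against a test and its derivative. -/
theorem abs_rule_inv_le {Φ0 : E d → E d →L[ℝ] ℝ} (hΦ : Tame Φ0) {K1 A : ℝ}
    (hb : ∀ x, ‖Φ0 x‖ ≤ K1) (hA0 : 0 ≤ A) (hA : ∀ x L, |trd (fderiv ℝ Φ0 x) L| ≤ A * hn L)
    {F : E d → E d} (hF : PG F) {n : ℕ} {ε : ℝ} (Rl : Rule n ε) (U : ℝ) {ρ1 : ℝ}
    (h1 : ρ1 ∈ Set.Ioo (0 : ℝ) 1) :
    |(∫ x, Φ0 x (ou ρ1 F x) ∂gau (Fin d)) -
      ((∫ x, Φ0 x (ruleSum (fun k => Rl.weight k U) (fun k => Rl.node k U) ρ1 F x) ∂gau (Fin d)) +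
        ∫ x, trd (fderiv ℝ Φ0 x)
          (fderiv ℝ (ruleSum (fun k => Rl.weight k U) (fun k => Rl.node k U) ρ1 F) x) ∂gau (Fin d))|
      ≤ (K1 + A / √(1 - ρ1)) * ε * l2 F := by
  have hK1 : 0 ≤ K1 := (norm_nonneg _).trans (hb 0)
  have hρsq : ρ1 ^ 2 < 1 := pow_lt_one₀ h1.1.le h1.2 two_ne_zero
  set l := √ρ1 with hl
  have hl2 : l * l = ρ1 := Real.mul_self_sqrt h1.1.le
  have hl0 : 0 ≤ l := Real.sqrt_nonneg _
  have hlsq : l ^ 2 < 1 := by rw [sq, hl2]; exact h1.2
  have hS0 : Tame (ou ρ1 F) := tame_ou_pg hF hρsq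
  set φ : ℝ → ℝ := fun u => (∫ x, Φ0 x (ou u (ou ρ1 F) x) ∂gau (Fin d)) +
    u * ∫ x, trd (fderiv ℝ Φ0 x) (ou u (fderiv ℝ (ou ρ1 F)) x) ∂gau (Fin d) with hφ
  have hφc : Continuous φ :=
    (continuous_phi_ou hΦ hS0).add (continuous_id.mul (continuous_trd_ou hΦ hS0))
  obtain ⟨-, KΦ, nΦ, hKΦ, hΦb, hΦ'⟩ := id hΦ
  -- a finite combination
  have comb : ∀ {κ : Type} [Fintype κ] (c u : κ → ℝ) (e : ℝ), (∀ k, u k ∈ Set.Icc (0 : ℝ) 1) →
      (∀ m : ℕ, |∑ k, c k * u k ^ m| ≤ e) →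
      (∑ k, c k * φ (u k) = (∫ x, Φ0 x (combo c (fun k => ρ1 * u k) F x) ∂gau (Fin d)) +
        ∫ x, trd (fderiv ℝ Φ0 x) (fderiv ℝ (combo c (fun k => ρ1 * u k) F) x) ∂gau (Fin d)) ∧
      |∑ k, c k * φ (u k)| ≤ (K1 + A / √(1 - ρ1)) * e * l2 F := by
    intro κ _ c u e hu hce
    have hsq : ∀ k, (ρ1 * u k) ^ 2 < 1 := fun k => by
      rw [mul_pow]; exact lt_of_le_of_lt (mul_le_of_le_one_right (sq_nonneg _)
        (sq_le_one_of_mem (hu k))) hρsq
    have hou : ∀ k, ou (u k) (ou ρ1 F) = ou (ρ1 * u k) F := fun k => funext fun x => by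
      rw [ou_ou hF (sq_le_one_of_mem (hu k)) hρsq.le, mul_comm]
    have hd1 : ∀ k x, fderiv ℝ (ou (ρ1 * u k) F) x = u k • ou (u k) (fderiv ℝ (ou ρ1 F)) x :=
      fun k x => by rw [← hou k]; exact (hasFDerivAt_ou hS0 (u k) x).fderiv
    have hT : ∀ k, Tame (ou (ρ1 * u k) F) := fun k => tame_ou_pg hF (hsq k)
    have hcd : ∀ x, HasFDerivAt (combo c (fun k => ρ1 * u k) F)
        (∑ k, c k • fderiv ℝ (ou (ρ1 * u k) F) x) x := fun x =>
      HasFDerivAt.fun_sum fun k _ => ((hT k).differentiable x).hasFDerivAt.const_smul (c k)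
    have i1 : ∀ k, Integrable (fun x => Φ0 x (ou (ρ1 * u k) F x)) (gau (Fin d)) := fun k => by
      obtain ⟨hc, K, m, hK, h⟩ := pg_ou hF (ρ1 * u k)
      exact integrable_of_polyLe (hΦ.continuous.clm_apply hc).aestronglyMeasurable (K := KΦ * K)
        (n := nΦ + m) (hΦb.apply h hKΦ)
    have i2 : ∀ k, Integrable
        (fun x => trd (fderiv ℝ Φ0 x) (fderiv ℝ (ou (ρ1 * u k) F) x)) (gau (Fin d)) := fun k => by
      obtain ⟨-, K, m, hK, -, h⟩ := hT k
      have hc := (hT k).continuous_fderiv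
      have := hΦ.continuous_fderiv
      refine integrable_of_polyLe (Continuous.aestronglyMeasurable (by simp only [trd]; fun_prop))
        (K := Fintype.card (Fin d) * (KΦ * K)) (n := nΦ + m) fun x =>
          (norm_trd_le (hΦ' x) (h x)).trans (le_of_eq (by rw [pow_add]; ring))
    have eq : ∑ k, c k * φ (u k) = (∫ x, Φ0 x (combo c (fun k => ρ1 * u k) F x) ∂gau (Fin d)) +
        ∫ x, trd (fderiv ℝ Φ0 x) (fderiv ℝ (combo c (fun k => ρ1 * u k) F) x) ∂gau (Fin d) := by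
      have e1 : ∫ x, Φ0 x (combo c (fun k => ρ1 * u k) F x) ∂gau (Fin d) =
          ∑ k, c k * ∫ x, Φ0 x (ou (ρ1 * u k) F x) ∂gau (Fin d) := by
        simp only [combo, map_sum, map_smul, smul_eq_mul]
        rw [integral_finsetSum _ fun k _ => (i1 k).const_mul _]
        simp only [integral_const_mul]
      have e2 : ∫ x, trd (fderiv ℝ Φ0 x) (fderiv ℝ (combo c (fun k => ρ1 * u k) F) x) ∂gau (Fin d) =
          ∑ k, c k * ∫ x, trd (fderiv ℝ Φ0 x) (fderiv ℝ (ou (ρ1 * u k) F) x) ∂gau (Fin d) := by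
        simp only [(hcd _).fderiv, ← trdL_apply, map_sum, map_smul, smul_eq_mul]
        rw [integral_finsetSum _ fun k _ => by
          simp only [trdL_apply]; exact (i2 k).const_mul _]
        simp only [integral_const_mul]
      rw [e1, e2, ← Finset.sum_add_distrib]
      refine Finset.sum_congr rfl fun k _ => ?_
      simp only [hφ, hou, hd1, ← trdL_apply, map_smul, smul_eq_mul, integral_const_mul]
      ring
    refine ⟨eq, ?_⟩
    set G := combo c (fun k => l * u k) F with hG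
    have hGl : ∀ x, ou l G x = combo c (fun k => ρ1 * u k) F x := by
      intro x
      have hi : ∀ k, Integrable (fun v => c k • ou (l * u k) F (mix l (x, v))) (gau (Fin d)) :=
        fun k => ((pg_ou hF _).smul (c k)).slice (l • x) _ |>.integrable
      simp only [hG, combo, ou_eq l]
      rw [integral_finsetSum _ fun k _ => hi k]
      refine Finset.sum_congr rfl fun k _ => ?_
      rw [integral_smul, ← ou_eq, ou_ou hF hlsq.le]
      · rw [← mul_assoc, hl2]
      · rw [mul_pow]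
        exact mul_le_one₀ hlsq.le (sq_nonneg _) (sq_le_one_of_mem (hu k))
    have hG2 : PG G := by
      rw [hG]
      exact PG.sum (F := E d) Finset.univ (f := fun k x => c k • ou (l * u k) F x)
        fun k _ => (pg_ou hF (l * u k)).smul (c k)
    have he0 : 0 ≤ e := (abs_nonneg _).trans (hce 0)
    have hGle : l2 G ≤ e * l2 F := by
      refine l2_le (mul_nonneg he0 (l2_nonneg _)) ?_
      rw [mul_pow, l2_sq]
      obtain ⟨hFc, K, m, hK, hKb⟩ := id hF
      refine TailAux.combo_le_poly (f := F) (fun k => ?_) (fun m => ?_) hFc ⟨K, m, hK, hKb⟩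
      · rw [mul_pow]
        exact mul_le_one₀ hlsq.le (sq_nonneg _) (sq_le_one_of_mem (hu k))
      · rw [show ∑ k, c k * (l * u k) ^ m = l ^ m * ∑ k, c k * u k ^ m by
          rw [Finset.mul_sum]; exact Finset.sum_congr rfl fun k _ => by rw [mul_pow]; ring, abs_mul]
        exact (mul_le_of_le_one_left (abs_nonneg _) (by
          rw [abs_pow, abs_of_nonneg hl0]
          exact pow_le_one₀ hl0 (by nlinarith [h1.2]))).trans (hce m)
    rw [eq, ← funext hGl]
    refine (abs_add_le _ _).trans ?_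
    have hsqrt : 0 < √(1 - ρ1) := Real.sqrt_pos.2 (by linarith [h1.2])
    have b1 : |∫ x, Φ0 x (ou l G x) ∂gau (Fin d)| ≤ K1 * (e * l2 F) :=
      (abs_integral_le_l2 hK1 (pg_ou hG2 l) fun x => (Real.norm_eq_abs _).symm.trans_le
        (((Φ0 x).le_opNorm _).trans (mul_le_mul_of_nonneg_right (hb x) (norm_nonneg _)))).trans
        (mul_le_mul_of_nonneg_left ((l2_ou_le hlsq.le hG2).trans hGle) hK1)
    have b2 : |∫ x, trd (fderiv ℝ Φ0 x) (fderiv ℝ (ou l G) x) ∂gau (Fin d)| ≤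
        A * (1 / √(1 - ρ1) * (e * l2 F)) := by
      refine (abs_integral_le_l2 hA0 ((pg_fderiv_ou hlsq hG2).clm hentry) fun x => hA x _).trans
        (mul_le_mul_of_nonneg_left ((l2_fderiv_ou_le hlsq hG2).trans ?_) hA0)
      rw [abs_of_nonneg hl0, sq, hl2]
      exact mul_le_mul (div_le_div_of_nonneg_right (Real.sqrt_le_one.2 h1.2.le) (Real.sqrt_nonneg _))
        hGle (l2_nonneg _) (by positivity)
    calc _ ≤ K1 * (e * l2 F) + A * (1 / √(1 - ρ1) * (e * l2 F)) := add_le_add b1 b2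
      _ = _ := by ring
  have hnode : ∀ k, Rl.node k U ∈ Set.Icc (0 : ℝ) 1 := fun k =>
    ⟨Rl.lo_nonneg.trans (Rl.node_mem k U).1, (Rl.node_mem k U).2.trans Rl.hi_lt_one.le⟩
  have hrule : (∫ x, Φ0 x (ruleSum (fun k => Rl.weight k U) (fun k => Rl.node k U) ρ1 F x)
        ∂gau (Fin d)) + ∫ x, trd (fderiv ℝ Φ0 x)
          (fderiv ℝ (ruleSum (fun k => Rl.weight k U) (fun k => Rl.node k U) ρ1 F) x) ∂gau (Fin d) =
      ∑ k, Rl.weight k U * φ (Rl.node k U) :=
    (comb (fun k => Rl.weight k U) (fun k => Rl.node k U) (∑ k, |Rl.weight k U|) hnode fun m =>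
      (Finset.abs_sum_le_sum_abs _ _).trans (Finset.sum_le_sum fun k _ => by
        rw [abs_mul, abs_pow, abs_of_nonneg (hnode k).1]
        exact mul_le_of_le_one_right (abs_nonneg _) (pow_le_one₀ (hnode k).1 (hnode k).2))).1.symm
  rw [hrule, inv_identity hΦ hS0]
  change |(∫ u in (0 : ℝ)..1, φ u) - _| ≤ _
  have lim : Tendsto (fun m : ℕ => |riemann (m + 1) φ - ∑ k, Rl.weight k U * φ (Rl.node k U)|)
      atTop (𝓝 |(∫ u in (0 : ℝ)..1, φ u) - ∑ k, Rl.weight k U * φ (Rl.node k U)|) :=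
    ((riemann_tendsto hφc.continuousOn).sub_const _).abs
  have lim2 : Tendsto (fun m : ℕ => (K1 + A / √(1 - ρ1)) * (ε + 1 / ((m + 1 : ℕ) : ℝ)) * l2 F)
      atTop (𝓝 ((K1 + A / √(1 - ρ1)) * ε * l2 F)) := by
    have h0 : Tendsto (fun m : ℕ => 1 / ((m + 1 : ℕ) : ℝ)) atTop (𝓝 0) := by
      simpa only [Nat.cast_add, Nat.cast_one] using tendsto_one_div_add_atTop_nhds_zero_nat
    simpa using ((h0.const_add ε).const_mul (K1 + A / √(1 - ρ1))).mul_const (l2 F)
  refine le_of_tendsto_of_tendsto' lim lim2 fun m => ?_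
  let c : Fin n ⊕ Fin (m + 1) → ℝ :=
    Sum.elim (fun k => -Rl.weight k U) fun _ => 1 / ((m + 1 : ℕ) : ℝ)
  let u : Fin n ⊕ Fin (m + 1) → ℝ :=
    Sum.elim (fun k => Rl.node k U) fun i => ((i : ℕ) + 1) / ((m + 1 : ℕ) : ℝ)
  have hu : ∀ k, u k ∈ Set.Icc (0 : ℝ) 1 := by
    rintro (k | i)
    · exact hnode k
    · refine node_mem_Icc (Nat.succ_pos m) i i.2 ⟨?_, le_rfl⟩
      exact div_le_div_of_nonneg_right (le_add_of_nonneg_right zero_le_one) (Nat.cast_nonneg _)
  have hc : ∀ j : ℕ, |∑ k, c k * u k ^ j| ≤ ε + 1 / ((m + 1 : ℕ) : ℝ) := by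
    intro j
    have e : ∑ k, c k * u k ^ j = riemann (m + 1) (fun x : ℝ => x ^ j)
        - ∑ k, Rl.weight k U * Rl.node k U ^ j := by
      simp only [Fintype.sum_sum_type, c, u, Sum.elim_inl, Sum.elim_inr, riemann, smul_eq_mul,
        neg_mul, Finset.sum_neg_distrib]
      ring
    rw [e, abs_sub_comm]
    refine (abs_sub_le _ (1 / ((j : ℝ) + 1)) _).trans (add_le_add (Rl.moment j U) ?_)
    rw [abs_sub_comm]
    exact riemann_pow (Nat.succ_pos m) j
  refine le_of_eq_of_le (congrArg _ ?_) (comb c u _ hu hc).2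
  simp only [Fintype.sum_sum_type, c, u, Sum.elim_inl, Sum.elim_inr, riemann, smul_eq_mul,
    neg_mul, Finset.sum_neg_distrib]
  ring

/-! ### The residual of a Picard step -/

/-- The matrix a tilt has to cancel: `∑ i < q, DΦ DΦᵀ (-DΦᵀ) ^ i`. -/
def tiltN (Φ : E d → E d) (q : ℕ) (w : E d) : E d →L[ℝ] E d :=
  series ((fderiv ℝ Φ w).comp (fderiv ℝ Φ w).adjoint) (fderiv ℝ Φ w).adjoint q

/-- The field of a Picard step. -/
def tiltF (p Φ : E d → E d) (q : ℕ) (ρ0 : ℝ) (w : E d) : E d :=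
  -p (w + Φ w) + psi (ContinuousLinearMap.id ℝ (E d)) ρ0 (tiltN Φ q) w

variable {Φ : E d → E d} {u : ℝ}

lemma norm_tiltN_le (hu : ∀ w, ‖fderiv ℝ Φ w‖ ≤ u) (hu1 : u ≤ 1) (q : ℕ) (w : E d) :
    ‖tiltN Φ q w‖ ≤ q * u ^ 2 := by
  have hu0 : 0 ≤ u := (norm_nonneg _).trans (hu w)
  have hA : ‖(fderiv ℝ Φ w).adjoint‖ ≤ u := by rw [LinearIsometryEquiv.norm_map]; exact hu w
  have hM : ‖(fderiv ℝ Φ w).comp (fderiv ℝ Φ w).adjoint‖ ≤ u ^ 2 :=
    ((fderiv ℝ Φ w).opNorm_comp_le _).trans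
      ((mul_le_mul (hu w) hA (norm_nonneg _) hu0).trans_eq (sq u).symm)
  rw [tiltN, series]
  refine (norm_mul_le _ _).trans ((mul_le_mul hM ((norm_sum_le _ _).trans
    ((Finset.sum_le_card_nsmul _ _ 1 fun i _ => ?_).trans_eq (by simp))) (norm_nonneg _)
      (sq_nonneg u)).trans_eq (mul_comm _ _))
  rcases Nat.eq_zero_or_pos i with rfl | hi
  · rw [pow_zero]; exact ContinuousLinearMap.norm_id_le
  · exact (norm_pow_le' _ hi).trans (pow_le_one₀ (norm_nonneg _)
      (by rw [norm_neg]; exact hA.trans hu1))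

lemma continuous_tiltN (hΦ : Tame Φ) (q : ℕ) : Continuous (tiltN Φ q) := by
  have hadj : Continuous fun w => (fderiv ℝ Φ w).adjoint :=
    (ContinuousLinearMap.adjoint (𝕜 := ℝ) (E := E d) (F := E d)).continuous.comp hΦ.continuous_fderiv
  exact (hΦ.continuous_fderiv.clm_comp hadj).mul
    (continuous_finsetSum _ fun i _ => hadj.neg.pow i)

lemma pg_tiltN (hΦ : Tame Φ) (hu : ∀ w, ‖fderiv ℝ Φ w‖ ≤ u) (hu1 : u ≤ 1) (q : ℕ) :
    PG (tiltN Φ q) :=
  ⟨continuous_tiltN hΦ q, q * u ^ 2, 0, by positivity, PolyLe.of_bound (norm_tiltN_le hu hu1 q)⟩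

lemma pg_tiltF {p : E d → E d} (hp : Continuous p) {Gp : ℝ} (hpb : ∀ x, ‖p x‖ ≤ Gp)
    (hΦ : Tame Φ) (hu : ∀ w, ‖fderiv ℝ Φ w‖ ≤ u) (hu1 : u ≤ 1) (q : ℕ) (ρ0 : ℝ) :
    PG (tiltF p Φ q ρ0) :=
  (show PG fun w => -p (w + Φ w) from ⟨(hp.comp (continuous_id.add hΦ.continuous)).neg, Gp, 0,
    (norm_nonneg _).trans (hpb 0), PolyLe.of_bound fun w => by rw [norm_neg]; exact hpb _⟩).add
    (pg_psi (pg_tiltN hΦ hu hu1 q) ρ0)

lemma hn_eq_sqrt_hsq (A : E d →L[ℝ] E d) : hn A = √(hsq A) := by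
  rw [← Real.sqrt_sq (hn_nonneg A), hn_sq]; rfl

/-- The series solves the cross equation up to a high power. -/
lemma trPair_tiltN (B : E d →L[ℝ] E d →L[ℝ] ℝ) (Φ : E d → E d) (q : ℕ) (w : E d) :
    trPair B (ContinuousLinearMap.id ℝ (E d) + fderiv ℝ Φ w) (tiltN Φ q w) =
      trPair B (fderiv ℝ Φ w) (fderiv ℝ Φ w) -
        trPair B (ContinuousLinearMap.id ℝ (E d)) (((fderiv ℝ Φ w).comp (fderiv ℝ Φ w).adjoint) *
          (-(fderiv ℝ Φ w).adjoint) ^ q) := by
  set D := fderiv ℝ Φ w with hD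
  have h : (∑ i ∈ Finset.range q, (-D.adjoint) ^ i) * (1 + D.adjoint) = 1 - (-D.adjoint) ^ q := by
    have := geom_sum_mul_neg (-D.adjoint) q
    rwa [sub_neg_eq_add] at this
  have hYa : (ContinuousLinearMap.id ℝ (E d) + D).adjoint = 1 + D.adjoint := by
    simp only [map_add, ContinuousLinearMap.adjoint_id]; rfl
  have hser : tiltN Φ q w * (1 + D.adjoint) =
      D.comp D.adjoint - D.comp D.adjoint * (-D.adjoint) ^ q := by
    rw [tiltN, ← hD, series, mul_assoc, h, mul_sub, mul_one]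
  rw [trPair_eq, trPair_eq, trPair_eq, ← Finset.sum_sub_distrib]
  refine Finset.sum_congr rfl fun i _ => ?_
  rw [← map_sub]
  congr 1
  rw [hYa]
  simpa [ContinuousLinearMap.adjoint_id] using congrArg (fun A : E d →L[ℝ] E d => A (EuclideanSpace.basisFun (Fin d) ℝ i)) hser


lemma norm_tiltR_le (hu : ∀ w, ‖fderiv ℝ Φ w‖ ≤ u) (q : ℕ) (w : E d) :
    ‖((fderiv ℝ Φ w).comp (fderiv ℝ Φ w).adjoint) * (-(fderiv ℝ Φ w).adjoint) ^ q‖ ≤ u ^ (q + 2) := by
  have hu0 : 0 ≤ u := (norm_nonneg _).trans (hu w)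
  have hAd : ‖(fderiv ℝ Φ w).adjoint‖ ≤ u := by rw [LinearIsometryEquiv.norm_map]; exact hu w
  have hM : ‖(fderiv ℝ Φ w).comp (fderiv ℝ Φ w).adjoint‖ ≤ u ^ 2 :=
    ((fderiv ℝ Φ w).opNorm_comp_le _).trans
      ((mul_le_mul (hu w) hAd (norm_nonneg _) hu0).trans_eq (sq u).symm)
  rcases Nat.eq_zero_or_pos q with hq | hq
  · simp only [hq, pow_zero, mul_one]; simpa using hM
  · rw [show q + 2 = 2 + q by ring, pow_add]
    exact (norm_mul_le _ _).trans (mul_le_mul hM ((norm_pow_le' _ hq).trans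
      (pow_le_pow_left₀ (norm_nonneg _) (by rwa [norm_neg]) q)) (norm_nonneg _) (sq_nonneg u))

/-- Linearity of a trace in its last argument. -/
lemma trPair_sub (B : E d →L[ℝ] E d →L[ℝ] ℝ) (Y A A' : E d →L[ℝ] E d) :
    trPair B Y (A - A') = trPair B Y A - trPair B Y A' := by
  simp only [trPair, sub_apply, map_sub, Finset.sum_sub_distrib]

/-- The residual of a Picard step. -/
theorem tilt_residual {f : E d → ℝ} {K1 K2 : ℝ} (hf : ContDiff ℝ 2 f)
    (h1 : ∀ x, ‖fderiv ℝ f x‖ ≤ K1) (h2 : ∀ x, ‖fderiv ℝ (fderiv ℝ f) x‖ ≤ K2)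
    (hΦ : Tame Φ) (hu : ∀ w, ‖fderiv ℝ Φ w‖ ≤ u) (hu1 : u ≤ 1) {p : E d → E d} (hp : Continuous p)
    {Gp : ℝ} (hpb : ∀ x, ‖p x‖ ≤ Gp) (q : ℕ) {ρ0 ρ1 : ℝ} (h0 : ρ0 ∈ Set.Ioo (0 : ℝ) 1)
    (hρ1 : ρ1 ∈ Set.Ioo (0 : ℝ) 1) {n : ℕ} {ε : ℝ} (Rl : Rule n ε) (U : ℝ)
    {S : E d → E d}
    (hS : S = ruleSum (fun k => Rl.weight k U) (fun k => Rl.node k U) ρ1 (tiltF p Φ q ρ0)) :
    |∫ w, genOp f 0 0 p (w + Φ w) ∂gau (Fin d)| ≤
      K1 * l2 (fun w => S w - Φ w) +
        K2 * (2 * √(d : ℝ)) * l2 (fun w => hentry (fderiv ℝ S w - fderiv ℝ Φ w)) +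
        K2 * (2 * √(d : ℝ)) * l2 (fun w => hentry (tiltN Φ q w - ou ρ0 (tiltN Φ q) w)) +
        K2 * d * u ^ (q + 2) +
        (2 * K2 * √(2 * (1 - ρ1) * d) + (K1 + K2 * (2 * √(d : ℝ)) / √(1 - ρ1)) * ε) *
          l2 (tiltF p Φ q ρ0) := by
  have hK1 : 0 ≤ K1 := (norm_nonneg _).trans (h1 0)
  have hK2 : 0 ≤ K2 := (norm_nonneg (fderiv ℝ (fderiv ℝ f) 0)).trans (h2 0)
  have hu0 : 0 ≤ u := (norm_nonneg _).trans (hu 0)
  have hGp : 0 ≤ Gp := (norm_nonneg _).trans (hpb 0)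
  set I : E d →L[ℝ] E d := ContinuousLinearMap.id ℝ (E d) with hI
  have hU : ∀ v, I (I.adjoint v) = v := fun v => by simp [hI, ContinuousLinearMap.adjoint_id]
  have hz : Tame fun _ : E d => (0 : E d) := tame_const 0
  have hGU : ∀ w v, fderiv ℝ (fun _ : E d => (0 : E d)) w (I.adjoint v) = 0 := fun w v => by simp
  have hm0 : ∫ _w : E d, (0 : E d) ∂gau (Fin d) = 0 := by simp
  set X := fun w => w + Φ w with hX
  have hpt : ∀ w, pt I (fun w => Φ w) 0 w = X w := fun w => by simp [pt, hI, hX]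
  have hC0 : ∀ w, covD (fun _ : E d => (0 : E d)) w = 0 := fun w =>
    ContinuousLinearMap.ext fun v => by
      simpa using covD_apply_eq_zero hz (v := v) (fun x => by simp) w
  have hHd : ∀ w, fderiv ℝ (fun w => (0 : E d) + Φ w) w = fderiv ℝ Φ w := fun w => by simp
  set B := fun w => fderiv ℝ (fderiv ℝ f) (X w) with hB
  set Y := fun w => I + fderiv ℝ Φ w with hY
  have master := engine_master (Gv := fun _ => 0) hf h1 h2 hU hz hΦ hGU 0 hp (Kc := Gp)
    fun x => (hpb x).trans (le_mul_of_one_le_right hGp (by linarith [norm_nonneg x]))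
  simp only [hm0, hpt, hHd, hC0, fderiv_const_apply, zero_add, sub_zero] at master
  set T : E d → E d →L[ℝ] ℝ := fun w => fderiv ℝ f (X w) with hT
  have hTt : Tame T := by
    have := tame_test (U := I) hf h1 h2 hΦ 0
    simpa [pt, hI, hX] using this
  have hTd : ∀ w A, trd (fderiv ℝ T w) A = trPair (B w) (Y w) A := fun w A => by
    have := trd_test (U := I) hf hΦ 0 w A
    simpa [pt, hI, hX, hB, hY] using this
  have hYn : ∀ w, √(hsq (Y w)) ≤ 2 * √(d : ℝ) := fun w => by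
    have h : ‖Y w‖ ≤ 2 := (norm_add_le _ _).trans
      (by linarith [ContinuousLinearMap.norm_id_le (𝕜 := ℝ) (E := E d), hu w])
    refine (Real.sqrt_le_sqrt ((hsq_le _).trans (mul_le_mul_of_nonneg_left
      (pow_le_pow_left₀ (norm_nonneg _) h 2) (Nat.cast_nonneg d)))).trans_eq ?_
    rw [Real.sqrt_mul (Nat.cast_nonneg d), Real.sqrt_sq zero_le_two, mul_comm]
  have hA : ∀ w A, |trPair (B w) (Y w) A| ≤ K2 * (2 * √(d : ℝ)) * hn A := fun w A => by
    refine (abs_trPair_le _ _ _ (h2 _)).trans ?_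
    rw [hn_eq_sqrt_hsq, mul_assoc K2]
    exact mul_le_mul_of_nonneg_left (mul_le_mul_of_nonneg_right (hYn w) (Real.sqrt_nonneg _)) hK2
  have hA' : ∀ w A, |trd (fderiv ℝ T w) A| ≤ K2 * (2 * √(d : ℝ)) * hn A := fun w A => by
    rw [hTd]; exact hA w A
  -- the objects
  set N := tiltN Φ q with hN
  have hNp : PG N := pg_tiltN hΦ hu hu1 q
  set F := tiltF p Φ q ρ0 with hF
  have hFp : PG F := pg_tiltF hp hpb hΦ hu hu1 q ρ0
  have h0sq : ρ0 ^ 2 < 1 := pow_lt_one₀ h0.1.le h0.2 two_ne_zero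
  have hsq1 : ∀ k, (ρ1 * Rl.node k U) ^ 2 < 1 := fun k => by
    rw [mul_pow]
    exact lt_of_le_of_lt (mul_le_of_le_one_right (sq_nonneg _) (pow_le_one₀
      (Rl.lo_nonneg.trans (Rl.node_mem k U).1) ((Rl.node_mem k U).2.trans Rl.hi_lt_one.le)))
      (pow_lt_one₀ hρ1.1.le hρ1.2 two_ne_zero)
  have hSt : Tame S := by
    rw [hS]
    exact Tame.sum Finset.univ fun k _ => (tame_ou_pg hFp (hsq1 k)).smul_const _
  -- the terms
  obtain ⟨-, KΦ, nΦ, hKΦ, hΦb, hΦ'b⟩ := id hΦ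
  obtain ⟨hSc, KS, nS, hKS, hSb, hS'b⟩ := id hSt
  have hTc := hTt.continuous
  have iT : ∀ v : E d → E d, PG v → Integrable (fun w => T w (v w)) (gau (Fin d)) := by
    intro v hv
    obtain ⟨hvc, K, m, hK, hvb⟩ := hv
    refine integrable_of_polyLe (hTc.clm_apply hvc).aestronglyMeasurable (K := K1 * K) (n := m)
      fun w => ((T w).le_opNorm _).trans ((mul_le_mul (h1 _) (hvb w) (norm_nonneg _) hK1).trans_eq
        (mul_assoc _ _ _).symm)
  have hYc : Continuous Y := continuous_const.add hΦ.continuous_fderiv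
  have hBc : Continuous B := ((hf.fderiv_right (m := 1) (by norm_num)).continuous_fderiv
    one_ne_zero).comp (continuous_id.add hΦ.continuous)
  have iP : ∀ A : E d → E d →L[ℝ] E d, PG A →
      Integrable (fun w => trPair (B w) (Y w) (A w)) (gau (Fin d)) := by
    intro A hAp
    obtain ⟨hAc, K, m, hK, hAb⟩ := hAp
    refine integrable_of_polyLe (Continuous.aestronglyMeasurable (by simp only [trPair]; fun_prop))
      (K := (d : ℝ) * (K2 * 2 * K)) (n := m) fun w => ?_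
    refine (Real.norm_eq_abs _).trans_le ((norm_trPair_le (h2 _) ((norm_add_le _ _).trans
      (show ‖I‖ + ‖fderiv ℝ Φ w‖ ≤ 2 by
        linarith [ContinuousLinearMap.norm_id_le (𝕜 := ℝ) (E := E d), hu w])) (hAb w)).trans
      (le_of_eq ?_))
    rw [Fintype.card_fin]; ring
  have hXp : PG fun w => p (X w) := ⟨hp.comp (continuous_id.add hΦ.continuous), Gp, 0, hGp,
    PolyLe.of_bound fun w => hpb _⟩
  have hΦp : PG Φ := PG.of_tame hΦ
  have hDΦ : PG fun w => fderiv ℝ Φ w := ⟨hΦ.continuous_fderiv, KΦ, nΦ, hKΦ, hΦ'b⟩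
  have hDS : PG fun w => fderiv ℝ S w := ⟨hSt.continuous_fderiv, KS, nS, hKS, hS'b⟩
  -- Mehler
  have eψ : ∫ w, T w (psi I ρ0 N w) ∂gau (Fin d) =
      ∫ w, trPair (B w) (Y w) (ou ρ0 N w) ∂gau (Fin d) := by
    rw [psi_ibp hTt hNp h0sq]
    refine integral_congr_ae (ae_of_all _ fun w => ?_)
    simp only [hTd, hI, ContinuousLinearMap.comp_id]
  -- the series
  have eser : ∀ w, trPair (B w) (Y w) (N w) =
      trPair (B w) (fderiv ℝ Φ w) (fderiv ℝ Φ w) -
        trPair (B w) I (((fderiv ℝ Φ w).comp (fderiv ℝ Φ w).adjoint) *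
          (-(fderiv ℝ Φ w).adjoint) ^ q) := fun w => trPair_tiltN (B w) Φ q w
  set R := fun w => (((fderiv ℝ Φ w).comp (fderiv ℝ Φ w).adjoint) *
    (-(fderiv ℝ Φ w).adjoint) ^ q) with hR
  have hRn : ∀ w, ‖R w‖ ≤ u ^ (q + 2) := norm_tiltR_le hu q
  have hRb : ∀ w, |trPair (B w) I (R w)| ≤ K2 * d * u ^ (q + 2) := by
    intro w
    refine (norm_trPair_le (h2 _) ContinuousLinearMap.norm_id_le (hRn w)).trans (le_of_eq ?_)
    rw [Fintype.card_fin]; ring
  have iDD : Integrable (fun w => trPair (B w) (fderiv ℝ Φ w) (fderiv ℝ Φ w)) (gau (Fin d)) :=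
    Integrable.of_bound (Continuous.aestronglyMeasurable (by
      have := hΦ.continuous_fderiv; simp only [trPair]; fun_prop))
      (Fintype.card (Fin d) * (K2 * u * u))
      (ae_of_all _ fun w => (Real.norm_eq_abs _).trans_le (norm_trPair_le (h2 _) (hu w) (hu w)))
  have iR : Integrable (fun w => trPair (B w) I (R w)) (gau (Fin d)) := by
    have := (iDD.sub (iP N hNp))
    refine this.congr (ae_of_all _ fun w => ?_)
    simp only [Pi.sub_apply, eser, hR]; ring
  -- rule and mismatch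
  have hr := abs_rule_inv_le hTt (fun w => h1 _) (by positivity) hA' hFp Rl U hρ1
  rw [← hS] at hr
  simp only [hTd] at hr
  have hmis : |(∫ w, T w (F w) ∂gau (Fin d)) - ∫ w, T w (ou ρ1 F w) ∂gau (Fin d)| ≤
      2 * K2 * √(2 * (1 - ρ1) * d) * l2 F := by
    refine abs_pair_sub_ou_le hTc (fun w => h1 _) (by positivity) (fun x y => ?_) hFp
      ⟨hρ1.1.le, hρ1.2.le⟩
    refine Convex.norm_image_sub_le_of_norm_fderiv_le (𝕜 := ℝ)
      (fun z _ => hTt.differentiable z) (fun z _ => ?_) convex_univ (Set.mem_univ y) (Set.mem_univ x)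
    have := fderiv_test (U := I) hf hΦ 0 z
    simp only [pt, hI, ContinuousLinearMap.coe_id', id, zero_add] at this
    rw [show T = fun x => fderiv ℝ f (x + Φ x) from rfl, this, mul_comm (2 : ℝ)]
    exact (ContinuousLinearMap.opNorm_comp_le _ _).trans (mul_le_mul (h2 _) ((norm_add_le _ _).trans
      (by linarith [ContinuousLinearMap.norm_id_le (𝕜 := ℝ) (E := E d), hu z])) (norm_nonneg _) hK2)
  have eF : ∫ w, T w (F w) ∂gau (Fin d) =
      -(∫ w, T w (p (X w)) ∂gau (Fin d)) + ∫ w, T w (psi I ρ0 N w) ∂gau (Fin d) := by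
    simp only [hF, tiltF, map_add, map_neg]
    exact (integral_add (iT _ hXp).fun_neg (iT _ (pg_psi hNp ρ0))).trans
      (by rw [integral_neg])
  -- splitting
  have s1 : ∫ w, T w (S w - Φ w) ∂gau (Fin d) =
      (∫ w, T w (S w) ∂gau (Fin d)) - ∫ w, T w (Φ w) ∂gau (Fin d) := by
    simp only [map_sub]; exact integral_sub (iT _ (PG.of_tame hSt)) (iT _ hΦp)
  have tsub : ∀ w (A A' : E d →L[ℝ] E d),
      trPair (B w) (Y w) (A - A') = trPair (B w) (Y w) A - trPair (B w) (Y w) A' := fun w =>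
    trPair_sub (B w) (Y w)
  have s2 : ∫ w, trPair (B w) (Y w) (fderiv ℝ S w - fderiv ℝ Φ w) ∂gau (Fin d) =
      (∫ w, trPair (B w) (Y w) (fderiv ℝ S w) ∂gau (Fin d)) -
        ∫ w, trPair (B w) (Y w) (fderiv ℝ Φ w) ∂gau (Fin d) := by
    simp only [tsub]; exact integral_sub (iP _ hDS) (iP _ hDΦ)
  have s3 : ∫ w, trPair (B w) (Y w) (N w - ou ρ0 N w) ∂gau (Fin d) =
      (∫ w, trPair (B w) (Y w) (N w) ∂gau (Fin d)) -
        ∫ w, trPair (B w) (Y w) (ou ρ0 N w) ∂gau (Fin d) := by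
    simp only [tsub]; exact integral_sub (iP _ hNp) (iP _ (pg_ou hNp ρ0))
  have s4 : ∫ w, trPair (B w) (Y w) (N w) ∂gau (Fin d) =
      (∫ w, trPair (B w) (fderiv ℝ Φ w) (fderiv ℝ Φ w) ∂gau (Fin d)) -
        ∫ w, trPair (B w) I (R w) ∂gau (Fin d) := by
    simp only [eser]; exact integral_sub iDD iR
  have s5 : ∫ w, T w (Φ w + p (X w)) ∂gau (Fin d) =
      (∫ w, T w (Φ w) ∂gau (Fin d)) + ∫ w, T w (p (X w)) ∂gau (Fin d) := by
    simp only [map_add]; exact integral_add (iT _ hΦp) (iT _ hXp)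
  have b1 : |∫ w, T w (S w - Φ w) ∂gau (Fin d)| ≤ K1 * l2 (fun w => S w - Φ w) :=
    abs_integral_le_l2 hK1 (by simpa [sub_eq_add_neg] using (PG.of_tame hSt).add (hΦp.smul (-1)))
      fun w => (Real.norm_eq_abs _).symm.trans_le
        (((T w).le_opNorm _).trans (mul_le_mul_of_nonneg_right (h1 _) (norm_nonneg _)))
  have b2 : |∫ w, trPair (B w) (Y w) (fderiv ℝ S w - fderiv ℝ Φ w) ∂gau (Fin d)| ≤
      K2 * (2 * √(d : ℝ)) * l2 (fun w => hentry (fderiv ℝ S w - fderiv ℝ Φ w)) :=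
    abs_integral_le_l2 (by positivity)
      ((by simpa [sub_eq_add_neg] using hDS.add (hDΦ.smul (-1)) :
        PG fun w => fderiv ℝ S w - fderiv ℝ Φ w).clm hentry) fun w => hA w _
  have b3 : |∫ w, trPair (B w) (Y w) (N w - ou ρ0 N w) ∂gau (Fin d)| ≤
      K2 * (2 * √(d : ℝ)) * l2 (fun w => hentry (N w - ou ρ0 N w)) :=
    abs_integral_le_l2 (by positivity)
      ((by simpa [sub_eq_add_neg] using hNp.add ((pg_ou hNp ρ0).smul (-1)) :
        PG fun w => N w - ou ρ0 N w).clm hentry) fun w => hA w _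
  have b4 : |∫ w, trPair (B w) I (R w) ∂gau (Fin d)| ≤ K2 * d * u ^ (q + 2) :=
    abs_integral_le_integral_abs.trans ((integral_mono_of_nonneg (ae_of_all _ fun w => abs_nonneg _)
      (integrable_const _) (ae_of_all _ hRb)).trans_eq (by simp))
  change |∫ w, genOp f 0 0 p (X w) ∂gau (Fin d)| ≤ _
  rw [master]
  change |(-∫ w, T w (Φ w + p (X w)) ∂gau (Fin d)) -
    (∫ w, trPair (B w) (Y w) (fderiv ℝ Φ w) ∂gau (Fin d)) +
    ∫ w, trPair (B w) (fderiv ℝ Φ w) (fderiv ℝ Φ w) ∂gau (Fin d)| ≤ _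
  rw [abs_le] at b1 b2 b3 b4 hmis hr
  rw [abs_le]
  constructor <;> linarith [b1.1, b1.2, b2.1, b2.2, b3.1, b3.2, b4.1, b4.2, hmis.1, hmis.2, hr.1,
    hr.2]

end

end Vale.Agent.P347
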