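import Vale.Agent.P347Zero.Engine
import Vale.Agent.P347Zero.Mehler
import Vale.Agent.P347Zero.EngineTools
import Vale.Agent.P347Zero.TiltEngine
import Vale.Agent.P347Zero.SteinTest

/-!
P347 (exponent zero, M9): the semantic part of the compensation of one binder. The Picard step
without conversion errors is `stepM`; its residual, its contraction in the derivative of the
iterate, and the resulting bound on the Stein operator along perturbed iterates.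
-/

open MeasureTheory ProbabilityTheory Real Filter
open scoped RealInnerProductSpace Topology

set_option maxSynthPendingDepth 3

namespace Vale.Agent.P347

open Quad

noncomputable section

variable {ι : Type*} [Fintype ι] {d : ℕ}

/-! ### Linear operations -/

lemma PG.sub {F : Type*} [NormedAddCommGroup F] [NormedSpace ℝ F] {f g : EuclideanSpace ℝ ι → F}
    (hf : PG f) (hg : PG g) : PG fun x => f x - g x := by
  simpa [sub_eq_add_neg] using hf.add (hg.smul (-1))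

lemma ou_sum {F : Type*} [NormedAddCommGroup F] [NormedSpace ℝ F] {J : Type*} (t : Finset J)
    (c : J → ℝ) {f : J → EuclideanSpace ℝ ι → F} (hf : ∀ j, PG (f j)) (a : ℝ)
    (x : EuclideanSpace ℝ ι) :
    ou a (fun y => ∑ j ∈ t, c j • f j y) x = ∑ j ∈ t, c j • ou a (f j) x := by
  simp only [ou]
  rw [integral_finsetSum _ fun j _ => ?_]
  · exact Finset.sum_congr rfl fun j _ => integral_smul _ _
  · obtain ⟨hc, K, n, hK, h⟩ := (hf j).smul (c j)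
    exact integrable_slice2 hc hK h _ _ x

lemma ou_sub_pg {F : Type*} [NormedAddCommGroup F] [NormedSpace ℝ F]
    {f g : EuclideanSpace ℝ ι → F} (hf : PG f) (hg : PG g) (a : ℝ) (x : EuclideanSpace ℝ ι) :
    ou a (fun y => f y - g y) x = ou a f x - ou a g x := by
  obtain ⟨hfc, K, n, hK, h⟩ := hf
  obtain ⟨hgc, K', n', hK', h'⟩ := hg
  simp only [ou]
  exact integral_sub (integrable_slice2 hfc hK h _ _ x) (integrable_slice2 hgc hK' h' _ _ x)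

lemma tame_ou_growth {F : EuclideanSpace ℝ ι → E d} (hF : PG F) {a : ℝ} (ha : a ^ 2 < 1) :
    Tame (ou a F) := by
  obtain ⟨-, K, n, hK, h⟩ := pg_ou hF a
  obtain ⟨hc', K', n', hK', h'⟩ := pg_fderiv_ou ha hF
  exact ⟨contDiff_one_iff_fderiv.2 ⟨fun x => (hasFDerivAt_ou_growth ha hF x).differentiableAt, hc'⟩,
    K + K', n + n', add_nonneg hK hK',
    fun x => (h.mono (le_add_of_nonneg_right hK') (by omega) (add_nonneg hK hK')) x,
    fun x => ((show PolyLe (fderiv ℝ (ou a F)) K' n' from h').mono (le_add_of_nonneg_left hK)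
      (by omega) (add_nonneg hK hK')) x⟩

lemma sqrt_hsq_eq_hn (A : EuclideanSpace ℝ ι →L[ℝ] E d) : √(hsq A) = hn A := by
  rw [← Real.sqrt_sq (hn_nonneg A), hn_sq]; rfl

lemma sum_norm_col_le (A : E d →L[ℝ] E d) :
    ∑ i, ‖A (EuclideanSpace.basisFun (Fin d) ℝ i)‖ ≤ √(d : ℝ) * hn A := by
  have h := Real.sum_mul_le_sqrt_mul_sqrt Finset.univ (fun _ : Fin d => (1 : ℝ))
    fun i => ‖A (EuclideanSpace.basisFun (Fin d) ℝ i)‖
  simp only [one_mul, one_pow, Finset.sum_const, Finset.card_univ, Fintype.card_fin,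
    nsmul_eq_mul, mul_one, ← hn_sq, Real.sqrt_sq (hn_nonneg A)] at h
  exact h

/-- A smoothed operator is a little more than a contraction of a small difference. -/
lemma l2_ou_diff_le {f : EuclideanSpace ℝ ι → E d} (hf : PG f) {a e : ℝ} (ha : a ∈ Set.Ico (0 : ℝ) 1)
    (he : l2 f ≤ e) :
    l2 (ou a f) ≤ e ∧
      l2 (fun x => hentry (fderiv ℝ (ou a f) x)) ≤ (√(1 - a ^ 2))⁻¹ * e := by
  have ha2 : a ^ 2 < 1 := pow_lt_one₀ ha.1 ha.2 two_ne_zero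
  refine ⟨(l2_ou_le ha2.le hf).trans he, (l2_fderiv_ou_le ha2 hf).trans ?_⟩
  rw [abs_of_nonneg ha.1, div_eq_mul_inv]
  exact mul_le_mul (mul_le_of_le_one_left (by positivity) ha.2.le) he (l2_nonneg _) (by positivity)

/-! ### The Picard step without conversion errors -/

variable {n : ℕ} (P : EuclideanSpace ℝ ι →L[ℝ] E d) (σ : ℝ) (ρ w : Fin n → ℝ) (ρ₀ ρ₁ : ℝ)

/-- The rule applied to the Mehler form. -/
def preM (M : EuclideanSpace ℝ ι → E d →L[ℝ] E d) (x : EuclideanSpace ℝ ι) : E d :=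
  ∑ k, (w k * ρ k / σ) • psi P (ρ₀ * ρ k) M x

/-- The step. -/
def stepM (M : EuclideanSpace ℝ ι → E d →L[ℝ] E d) : EuclideanSpace ℝ ι → E d :=
  ou ρ₁ (preM P σ ρ w ρ₀ M)

/-- The right hand side of the step before the inversion. -/
def rhsM (M : EuclideanSpace ℝ ι → E d →L[ℝ] E d) (x : EuclideanSpace ℝ ι) : E d :=
  σ⁻¹ • psi P ρ₀ M x

variable {P σ ρ w ρ₀ ρ₁} {M M' : EuclideanSpace ℝ ι → E d →L[ℝ] E d}

lemma pg_rhsM (hM : PG M) : PG (rhsM P σ ρ₀ M) := (pg_psi hM ρ₀).smul σ⁻¹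

lemma pg_preM (hM : PG M) : PG (preM P σ ρ w ρ₀ M) :=
  PG.sum _ fun _ _ => (pg_psi hM _).smul _

variable (hρ : ∀ k, ρ k ∈ Set.Ico (0 : ℝ) 1) (h0 : ρ₀ ∈ Set.Ioo (0 : ℝ) 1)

include hρ h0

lemma preM_eq_rule (hM : PG M) (x : EuclideanSpace ℝ ι) :
    preM P σ ρ w ρ₀ M x = ∑ k, w k • ou (ρ k) (rhsM P σ ρ₀ M) x := by
  refine Finset.sum_congr rfl fun k _ => ?_
  have h1 : ρ k ^ 2 ≤ 1 := pow_le_one₀ (hρ k).1 (hρ k).2.le
  have e : ou (ρ k) (rhsM P σ ρ₀ M) x = σ⁻¹ • ou (ρ k) (psi P ρ₀ M) x := by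
    simp only [ou, rhsM, integral_smul]
  rw [e, ou_psi hM h1 (pow_lt_one₀ h0.1.le h0.2 two_ne_zero), smul_smul, smul_smul,
    mul_comm ρ₀ (ρ k)]
  congr 1
  ring

omit h0 in
lemma rho_mul_sq_lt {c : ℝ} (hc : c ∈ Set.Icc (0 : ℝ) 1) (k : Fin n) : (c * ρ k) ^ 2 < 1 :=
  pow_lt_one₀ (mul_nonneg hc.1 (hρ k).1)
    (lt_of_le_of_lt (mul_le_of_le_one_left (hρ k).1 hc.2) (hρ k).2) two_ne_zero

variable (hw : ∀ k, 0 ≤ w k) (hP : ‖P‖ ≤ 1) (hσ : 0 < σ) {R L : ℝ}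
  (hR : ∑ k, w k * ρ k / √(1 - (ρ₀ * ρ k) ^ 2) ≤ R)
  (hL : ∑ k, w k * (ρ k / (1 - ρ k * ρ₀)) ≤ L) (h1 : ρ₁ ∈ Set.Ioo (0 : ℝ) 1)

include hw hP hσ hR in
lemma l2_preM_le (hM : PG M) :
    l2 (preM P σ ρ w ρ₀ M) ≤ R * σ⁻¹ * l2 (fun x => hentry (M x)) := by
  refine (l2_sum _ fun k _ => (pg_psi hM _).smul _).trans ?_
  refine (Finset.sum_le_sum fun k _ => (?_ : _ ≤ w k * ρ k / √(1 - (ρ₀ * ρ k) ^ 2) *
    (σ⁻¹ * l2 fun x => hentry (M x)))).trans ?_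
  · rw [l2_smul, abs_of_nonneg (div_nonneg (mul_nonneg (hw k) (hρ k).1) hσ.le)]
    refine (mul_le_mul_of_nonneg_left (l2_psi_le hP hM (rho_mul_sq_lt hρ ⟨h0.1.le, h0.2.le⟩ k))
      (div_nonneg (mul_nonneg (hw k) (hρ k).1) hσ.le)).trans (le_of_eq ?_)
    field_simp
  · rw [← Finset.sum_mul, mul_assoc]
    exact mul_le_mul_of_nonneg_right hR (mul_nonneg (inv_nonneg.2 hσ.le) (l2_nonneg _))

include hw hP hσ hR hL h1 in
/-- The step is Lipschitz: in quadratic mean, and with a logarithm in its derivative. -/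
lemma l2_stepM_sub_le (hM : PG M) (hM' : PG M') :
    l2 (fun x => stepM P σ ρ w ρ₀ ρ₁ M x - stepM P σ ρ w ρ₀ ρ₁ M' x) ≤
        R * σ⁻¹ * l2 (fun x => hentry (M x - M' x)) ∧
      l2 (fun x => hentry (fderiv ℝ (fun y => stepM P σ ρ w ρ₀ ρ₁ M y - stepM P σ ρ w ρ₀ ρ₁ M' y) x))
        ≤ L * σ⁻¹ * l2 (fun x => hentry (M x - M' x)) := by
  have hN : PG fun x => M x - M' x := hM.sub hM'
  have h1' : ρ₁ ^ 2 ≤ 1 := pow_le_one₀ h1.1.le h1.2.le
  have e1 : (fun x => stepM P σ ρ w ρ₀ ρ₁ M x - stepM P σ ρ w ρ₀ ρ₁ M' x) =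
      ou ρ₁ (preM P σ ρ w ρ₀ fun x => M x - M' x) := funext fun x => by
    rw [stepM, stepM, ← ou_sub_pg (pg_preM hM) (pg_preM hM')]
    refine congrFun (congrArg (ou ρ₁) (funext fun y => ?_)) x
    simp only [preM, psi_sub hM hM', smul_sub, Finset.sum_sub_distrib]
  rw [e1]
  refine ⟨(l2_ou_le h1' (pg_preM hN)).trans (l2_preM_le hρ h0 hw hP hσ hR hN), ?_⟩
  have e2 : ou ρ₁ (preM P σ ρ w ρ₀ fun x => M x - M' x) = fun x => ∑ k, w k •
      (ou (ρ₁ * ρ k) (fun _ => (0 : E d)) x +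
        σ⁻¹ • ou (ρ₁ * ρ k) (psi P ρ₀ fun x => M x - M' x) x) := funext fun x => by
    rw [funext fun y => preM_eq_rule hρ h0 hN y (P := P) (σ := σ) (w := w),
      ou_sum _ _ fun k => pg_ou (pg_rhsM hN) _]
    refine Finset.sum_congr rfl fun k _ => ?_
    rw [ou_ou_pg (pg_rhsM hN) h1' (pow_le_one₀ (hρ k).1 (hρ k).2.le)]
    simp [ou, rhsM, integral_smul]
  rw [e2]
  refine ((picard_le hP hw (r := fun k => ρ₁ * ρ k) (fun k => ⟨mul_nonneg h1.1.le (hρ k).1,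
    lt_of_le_of_lt (mul_le_of_le_one_left (hρ k).1 h1.2.le) (hρ k).2⟩) h0 pg_zero hN σ⁻¹).2.2).trans ?_
  have hz : l2 (fun _ : EuclideanSpace ℝ ι => (0 : E d)) = 0 := by simp [l2]
  rw [hz, mul_zero, zero_add, abs_of_pos (inv_pos.2 hσ), mul_assoc]
  refine mul_le_mul_of_nonneg_right (le_trans (Finset.sum_le_sum fun k _ =>
    mul_le_mul_of_nonneg_left ?_ (hw k)) hL) (mul_nonneg (inv_nonneg.2 hσ.le) (l2_nonneg _))
  have hk := hρ k
  have hd : 0 < 1 - ρ k * ρ₀ := by nlinarith [h0.1, h0.2, hk.1, hk.2]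
  have hle : ρ₁ * ρ k ≤ ρ k := mul_le_of_le_one_left hk.1 h1.2.le
  exact div_le_div₀ hk.1 hle hd
    (by linarith [mul_le_mul_of_nonneg_right hle h0.1.le])

end

/-! ### The residual -/

noncomputable section

variable {ι : Type*} [Fintype ι] {d : ℕ}

/-- The matrix of a step: the truncated series of the target with a covariance kernel `Q`. -/
def matM (Gv : EuclideanSpace ℝ ι → E d) (Q : EuclideanSpace ℝ ι → EuclideanSpace ℝ ι →L[ℝ] E d)
    (J : E d →L[ℝ] EuclideanSpace ℝ ι) (σ : ℝ) (q : ℕ) (Φ : EuclideanSpace ℝ ι → E d)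
    (x : EuclideanSpace ℝ ι) : E d →L[ℝ] E d :=
  series ((fderiv ℝ Φ x - Q x).comp (fderiv ℝ Gv x + fderiv ℝ Φ x).adjoint) (blockD Φ J σ x) q

lemma target_series_eq (Gv Φ : EuclideanSpace ℝ ι → E d) (J : E d →L[ℝ] EuclideanSpace ℝ ι)
    (σ : ℝ) (q : ℕ) (x : EuclideanSpace ℝ ι) :
    series (target Gv Φ x) (blockD Φ J σ x) q = matM Gv (covD Gv) J σ q Φ x := rfl

section bounds

variable {Gv Φ Φ' : EuclideanSpace ℝ ι → E d} {Q Q' : EuclideanSpace ℝ ι → EuclideanSpace ℝ ι →L[ℝ] E d}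
  {J : E d →L[ℝ] EuclideanSpace ℝ ι} {σ u : ℝ} {x : EuclideanSpace ℝ ι}

lemma norm_blockD_le (hσ : 0 < σ) (hσ2 : σ⁻¹ ≤ 2) (hJ : ‖J‖ ≤ 1) (hΦ : ‖fderiv ℝ Φ x‖ ≤ u) :
    ‖blockD Φ J σ x‖ ≤ 2 * u := by
  rw [blockD, norm_smul, Real.norm_eq_abs, abs_of_pos (inv_pos.2 hσ), LinearIsometryEquiv.norm_map]
  exact mul_le_mul hσ2 (((fderiv ℝ Φ x).opNorm_comp_le J).trans ((mul_le_of_le_one_right
    (norm_nonneg _) hJ).trans hΦ)) (norm_nonneg _) zero_le_two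

lemma norm_pow_le_one {A : E d →L[ℝ] E d} (h : ‖A‖ ≤ 1) (i : ℕ) : ‖A ^ i‖ ≤ 1 := by
  rcases Nat.eq_zero_or_pos i with rfl | hi
  · rw [pow_zero]; exact ContinuousLinearMap.norm_id_le
  · exact (norm_pow_le' A hi).trans (pow_le_one₀ (norm_nonneg _) h)

lemma norm_sum_pow_le {A : E d →L[ℝ] E d} (h : ‖A‖ ≤ 1) (q : ℕ) :
    ‖∑ i ∈ Finset.range q, (-A) ^ i‖ ≤ q :=
  (norm_sum_le _ _).trans ((Finset.sum_le_card_nsmul _ _ 1 fun i _ =>
    norm_pow_le_one (by rwa [norm_neg]) i).trans_eq (by simp))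

lemma hn_sum_pow_sub_le {A A' : E d →L[ℝ] E d} (h : ‖A‖ ≤ 1) (h' : ‖A'‖ ≤ 1) (q : ℕ) :
    hn ((∑ i ∈ Finset.range q, (-A) ^ i) - ∑ i ∈ Finset.range q, (-A') ^ i) ≤
      (q : ℝ) ^ 2 * hn (A - A') := by
  rw [← Finset.sum_sub_distrib]
  refine (hn_sum_le _ _).trans ((Finset.sum_le_card_nsmul _ _ ((q : ℝ) * hn (A - A')) fun i hi => ?_).trans_eq
    (by simp only [Finset.card_range, nsmul_eq_mul]; ring))
  refine (hn_pow_sub_le (u := 1) (by rwa [norm_neg]) (by rwa [norm_neg]) i).trans ?_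
  rw [one_pow, mul_one, show -A - -A' = (-1 : ℝ) • (A - A') by simp; abel, hn_smul, abs_neg, abs_one,
    one_mul]
  exact mul_le_mul_of_nonneg_right (by exact_mod_cast (Finset.mem_range.1 hi).le) (hn_nonneg _)

variable (hu : u ≤ 1 / 4) (hσ : 0 < σ) (hσ2 : σ⁻¹ ≤ 2) (hJ : ‖J‖ ≤ 1)
  (hG : ‖fderiv ℝ Gv x‖ ≤ u) (hΦ : ‖fderiv ℝ Φ x‖ ≤ u)

include hu hσ hσ2 hJ hG hΦ

lemma norm_matM_le (hQ : ‖Q x‖ ≤ u) (q : ℕ) : ‖matM Gv Q J σ q Φ x‖ ≤ 4 * q * u ^ 2 := by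
  have hu0 : 0 ≤ u := (norm_nonneg _).trans hG
  have hA : ‖blockD Φ J σ x‖ ≤ 1 := (norm_blockD_le hσ hσ2 hJ hΦ).trans (by linarith)
  refine (norm_mul_le _ _).trans ((mul_le_mul ((ContinuousLinearMap.opNorm_comp_le _ _).trans
    (mul_le_mul ((norm_sub_le _ _).trans (add_le_add hΦ hQ)) (?_ : _ ≤ u + u) (norm_nonneg _)
      (by positivity))) (norm_sum_pow_le hA q) (norm_nonneg _) (by positivity)).trans_eq (by ring))
  rw [LinearIsometryEquiv.norm_map]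
  exact (norm_add_le _ _).trans (add_le_add hG hΦ)

lemma hn_matM_sub_le (hΦ' : ‖fderiv ℝ Φ' x‖ ≤ u) (hQ : ‖Q x‖ ≤ u) (q : ℕ) :
    hn (matM Gv Q J σ q Φ x - matM Gv Q J σ q Φ' x) ≤
      12 * q ^ 2 * u * hn (fderiv ℝ Φ x - fderiv ℝ Φ' x) := by
  have hu0 : 0 ≤ u := (norm_nonneg _).trans hG
  set D := fderiv ℝ Φ x with hD
  set D' := fderiv ℝ Φ' x with hD'
  set G := fderiv ℝ Gv x with hGd
  have hA : ‖blockD Φ J σ x‖ ≤ 1 := (norm_blockD_le hσ hσ2 hJ hΦ).trans (by linarith)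
  have hA' : ‖blockD Φ' J σ x‖ ≤ 1 := (norm_blockD_le hσ hσ2 hJ hΦ').trans (by linarith)
  have hGD : ‖(G + D).adjoint‖ ≤ 2 * u := by
    rw [LinearIsometryEquiv.norm_map]; linarith [norm_add_le G D]
  have hGD' : ‖(G + D').adjoint‖ ≤ 2 * u := by
    rw [LinearIsometryEquiv.norm_map]; linarith [norm_add_le G D']
  have hDQ : ‖D' - Q x‖ ≤ 2 * u := (norm_sub_le _ _).trans (by linarith)
  -- the factor in front
  have hW : hn ((D - Q x).comp (G + D).adjoint - (D' - Q x).comp (G + D').adjoint) ≤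
      4 * u * hn (D - D') := by
    refine (hn_comp_sub_le _ _ _ _).trans ?_
    rw [show D - Q x - (D' - Q x) = D - D' by abel, ← map_sub, hn_adjoint,
      show G + D - (G + D') = D - D' by abel]
    have := mul_le_mul_of_nonneg_left hGD (hn_nonneg (D - D'))
    have := mul_le_mul_of_nonneg_right hDQ (hn_nonneg (D - D'))
    linarith
  have hW' : ‖(D' - Q x).comp (G + D').adjoint‖ ≤ 4 * u ^ 2 :=
    (ContinuousLinearMap.opNorm_comp_le _ _).trans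
      ((mul_le_mul hDQ hGD' (norm_nonneg _) (by linarith)).trans_eq (by ring))
  have hB : hn (blockD Φ J σ x - blockD Φ' J σ x) ≤ 2 * hn (D - D') := by
    rw [blockD, blockD, ← smul_sub, ← map_sub, hn_smul, abs_of_pos (inv_pos.2 hσ), hn_adjoint,
      ← ContinuousLinearMap.sub_comp]
    exact mul_le_mul hσ2 ((hn_comp_le' _ _).trans (mul_le_of_le_one_right (hn_nonneg _) hJ))
      (hn_nonneg _) zero_le_two
  rcases Nat.eq_zero_or_pos q with rfl | hq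
  · simp [matM, series, hn_zero]
  have hq1 : (1 : ℝ) ≤ q := by exact_mod_cast hq
  simp only [matM, series, ContinuousLinearMap.mul_def]
  refine (hn_comp_sub_le _ _ _ _).trans ?_
  have t1 := mul_le_mul hW (norm_sum_pow_le hA q) (norm_nonneg _)
    (mul_nonneg (by linarith) (hn_nonneg _))
  have t2 := mul_le_mul hW' ((hn_sum_pow_sub_le hA hA' q).trans
    (mul_le_mul_of_nonneg_left hB (sq_nonneg _))) (hn_nonneg _) (by positivity)
  refine (add_le_add t1 t2).trans (le_of_sub_nonneg ?_)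
  have h0 : 0 ≤ u * hn (D - D') * q := by
    have := hn_nonneg (D - D'); positivity
  have h8 : 0 ≤ 12 * (q : ℝ) - 4 - 8 * u * q := by nlinarith
  calc (0 : ℝ) ≤ u * hn (D - D') * q * (12 * q - 4 - 8 * u * q) := mul_nonneg h0 h8
    _ = _ := by ring

lemma hn_matM_kernel_le (q : ℕ) :
    hn (matM Gv Q J σ q Φ x - matM Gv Q' J σ q Φ x) ≤ 2 * q * u * hn (Q x - Q' x) := by
  have hu0 : 0 ≤ u := (norm_nonneg _).trans hG
  have hA : ‖blockD Φ J σ x‖ ≤ 1 := (norm_blockD_le hσ hσ2 hJ hΦ).trans (by linarith)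
  simp only [matM, series, ← sub_mul, ← ContinuousLinearMap.sub_comp,
    show fderiv ℝ Φ x - Q x - (fderiv ℝ Φ x - Q' x) = (-1 : ℝ) • (Q x - Q' x) by simp]
  rw [ContinuousLinearMap.mul_def]
  refine (hn_comp_le' _ _).trans ((mul_le_mul ((hn_comp_le' _ _).trans
    (mul_le_mul (le_of_eq (hn_smul (-1) _)) (?_ : _ ≤ u + u) (norm_nonneg _)
      (mul_nonneg (abs_nonneg _) (hn_nonneg _)))) (norm_sum_pow_le hA q) (norm_nonneg _)
      (mul_nonneg (mul_nonneg (abs_nonneg _) (hn_nonneg _)) (by positivity))).trans_eq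
      (by rw [abs_neg, abs_one]; ring))
  rw [LinearIsometryEquiv.norm_map]
  exact (norm_add_le _ _).trans (add_le_add hG hΦ)

end bounds

lemma continuous_matM {Gv Φ : EuclideanSpace ℝ ι → E d}
    {Q : EuclideanSpace ℝ ι → EuclideanSpace ℝ ι →L[ℝ] E d} (hGv : Tame Gv) (hΦ : Tame Φ)
    (hQ : Continuous Q) (J : E d →L[ℝ] EuclideanSpace ℝ ι) (σ : ℝ) (q : ℕ) :
    Continuous (matM Gv Q J σ q Φ) := by
  have hadjc : Continuous fun L : EuclideanSpace ℝ ι →L[ℝ] E d => L.adjoint :=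
    (ContinuousLinearMap.adjoint (𝕜 := ℝ) (E := EuclideanSpace ℝ ι) (F := E d)).continuous
  have hA : Continuous (blockD Φ J σ) :=
    ((ContinuousLinearMap.adjoint (𝕜 := ℝ) (E := E d) (F := E d)).continuous.comp
      (hΦ.continuous_fderiv.clm_comp continuous_const)).const_smul σ⁻¹
  exact ((hΦ.continuous_fderiv.sub hQ).clm_comp
    (hadjc.comp (hGv.continuous_fderiv.add hΦ.continuous_fderiv))).mul
      (continuous_finsetSum _ fun i _ => hA.neg.pow i)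

section residual

variable {Gv Φ : EuclideanSpace ℝ ι → E d} {J : E d →L[ℝ] EuclideanSpace ℝ ι} {σ u : ℝ}
  (hGv : Tame Gv) (hΦt : Tame Φ) (hJ : ‖J‖ ≤ 1) (hσ : 0 < σ) (hσ2 : σ⁻¹ ≤ 2) (hu : u ≤ 1 / 4)
  (hG : ∀ x, ‖fderiv ℝ Gv x‖ ≤ u) (hΦ : ∀ x, ‖fderiv ℝ Φ x‖ ≤ u)

include hGv hJ hσ hσ2 hG hΦ

/-- The last term of the series. -/
lemma integral_power_le (q : ℕ) :
    ∫ x, ∑ i, ‖(target Gv Φ x * (-blockD Φ J σ x) ^ q)
      (EuclideanSpace.basisFun (Fin d) ℝ i)‖ ∂gau ι ≤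
      (d : ℝ) * ((u + ∫ x, ‖covD Gv x‖ ∂gau ι) * (2 * u) * (2 * u) ^ q) := by
  have hu0 : 0 ≤ u := (norm_nonneg _).trans (hG 0)
  have hAb : ∀ x, ‖blockD Φ J σ x‖ ≤ 2 * u := fun x => norm_blockD_le hσ hσ2 hJ (hΦ x)
  obtain ⟨hCc, KC, nC, hKC, hCb⟩ := polyLe_covD hGv
  have hCi : Integrable (fun x => ‖covD Gv x‖) (gau ι) :=
    (integrable_of_polyLe hCc.aestronglyMeasurable hCb).norm
  have hp : ∀ x, ∑ i, ‖(target Gv Φ x * (-blockD Φ J σ x) ^ q)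
      (EuclideanSpace.basisFun (Fin d) ℝ i)‖ ≤
      (d : ℝ) * ((u + ‖covD Gv x‖) * (2 * u) * (2 * u) ^ q) := by
    intro x
    refine (Finset.sum_le_card_nsmul _ _ ((u + ‖covD Gv x‖) * (2 * u) * (2 * u) ^ q)
      fun i _ => ?_).trans_eq (by simp)
    refine ((target Gv Φ x * _).le_opNorm _).trans ?_
    rw [OrthonormalBasis.norm_eq_one, mul_one]
    refine (norm_mul_le _ _).trans (mul_le_mul ((ContinuousLinearMap.opNorm_comp_le _ _).trans
      (mul_le_mul ((norm_sub_le _ _).trans (add_le_add (hΦ x) le_rfl)) ?_ (norm_nonneg _)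
        (by positivity))) ?_ (norm_nonneg _) (by positivity))
    · rw [LinearIsometryEquiv.norm_map]
      linarith [norm_add_le (fderiv ℝ Gv x) (fderiv ℝ Φ x), hG x, hΦ x]
    · rcases Nat.eq_zero_or_pos q with rfl | hq
      · rw [pow_zero, pow_zero]; exact ContinuousLinearMap.norm_id_le
      · exact (norm_pow_le' _ hq).trans (pow_le_pow_left₀ (norm_nonneg _)
          (by rw [norm_neg]; exact hAb x) q)
  refine (integral_mono_of_nonneg (ae_of_all _ fun x => Finset.sum_nonneg fun i _ => norm_nonneg _)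
    (((((integrable_const u).add hCi).mul_const _).mul_const _).const_mul _)
    (ae_of_all _ hp)).trans (le_of_eq ?_)
  simp only [Pi.add_apply]
  rw [integral_const_mul, integral_mul_const, integral_mul_const,
    integral_add (integrable_const _) hCi, integral_const, probReal_univ, one_smul]

include hΦt hu

/-- The mismatch of the matrices. -/
lemma integral_mismatch_le (q : ℕ) {PN : EuclideanSpace ℝ ι → E d →L[ℝ] E d}
    (hPN : PG PN) {eM : ℝ}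
    (hmat : l2 (fun x => hentry (PN x - matM Gv (covD Gv) J σ q Φ x)) ≤ eM) :
    ∫ x, ∑ i, ‖((PN x - series (target Gv Φ x) (blockD Φ J σ x) q) * (1 + blockD Φ J σ x))
      (EuclideanSpace.basisFun (Fin d) ℝ i)‖ ∂gau ι ≤ √(d : ℝ) * 2 * eM := by
  have hu0 : 0 ≤ u := (norm_nonneg _).trans (hG 0)
  have hAb : ∀ x, ‖blockD Φ J σ x‖ ≤ 2 * u := fun x => norm_blockD_le hσ hσ2 hJ (hΦ x)
  obtain ⟨hCc, KC, nC, hKC, hCb⟩ := polyLe_covD hGv
  have hCi : Integrable (fun x => ‖covD Gv x‖) (gau ι) :=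
    (integrable_of_polyLe hCc.aestronglyMeasurable hCb).norm
  set Y := fun x => PN x - matM Gv (covD Gv) J σ q Φ x with hY
  have hYp : PG Y := by
    refine hPN.sub ?_
    refine ⟨continuous_matM hGv hΦt hCc J σ q, (1 + KC) * (2 * u) * q, nC,
      by positivity, fun x => ?_⟩
    have hA1 : ‖blockD Φ J σ x‖ ≤ 1 := (hAb x).trans (by linarith)
    refine (norm_mul_le _ _).trans ((mul_le_mul ((ContinuousLinearMap.opNorm_comp_le _ _).trans
      (mul_le_mul ((norm_sub_le _ _).trans (add_le_add (hΦ x) (hCb x)))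
        (?_ : _ ≤ 2 * u) (norm_nonneg _) (by positivity))) (norm_sum_pow_le hA1 q) (norm_nonneg _)
        (by positivity)).trans ?_)
    · rw [LinearIsometryEquiv.norm_map]
      linarith [norm_add_le (fderiv ℝ Gv x) (fderiv ℝ Φ x), hG x, hΦ x]
    · have h1p := one_le_pw x nC
      have : u + KC * (1 + ‖x‖) ^ nC ≤ (1 + KC) * (1 + ‖x‖) ^ nC := by nlinarith
      calc _ ≤ (1 + KC) * (1 + ‖x‖) ^ nC * (2 * u) * q := by gcongr
        _ = _ := by ring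
  have hp : ∀ x, ∑ i, ‖((PN x - series (target Gv Φ x) (blockD Φ J σ x) q) *
      (1 + blockD Φ J σ x)) (EuclideanSpace.basisFun (Fin d) ℝ i)‖ ≤
      √(d : ℝ) * 2 * ‖hentry (Y x)‖ := by
    intro x
    refine (sum_norm_col_le _).trans ?_
    rw [mul_assoc, target_series_eq, ContinuousLinearMap.mul_def]
    refine mul_le_mul_of_nonneg_left ((hn_comp_le' _ _).trans ?_) (Real.sqrt_nonneg _)
    rw [mul_comm 2]
    exact mul_le_mul_of_nonneg_left ((norm_add_le _ _).trans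
      (by linarith [ContinuousLinearMap.norm_id_le (𝕜 := ℝ) (E := E d), hAb x,
        show ‖(1 : E d →L[ℝ] E d)‖ ≤ 1 from ContinuousLinearMap.norm_id_le])) (hn_nonneg _)
  refine (integral_mono_of_nonneg (ae_of_all _ fun x => Finset.sum_nonneg fun i _ => norm_nonneg _)
    ((hYp.clm hentry).integrable.norm.const_mul _) (ae_of_all _ hp)).trans ?_
  rw [integral_const_mul]
  exact mul_le_mul_of_nonneg_left ((integral_norm_le_l2 (hYp.clm hentry)).trans hmat)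
    (by positivity)

end residual

/-- The Stein residual of an approximate fixed point of the step. -/
theorem debias_residual {f : E d → ℝ} (hf : ContDiff ℝ 2 f) (h1 : ∀ x, ‖fderiv ℝ f x‖ ≤ 1)
    {K2 : ℝ} (h2 : ∀ x, ‖fderiv ℝ (fderiv ℝ f) x‖ ≤ K2)
    {U : EuclideanSpace ℝ ι →L[ℝ] E d} (hU : ∀ v, U (U.adjoint v) = v) (hUn : ‖U‖ ≤ 1)
    {Gv Φ : EuclideanSpace ℝ ι → E d} (hGv : Tame Gv) (hΦt : Tame Φ)
    (hGU : ∀ x v, fderiv ℝ Gv x (U.adjoint v) = 0) {J : E d →L[ℝ] EuclideanSpace ℝ ι}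
    (hJ : ‖J‖ ≤ 1) {σ : ℝ} (hσ : 0 < σ) (hσ2 : σ⁻¹ ≤ 2)
    (hσJ : ∀ v, U (J v) = σ • v) (hGJ : ∀ x v, fderiv ℝ Gv x (J v) = 0)
    {u : ℝ} (hu : u ≤ 1 / 4) (hG : ∀ x, ‖fderiv ℝ Gv x‖ ≤ u) (hΦ : ∀ x, ‖fderiv ℝ Φ x‖ ≤ u)
    {n : ℕ} {ε : ℝ} (Rl : Rule n ε) (U0 : ℝ) (q : ℕ) {ρ₀ ρ₁ : ℝ}
    (h0 : ρ₀ ∈ Set.Ioo (0 : ℝ) 1) (hρ₁ : ρ₁ ∈ Set.Ioo (0 : ℝ) 1)
    {M : EuclideanSpace ℝ ι → E d →L[ℝ] E d} (hM : PG M) {eV eD eM : ℝ}
    (hV : l2 (fun x => stepM J.adjoint σ (fun k => Rl.node k U0) (fun k => Rl.weight k U0) ρ₀ ρ₁ M x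
      - Φ x) ≤ eV)
    (hD : l2 (fun x => hentry (fderiv ℝ (fun y => stepM J.adjoint σ (fun k => Rl.node k U0)
      (fun k => Rl.weight k U0) ρ₀ ρ₁ M y - Φ y) x)) ≤ eD)
    (hmat : l2 (fun x => hentry (ρ₁ • ou (ρ₁ * ρ₀) M x - matM Gv (covD Gv) J σ q Φ x)) ≤ eM) :
    |∫ x, genOp f 0 (∫ x, Gv x ∂gau ι) (fun _ => 0) (pt U (fun x => Gv x + Φ x) 0 x) ∂gau ι| ≤
      eV + ε * (2 * (√(1 - ρ₀ ^ 2))⁻¹ * l2 (fun x => hentry (M x))) +
        K2 * (√(d : ℝ) * 2) * (eD + (√(1 - ρ₁ ^ 2))⁻¹ *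
          (ε * (2 * (√(1 - ρ₀ ^ 2))⁻¹ * l2 (fun x => hentry (M x))))) +
        K2 * ((d : ℝ) * ((u + ∫ x, ‖covD Gv x‖ ∂gau ι) * (2 * u) * (2 * u) ^ q)) +
        K2 * (√(d : ℝ) * 2 * eM) := by
  have hu0 : 0 ≤ u := (norm_nonneg _).trans (hG 0)
  have hε : 0 ≤ ε := (abs_nonneg _).trans (Rl.moment 0 U0)
  have hρ : ∀ k, Rl.node k U0 ∈ Set.Ico (0 : ℝ) 1 := fun k =>
    ⟨Rl.lo_nonneg.trans (Rl.node_mem k U0).1, (Rl.node_mem k U0).2.trans_lt Rl.hi_lt_one⟩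
  have h0sq : ρ₀ ^ 2 < 1 := pow_lt_one₀ h0.1.le h0.2 two_ne_zero
  have h1sq : ρ₁ ^ 2 < 1 := pow_lt_one₀ hρ₁.1.le hρ₁.2 two_ne_zero
  have h01 : (ρ₁ * ρ₀) ^ 2 < 1 := pow_lt_one₀ (mul_nonneg hρ₁.1.le h0.1.le)
    (lt_of_le_of_lt (mul_le_of_le_one_left h0.1.le hρ₁.2.le) h0.2) two_ne_zero
  set P := J.adjoint with hP
  have hPn : ‖P‖ ≤ 1 := by rw [hP, LinearIsometryEquiv.norm_map]; exact hJ
  set F0 := rhsM P σ ρ₀ M with hF0
  have hF0p : PG F0 := pg_rhsM hM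
  set F := ou ρ₁ F0 with hFd
  set Ψ := fun x => ρ₁ • psi P (ρ₁ * ρ₀) M x with hΨ
  have hFeq : ∀ x, F x = σ⁻¹ • Ψ x := fun x => by
    rw [hFd, hF0, hΨ]
    rw [show ou ρ₁ (rhsM P σ ρ₀ M) x = σ⁻¹ • ou ρ₁ (psi P ρ₀ M) x by
      simp only [ou, rhsM, integral_smul], ou_psi hM h1sq.le h0sq]
  have hFt : Tame F := tame_ou_growth hF0p h1sq
  set X := pt U (fun x => Gv x + Φ x) 0 with hX
  have hH : Tame fun x => Gv x + Φ x := hGv.add hΦt
  set PN := fun x => ρ₁ • ou (ρ₁ * ρ₀) M x with hPN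
  obtain ⟨hPNc, KN, nN, hKN, hPNb⟩ := (pg_ou hM (ρ₁ * ρ₀)).smul ρ₁
  have hTt := tame_test (U := U) hf h1 h2 hH (0 : E d)
  have hψ : ∫ x, fderiv ℝ f (X x) (Ψ x) ∂gau ι =
      ∫ x, ∑ i, fderiv ℝ (fderiv ℝ f) (X x)
        (σ • EuclideanSpace.basisFun (Fin d) ℝ i +
          fderiv ℝ Φ x (J (EuclideanSpace.basisFun (Fin d) ℝ i)))
        (PN x (EuclideanSpace.basisFun (Fin d) ℝ i)) ∂gau ι := by
    simp only [hΨ, hPN, map_smul, smul_apply, smul_eq_mul, ← Finset.mul_sum]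
    rw [integral_const_mul, integral_const_mul, psi_ibp hTt hM h01]
    congr 1
    refine integral_congr_ae (ae_of_all _ fun x => ?_)
    beta_reduce
    rw [hP, trd_comp_adjoint]
    refine Finset.sum_congr rfl fun i _ => ?_
    rw [fderiv_test hf hH 0 x, ContinuousLinearMap.comp_apply,
      fderiv_fun_add (hGv.differentiable x) (hΦt.differentiable x)]
    simp [hX, hσJ, hGJ]
  have hXn : ∀ x, ‖U + fderiv ℝ (fun x => Gv x + Φ x) x‖ ≤ 2 := fun x => by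
    rw [fderiv_fun_add (hGv.differentiable x) (hΦt.differentiable x)]
    have := norm_add_le U (fderiv ℝ Gv x + fderiv ℝ Φ x)
    have := norm_add_le (fderiv ℝ Gv x) (fderiv ℝ Φ x)
    linarith [hG x, hΦ x]
  have key := engine_residual (q := q) hf h1 h2 hU hGv hΦt hGU 0 (c := fun _ => (0 : E d))
    continuous_const (Kc := 0) (fun x => by simp) hσ.ne' (J := J) (Ψ := Ψ) hFt
    (fun x => by rw [hFeq]; simp) hPNc hKN hPNb hψ hXn
  refine key.trans ?_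
  have hK2 : 0 ≤ K2 := (norm_nonneg (fderiv ℝ (fderiv ℝ f) 0)).trans (h2 0)
  set S := stepM P σ (fun k => Rl.node k U0) (fun k => Rl.weight k U0) ρ₀ ρ₁ M with hS
  have hSeq : S = ou ρ₁ fun y => ∑ k, Rl.weight k U0 • ou (Rl.node k U0) F0 y :=
    congrArg (ou ρ₁) (funext fun y => preM_eq_rule hρ h0 hM y)
  have hsum : PG fun y => ∑ k, Rl.weight k U0 • ou (Rl.node k U0) F0 y :=
    PG.sum _ fun k _ => (pg_ou hF0p _).smul _
  set Δ := fun y => mean01 F0 y - ∑ k, Rl.weight k U0 • ou (Rl.node k U0) F0 y with hΔ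
  have hΔp : PG Δ := (pg_mean01 hF0p).sub hsum
  have hF0n : l2 F0 ≤ 2 * (√(1 - ρ₀ ^ 2))⁻¹ * l2 (fun x => hentry (M x)) := by
    rw [hF0, show rhsM P σ ρ₀ M = fun x => σ⁻¹ • psi P ρ₀ M x from rfl, l2_smul,
      abs_of_pos (inv_pos.2 hσ), mul_assoc]
    exact mul_le_mul hσ2 (l2_psi_le hPn hM h0sq) (l2_nonneg _) zero_le_two
  have hΔn := (rule_L2_pg Rl U0 hF0p).trans (mul_le_mul_of_nonneg_left hF0n hε)
  obtain ⟨hΔv, hΔd⟩ := l2_ou_diff_le hΔp ⟨hρ₁.1.le, hρ₁.2⟩ hΔn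
  have hinv : inv1N F = fun x => S x + ou ρ₁ Δ x := funext fun x => by
    rw [inv1N_eq_mean01, hFd, ← ou_mean01 hF0p h1sq.le, hSeq, hΔ,
      ou_sub_pg (pg_mean01 hF0p) hsum]
    abel
  have hSt : Tame S := hSeq ▸ tame_ou_growth hsum h1sq
  have hΔt : Tame (ou ρ₁ Δ) := tame_ou_growth hΔp h1sq
  -- the value
  have b1 : √(∫ x, ‖inv1N F x - Φ x‖ ^ 2 ∂gau ι) ≤
      eV + ε * (2 * (√(1 - ρ₀ ^ 2))⁻¹ * l2 (fun x => hentry (M x))) := by
    change l2 (fun x => inv1N F x - Φ x) ≤ _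
    rw [show (fun x => inv1N F x - Φ x) = fun x => (S x - Φ x) + ou ρ₁ Δ x from funext fun x => by
      simp only [hinv]; exact add_sub_right_comm _ _ _]
    exact (l2_add ((PG.of_tame hSt).sub (PG.of_tame hΦt)) (PG.of_tame hΔt)).trans
      (add_le_add hV hΔv)
  -- the derivative
  have b2 : √(∫ x, hsq (invD F x - fderiv ℝ Φ x) ∂gau ι) ≤ eD + (√(1 - ρ₁ ^ 2))⁻¹ *
      (ε * (2 * (√(1 - ρ₀ ^ 2))⁻¹ * l2 (fun x => hentry (M x)))) := by
    have e : ∀ x, hentry (invD F x - fderiv ℝ Φ x) =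
        hentry (fderiv ℝ (fun y => S y - Φ y) x) + hentry (fderiv ℝ (ou ρ₁ Δ) x) := fun x => by
      rw [← map_add, ← fderiv_inv1N hFt, hinv,
        fderiv_fun_add (hSt.differentiable x) (hΔt.differentiable x),
        fderiv_fun_sub (hSt.differentiable x) (hΦt.differentiable x)]
      congr 1
      abel
    have hSΦ : PG fun x => hentry (fderiv ℝ (fun y => S y - Φ y) x) := by
      have : Tame fun y => S y - Φ y := by
        simpa [sub_eq_add_neg] using hSt.add (hΦt.smul_const (-1))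
      obtain ⟨-, K, m, hK, -, hb⟩ := id this
      exact (show PG fun x => fderiv ℝ (fun y => S y - Φ y) x from
        ⟨this.continuous_fderiv, K, m, hK, hb⟩).clm hentry
    have hΔd' : PG fun x => hentry (fderiv ℝ (ou ρ₁ Δ) x) := (pg_fderiv_ou h1sq hΔp).clm hentry
    have hh : ∀ x, hsq (invD F x - fderiv ℝ Φ x) = ‖hentry (invD F x - fderiv ℝ Φ x)‖ ^ 2 :=
      fun x => by rw [← Real.sq_sqrt (hsq_nonneg _), sqrt_hsq_eq_hn]; rfl
    simp only [hh]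
    change l2 (fun x => hentry (invD F x - fderiv ℝ Φ x)) ≤ _
    simp only [e]
    exact (l2_add hSΦ hΔd').trans (add_le_add hD hΔd)
  have b3 := integral_power_le hGv hJ hσ hσ2 hG hΦ q
  have b4 := integral_mismatch_le hGv hΦt hJ hσ hσ2 hu hG hΦ q (PN := PN)
    ⟨hPNc, KN, nN, hKN, hPNb⟩ hmat
  gcongr
  · exact (one_mul _).trans_le b1

end

end Vale.Agent.P347
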