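import Vale.Agent.P347Zero.PhiWords

/-!
P347, v5: syntactic bounds of the Picard programs that compensate the noise of one binder.
-/

open Real Finset

namespace Vale.Agent.P347

namespace Binder

variable {D : Binder} {δ : ℕ → ℝ} {r B T : ℝ}

/-! ### Smoothing and Mehler programs -/

section nodes

variable {ρ : ℝ} {S : Prog}

theorem wrap_small (hs : S.Small) : (D.wrap ρ S).Small := hs.subst _

theorem psi_small (hs : S.Small) : (D.psi ρ S).Small := hs.subst _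

theorem wrap_depth {a : ℕ} (hp : D.p.depth ≤ a) (hS : S.depth ≤ a) :
    (D.wrap ρ S).depth ≤ a + 2 := by
  have h := S.depth_subst_le (D := 0)
    (f := fun i => Nat.rec (motive := fun _ => Prog) (.inp 0)
      (fun j _ => Nat.rec (motive := fun _ => Prog) (.inp 1) (fun k _ => .inp (k + 4)) j) i) fun i => by
    rcases i with _ | _ | i <;> rfl
  simp only [Binder.wrap, Prog.depth, Binder.copyMean, Prog.depth_ren] at *
  omega

theorem psi_depth {a : ℕ} (hp : D.p.depth ≤ a) (hS : S.depth ≤ a) :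
    (D.psi ρ S).depth ≤ a + 2 := by
  have h := S.depth_subst_le (D := 0)
    (f := fun i => Nat.rec (motive := fun _ => Prog)
      (.add (.smul (cpl ρ) (.inp 2)) (.smul (-ρ) (.inp 0)))
      (fun j _ => Nat.rec (motive := fun _ => Prog)
        (.add (.smul ρ (.inp 2)) (.smul (cpl ρ) (.inp 0)))
        (fun k _ => Nat.rec (motive := fun _ => Prog) (.inp 1) (fun l _ => .inp (l + 4)) k) j) i)
    fun i => by rcases i with _ | _ | _ | i <;> rfl
  simp only [Binder.psi, Prog.depth, Binder.copyMean, Prog.depth_ren] at *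
  omega

theorem wrap_nodes {s c : ℕ} (hs : 4 ≤ s) (hp : D.p.nodes ≤ s) (hS : S.nodes ≤ s ^ c) :
    (D.wrap ρ S).nodes ≤ s ^ (c + 6) := by
  have h := S.nodes_subst_le (F := 1)
    (f := fun i => Nat.rec (motive := fun _ => Prog) (.inp 0)
      (fun j _ => Nat.rec (motive := fun _ => Prog) (.inp 1) (fun k _ => .inp (k + 4)) j) i) le_rfl
    fun i => by rcases i with _ | _ | i <;> rfl
  have hp' : D.p.nodes ≤ s ^ 1 := by rw [pow_one]; exact hp
  have h8 : 8 ≤ s ^ 2 := le_trans (by norm_num) (Nat.pow_le_pow_left hs 2)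
  have h1 := (add_le_pow (by omega : 2 ≤ s) hS (add_le_pow (by omega : 2 ≤ s) hp' h8)).trans
    (Nat.pow_le_pow_right (by omega) (show max c (max 1 2 + 1) + 1 ≤ c + 4 by omega))
  have h2 := h1.trans (Nat.pow_le_pow_right (by omega : 1 ≤ s) (show c + 4 ≤ c + 6 by omega))
  simp only [Binder.wrap, Prog.nodes, Binder.copyMean, Prog.nodes_ren] at *
  omega

theorem psi_nodes {s c : ℕ} (hs : 4 ≤ s) (hp : D.p.nodes ≤ s) (hS : S.nodes ≤ s ^ c) :
    (D.psi ρ S).nodes ≤ s ^ (c + 6) := by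
  have h := S.nodes_subst_le (F := 5)
    (f := fun i => Nat.rec (motive := fun _ => Prog)
      (.add (.smul (cpl ρ) (.inp 2)) (.smul (-ρ) (.inp 0)))
      (fun j _ => Nat.rec (motive := fun _ => Prog)
        (.add (.smul ρ (.inp 2)) (.smul (cpl ρ) (.inp 0)))
        (fun k _ => Nat.rec (motive := fun _ => Prog) (.inp 1) (fun l _ => .inp (l + 4)) k) j) i)
    (by omega) fun i => by rcases i with _ | _ | _ | i <;> simp [Prog.nodes]
  have hp' : D.p.nodes ≤ s ^ 1 := by rw [pow_one]; exact hp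
  have h16 : 16 ≤ s ^ 2 := le_trans (by norm_num) (Nat.pow_le_pow_left hs 2)
  have hS5 : S.nodes * 5 ≤ s ^ (c + 2) := mul_le_pow hS (by omega)
  have h1 := (add_le_pow (by omega : 2 ≤ s) hS5 (add_le_pow (by omega : 2 ≤ s) hp' h16)).trans
    (Nat.pow_le_pow_right (by omega) (show max (c + 2) (max 1 2 + 1) + 1 ≤ c + 6 by omega))
  simp only [Binder.psi, Prog.nodes, Binder.copyMean, Prog.nodes_ren] at *
  omega

theorem wrap_levelGe {l : ℕ} (hp : D.p.LevelGe l) (hS : S.LevelGe l) :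
    (D.wrap ρ S).LevelGe l :=
  ⟨⟨(Prog.levelGe_ren l _ _).2 hp, trivial⟩, trivial,
    hS.subst fun i => by rcases i with _ | _ | i <;> trivial⟩

theorem psi_levelGe {l : ℕ} (hp : D.p.LevelGe l) (hS : S.LevelGe l) :
    (D.psi ρ S).LevelGe l :=
  ⟨⟨(Prog.levelGe_ren l _ _).2 hp, trivial⟩, trivial,
    hS.subst fun i => by rcases i with _ | _ | _ | i <;> trivial⟩

end nodes

namespace Ok

variable (h : D.Ok δ r B T) {X T' Z : ℝ} {S : Prog} {ρ : ℝ}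
include h

/-- The bounds of a smoothed program. -/
theorem wrap_bounds (hB : B ≤ X) (hT : T ≤ T') (hsm : S.Small) (hw : S.WF δ r X T')
    (hs : S.SensLe δ X (e1 D.Δ)) (hZ : S.size δ r ≤ Z) (h0 : 0 ≤ ρ) (h1 : ρ < 1) :
    (D.wrap ρ S).WF δ r X T' ∧ (D.wrap ρ S).SensLe δ X (e1 D.Δ) ∧
      (D.wrap ρ S).size δ r ≤ 4 * B * X * Z := by
  have hB0 : 0 ≤ B := zero_le_one.trans h.B_one
  have hX : 0 ≤ X := hB0.trans hB
  have hr := zero_le_one.trans h.r_one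
  have hsq : √(1 - ρ ^ 2) ≤ 1 := cpl_le_one ρ
  have hvar : √(D.Δ * (1 - ρ ^ 2)) ≤ √D.Δ :=
    Real.sqrt_le_sqrt (mul_le_of_le_one_right h.wf.1.le (by nlinarith [sq_nonneg ρ]))
  set f : ℕ → Prog := fun i => Nat.casesOn i (.inp 0) fun j =>
    Nat.casesOn j (.inp 1) fun k => .inp (k + 4) with hf
  have hfl : ∀ a b c e : ℝ,
      (fun i => (f i).lip δ (pushR a (pushR b (pushR c (pushR e 0))))) = pushR a (pushR b 0) :=
    fun a b c e => funext fun i => by rcases i with _ | _ | i <;> rfl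
  have hfs : ∀ v i, (f i).SensLe δ X v := fun v i => by rcases i with _ | _ | i <;> trivial
  have hf0 : ∀ i, (f i).size δ r = 0 := fun i => by rcases i with _ | _ | i <;> rfl
  have hsens : ∀ {a b : ℝ} (c e : ℝ), 0 ≤ a → a ≤ 1 → 0 ≤ b → b ≤ √D.Δ →
      (S.subst f).SensLe δ X (pushR a (pushR b (pushR c (pushR e 0)))) := fun c e ha ha' hb hb' => by
    refine Prog.SensLe.subst ?_ (hfs _)
    rw [hfl]
    exact hs.mono h.delta le_rfl le_rfl (pushR_nonneg ha (pushR_nonneg hb fun _ => le_rfl))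
      (pair_le_e1 ha' hb')
  have hsub : (S.subst f).size δ r = S.size δ r := by
    rw [Prog.size_subst, funext hf0]
    exact add_eq_left.2 (Prog.lip_zero_v δ S)
  have hlip : ∀ {a b : ℝ}, 0 ≤ a → a ≤ 1 → 0 ≤ b → b ≤ √D.Δ →
      S.lip δ (pushR a (pushR b 0)) ≤ X * Z := fun ha ha' hb hb' =>
    ((Prog.lip_le_of_sensLe h.delta h.r_one hX hsm (hs.mono h.delta le_rfl le_rfl
      (pushR_nonneg ha (pushR_nonneg hb fun _ => le_rfl)) (pair_le_e1 ha' hb'))).trans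
      (mul_le_mul_of_nonneg_left hZ hX))
  refine ⟨⟨h.var_pos h0 h1, h.copyMean_wf hB hT ρ, ⟨by nlinarith, trivial,
    hw.subst hX (fun i => by rcases i with _ | _ | i <;> trivial) hf0,
    le_of_eq_of_le (mul_zero |ρ|) (mul_nonneg hX (Real.sqrt_nonneg _)), hsm.subst _, ?_⟩,
    (h.copyMean_size h0 h1).trans (mul_le_mul_of_nonneg_right hB (Real.sqrt_nonneg _)),
    hsm.subst _, trivial, ?_⟩, ⟨copyMean_sensLe hX _ _ _, trivial, ?_⟩, ?_⟩
  · rw [show pushR (√(1 - ρ ^ 2)) (0 : ℕ → ℝ)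
        = pushR (√(1 - ρ ^ 2)) (pushR 0 (pushR 0 (pushR 0 0))) by simp [pushR_zero]]
    exact hsens 0 0 (Real.sqrt_nonneg _) hsq le_rfl (Real.sqrt_nonneg _)
  · show (S.subst f).SensLe δ X (pushR (|ρ| * 0) (pushR (√(D.Δ * (1 - ρ ^ 2))) 0))
    rw [mul_zero, show pushR (0 : ℝ) (pushR (√(D.Δ * (1 - ρ ^ 2))) (0 : ℕ → ℝ))
        = pushR 0 (pushR (√(D.Δ * (1 - ρ ^ 2))) (pushR 0 (pushR 0 0))) by simp [pushR_zero]]
    exact hsens 0 0 le_rfl zero_le_one (Real.sqrt_nonneg _) hvar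
  · show (S.subst f).SensLe δ X
      (pushR (|ρ| * 1) (pushR ((D.copyMean ρ).lip δ (e1 D.Δ)) (e1 D.Δ)))
    rw [e1, copyMean_lip, abs_of_nonneg h0]
    exact hsens 1 _ (by positivity) (by simpa using h1.le)
      (mul_nonneg h0 (Real.sqrt_nonneg _)) (mul_le_of_le_one_left (Real.sqrt_nonneg _) h1.le)
  · obtain ⟨hA0, hA⟩ := h.copyMean_arg h0 h1
    show ((S.subst f).size δ r + (S.subst f).lip δ (pushR (√(1 - ρ ^ 2) + |ρ| * 0) 0))
        + (S.subst f).lip δ (pushR (|ρ| * 0)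
          (pushR (√(D.Δ * (1 - ρ ^ 2)) + (D.copyMean ρ).size δ r) 0)) ≤ _
    rw [hsub, Prog.lip_subst, Prog.lip_subst, mul_zero, add_zero,
      show pushR (√(1 - ρ ^ 2)) (0 : ℕ → ℝ)
        = pushR (√(1 - ρ ^ 2)) (pushR 0 (pushR 0 (pushR 0 0))) by simp [pushR_zero],
      show pushR (0 : ℝ) (pushR (√(D.Δ * (1 - ρ ^ 2)) + (D.copyMean ρ).size δ r) (0 : ℕ → ℝ))
        = pushR 0 (pushR (√(D.Δ * (1 - ρ ^ 2)) + (D.copyMean ρ).size δ r) (pushR 0 (pushR 0 0)))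
        by simp [pushR_zero],
      hfl, hfl]
    have a1 := hlip (a := √(1 - ρ ^ 2)) (b := 0) (Real.sqrt_nonneg _) hsq le_rfl
      (Real.sqrt_nonneg _)
    have a2 : S.lip δ (pushR 0 (pushR (√(D.Δ * (1 - ρ ^ 2)) + (D.copyMean ρ).size δ r) 0))
        ≤ (1 + B) * (X * Z) := by
      refine le_trans (S.lip_mono h.delta le_rfl (pushR_nonneg le_rfl
        (pushR_nonneg hA0 fun _ => le_rfl)) (pushR_mono (le_of_eq (mul_zero (1 + B)).symm)
          (pushR_mono hA fun _ => le_rfl))) ?_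
      rw [← smul_pushR_pair, Prog.lip_smul_v]
      exact mul_le_mul_of_nonneg_left (hlip le_rfl zero_le_one (Real.sqrt_nonneg _) le_rfl)
        (by linarith)
    have hZ0 : 0 ≤ Z := (S.size_nonneg h.delta hr).trans hZ
    have hX1 : 1 ≤ X := h.B_one.trans hB
    nlinarith [mul_nonneg hX hZ0, mul_le_mul_of_nonneg_right hX1 hZ0,
      mul_le_mul_of_nonneg_right h.B_one (mul_nonneg hX hZ0)]

/-- The bounds of a Mehler program of a converted word with unit motions felt at most `X`. -/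
theorem psi_bounds (hB : B ≤ X) (hT : T ≤ T') {W : Prog} (hsm : W.Small) (hw : W.WF δ r X T')
    (hs : ∀ (a t : ℝ), 0 ≤ a → 0 ≤ t → a + t ≤ 2 → W.SensLe δ X (pushR a (t • e1 D.Δ)))
    (hZ : W.size δ r ≤ Z) (h0 : 0 ≤ ρ) (h1 : ρ < 1) :
    (D.psi ρ W).WF δ r X T' ∧ (D.psi ρ W).SensLe δ X (e1 D.Δ) ∧
      (D.psi ρ W).size δ r ≤ (cpl ρ)⁻¹ * (4 * B * X * Z) := by
  have hB0 : 0 ≤ B := zero_le_one.trans h.B_one
  have hX : 0 ≤ X := hB0.trans hB
  have hr := zero_le_one.trans h.r_one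
  have hc := (cpl_pos h0 h1).le
  have hc1 := cpl_le_one ρ
  have hvar : √(D.Δ * (1 - ρ ^ 2)) ≤ √D.Δ :=
    Real.sqrt_le_sqrt (mul_le_of_le_one_right h.wf.1.le (by nlinarith [sq_nonneg ρ]))
  set f : ℕ → Prog := fun i => Nat.casesOn i
      (.add (.smul (cpl ρ) (.inp 2)) (.smul (-ρ) (.inp 0))) fun j =>
    Nat.casesOn j (.add (.smul ρ (.inp 2)) (.smul (cpl ρ) (.inp 0))) fun k =>
      Nat.casesOn k (.inp 1) fun l => .inp (l + 4) with hf
  have hfl : ∀ a b c e : ℝ, (fun i => (f i).lip δ (pushR a (pushR b (pushR c (pushR e 0))))) =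
      pushR (cpl ρ * c + ρ * a) (pushR (ρ * c + cpl ρ * a) (pushR b 0)) :=
    fun a b c e => funext fun i => by
      rcases i with _ | _ | _ | i <;>
        simp [hf, Prog.lip, pushR, abs_of_nonneg h0, abs_of_nonneg hc]
  have hfs : ∀ v i, (f i).SensLe δ X v := fun v i => by
    rcases i with _ | _ | _ | i <;> simp [hf, Prog.SensLe]
  have hf0 : ∀ i, (f i).size δ r = 0 := fun i => by
    rcases i with _ | _ | _ | i <;> simp [hf, Prog.size]
  have hfw : ∀ i, (f i).WF δ r X T' := fun i => by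
    rcases i with _ | _ | _ | i <;> simp [hf, Prog.WF]
  have hW : ∀ {a b : ℝ} (t : ℝ), 0 ≤ a → 0 ≤ b → 0 ≤ t → a + 1 ≤ 2 → b ≤ 1 → t ≤ √D.Δ →
      W.SensLe δ X (pushR a (pushR b (pushR t 0))) := fun t ha hb ht ha' hb' ht' => by
    refine (hs _ 1 ha zero_le_one ha').mono h.delta le_rfl le_rfl
      (pushR_nonneg ha (pushR_nonneg hb (pushR_nonneg ht fun _ => le_rfl))) ?_
    rw [one_smul]
    exact pushR_mono le_rfl (pair_le_e1 hb' ht')
  have hlip : ∀ {a b : ℝ} (t : ℝ), 0 ≤ a → 0 ≤ b → 0 ≤ t → a + 1 ≤ 2 → b ≤ 1 → t ≤ √D.Δ →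
      W.lip δ (pushR a (pushR b (pushR t 0))) ≤ X * Z := fun t ha hb ht ha' hb' ht' =>
    (Prog.lip_le_of_sensLe h.delta h.r_one hX hsm (hW t ha hb ht ha' hb' ht')).trans
      (mul_le_mul_of_nonneg_left hZ hX)
  have hsub : (W.subst f).size δ r = W.size δ r := by
    rw [Prog.size_subst, funext hf0]
    exact add_eq_left.2 (Prog.lip_zero_v δ W)
  refine ⟨⟨h.var_pos h0 h1, h.copyMean_wf hB hT ρ, ⟨one_pos, trivial, hw.subst hX hfw hf0,
    mul_nonneg hX (Real.sqrt_nonneg _), hsm.subst _, ?_⟩,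
    (h.copyMean_size h0 h1).trans (mul_le_mul_of_nonneg_right hB (Real.sqrt_nonneg _)),
    hsm.subst _, trivial, ?_⟩, ⟨copyMean_sensLe hX _ _ _, trivial, ?_⟩, ?_⟩
  · refine Prog.SensLe.subst ?_ (hfs _)
    rw [Real.sqrt_one, show pushR (1 : ℝ) (0 : ℕ → ℝ) = pushR 1 (pushR 0 (pushR 0 (pushR 0 0)))
      by simp [pushR_zero], hfl]
    simp only [mul_zero, zero_add, mul_one]
    exact hW 0 h0 hc le_rfl (by linarith) hc1 (Real.sqrt_nonneg _)
  · refine Prog.SensLe.subst ?_ (hfs _)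
    show W.SensLe δ X fun i => (f i).lip δ (pushR 0 (pushR (√(D.Δ * (1 - ρ ^ 2))) 0))
    rw [show pushR (0 : ℝ) (pushR (√(D.Δ * (1 - ρ ^ 2))) (0 : ℕ → ℝ))
        = pushR 0 (pushR (√(D.Δ * (1 - ρ ^ 2))) (pushR 0 (pushR 0 0))) by simp [pushR_zero], hfl]
    simp only [mul_zero, zero_add]
    exact hW _ le_rfl le_rfl (Real.sqrt_nonneg _) (by norm_num) zero_le_one hvar
  · refine Prog.SensLe.subst ?_ (hfs _)
    show W.SensLe δ X fun i =>
      (f i).lip δ (pushR 0 (pushR ((D.copyMean ρ).lip δ (e1 D.Δ)) (e1 D.Δ)))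
    rw [e1, copyMean_lip, abs_of_nonneg h0, hfl]
    simp only [mul_zero, add_zero, mul_one]
    exact hW _ hc h0 (mul_nonneg h0 (Real.sqrt_nonneg _)) (by linarith) h1.le
      (mul_le_of_le_one_left (Real.sqrt_nonneg _) h1.le)
  · obtain ⟨hA0, hA⟩ := h.copyMean_arg h0 h1
    show |(cpl ρ)⁻¹| * (((W.subst f).size δ r + (W.subst f).lip δ (pushR (√1 + 0) 0))
        + (W.subst f).lip δ (pushR 0
          (pushR (√(D.Δ * (1 - ρ ^ 2)) + (D.copyMean ρ).size δ r) 0))) ≤ _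
    rw [abs_of_nonneg (inv_nonneg.2 hc), hsub, Prog.lip_subst, Prog.lip_subst, add_zero,
      Real.sqrt_one, show pushR (1 : ℝ) (0 : ℕ → ℝ) = pushR 1 (pushR 0 (pushR 0 (pushR 0 0)))
        by simp [pushR_zero],
      show pushR (0 : ℝ) (pushR (√(D.Δ * (1 - ρ ^ 2)) + (D.copyMean ρ).size δ r) (0 : ℕ → ℝ))
        = pushR 0 (pushR (√(D.Δ * (1 - ρ ^ 2)) + (D.copyMean ρ).size δ r) (pushR 0 (pushR 0 0)))
        by simp [pushR_zero],
      hfl, hfl]
    simp only [mul_zero, zero_add, mul_one]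
    refine mul_le_mul_of_nonneg_left ?_ (inv_nonneg.2 hc)
    have a1 := hlip (a := ρ) (b := cpl ρ) 0 h0 hc le_rfl (by linarith) hc1 (Real.sqrt_nonneg _)
    have a2 : W.lip δ (pushR 0 (pushR 0
        (pushR (√(D.Δ * (1 - ρ ^ 2)) + (D.copyMean ρ).size δ r) 0))) ≤ (1 + B) * (X * Z) := by
      refine le_trans (W.lip_mono h.delta le_rfl (pushR_nonneg le_rfl
        (pushR_nonneg le_rfl (pushR_nonneg hA0 fun _ => le_rfl)))
        (pushR_mono le_rfl (pushR_mono le_rfl (pushR_mono hA fun _ => le_rfl)))) ?_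
      rw [show pushR (0 : ℝ) (pushR 0 (pushR ((1 + B) * √D.Δ) (0 : ℕ → ℝ)))
          = (1 + B) • pushR 0 (pushR 0 (pushR (√D.Δ) 0)) by
        rw [← pushR_smul, ← pushR_smul, ← pushR_smul, smul_zero, mul_zero], Prog.lip_smul_v]
      exact mul_le_mul_of_nonneg_left
        (hlip _ le_rfl le_rfl (Real.sqrt_nonneg _) (by norm_num) zero_le_one le_rfl) (by linarith)
    have hZ0 : 0 ≤ Z := (W.size_nonneg h.delta hr).trans hZ
    have hX1 : 1 ≤ X := h.B_one.trans hB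
    nlinarith [mul_nonneg hX hZ0, mul_le_mul_of_nonneg_right hX1 hZ0,
      mul_le_mul_of_nonneg_right h.B_one (mul_nonneg hX hZ0)]

end Ok

/-! ### One step -/

/-- The invariant of the iterates: exponents in `X`, constants of depth and nodes in `k`. -/
structure Bd (D : Binder) (δ : ℕ → ℝ) (r X T : ℝ) (S k : ℕ) (Φ : Prog) : Prop where
  small : Φ.Small
  wf : Φ.WF δ r X T
  sens : Φ.SensLe δ X (e1 D.Δ)
  size_le : Φ.size δ r ≤ X * D.U δ r ^ 2
  depth_le : Φ.depth ≤ k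
  nodes_le : Φ.nodes ≤ S ^ k
  level : ∀ l, (Prog.bind D.p D.Δ D.b).LevelGe l → Φ.LevelGe l

theorem Bd.lip_le (h : D.Ok δ r B T) {X T' : ℝ} {S k : ℕ} {Φ : Prog} (hB : B ≤ X)
    (hΦ : D.Bd δ r X T' S k Φ) : Φ.lip δ (e1 D.Δ) ≤ X ^ 2 * D.U δ r ^ 2 := by
  have hX : 0 ≤ X := (zero_le_one.trans h.B_one).trans hB
  refine (Prog.lip_le_of_sensLe h.delta h.r_one hX hΦ.small hΦ.sens).trans
    ((mul_le_mul_of_nonneg_left hΦ.size_le hX).trans_eq ?_)
  ring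


theorem Bd.mono (h : D.Ok δ r B T) {X X' T₁ T₁' : ℝ} {S k k' : ℕ} {Φ : Prog} (hX : 0 < X)
    (hXX : X ≤ X') (hT0 : 0 < T₁) (hTT : T₁ ≤ T₁') (hS : 1 ≤ S) (hk : k ≤ k')
    (hΦ : D.Bd δ r X T₁ S k Φ) : D.Bd δ r X' T₁' S k' Φ where
  small := hΦ.small
  wf := hΦ.wf.mono h.delta le_rfl (zero_le_one.trans h.r_one) le_rfl hXX hT0 hTT
  sens := hΦ.sens.mono h.delta le_rfl hXX (e1_nonneg _) fun _ => le_rfl
  size_le := hΦ.size_le.trans (mul_le_mul_of_nonneg_right hXX (sq_nonneg _))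
  depth_le := hΦ.depth_le.trans hk
  nodes_le := hΦ.nodes_le.trans (Nat.pow_le_pow_right hS hk)
  level := hΦ.level

/-- The words of a bounded iterate. -/
theorem Bd.sumT_facts (h : D.Ok δ r B T) {X T₀ R ρ₀ ρ₁ : ℝ} {S k : ℕ} {Φ : Prog} {n : ℕ}
    {ρ w : Fin n → ℝ} (hR : 1 ≤ R) (hr : PicardRule R ρ₀ ρ₁ ρ w) (hB : B ≤ X) (hX2 : 2 ≤ X)
    (hT : T ≤ T₀) (hU : X ^ 2 * D.U δ r ≤ 1) {A : ℕ}
    (hA : (Prog.bind D.p D.Δ D.b).depth ≤ A) (hΦ : D.Bd δ r X T₀ S k Φ) (q : ℕ) :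
    (D.sumT Φ ρ w q).Small ∧ (D.sumT Φ ρ w q).WF δ r X T₀ ∧
      (D.sumT Φ ρ w q).SensLe δ X (e1 D.Δ) ∧
      (D.sumT Φ ρ w q).depth ≤ wordDepth q (max A k) ∧
      (D.sumT Φ ρ w q).norm' δ ≤ 8 * q * R * D.U δ r ^ 2 ∧
      ∀ l, (Prog.bind D.p D.Δ D.b).LevelGe l → (D.sumT Φ ρ w q).LevelGe l := by
  have hU0 := h.U_nonneg
  set U := D.U δ r with hUdef
  have hZ : Φ.lip δ (e1 D.Δ) ≤ U := (hΦ.lip_le h hB).trans
    ((mul_le_of_le_one_left hU0 hU).trans_eq' (by ring))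
  have hUσ : U ≤ D.σ := by nlinarith [h.sigma, mul_le_mul_of_nonneg_right (pow_le_pow_left₀ (by norm_num) hX2 2) hU0]
  have h0 : D.Ok δ r B T₀ := { h with
    T_one := h.T_one.trans hT
    wf := h.wf.mono h.delta le_rfl (zero_le_one.trans h.r_one) le_rfl le_rfl
      (zero_lt_one.trans_le h.T_one) hT }
  obtain ⟨h1, h2, h3⟩ := h0.sumT_syn (w := w) hB hΦ.small hΦ.wf hΦ.sens hr.node q
  refine ⟨h1, h2, h3, Binder.sumT_depth (hA.trans (le_max_left A k))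
    (hΦ.depth_le.trans (le_max_right A k)) q,
    ((h.sumT_norm (ρ := ρ) hZ hUσ hR hr.weight hr.sum_le q).trans_eq ?_),
    fun l hl => h.sumT_levelGe hl (hΦ.level l hl) q⟩
  rw [← hUdef]; ring

/-- The constant of one step. -/
noncomputable def stepC (q : ℕ) (R c : ℝ) : ℝ := 1024 * (q + 1) * R ^ 2 * c ^ 3

theorem one_le_stepC {q : ℕ} {R c : ℝ} (hR : 1 ≤ R) (hc : 1 ≤ c) : 1 ≤ stepC q R c := by
  have h1 : (1 : ℝ) ≤ 1024 * (q + 1) := by linarith [Nat.cast_nonneg (α := ℝ) q]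
  exact one_le_mul_of_one_le_of_one_le
    (one_le_mul_of_one_le_of_one_le h1 (one_le_pow₀ hR)) (one_le_pow₀ hc)

theorem two_c_le_stepC {q : ℕ} {R c : ℝ} (hR : 1 ≤ R) (hc : 1 ≤ c) : 2 * c ≤ stepC q R c := by
  have h1 : (2 : ℝ) ≤ 1024 * (q + 1) * R ^ 2 := by
    nlinarith [Nat.cast_nonneg (α := ℝ) q, one_le_pow₀ (n := 2) hR]
  exact mul_le_mul h1 (le_self_pow₀ hc (by norm_num)) (by linarith) (by linarith)

/-- The depth and node exponent after one step. -/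
def stepK (q a k Kd : ℕ) : ℕ := max (max a Kd + 4) ((wordExp q a k + 1) * Kd + 20)

/-- One step of the iteration. -/
theorem Bd.step (h : D.Ok δ r B T) {X T₀ R ρ₀ ρ₁ : ℝ} {S k e : ℕ} {n : ℕ} {ρ w : Fin n → ℝ}
    {conv : LProg → Prog} {Kc : ℕ → ℝ → ℕ} {Cc Tc : ℕ → ℝ → ℝ} {A : ℕ} {q : ℕ} {j : ℕ}
    (hR : 1 ≤ R) (hr : PicardRule R ρ₀ ρ₁ ρ w) (hconv : ConvSyn e δ r Kc Cc Tc conv)
    (hB : B ≤ X) (hX2 : 2 ≤ X) (hT : T ≤ T₀) (hU : X ^ 2 * D.U δ r ≤ 1)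
    (hA : (Prog.bind D.p D.Δ D.b).depth ≤ A) (hS : 4 ≤ S) (hn : n + 1 ≤ S)
    (hbn : (Prog.bind D.p D.Δ D.b).nodes ≤ S)
    (hΦ : D.Bd δ r X T₀ S k (D.iter conv ρ w ρ₀ ρ₁ q j)) :
    D.Bd δ r (stepC q R (max 1 (Cc (wordDepth q (max A k)) T₀)) * X ^ (3 * e + 4))
      (max T₀ (Tc (wordDepth q (max A k)) T₀)) S
      (stepK q (max A k) k (Kc (wordDepth q (max A k)) T₀))
      (D.iter conv ρ w ρ₀ ρ₁ q (j + 1)) := by
  obtain ⟨a, ha⟩ : ∃ a, max A k = a := ⟨_, rfl⟩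
  obtain ⟨Ad, hAd⟩ : ∃ Ad, wordDepth q a = Ad := ⟨_, rfl⟩
  rw [ha, hAd]
  set c := max 1 (Cc Ad T₀) with hc
  set T₁ := max T₀ (Tc Ad T₀) with hT₁
  set Φ := D.iter conv ρ w ρ₀ ρ₁ q j with hΦdef
  have hU0 := h.U_nonneg
  have hX1 : 1 ≤ X := by linarith
  have hc1 : 1 ≤ c := le_max_left _ _
  have hr0 := zero_le_one.trans h.r_one
  have hT0 : 1 ≤ T₀ := h.T_one.trans hT
  have hbd := hA.trans (le_max_left A k)
  have hpd : D.p.depth ≤ a := by simp only [Prog.depth] at hbd; omega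
  have hpn : D.p.nodes ≤ S := by simp only [Prog.nodes] at hbn; omega
  have hwn := sumT_nodes (D := D) (ρ := ρ) (w := w) (by omega : 2 ≤ S) hn hbn
    (hbd.trans_eq ha) (hΦ.depth_le.trans ((le_max_right A k).trans_eq ha)) hΦ.nodes_le q
  obtain ⟨hws, hww, hwse, hwd, hwno, hwl⟩ := hΦ.sumT_facts h hR hr hB hX2 hT hU hA q
  rw [ha, hAd] at hwd
  set W := D.sumT Φ ρ w q with hW
  obtain ⟨hcT, hcs, hcl, hcw, hcd, hcn, hcsz, hcse⟩ :=
    hconv Ad T₀ X W hT0 hX1 (h.r_le.trans hB) hws hww hwd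
  set P := conv W with hP
  have hX0 : (0 : ℝ) ≤ X := by linarith
  have hXe : 1 ≤ X ^ e := one_le_pow₀ hX1
  obtain ⟨Y, hY⟩ : ∃ Y, 2 * c * X ^ (e + 1) = Y := ⟨_, rfl⟩
  have hcY : Cc Ad T₀ * X ^ e ≤ c * X ^ e :=
    mul_le_mul_of_nonneg_right (le_max_right _ _) (by linarith)
  have hcX : c * X ^ e * 2 * X = Y := by rw [← hY]; ring
  have hXY : X ≤ Y := by
    rw [← hcX]
    exact le_mul_of_one_le_left hX0 (by nlinarith [one_le_mul_of_one_le_of_one_le hc1 hXe])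
  have hPY : c * X ^ e ≤ Y := by rw [← hcX]; nlinarith
  have hY0 : 0 ≤ Y := hX0.trans hXY
  have hBY : B ≤ Y := hB.trans hXY
  have hTT : T ≤ T₁ := hT.trans (le_max_left _ _)
  have hPw : P.WF δ r Y T₁ :=
    hcw.mono h.delta le_rfl hr0 le_rfl (hcY.trans hPY) (zero_lt_one.trans_le hcT) (le_max_right _ _)
  have hPs : ∀ a t : ℝ, 0 ≤ a → 0 ≤ t → a + t ≤ 2 → P.SensLe δ Y (pushR a (t • e1 D.Δ)) := by
    intro a t ha ht hat
    have hv : ∀ i, 0 ≤ (t • e1 D.Δ) i := fun i => mul_nonneg ht (e1_nonneg _ i)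
    refine (hcse _ a (t * X) hv ha (mul_nonneg ht hX0) (hwse.smul ht)).mono h.delta le_rfl ?_
      (pushR_nonneg ha hv) fun _ => le_rfl
    refine (mul_le_mul_of_nonneg_right hcY (by positivity)).trans ?_
    rw [← hcX, mul_assoc _ 2 X]
    exact mul_le_mul_of_nonneg_left (by nlinarith) (by positivity)
  obtain ⟨Z, hZd⟩ : ∃ Z, c * X ^ e * (8 * q * R * D.U δ r ^ 2) = Z := ⟨_, rfl⟩
  have hPz : P.size δ r ≤ Z := by
    rw [← hZd]
    exact hcsz.trans (mul_le_mul hcY hwno (LProg.norm'_nonneg h.delta W) (by positivity))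
  have hkern : ∀ kk, 0 ≤ ρ₀ * ρ kk ∧ ρ₀ * ρ kk < 1 := fun kk =>
    ⟨mul_nonneg hr.node₀.1 (hr.node kk).1,
      mul_lt_one_of_nonneg_of_lt_one_left hr.node₀.1 hr.node₀.2 (hr.node kk).2.le⟩
  have hpsi := fun kk => h.psi_bounds hBY hTT hcs hPw hPs hPz (hkern kk).1 (hkern kk).2
  obtain ⟨V, hVd⟩ : ∃ V, 4 * B * Y * Z = V := ⟨_, rfl⟩
  have hB0 : 0 ≤ B := zero_le_one.trans h.B_one
  have hZ0 : 0 ≤ Z := (P.size_nonneg h.delta hr0).trans hPz
  have hV0 : 0 ≤ V := by rw [← hVd]; positivity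
  set G : Fin n → Prog := fun kk => .smul (w kk * ρ kk / D.σ) (D.psi (ρ₀ * ρ kk) P) with hG
  have hGsize : (Prog.sumFin G).size δ r ≤ 2 * R * V := by
    rw [Prog.size_sumFin]
    calc ∑ kk, (G kk).size δ r ≤ ∑ kk, 2 * (w kk * ρ kk / cpl (ρ₀ * ρ kk)) * V := by
          refine sum_le_sum fun kk _ => ?_
          show |w kk * ρ kk / D.σ| * (D.psi (ρ₀ * ρ kk) P).size δ r ≤ _
          have hwk := mul_nonneg (hr.weight kk) (hr.node kk).1
          have hcp := cpl_pos (hkern kk).1 (hkern kk).2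
          have hσ : 0 < D.σ := by linarith [h.sigma]
          rw [abs_of_nonneg (div_nonneg hwk hσ.le)]
          have h2 : w kk * ρ kk / D.σ ≤ 2 * (w kk * ρ kk) := by
            rw [div_le_iff₀ hσ]; nlinarith [h.sigma]
          calc w kk * ρ kk / D.σ * (D.psi (ρ₀ * ρ kk) P).size δ r
              ≤ 2 * (w kk * ρ kk) * ((cpl (ρ₀ * ρ kk))⁻¹ * V) := by
                rw [← hVd]
                exact mul_le_mul h2 (hpsi kk).2.2 ((D.psi (ρ₀ * ρ kk) P).size_nonneg h.delta hr0)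
                  (by positivity)
            _ = _ := by ring
      _ ≤ 2 * R * V := by
          rw [← sum_mul, ← mul_sum]
          exact mul_le_mul_of_nonneg_right (mul_le_mul_of_nonneg_left hr.kernel zero_le_two) hV0
  have hwrap := h.wrap_bounds hBY hTT (S := Prog.sumFin G)
    (Prog.small_sumFin fun kk => psi_small (D := D) (ρ := ρ₀ * ρ kk) hcs)
    (Prog.wf_sumFin fun kk => (hpsi kk).1) (Prog.sensLe_sumFin fun kk => (hpsi kk).2.1) hGsize hr.node₁.1 hr.node₁.2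
  have hX' : Y ≤ stepC q R c * X ^ (3 * e + 4) := by
    rw [← hY]
    exact mul_le_mul (two_c_le_stepC hR hc1) (pow_le_pow_right₀ hX1 (by omega)) (by positivity)
      (zero_le_one.trans (one_le_stepC hR hc1))
  refine ⟨wrap_small (Prog.small_sumFin fun kk => psi_small (D := D) (ρ := ρ₀ * ρ kk) hcs),
    hwrap.1.mono h.delta le_rfl hr0 le_rfl hX' (zero_lt_one.trans_le (hT0.trans (le_max_left _ _)))
      le_rfl,
    hwrap.2.1.mono h.delta le_rfl hX' (e1_nonneg _) fun _ => le_rfl,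
    hwrap.2.2.trans ?_, ?_, ?_, ?_⟩
  · rw [← hVd, ← hZd, ← hY]
    have hBX : B ^ 2 ≤ X ^ 2 := pow_le_pow_left₀ hB0 hB 2
    calc 4 * B * (2 * c * X ^ (e + 1)) * (2 * R * (4 * B * (2 * c * X ^ (e + 1))
          * (c * X ^ e * (8 * q * R * D.U δ r ^ 2))))
        = 1024 * q * R ^ 2 * c ^ 3 * X ^ (3 * e + 2) * D.U δ r ^ 2 * B ^ 2 := by ring
      _ ≤ 1024 * (q + 1) * R ^ 2 * c ^ 3 * X ^ (3 * e + 2) * D.U δ r ^ 2 * X ^ 2 := by
          gcongr
          linarith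
      _ = _ := by rw [stepC]; ring
  · refine (wrap_depth (D := D) (ρ := ρ₁) (a := max a (Kc Ad T₀) + 2) (by omega) (Prog.depth_sumFin (f := G) fun kk =>
      psi_depth (D := D) (ρ := ρ₀ * ρ kk) (S := P) (a := max a (Kc Ad T₀)) (by omega) (by omega))).trans ?_
    rw [stepK]; omega
  · have h2S : 2 ≤ S := by omega
    have hPn : P.nodes ≤ S ^ ((wordExp q a k + 1) * Kc Ad T₀) :=
      hcn.trans ((Nat.mul_le_mul (Nat.lt_two_pow_self.le.trans (Nat.pow_le_pow_left h2S _))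
        (Nat.pow_le_pow_left hwn _)).trans_eq (by rw [← pow_mul, ← pow_add]; ring_nf))
    have hGn : ∀ kk, (G kk).nodes ≤ S ^ ((wordExp q a k + 1) * Kc Ad T₀ + 7) := fun kk =>
      succ_le_pow h2S (psi_nodes hS hpn hPn)
    have hn1 : n + 1 ≤ S ^ 1 := by rw [pow_one]; exact hn
    refine (wrap_nodes hS hpn ((Prog.nodes_sumFin hGn).trans
      (sum_le_pow 1 h2S hn1 le_rfl))).trans (Nat.pow_le_pow_right (by omega) ?_)
    rw [stepK]; omega
  · exact fun l hl => wrap_levelGe hl.1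
      (Prog.levelGe_sumFin fun kk => psi_levelGe hl.1 (hcl l (hwl l hl)))


/-- All iterates up to `j` are bounded with one exponent of `B`, for every constant of the
conversion, the rule and the binder. -/
theorem iter_bd (e j : ℕ) : ∃ k : ℕ, 1 ≤ k ∧
    ∀ (Kc : ℕ → ℝ → ℕ) (Cc Tc : ℕ → ℝ → ℝ) (q : ℕ) (R : ℝ) (A : ℕ) (T : ℝ), 1 ≤ R → 1 ≤ T →
    ∃ (K : ℕ) (C T₁ : ℝ), 2 ≤ C ∧ T ≤ T₁ ∧
      ∀ (D : Binder) (δ : ℕ → ℝ) (r B : ℝ) (n : ℕ) (ρ w : Fin n → ℝ) (ρ₀ ρ₁ : ℝ)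
        (conv : LProg → Prog) (S : ℕ),
        D.Ok δ r B T → PicardRule R ρ₀ ρ₁ ρ w → ConvSyn e δ r Kc Cc Tc conv →
        (Prog.bind D.p D.Δ D.b).depth ≤ A → 4 ≤ S → n + 1 ≤ S →
        (Prog.bind D.p D.Δ D.b).nodes ≤ S → (C * B ^ k) ^ 2 * D.U δ r ≤ 1 →
        ∀ i ≤ j, D.Bd δ r (C * B ^ k) T₁ S K (D.iter conv ρ w ρ₀ ρ₁ q i) := by
  induction j with
  | zero =>
    refine ⟨1, le_rfl, fun Kc Cc Tc q R A T _ _ => ⟨0, 2, T, le_rfl, le_rfl, ?_⟩⟩
    intro D δ r B n ρ w ρ₀ ρ₁ conv S h _ _ _ hS _ _ _ i hi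
    rw [Nat.le_zero.1 hi]
    exact { small := trivial, wf := trivial, sens := trivial,
            size_le := mul_nonneg (mul_nonneg zero_le_two (pow_nonneg (zero_le_one.trans h.B_one) 1))
              (sq_nonneg _),
            depth_le := le_rfl, nodes_le := by simp [Binder.iter, Prog.nodes],
            level := fun _ _ => trivial }
  | succ j ih =>
    obtain ⟨k, hk, ih⟩ := ih
    refine ⟨k * (3 * e + 4), hk.trans (Nat.le_mul_of_pos_right k (by omega)), ?_⟩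
    intro Kc Cc Tc q R A T hR hT
    obtain ⟨K, C, T₁, hC, hT1, ih⟩ := ih Kc Cc Tc q R A T hR hT
    set c := max 1 (Cc (wordDepth q (max A K)) T₁)
    have hsc : 1 ≤ stepC q R c := one_le_stepC hR (le_max_left _ _)
    have hCC : C ≤ stepC q R c * C ^ (3 * e + 4) :=
      (le_self_pow₀ (one_le_two.trans hC) (by omega)).trans (le_mul_of_one_le_left
        (pow_nonneg (zero_le_two.trans hC) _) hsc)
    refine ⟨max K (stepK q (max A K) K (Kc (wordDepth q (max A K)) T₁)),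
      stepC q R c * C ^ (3 * e + 4), max T₁ (Tc (wordDepth q (max A K)) T₁), hC.trans hCC,
      hT1.trans (le_max_left _ _), ?_⟩
    intro D δ r B n ρ w ρ₀ ρ₁ conv S h hr hconv hA hS hn hbn hU i hi
    have hB1 : 1 ≤ B := h.B_one
    have hB0 : 0 ≤ B := zero_le_one.trans hB1
    have hle : C * B ^ k ≤ stepC q R c * C ^ (3 * e + 4) * B ^ (k * (3 * e + 4)) :=
      mul_le_mul hCC (pow_le_pow_right₀ hB1 (Nat.le_mul_of_pos_right k (by omega)))
        (pow_nonneg hB0 k) ((zero_le_two.trans hC).trans hCC)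
    have hX2 : 2 ≤ C * B ^ k :=
      hC.trans (le_mul_of_one_le_right (zero_le_two.trans hC) (one_le_pow₀ hB1))
    have hUj : (C * B ^ k) ^ 2 * D.U δ r ≤ 1 :=
      (mul_le_mul_of_nonneg_right (pow_le_pow_left₀ (by linarith) hle 2) h.U_nonneg).trans hU
    have hpre := ih D δ r B n ρ w ρ₀ ρ₁ conv S h hr hconv hA hS hn hbn hUj
    rcases Nat.of_le_succ hi with hi | rfl
    · exact (hpre i hi).mono h (by linarith) hle (zero_lt_one.trans_le (hT.trans hT1))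
        (le_max_left _ _) (by omega) (le_max_left _ _)
    · have hBX : B ≤ C * B ^ k := by
        calc B ≤ B ^ k := le_self_pow₀ hB1 (by omega)
          _ ≤ C * B ^ k := le_mul_of_one_le_left (pow_nonneg hB0 k) (by linarith)
      refine ((hpre j le_rfl).step h hR hr hconv hBX hX2 hT1 hUj hA hS hn hbn).mono h ?_ ?_
        (zero_lt_one.trans_le ((hT.trans hT1).trans (le_max_left _ _))) le_rfl (by omega)
        (le_max_right _ _)
      · exact mul_pos (zero_lt_one.trans_le hsc) (pow_pos (by linarith) _)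
      · rw [mul_pow, ← pow_mul, ← mul_assoc]

/-- The syntactic bounds of the Picard iterates and of their words. -/
theorem iter_bounds (e j : ℕ) : ∃ E : ℕ,
    ∀ (Kc : ℕ → ℝ → ℕ) (Cc Tc : ℕ → ℝ → ℝ) (q : ℕ) (R : ℝ) (A : ℕ) (T : ℝ), 1 ≤ R → 1 ≤ T →
    ∃ (K : ℕ) (C T₁ : ℝ), 1 ≤ C ∧ T ≤ T₁ ∧
      ∀ (D : Binder) (δ : ℕ → ℝ) (r B : ℝ) (n : ℕ) (ρ w : Fin n → ℝ) (ρ₀ ρ₁ : ℝ)
        (conv : LProg → Prog),
        D.Ok δ r B T → PicardRule R ρ₀ ρ₁ ρ w → ConvSyn e δ r Kc Cc Tc conv →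
        (Prog.bind D.p D.Δ D.b).depth ≤ A → C * B ^ E * D.U δ r ≤ 1 → ∀ i ≤ j,
          let Φ := D.iter conv ρ w ρ₀ ρ₁ q i
          (Φ.Small ∧ Φ.WF δ r (C * B ^ E) T₁ ∧ Φ.SensLe δ (C * B ^ E) (e1 D.Δ) ∧ Φ.depth ≤ K ∧
            Φ.nodes ≤ K * ((Prog.bind D.p D.Δ D.b).nodes + n + 1) ^ K ∧
            Φ.size δ r ≤ C * B ^ E * D.U δ r ^ 2 ∧
            Φ.lip δ (e1 D.Δ) ≤ C * B ^ E * D.U δ r ^ 2 ∧
            ∀ l, (Prog.bind D.p D.Δ D.b).LevelGe l → Φ.LevelGe l) ∧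
          (D.sumT Φ ρ w q).Small ∧ (D.sumT Φ ρ w q).WF δ r (C * B ^ E) T₁ ∧
            (D.sumT Φ ρ w q).SensLe δ (C * B ^ E) (e1 D.Δ) ∧ (D.sumT Φ ρ w q).depth ≤ K ∧
            (D.sumT Φ ρ w q).norm' δ ≤ C * D.U δ r ^ 2 ∧
            ∀ l, (Prog.bind D.p D.Δ D.b).LevelGe l → (D.sumT Φ ρ w q).LevelGe l := by
  obtain ⟨k, hk, hiter⟩ := iter_bd e j
  refine ⟨2 * k, fun Kc Cc Tc q R A T hR hT => ?_⟩
  obtain ⟨K, C, T₁, hC, hT1, hiter⟩ := hiter Kc Cc Tc q R A T hR hT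
  refine ⟨max (max K (2 ^ K)) (wordDepth q (max A K)), max (C ^ 2) (8 * q * R), T₁,
    le_max_of_le_left (one_le_pow₀ (by linarith)), hT1, ?_⟩
  intro D δ r B n ρ w ρ₀ ρ₁ conv h hr hconv hA hU i hi
  intro Φ
  set bn := (Prog.bind D.p D.Δ D.b).nodes with hbn
  have hbn3 : 3 ≤ bn := by
    rw [hbn]; simp only [Prog.nodes]
    have := D.p.one_le_nodes; have := D.b.one_le_nodes; omega
  have hB0 : 0 ≤ B := zero_le_one.trans h.B_one
  have hU0 := h.U_nonneg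
  have hC0 : 0 ≤ C := by linarith
  set M := max (C ^ 2) (8 * q * R) with hM
  have hsq : (C * B ^ k) ^ 2 ≤ M * B ^ (2 * k) := by
    rw [mul_pow, ← pow_mul, mul_comm k 2]
    exact mul_le_mul_of_nonneg_right (le_max_left _ _) (pow_nonneg hB0 _)
  have hX1 : 1 ≤ C * B ^ k :=
    one_le_mul_of_one_le_of_one_le (by linarith) (one_le_pow₀ h.B_one)
  have hX : C * B ^ k ≤ M * B ^ (2 * k) := (le_self_pow₀ hX1 (by norm_num)).trans hsq
  have hUj : (C * B ^ k) ^ 2 * D.U δ r ≤ 1 :=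
    (mul_le_mul_of_nonneg_right hsq hU0).trans hU
  have hb := hiter D δ r B n ρ w ρ₀ ρ₁ conv (2 * (bn + n + 1)) h hr hconv hA (by omega) (by omega)
    (by omega) hUj i hi
  have hBX : B ≤ C * B ^ k :=
    (le_self_pow₀ h.B_one (by omega)).trans (le_mul_of_one_le_left (pow_nonneg hB0 k) (by linarith))
  have hX2 : 2 ≤ C * B ^ k := hC.trans (le_mul_of_one_le_right hC0 (one_le_pow₀ h.B_one))
  have hT0 : 0 < T₁ := zero_lt_one.trans_le (hT.trans hT1)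
  have hr0 := zero_le_one.trans h.r_one
  obtain ⟨w1, w2, w3, w4, w5, w6⟩ := hb.sumT_facts h hR hr hBX hX2 hT1 hUj hA q
  refine ⟨⟨hb.small, hb.wf.mono h.delta le_rfl hr0 le_rfl hX hT0 le_rfl,
    hb.sens.mono h.delta le_rfl hX (e1_nonneg _) fun _ => le_rfl,
    hb.depth_le.trans ((le_max_left _ _).trans (le_max_left _ _)), ?_,
    hb.size_le.trans (mul_le_mul_of_nonneg_right hX (sq_nonneg _)),
    (hb.lip_le h hBX).trans (mul_le_mul_of_nonneg_right hsq (sq_nonneg _)), hb.level⟩,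
    w1, w2.mono h.delta le_rfl hr0 le_rfl hX hT0 le_rfl,
    w3.mono h.delta le_rfl hX (e1_nonneg _) fun _ => le_rfl, w4.trans (le_max_right _ _),
    w5.trans (mul_le_mul_of_nonneg_right (le_max_right _ _) (sq_nonneg _)), w6⟩
  refine hb.nodes_le.trans ?_
  rw [mul_pow]
  exact Nat.mul_le_mul ((le_max_right K (2 ^ K)).trans (le_max_left _ _))
    (Nat.pow_le_pow_right (by omega) ((le_max_left _ _).trans (le_max_left _ _)))

end Binder

end Vale.Agent.P347
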