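import Vale.Agent.P347Zero.RealNode
import Vale.Agent.P347.Params

/-!
P347: the recursion over programs. Points gain a level of inflation, compensations gain a round,
bodies keep both.
-/

open MeasureTheory ProbabilityTheory Real Filter
open scoped Topology

namespace Vale.Agent.P347

/-- The compensation of one binder (`exists_debias`), as the recursion uses it. -/
def DebiasGood : Prop :=
  ∀ (α : ℝ), 0 < α → ∀ M : ℕ, ∃ Ee M2 : ℕ, ∀ γ : ℝ, 0 < γ → ∃ N₀ : ℕ,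
    ∀ N, N₀ ≤ N → ∀ (A : ℕ) (T Cb : ℝ), 1 ≤ T → 0 ≤ Cb → ∃ (K : ℕ) (C T' : ℝ), 1 ≤ T' ∧ ∀ᶠ d : ℕ in atTop,
    ∀ (Nr : ℕ) (εr : ℝ) (_ : Rule Nr εr), εr ≤ ((d : ℝ) ^ M2)⁻¹ →
    ∀ (δ0 δ : ℕ → ℝ) (r B lam Δ : ℝ) (p b : Prog),
    0 ≤ δ0 → δ0 ≤ δ → δ ≤ 1 → (d : ℝ) ^ γ ≤ r → r ≤ B → Real.log d ≤ B → B ≤ d → 0 < lam →
    (Prog.bind p Δ b).WF δ r B T → (Prog.bind p Δ b).depth ≤ A →
    lam * (Prog.bind p Δ b).size δ r * B ^ Ee ≤ (d : ℝ) ^ (-α) →
    ∃ Φ : Prog, Φ.Small ∧ Φ.WF δ r (C * B ^ Ee) T' ∧ Φ.depth ≤ K ∧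
      Φ.nodes ≤ K * ((Prog.bind p Δ b).nodes + Nr + 1) ^ K ∧
      (∀ ℓ₀, (Prog.bind p Δ b).LevelGe ℓ₀ → Φ.LevelGe ℓ₀) ∧
      Φ.size δ r ≤ C * B ^ Ee * (lam * (Prog.bind p Δ b).size δ r) ^ 2 ∧
      Φ.lip δ (pushR 0 (pushR √Δ 0)) ≤ C * B ^ Ee * (lam * (Prog.bind p Δ b).size δ r) ^ 2 ∧
      ∀ (h : ℕ → E d → E d) (Gb : ℝ), (∀ ℓ, Fld d (δ0 ℓ) r Gb Cb N (h ℓ)) → ∀ env : Env d,
        ∀ v : E d → ℝ, IsTest v →
          |debLaw lam Δ (fun x => b.sem h (push x env))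
              (fun x ξ => Φ.sem h (push ξ (push x env))) (p.sem h env) v
            - ∫ w, v (lam • (Prog.bind p Δ b).sem h env + w) ∂gau (Fin d)| ≤ ((d : ℝ) ^ M)⁻¹

/-! ### Arithmetic of the accuracies -/

section accR

variable {κ : ℝ} {n m : ℕ}

lemma rt_pow_four (hκ : 0 ≤ κ) : √(√κ) ^ 4 = κ := by
  rw [show (4 : ℕ) = 2 * 2 from rfl, pow_mul, sq_sqrt (sqrt_nonneg _), sq_sqrt hκ]

lemma one_le_rt (hκ : 1 ≤ κ) : 1 ≤ √(√κ) := one_le_sqrt.2 (one_le_sqrt.2 hκ)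

lemma accR_nonneg : 0 ≤ accR κ n m := by unfold accR; positivity

lemma inv_rt_pow_anti (hκ : 1 ≤ κ) {i j : ℕ} (h : i ≤ j) : (√(√κ) ^ j)⁻¹ ≤ (√(√κ) ^ i)⁻¹ :=
  inv_anti₀ (pow_pos (one_pos.trans_le (one_le_rt hκ)) _) (pow_le_pow_right₀ (one_le_rt hκ) h)

lemma accR_succ_le (hκ : 1 ≤ κ) : accR κ (n + 1) m ≤ accR κ n m :=
  add_le_add (inv_rt_pow_anti hκ (Nat.le_succ _)) le_rfl

lemma one_le_accR (hκ : 1 ≤ κ) (h : n = 0 ∨ m = 0) : 1 ≤ accR κ n m := by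
  have h1 : (0 : ℝ) ≤ (√(√κ) ^ n)⁻¹ := by positivity
  have h2 : (0 : ℝ) ≤ (√(√κ) ^ (m * (m + 1)))⁻¹ := by positivity
  rcases h with rfl | rfl <;> simp [accR] at * <;> linarith

/-- A round of compensation. -/
lemma gain_round (hκ : 1 ≤ κ) : (√(√κ))⁻¹ * accR κ n m ≤ accR κ (n + 1) m := by
  rw [accR, accR, mul_add]
  refine add_le_add (le_of_eq (by rw [pow_succ', mul_inv])) ?_
  exact mul_le_of_le_one_left (by positivity) (inv_le_one_of_one_le₀ (one_le_rt hκ))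

/-- A level of inflation. -/
lemma gain_level (hκ : 1 ≤ κ) {B : ℝ} (hB : B ≤ √(√κ)) :
    (κ ^ (m + 1))⁻¹ * (B / κ) ≤ (√(√κ))⁻¹ ∧
      (κ ^ (m + 1))⁻¹ * (B / κ) * accR κ (n + 1) m ≤ accR κ (n + 1) (m + 1) := by
  have hq := one_le_rt hκ
  have hq0 : 0 < √(√κ) := one_pos.trans_le hq
  have h1 : (κ ^ (m + 1))⁻¹ * (B / κ) ≤ (√(√κ) ^ (4 * (m + 1) + 3))⁻¹ := by
    have e4 : κ = √(√κ) ^ 4 := (rt_pow_four (zero_le_one.trans hκ)).symm
    calc (κ ^ (m + 1))⁻¹ * (B / κ) ≤ (κ ^ (m + 1))⁻¹ * (√(√κ) / κ) := by gcongr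
      _ = ((√(√κ) ^ 4) ^ (m + 1))⁻¹ * (√(√κ) / √(√κ) ^ 4) := by rw [← e4]
      _ = _ := by
        rw [← pow_mul, pow_add]
        field_simp
  refine ⟨h1.trans ((inv_rt_pow_anti hκ (show 1 ≤ 4 * (m + 1) + 3 by omega)).trans_eq
    (by rw [pow_one])), ?_⟩
  refine (mul_le_mul_of_nonneg_right h1 accR_nonneg).trans ?_
  rw [accR, accR, mul_add]
  refine add_le_add (mul_le_of_le_one_left (by positivity)
    (inv_le_one_of_one_le₀ (one_le_pow₀ hq))) ?_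
  rw [← mul_inv, ← pow_add]
  exact inv_rt_pow_anti hκ (by nlinarith)

end accR

lemma const_mul_pow_le {W : ℕ} (hW : 2 ≤ W) (c e : ℕ) : c * W ^ e ≤ W ^ (c + e) := by
  rw [pow_add]
  exact Nat.mul_le_mul_right _ ((Nat.lt_two_pow_self).le.trans (Nat.pow_le_pow_left hW c))

variable {d : ℕ}

/-- Demanding less of a leaf sampler. -/
lemma LeafSmp.mono {H : Fam d} {δ : ℕ → ℝ} {r c u u' : ℝ} {ℓ₀ q : ℕ} {E₁ E₁' e : E d → ℝ}
    (h : LeafSmp H δ r c u ℓ₀ q E₁ e) (hu : u' ≤ u) (hc : ∀ ℓ, 0 ≤ c * δ ℓ * r)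
    (hE : ∀ y, E₁ y ≤ E₁' y) : LeafSmp H δ r c u' ℓ₀ q E₁' e := fun ℓ hℓ lam hl hs =>
  (h ℓ hℓ lam hl (hs.trans hu)).mono le_rfl fun a =>
    add_le_add (mul_le_mul_of_nonneg_left (hE _) (mul_nonneg hl (hc ℓ))) le_rfl

/-- The error of one binder. -/
lemma node_bound {U Mu L K1 B κ accm accn acc qi a b Λ C2 C3 C4 Np Nb Nc Er t : ℝ}
    (hU : 0 ≤ U) (hU1 : 2 * U ≤ 1) (hMu : 0 ≤ Mu) (ha : 0 ≤ a) (hb : 0 ≤ b) (hΛ : 0 ≤ Λ)
    (hK1 : 1 ≤ K1) (hC2 : 0 ≤ C2) (hC3 : 0 ≤ C3) (hC4 : 0 ≤ C4) (hacc : 0 ≤ acc)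
    (hNp : 0 ≤ Np) (hNb : 0 ≤ Nb) (hNc : 0 ≤ Nc) (hEr : 0 ≤ Er) (hBκ : 0 ≤ B / κ) (haccm : 0 ≤ accm)
    (hqi : 0 ≤ qi) (haccn : 0 ≤ accn)
    (hL0 : 0 ≤ L) (hL : K1 * L ≤ 2 * U) (hg1 : K1⁻¹ * (B / κ) ≤ qi)
    (hg2 : K1⁻¹ * (B / κ) * accm ≤ acc) (hg3 : qi * accn ≤ acc) (ht : t ≤ 2 * Er) :
    L * (C2 * (B / κ) * ((1 + 2 * a) * accm + 2 * b) * Λ + C2 * Np * Er)
      + (√3)⁻¹ * ((√3 * (C3 * (U * ((1 + a) * acc + b * qi) + Mu * (a * acc + b))) * Λ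
            + C3 * Nb * Er)
        + (√3 * (C4 * (U * qi) * ((1 + 2 * a) * accn + 2 * b)) * Λ + C4 * Nc * Er)) + t
      ≤ (4 * C2 + C3 + 2 * C4) * U * ((1 + a) * acc + b * qi) * Λ
        + C3 * Mu * (a * acc + b) * Λ + (C2 * Np + C3 * Nb + C4 * Nc + 2) * Er := by
  have hs : (0 : ℝ) < √3 := by positivity
  have hs1 : (√3)⁻¹ ≤ (1 : ℝ) := inv_le_one_of_one_le₀ (one_le_sqrt.2 (by norm_num))
  have hLle : L ≤ 2 * U * K1⁻¹ := by
    rw [← div_eq_mul_inv, le_div_iff₀ (one_pos.trans_le hK1)]; linarith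
  have hL1 : L ≤ 1 := by
    have := mul_le_mul_of_nonneg_right hK1 hL0
    linarith
  have e1 : L * (C2 * (B / κ) * ((1 + 2 * a) * accm + 2 * b) * Λ)
      ≤ C2 * (2 * U) * (2 * ((1 + a) * acc + b * qi)) * Λ := by
    calc L * (C2 * (B / κ) * ((1 + 2 * a) * accm + 2 * b) * Λ)
        ≤ 2 * U * K1⁻¹ * (C2 * (B / κ) * ((1 + 2 * a) * accm + 2 * b) * Λ) :=
          mul_le_mul_of_nonneg_right hLle (by positivity)
      _ = C2 * (2 * U) * ((1 + 2 * a) * (K1⁻¹ * (B / κ) * accm)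
            + 2 * (b * (K1⁻¹ * (B / κ)))) * Λ := by ring
      _ ≤ C2 * (2 * U) * ((1 + 2 * a) * acc + 2 * (b * qi)) * Λ := by gcongr
      _ ≤ _ := by gcongr; nlinarith
  have e2 : C4 * (U * qi) * ((1 + 2 * a) * accn + 2 * b) * Λ
      ≤ 2 * C4 * U * ((1 + a) * acc + b * qi) * Λ := by
    calc C4 * (U * qi) * ((1 + 2 * a) * accn + 2 * b) * Λ
        = C4 * U * ((1 + 2 * a) * (qi * accn) + 2 * (b * qi)) * Λ := by ring
      _ ≤ C4 * U * (2 * ((1 + a) * acc + b * qi)) * Λ := by gcongr; nlinarith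
      _ = _ := by ring
  have e3 : L * (C2 * Np * Er) ≤ C2 * Np * Er := mul_le_of_le_one_left (by positivity) hL1
  have e4 : (√3)⁻¹ * (C3 * Nb * Er + C4 * Nc * Er) ≤ C3 * Nb * Er + C4 * Nc * Er :=
    mul_le_of_le_one_left (by positivity) hs1
  have e5 : (√3)⁻¹ * ((√3 * (C3 * (U * ((1 + a) * acc + b * qi) + Mu * (a * acc + b))) * Λ
            + C3 * Nb * Er)
        + (√3 * (C4 * (U * qi) * ((1 + 2 * a) * accn + 2 * b)) * Λ + C4 * Nc * Er))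
      = C3 * U * ((1 + a) * acc + b * qi) * Λ + C3 * Mu * (a * acc + b) * Λ
        + C4 * (U * qi) * ((1 + 2 * a) * accn + 2 * b) * Λ
        + (√3)⁻¹ * (C3 * Nb * Er + C4 * Nc * Er) := by
    field_simp
    ring
  rw [mul_add, e5]
  linarith [e1, e2, e3, e4, ht]

/-! ### The recursion -/

/-- No compensation or no inflation left: crude estimators. -/
theorem real_crude {α : ℝ} (hα : 0 < α) (M : ℕ) {n m : ℕ} (h : n = 0 ∨ m = 0) :
    RealGood α M n m := by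
  intro eB
  refine ⟨0, 1, one_pos, fun γ hγ _ => ⟨0, fun N _ A T Cb Cu hT _ _ => ⟨1, 3, by norm_num, ?_⟩⟩⟩
  filter_upwards [eventually_ge_atTop 1] with d hd
  intro Nr εr _ _ H δ r ℓ₀ qe ql Λ Gb a b e hδ _ hr hfld hΛ ha hb he hE _ F hF hl _ lam hlam _
    β _ y env hy henv
  have hd1 : (1 : ℝ) ≤ d := by exact_mod_cast hd
  set κ := (d : ℝ) ^ α
  have hκ : 1 ≤ κ := one_le_rpow hd1 hα.le
  have hr1 : 1 ≤ r := hr ▸ one_le_rpow hd1 hγ.le
  have h0 : 0 ≤ δ := fun ℓ => (hδ ℓ).le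
  have hle : δ ≤ κ ^ m • δ := fun ℓ => le_mul_of_one_le_left (h0 ℓ) (one_le_pow₀ hκ)
  have hF' : F.WF δ r (Cu * r ^ eB) T :=
    Prog.WF.mono h0 hle (zero_le_one.trans hr1) le_rfl le_rfl (one_pos.trans_le hT) le_rfl hF
  refine ((est_prog_nodes hΛ h0 hr1 hfld hE F hF' hl β y env hy henv).smp lam).mono ?_ fun z => ?_
  · rw [one_mul, pow_one, mul_comm qe]
    exact Nat.mul_le_mul (by omega) (by omega)
  · have hm := (F.mass_le_size (δ := (((d : ℝ) ^ α) ^ m) • δ)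
      (fun ℓ => mul_nonneg (by positivity) (h0 ℓ)) (zero_le_one.trans hr1)).1
    have hs := F.size_mono h0 hle (zero_le_one.trans hr1) le_rfl
    have hs0 := F.size_nonneg h0 (zero_le_one.trans hr1)
    have hX : 1 ≤ (1 + a) * accR κ n m + b * (√(√κ))⁻¹ := by
      have h1 := one_le_accR (n := n) (m := m) hκ h
      have h2 : 0 ≤ a * accR κ n m := mul_nonneg ha accR_nonneg
      have h3 : 0 ≤ b * (√(√κ))⁻¹ := by positivity
      linarith
    have hΛ0 : 0 ≤ Λ (y z) := (sqrt_nonneg _).trans (hΛ _)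
    have := he (y z)
    have := accR_nonneg (κ := κ) (n := n) (m := m)
    rw [abs_of_nonneg hlam]
    refine le_add_of_le_of_nonneg (le_add_of_le_of_nonneg ?_ (by positivity)) (by positivity)
    calc lam * (3 * F.size δ r * Λ (y z))
        ≤ 3 * (lam * F.size (κ ^ m • δ) r) * 1 * Λ (y z) := by
          nlinarith [mul_le_mul_of_nonneg_right (mul_le_mul_of_nonneg_left hs hlam) hΛ0]
      _ ≤ _ := by
          have : 0 ≤ lam * F.size (κ ^ m • δ) r := mul_nonneg hlam (hs0.trans hs)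
          gcongr

/-- The output of the recursion, in the units of a node. -/
lemma progSmp_of_real {H : Fam d} {δ : ℕ → ℝ} {r κ a b P thr : ℝ} {n m K K' Nr Q : ℕ} {C : ℝ}
    {Λ e : E d → ℝ} (hC : 0 ≤ C) (he : ∀ y, 0 ≤ e y) (hP : 0 ≤ P) (hK : 2 * K ≤ K') {F : Prog}
    (h : ProgSmp H δ r (fun y => C * ((1 + a) * accR κ n m + b * (√(√κ))⁻¹) * Λ y)
      (fun y => C * (a * accR κ n m + b) * Λ y) (fun y => C * (e y + P)) K Nr Q thr F)
    {lam : ℝ} (hlam : 0 ≤ lam) (hs : lam * F.size δ r ≤ thr)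
    (β : Type) [MeasurableSpace β] (y : β → E d) (env : β → Env d) (hy : Measurable y)
    (henv : ∀ i, Measurable fun z => env z i) :
    Smp d (K' * (F.nodes + Nr + 1) ^ K' * Q) (fun V z => lam • F.sem (H V (y z)) (env z))
      fun z => C * (lam * F.size δ r) * ((1 + a) * accR κ n m + b * (√(√κ))⁻¹) * Λ (y z)
        + C * (lam * F.mass δ r) * (a * accR κ n m + b) * Λ (y z)
        + C * ((F.nodes + Nr + 1 : ℕ) : ℝ) ^ K' * (e (y z) + P) := by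
  have h2 : (F.nodes * (Nr + 1)) ^ K ≤ (F.nodes + Nr + 1) ^ K' :=
    calc (F.nodes * (Nr + 1)) ^ K ≤ ((F.nodes + Nr + 1) ^ 2) ^ K := by
          rw [pow_two]
          exact Nat.pow_le_pow_left (Nat.mul_le_mul (by omega) (by omega)) K
      _ ≤ _ := by
          rw [← pow_mul]
          exact Nat.pow_le_pow_right (Nat.succ_pos _) hK
  refine (h lam hlam hs β y env hy henv).mono
    (Nat.mul_le_mul (Nat.mul_le_mul (by omega) h2) le_rfl) fun z => le_of_sub_nonneg ?_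
  have h3 : ((F.nodes * (Nr + 1) : ℕ) : ℝ) ^ K ≤ ((F.nodes + Nr + 1 : ℕ) : ℝ) ^ K' := by
    exact_mod_cast h2
  have := mul_le_mul_of_nonneg_right h3 (mul_nonneg hC (add_nonneg (he (y z)) hP))
  linarith

/-- What is fixed along the recursion at one dimension. -/
structure Setting (H : Fam d) (δ : ℕ → ℝ) (r Cb : ℝ) (N : ℕ) (Λ e Gb : E d → ℝ) (a b : ℝ) :
    Prop where
  pos : ∀ ℓ, 0 < δ ℓ
  one_le : 1 ≤ r
  fld : ∀ V, InClass d V → ∀ y ℓ, Fld d (δ ℓ) r (Gb y) Cb N (H V y ℓ)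
  lam_ge : ∀ y, √(d : ℝ) ≤ Λ y
  a_nonneg : 0 ≤ a
  b_nonneg : 0 ≤ b
  e_nonneg : ∀ y, 0 ≤ e y

/-- One binder inside the recursion. -/
lemma node_smp {H : Fam d} {δ : ℕ → ℝ} {r Cb κ a b B P : ℝ} {N : ℕ} {Λ e Gb : E d → ℝ}
    (hS : Setting H δ r Cb N Λ e Gb a b) {n m : ℕ} (hκ : 1 ≤ κ) (hB0 : 0 ≤ B) (hBq : B ≤ √(√κ))
    {G p bd Φ : Prog} {Δ lam Lb ζ : ℝ} (hΔ : 0 < Δ) (hlam : 0 ≤ lam) (hLb : 0 ≤ Lb)
    {C2 C3 C4 Np Nb Nc : ℝ} (hC2 : 0 ≤ C2) (hC3 : 0 ≤ C3) (hC4 : 0 ≤ C4)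
    (hNp : 0 ≤ Np) (hNb : 0 ≤ Nb) (hNc : 0 ≤ Nc) (hP : 0 ≤ P) (hζ : lam * ζ ≤ P)
    (hM : 0 ≤ G.mass (κ ^ (m + 1) • δ) r)
    (hU : 2 * (lam * G.size (κ ^ (m + 1) • δ) r) ≤ 1) (hU0 : 0 ≤ lam * G.size (κ ^ (m + 1) • δ) r)
    (hsem : ∀ (h : ℕ → E d → E d) (Gb' : ℝ), (∀ ℓ, Fld d (δ ℓ) r Gb' Cb N (h ℓ)) →
      ∀ env : Env d, G.sem h env = (Prog.bind p Δ bd).sem h env)
    (hL : κ ^ (m + 1) * (lam * Lb * √Δ + Φ.lip δ (pushR 0 (pushR √Δ 0)))
      ≤ 2 * (lam * G.size (κ ^ (m + 1) • δ) r))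
    (hdeb : ∀ (h : ℕ → E d → E d) (G : ℝ), (∀ ℓ, Fld d (δ ℓ) r G Cb N (h ℓ)) → ∀ env : Env d,
      ∀ v : E d → ℝ, IsTest v →
        |debLaw lam Δ (fun x => bd.sem h (push x env))
            (fun x ξ => Φ.sem h (push ξ (push x env))) (p.sem h env) v
          - ∫ w, v (lam • (Prog.bind p Δ bd).sem h env + w) ∂gau (Fin d)| ≤ P)
    {β : Type} [MeasurableSpace β] {y : β → E d} {env : β → Env d} {qp qb qc : ℕ}
    {mb : (E d → ℝ) → β × E d → E d}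
    (hsp : Smp d qp (fun V z => (√Δ)⁻¹ • p.sem (H V (y z)) (env z)) fun z =>
      C2 * (B / κ) * ((1 + 2 * a) * accR κ (n + 1) m + 2 * b) * Λ (y z) + C2 * Np * (e (y z) + P))
    (hsb : Smp d qb (fun V u => (√3 * lam) • mb V u) fun u =>
      (√3 * (C3 * (lam * G.size (κ ^ (m + 1) • δ) r
          * ((1 + a) * accR κ (n + 1) (m + 1) + b * (√(√κ))⁻¹)
        + lam * G.mass (κ ^ (m + 1) • δ) r * (a * accR κ (n + 1) (m + 1) + b)))) * Λ (y u.1)
      + C3 * Nb * (e (y u.1) + P))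
    (hsc : Smp d qc
      (fun V (u : (β × E d) × E d) => √3 • Φ.sem (H V (y u.1.1))
        (push u.2 (push u.1.2 (env u.1.1)))) fun u =>
      (√3 * (C4 * (lam * G.size (κ ^ (m + 1) • δ) r * (√(√κ))⁻¹)
        * ((1 + 2 * a) * accR κ n (m + 1) + 2 * b))) * Λ (y u.1.1)
      + C4 * Nc * (e (y u.1.1) + P))
    (hmb : ∀ V, InClass d V → ∀ z, ContDiff ℝ 1 (fun x => mb V (z, x)) ∧
      ∀ x x', ‖mb V (z, x) - mb V (z, x')‖ ≤ Lb * ‖x - x'‖)
    (hnear : ∀ V, InClass d V → ∀ z,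
      ∫ w, ‖mb V (z, p.sem (H V (y z)) (env z) + √Δ • w)
          - bd.sem (H V (y z)) (push (p.sem (H V (y z)) (env z) + √Δ • w) (env z))‖ ∂gau (Fin d)
        ≤ ζ) :
    Smp d (qp + (qb + qc)) (fun V z => lam • G.sem (H V (y z)) (env z)) fun z =>
      (4 * C2 + C3 + 2 * C4) * (lam * G.size (κ ^ (m + 1) • δ) r)
          * ((1 + a) * accR κ (n + 1) (m + 1) + b * (√(√κ))⁻¹) * Λ (y z)
        + C3 * (lam * G.mass (κ ^ (m + 1) • δ) r) * (a * accR κ (n + 1) (m + 1) + b) * Λ (y z)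
        + (C2 * Np + C3 * Nb + C4 * Nc + 2) * (e (y z) + P) := by
  have hδ : 0 ≤ δ := fun ℓ => (hS.pos ℓ).le
  have h := binder_smp (be := fun z =>
      (√3 * (C3 * (lam * G.size (κ ^ (m + 1) • δ) r
          * ((1 + a) * accR κ (n + 1) (m + 1) + b * (√(√κ))⁻¹)
        + lam * G.mass (κ ^ (m + 1) • δ) r * (a * accR κ (n + 1) (m + 1) + b)))) * Λ (y z)
      + C3 * Nb * (e (y z) + P))
    (bc := fun z => (√3 * (C4 * (lam * G.size (κ ^ (m + 1) • δ) r * (√(√κ))⁻¹)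
        * ((1 + 2 * a) * accR κ n (m + 1) + 2 * b))) * Λ (y z) + C4 * Nc * (e (y z) + P))
    hS.fld hΔ hlam hδ hdeb hLb hsp hsb hsc hmb hnear
    (fun z x => le_rfl) (fun z x ξ => le_rfl)
  refine (h.congr fun V hV z => ?_).mono le_rfl fun z => ?_
  · rw [hsem _ _ (hS.fld V hV (y z))]
  obtain ⟨hg1, hg2⟩ := gain_level (n := n) (m := m) hκ hBq
  have := hS.e_nonneg (y z)
  exact node_bound hU0 hU (mul_nonneg hlam hM) hS.a_nonneg hS.b_nonneg
    ((sqrt_nonneg _).trans (hS.lam_ge _)) (one_le_pow₀ hκ) hC2 hC3 hC4 accR_nonneg hNp hNb hNc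
    (by linarith) (div_nonneg hB0 (by linarith)) accR_nonneg (by positivity) accR_nonneg
    (add_nonneg (by positivity) (Φ.lip_nonneg hδ
      (pushR_nonneg le_rfl (pushR_nonneg (sqrt_nonneg _) fun _ => le_rfl))))
    hL hg1 hg2 (gain_round hκ) (by linarith)

/-- The point of a binder is sampled one level of inflation below. -/
lemma point_smp {H : Fam d} {δ : ℕ → ℝ} {r Cb κ a b Bd Cu1 Cm P T1 : ℝ} {N : ℕ}
    {Λ e Gb : E d → ℝ} (hS : Setting H δ r Cb N Λ e Gb a b) (hκ : 1 ≤ κ) (hBd0 : 0 ≤ Bd)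
    (hBq : Bd ≤ √(√κ)) (hCu1 : 1 ≤ Cu1) (hCm : 0 ≤ Cm) (hT1 : 0 < T1) (hP : 0 ≤ P)
    {n m Km Nr Q ℓ₀ A W : ℕ}
    (hrec : ∀ F : Prog, F.WF (κ ^ m • δ) r Bd T1 → F.LevelGe ℓ₀ → F.depth ≤ A → ∀ lam : ℝ,
      0 ≤ lam → lam * F.size (κ ^ m • δ) r ≤ Cu1 * (√κ)⁻¹ →
      ∀ (β : Type) [MeasurableSpace β] (y : β → E d) (env : β → Env d),
      Measurable y → (∀ i, Measurable fun z => env z i) →
      Smp d (Km * (F.nodes + Nr + 1) ^ Km * Q)
        (fun V z => lam • F.sem (H V (y z)) (env z))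
        fun z => Cm * (lam * F.size (κ ^ m • δ) r)
            * ((1 + a) * accR κ (n + 1) m + b * (√(√κ))⁻¹) * Λ (y z)
          + Cm * (lam * F.mass (κ ^ m • δ) r) * (a * accR κ (n + 1) m + b) * Λ (y z)
          + Cm * ((F.nodes + Nr + 1 : ℕ) : ℝ) ^ Km * (e (y z) + P))
    {p : Prog} {Δ : ℝ} (hΔ : 0 < Δ) (hpw : p.WF (κ ^ (m + 1) • δ) r Bd T1)
    (hpB : p.size (κ ^ (m + 1) • δ) r ≤ Bd * √Δ) (hpl : p.LevelGe ℓ₀) (hpA : p.depth ≤ A)
    (hnp : p.nodes + Nr + 1 ≤ W)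
    {β : Type} [MeasurableSpace β] {y : β → E d} {env : β → Env d}
    (hy : Measurable y) (henv : ∀ i, Measurable fun z => env z i) :
    Smp d (Km * W ^ Km * Q)
      (fun V z => (√Δ)⁻¹ • p.sem (H V (y z)) (env z)) fun z =>
      Cm * (Bd / κ) * ((1 + 2 * a) * accR κ (n + 1) m + 2 * b) * Λ (y z)
        + Cm * ((W : ℝ) ^ Km) * (e (y z) + P) := by
  have hδ0 : 0 ≤ δ := fun ℓ => (hS.pos ℓ).le
  have hr0 : 0 < r := one_pos.trans_le hS.one_le
  have hκ0 : 0 < κ := one_pos.trans_le hκ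
  have hsΔ : 0 < √Δ := sqrt_pos.2 hΔ
  set q := √(√κ) with hqd
  have hq1 : 1 ≤ q := one_le_rt hκ
  have hsκ : q * q = √κ := mul_self_sqrt (sqrt_nonneg _)
  have hκm : κ ^ m • δ ≤ κ ^ (m + 1) • δ := fun ℓ =>
    mul_le_mul_of_nonneg_right (pow_le_pow_right₀ hκ (Nat.le_succ m)) (hδ0 ℓ)
  have hΛ0 : ∀ y, 0 ≤ Λ y := fun y => (sqrt_nonneg _).trans (hS.lam_ge y)
  have ha := hS.a_nonneg
  have hb := hS.b_nonneg
  have hpsize : (√Δ)⁻¹ * p.size (κ ^ m • δ) r ≤ Bd / κ := by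
    have h1 : κ * p.size (κ ^ m • δ) r ≤ Bd * √Δ := by
      refine le_trans ?_ hpB
      have := Prog.size_scale (c := κ) (δ := κ ^ m • δ)
        (fun ℓ => mul_nonneg (by positivity) (hδ0 ℓ)) hκ hr0.le p hpw
      rwa [smul_smul, ← pow_succ'] at this
    rw [inv_mul_le_iff₀ hsΔ, ← mul_div_assoc, le_div_iff₀ hκ0]
    linarith
  have hth : (√Δ)⁻¹ * p.size (κ ^ m • δ) r ≤ Cu1 * (√κ)⁻¹ := by
    refine hpsize.trans ?_
    calc Bd / κ ≤ √κ / κ := by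
          gcongr
          exact hBq.trans (hsκ ▸ le_mul_of_one_le_right (zero_le_one.trans hq1) hq1)
      _ = (√κ)⁻¹ := sqrt_div_self
      _ ≤ _ := le_mul_of_one_le_left (by positivity) hCu1
  refine (hrec p (Prog.WF.mono (fun ℓ => mul_nonneg (by positivity) (hδ0 ℓ)) hκm hr0.le le_rfl
    le_rfl hT1 le_rfl hpw) hpl hpA (√Δ)⁻¹ (by positivity) hth β y env hy henv).mono ?_ fun z => ?_
  · exact Nat.mul_le_mul (Nat.mul_le_mul le_rfl (Nat.pow_le_pow_left hnp _)) le_rfl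
  · obtain ⟨hm0, hms⟩ := p.mass_le_size (δ := κ ^ m • δ) (r := r)
      (fun ℓ => mul_nonneg (by positivity) (hδ0 ℓ)) hr0.le
    have hms' : (√Δ)⁻¹ * p.mass (κ ^ m • δ) r ≤ Bd / κ :=
      (mul_le_mul_of_nonneg_left hms (by positivity)).trans hpsize
    have hA0 := accR_nonneg (κ := κ) (n := n + 1) (m := m)
    have hq' : q⁻¹ ≤ 1 := inv_le_one_of_one_le₀ hq1
    have hb' := mul_le_mul_of_nonneg_left hq' hb
    have he' := hS.e_nonneg (y z)
    have hn' : ((p.nodes + Nr + 1 : ℕ) : ℝ) ^ Km ≤ (W : ℝ) ^ Km := by gcongr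
    have hb0 : 0 ≤ b * q⁻¹ := by positivity
    calc _ ≤ Cm * (Bd / κ) * ((1 + a) * accR κ (n + 1) m + b * q⁻¹) * Λ (y z)
          + Cm * (Bd / κ) * (a * accR κ (n + 1) m + b) * Λ (y z)
          + Cm * (W : ℝ) ^ Km * (e (y z) + P) := by
          have := hΛ0 (y z)
          gcongr
      _ = Cm * (Bd / κ) * ((1 + 2 * a) * accR κ (n + 1) m + (b * q⁻¹ + b)) * Λ (y z)
          + Cm * (W : ℝ) ^ Km * (e (y z) + P) := by ring
      _ ≤ _ := by
          have := hΛ0 (y z)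
          have : 0 ≤ Bd / κ := by positivity
          gcongr
          linarith

/-- The compensation is sampled one round below. -/
lemma phi_smp {H : Fam d} {δ : ℕ → ℝ} {r Cb κ a b B U Cu Cu2 Cn P T : ℝ} {N : ℕ}
    {Λ e Gb : E d → ℝ} (hS : Setting H δ r Cb N Λ e Gb a b) (hκ : 1 ≤ κ) (hCn : 0 ≤ Cn)
    (hP : 0 ≤ P) (hU0 : 0 ≤ U) (hU : U ≤ Cu * (√κ)⁻¹) (hCu2 : 2 * Cu ≤ Cu2)
    {n m Kn Nr Q ℓ₀ A e0 W : ℕ}
    (hrec : ∀ F : Prog, F.WF (κ ^ (m + 1) • δ) r B T → F.LevelGe ℓ₀ → F.depth ≤ A → ∀ lam : ℝ,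
      0 ≤ lam → lam * F.size (κ ^ (m + 1) • δ) r ≤ Cu2 * (√κ)⁻¹ →
      ∀ (β : Type) [MeasurableSpace β] (y : β → E d) (env : β → Env d),
      Measurable y → (∀ i, Measurable fun z => env z i) →
      Smp d (Kn * (F.nodes + Nr + 1) ^ Kn * Q)
        (fun V z => lam • F.sem (H V (y z)) (env z))
        fun z => Cn * (lam * F.size (κ ^ (m + 1) • δ) r)
            * ((1 + a) * accR κ n (m + 1) + b * (√(√κ))⁻¹) * Λ (y z)
          + Cn * (lam * F.mass (κ ^ (m + 1) • δ) r) * (a * accR κ n (m + 1) + b) * Λ (y z)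
          + Cn * ((F.nodes + Nr + 1 : ℕ) : ℝ) ^ Kn * (e (y z) + P))
    {Φ : Prog} (hΦw : Φ.WF (κ ^ (m + 1) • δ) r B T) (hΦl : Φ.LevelGe ℓ₀) (hΦA : Φ.depth ≤ A)
    (hΦU' : Φ.size (κ ^ (m + 1) • δ) r ≤ U * (√(√κ))⁻¹) (hnΦ : Φ.nodes + Nr + 1 ≤ W ^ e0)
    {β : Type} [MeasurableSpace β] {y : β → E d} {env : β → Env d}
    (hy : Measurable y) (henv : ∀ i, Measurable fun z => env z i) :
    Smp d (Kn * W ^ (e0 * Kn) * Q)
      (fun V (u : (β × E d) × E d) => √3 • Φ.sem (H V (y u.1.1))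
        (push u.2 (push u.1.2 (env u.1.1)))) fun u =>
      (√3 * (Cn * (U * (√(√κ))⁻¹) * ((1 + 2 * a) * accR κ n (m + 1) + 2 * b))) * Λ (y u.1.1)
        + Cn * ((W : ℝ) ^ (e0 * Kn)) * (e (y u.1.1) + P) := by
  have hr0 : 0 < r := one_pos.trans_le hS.one_le
  set q := √(√κ) with hqd
  have hq1 : 1 ≤ q := one_le_rt hκ
  set dm := κ ^ (m + 1) • δ with hdmd
  have hdm0 : 0 ≤ dm := fun ℓ => mul_nonneg (by positivity) (hS.pos ℓ).le
  have hΛ0 : ∀ y, 0 ≤ Λ y := fun y => (sqrt_nonneg _).trans (hS.lam_ge y)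
  have ha := hS.a_nonneg
  have hb := hS.b_nonneg
  have h3 : √3 ≤ 2 := (sqrt_le_left zero_le_two).2 (by norm_num)
  have hth : √3 * Φ.size dm r ≤ Cu2 * (√κ)⁻¹ := by
    have h4 : U * q⁻¹ ≤ U := mul_le_of_le_one_right hU0 (inv_le_one_of_one_le₀ hq1)
    calc √3 * Φ.size dm r ≤ 2 * U :=
          mul_le_mul h3 (hΦU'.trans h4) (Φ.size_nonneg hdm0 hr0.le) zero_le_two
      _ ≤ 2 * (Cu * (√κ)⁻¹) := by linarith
      _ ≤ _ := by rw [← mul_assoc]; gcongr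
  refine (hrec Φ hΦw hΦl hΦA √3 (sqrt_nonneg _) hth ((β × E d) × E d) (fun u => y u.1.1)
    (fun u => push u.2 (push u.1.2 (env u.1.1)))
    (hy.comp (measurable_fst.comp measurable_fst))
    (measurable_push measurable_snd (measurable_push (measurable_snd.comp measurable_fst)
      fun i => (henv i).comp (measurable_fst.comp measurable_fst)))).mono ?_ fun u => ?_
  · refine Nat.mul_le_mul (Nat.mul_le_mul le_rfl ?_) le_rfl
    rw [pow_mul]
    exact Nat.pow_le_pow_left hnΦ _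
  · obtain ⟨hm0, hms⟩ := Φ.mass_le_size (δ := dm) (r := r) hdm0 hr0.le
    have hA0 := accR_nonneg (κ := κ) (n := n) (m := m + 1)
    have hb' := mul_le_mul_of_nonneg_left (inv_le_one_of_one_le₀ hq1) hb
    have he' := hS.e_nonneg (y u.1.1)
    have hn' : ((Φ.nodes + Nr + 1 : ℕ) : ℝ) ^ Kn ≤ (W : ℝ) ^ (e0 * Kn) := by
      rw [pow_mul]; gcongr; exact_mod_cast hnΦ
    have := hΛ0 (y u.1.1)
    have hb0 : 0 ≤ b * q⁻¹ := by positivity
    have hm' : Φ.mass dm r ≤ U * q⁻¹ := hms.trans hΦU'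
    calc _ ≤ Cn * (√3 * (U * q⁻¹)) * ((1 + a) * accR κ n (m + 1) + b * q⁻¹) * Λ (y u.1.1)
          + Cn * (√3 * (U * q⁻¹)) * (a * accR κ n (m + 1) + b) * Λ (y u.1.1)
          + Cn * (W : ℝ) ^ (e0 * Kn) * (e (y u.1.1) + P) := by gcongr
      _ = √3 * (Cn * (U * q⁻¹)
            * ((1 + 2 * a) * accR κ n (m + 1) + (b * q⁻¹ + b))) * Λ (y u.1.1)
          + Cn * (W : ℝ) ^ (e0 * Kn) * (e (y u.1.1) + P) := by ring
      _ ≤ _ := by gcongr; linarith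

/-- The sizes met at one binder. -/
lemma deb_numeric {U Cu Cc Cd Bd κ sB : ℝ} {Ee : ℕ} (hκ : 1 ≤ κ) (hCu : 1 ≤ Cu) (hCc : 1 ≤ Cc)
    (hBd : 1 ≤ Bd) (hbig : 2 * max Cd 1 * Bd ^ Ee * Cc ^ 2 * Cu ≤ √(√κ))
    (hU : U ≤ Cu * (√κ)⁻¹) (h0 : 0 ≤ sB) (hsB : sB ≤ Cc * U) :
    0 ≤ U ∧ 2 * U ≤ 1 ∧ sB * Bd ^ Ee ≤ (√(√κ))⁻¹ ∧
      Cd * Bd ^ Ee * sB ^ 2 ≤ U * (√(√κ))⁻¹ := by
  set q := √(√κ) with hqd
  set E := Bd ^ Ee with hEd
  set D := max Cd 1 with hDd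
  have hq1 : 1 ≤ q := one_le_rt hκ
  have hE : 1 ≤ E := one_le_pow₀ hBd
  have hD : 1 ≤ D := le_max_right _ _
  have hU0 : 0 ≤ U := nonneg_of_mul_nonneg_right (h0.trans hsB) (one_pos.trans_le hCc)
  have hUq : U * q * q ≤ Cu := by
    rw [mul_assoc, mul_self_sqrt (sqrt_nonneg _), ← le_div_iff₀ (by positivity), div_eq_mul_inv]
    exact hU
  have key : 2 * D * E * Cc ^ 2 * (U * q) ≤ 1 := by
    refine le_of_mul_le_mul_right ?_ (one_pos.trans_le hq1)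
    calc 2 * D * E * Cc ^ 2 * (U * q) * q = 2 * D * E * Cc ^ 2 * (U * q * q) := by ring
      _ ≤ 2 * D * E * Cc ^ 2 * Cu := by gcongr
      _ ≤ 1 * q := by rw [one_mul]; exact hbig
  have hc2 : Cc ≤ Cc ^ 2 := le_self_pow₀ hCc two_ne_zero
  have hUle : U ≤ U * q := le_mul_of_one_le_right hU0 hq1
  refine ⟨hU0, ?_, ?_, ?_⟩
  · calc 2 * U = 2 * 1 * 1 * 1 ^ 2 * U := by ring
      _ ≤ 2 * D * E * Cc ^ 2 * (U * q) := by gcongr
      _ ≤ 1 := key
  · rw [← one_div, le_div_iff₀ (one_pos.trans_le hq1)]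
    calc sB * E * q ≤ Cc * U * E * q := by gcongr
      _ = 1 * 1 * E * Cc * (U * q) := by ring
      _ ≤ 2 * D * E * Cc ^ 2 * (U * q) := by gcongr; norm_num
      _ ≤ 1 := key
  · rw [← div_eq_mul_inv, le_div_iff₀ (one_pos.trans_le hq1)]
    calc Cd * E * sB ^ 2 * q ≤ D * E * sB ^ 2 * q := by gcongr; exact le_max_left _ _
      _ ≤ D * E * (Cc * U) ^ 2 * q := by gcongr
      _ = U * (1 * D * E * Cc ^ 2 * (U * q)) := by ring
      _ ≤ U * (2 * D * E * Cc ^ 2 * (U * q)) := by gcongr; norm_num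
      _ ≤ U := mul_le_of_le_one_right hU0 key

/-- The node counts met at one binder. -/
lemma node_count {k Kd Nr Gn pn bn Fn : ℕ} (hG2 : 2 ≤ Gn) (hpG : pn + 1 ≤ Gn)
    (hwn : bn ≤ (4 * k + 4) * Gn) (hΦn : Fn ≤ Kd * (bn + Nr + 1) ^ Kd) :
    2 ≤ Gn * (Nr + 1) ∧ pn + Nr + 1 ≤ Gn * (Nr + 1) ∧
      Fn + Nr + 1 ≤ (Gn * (Nr + 1)) ^ (Kd + 1 + ((4 * k + 6) * Kd + 1)) := by
  set W := Gn * (Nr + 1) with hW
  have hW2 : 2 ≤ W := le_mul_of_le_of_one_le hG2 (by omega)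
  have hGW : Gn ≤ W := Nat.le_mul_of_pos_right _ (by omega)
  have hNW : Nr + 1 ≤ W := Nat.le_mul_of_pos_left _ (by omega)
  have hnp : pn + Nr + 1 ≤ W := by
    have h1 := Nat.mul_le_mul_right (Nr + 1) hpG
    rw [add_mul, one_mul, ← hW] at h1
    have h2 : pn ≤ pn * (Nr + 1) := Nat.le_mul_of_pos_right _ (by omega)
    omega
  refine ⟨hW2, hnp, ?_⟩
  have h1 : bn + Nr + 1 ≤ W ^ (4 * k + 6) := by
    refine le_trans ?_ (const_mul_pow_le hW2 (4 * k + 5) 1)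
    have h2 := Nat.mul_le_mul_left (4 * k + 4) hGW
    rw [pow_one]
    calc bn + Nr + 1 ≤ (4 * k + 4) * W + W := by omega
      _ = _ := by ring
  have h3 := hΦn.trans (Nat.mul_le_mul_left Kd
    ((Nat.pow_le_pow_left h1 Kd).trans_eq (pow_mul W _ _).symm))
  refine le_trans ?_ (const_mul_pow_le hW2 _ _)
  rw [add_mul, one_mul]
  refine (show Fn + Nr + 1 ≤ Kd * W ^ ((4 * k + 6) * Kd) + W by omega).trans ?_
  exact add_le_add (Nat.mul_le_mul_left _ (Nat.pow_le_pow_right (by omega) (Nat.le_succ _)))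
    ((pow_one W).symm.le.trans (Nat.pow_le_pow_right (by omega) (by omega)))

/-- The totals of one binder. -/
lemma node_finish {Km K3 Kn e0 K W Q : ℕ} {Cm C3 Cn C U Mu X Y L Er : ℝ} (hW : 2 ≤ W)
    (hK : Km + K3 + Kn + 1 + e0 * Kn ≤ K) (hCm : 1 ≤ Cm) (hC3 : 1 ≤ C3) (hCn : 1 ≤ Cn)
    (hC : 8 * (Cm + C3 + Cn) + 4 ≤ C) (hU : 0 ≤ U) (hMu : 0 ≤ Mu) (hX : 0 ≤ X) (hY : 0 ≤ Y)
    (hL : 0 ≤ L) (hEr : 0 ≤ Er) :
    Km * W ^ Km * Q + (K3 * W ^ K3 * Q + Kn * W ^ (e0 * Kn) * Q) ≤ K * W ^ K * Q ∧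
      (4 * Cm + C3 + 2 * Cn) * U * X * L + C3 * Mu * Y * L
          + (Cm * (W : ℝ) ^ Km + C3 * (W : ℝ) ^ K3 + Cn * (W : ℝ) ^ (e0 * Kn) + 2) * Er
        ≤ U * (C * X * L) + Mu * (C * Y * L) + (W : ℝ) ^ K * (C * Er) := by
  constructor
  · have hp : ∀ i, i ≤ K → W ^ i ≤ W ^ K := fun i hi => Nat.pow_le_pow_right (by omega) hi
    rw [← add_mul, ← add_mul]
    refine Nat.mul_le_mul ?_ le_rfl
    calc Km * W ^ Km + (K3 * W ^ K3 + Kn * W ^ (e0 * Kn))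
        ≤ Km * W ^ K + (K3 * W ^ K + Kn * W ^ K) :=
          add_le_add (Nat.mul_le_mul_left _ (hp _ (by omega))) (add_le_add
            (Nat.mul_le_mul_left _ (hp _ (by omega))) (Nat.mul_le_mul_left _ (hp _ (by omega))))
      _ = (Km + (K3 + Kn)) * W ^ K := by ring
      _ ≤ _ := Nat.mul_le_mul_right _ (by omega)
  · have hW1 : (1 : ℝ) ≤ W := by exact_mod_cast (by omega : 1 ≤ W)
    have hp : ∀ i, i ≤ K → (W : ℝ) ^ i ≤ (W : ℝ) ^ K := fun i hi => pow_le_pow_right₀ hW1 hi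
    have h1 := mul_le_mul_of_nonneg_left (hp Km (by omega)) (zero_le_one.trans hCm)
    have h2 := mul_le_mul_of_nonneg_left (hp K3 (by omega)) (zero_le_one.trans hC3)
    have h3 := mul_le_mul_of_nonneg_left (hp (e0 * Kn) (by omega)) (zero_le_one.trans hCn)
    have h4 : 1 ≤ (W : ℝ) ^ K := one_le_pow₀ hW1
    have h5 := mul_le_mul_of_nonneg_right (hp 0 (Nat.zero_le _)) (zero_le_one.trans hCm)
    calc (4 * Cm + C3 + 2 * Cn) * U * X * L + C3 * Mu * Y * L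
            + (Cm * (W : ℝ) ^ Km + C3 * (W : ℝ) ^ K3 + Cn * (W : ℝ) ^ (e0 * Kn) + 2) * Er
        ≤ C * U * X * L + C * Mu * Y * L + C * (W : ℝ) ^ K * Er := by
          gcongr
          · linarith
          · linarith
          · nlinarith
      _ = _ := by ring

/-- At weight zero nothing is sampled. -/
lemma smp_zero_weight {β : Type} [MeasurableSpace β] {q : ℕ} {m : (E d → ℝ) → β → E d}
    {e : β → ℝ} (he : ∀ z, 0 ≤ e z) : Smp d q (fun V z => (0 : ℝ) • m V z) e :=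
  ((Smp.known (f := fun _ : β => (0 : E d)) measurable_const).congr
    fun V _ z => (zero_smul ℝ _).symm).mono (Nat.zero_le _) he

lemma nd_pos : ∀ p : Prog, 1 ≤ p.nodes
  | .inp _ => le_rfl
  | .zero => le_rfl
  | .add _ _ => Nat.le_add_left 1 _
  | .smul _ _ => Nat.le_add_left 1 _
  | .call _ _ _ => Nat.le_add_left 1 _
  | .bind _ _ _ => Nat.le_add_left 1 _

/-- The tail of the values standing for a call is below the target accuracy. -/
lemma call_tail {lam dl r Cb Cc Cu d' dM : ℝ} {N : ℕ} (hr : 0 < r) (hd : 1 ≤ d') (hdM : 0 < dM)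
    (hCb : 0 ≤ Cb) (hCc : 0 ≤ Cc) (hCu : 0 ≤ Cu) (h1 : lam * (dl * r) ≤ Cu)
    (h2 : Cc * Cu * Cb * (dM * d') ≤ r ^ N) :
    lam * (Cc * (dl * r * √d' * Cb / r ^ N)) ≤ dM⁻¹ := by
  have hs : √d' ≤ d' := sqrt_le_iff.2 ⟨zero_le_one.trans hd, le_self_pow₀ hd two_ne_zero⟩
  rw [inv_eq_one_div, le_div_iff₀ hdM]
  calc lam * (Cc * (dl * r * √d' * Cb / r ^ N)) * dM
      = lam * (dl * r) * (Cc * √d' * Cb * dM) / r ^ N := by ring
    _ ≤ Cu * (Cc * d' * Cb * dM) / r ^ N := by gcongr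
    _ = Cc * Cu * Cb * (dM * d') / r ^ N := by ring
    _ ≤ 1 := by rw [div_le_one (pow_pos hr N)]; exact h2

/-- The body of a call is a leaf. -/
lemma call_body {H : Fam d} {δ : ℕ → ℝ} {r κ Ct u C3 S P : ℝ} {j ℓ₀ ℓ ql K3 W Q : ℕ}
    {E₁ Xf e : E d → ℝ} (h : LeafSmp H δ r (κ ^ j) u ℓ₀ ql E₁ e) (hℓ : ℓ₀ ≤ ℓ) {lam : ℝ}
    (hlam : 0 ≤ lam) (hs : lam * (κ ^ j * δ ℓ * r) ≤ Ct) (hu : 2 * Ct ≤ u)
    (hd : 0 ≤ κ ^ j * δ ℓ * r) (hC3 : 1 ≤ C3) (hP : 0 ≤ P) (he : ∀ y, 0 ≤ e y)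
    (hE0 : ∀ y, 0 ≤ E₁ y) (hX : ∀ y, 0 ≤ Xf y) (hS : 0 ≤ S) (hq : ql ≤ Q) (hK : 1 ≤ K3)
    (hW : 1 ≤ W) {β : Type} [MeasurableSpace β] {y : β → E d} (hy : Measurable y) :
    Smp d (K3 * W ^ K3 * Q) (fun V (v : β × E d) => (√3 * lam) • H V (y v.1) ℓ v.2) fun v =>
      √3 * (C3 * (lam * S * Xf (y v.1) + lam * (κ ^ j * δ ℓ * r) * E₁ (y v.1)))
        + C3 * ((W : ℕ) : ℝ) ^ K3 * (e (y v.1) + P) := by
  have h3 : √3 ≤ 2 := (sqrt_le_left zero_le_two).2 (by norm_num)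
  have hle : √3 * lam * (κ ^ j * δ ℓ * r) ≤ u :=
    calc √3 * lam * (κ ^ j * δ ℓ * r) = √3 * (lam * (κ ^ j * δ ℓ * r)) := by ring
      _ ≤ 2 * Ct := mul_le_mul h3 hs (mul_nonneg hlam hd) zero_le_two
      _ ≤ u := hu
  refine ((h ℓ hℓ (√3 * lam) (by positivity) hle).comap (f := fun v : β × E d => (y v.1, v.2))
    ((hy.comp measurable_fst).prodMk measurable_snd)).mono ?_ fun v => add_le_add ?_ ?_
  · calc ql ≤ 1 * 1 * Q := by omega
      _ ≤ _ := by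
          gcongr
          exact Nat.one_le_pow _ _ hW
  · calc √3 * lam * (κ ^ j * δ ℓ * r) * E₁ (y v.1)
        = √3 * (1 * (0 + lam * (κ ^ j * δ ℓ * r) * E₁ (y v.1))) := by ring
      _ ≤ _ := by
          have := hE0 (y v.1)
          have := hX (y v.1)
          have := mul_nonneg hlam hd
          gcongr
          positivity
  · calc e (y v.1) ≤ 1 * 1 * (e (y v.1) + P) := by linarith
      _ ≤ _ := by
          have := he (y v.1)
          gcongr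
          exact one_le_pow₀ (by exact_mod_cast hW)

/-- A body is felt through its size. -/
lemma bind_lip {δ : ℕ → ℝ} {r K1 lam Δ : ℝ} {p bd : Prog} (hδ : 0 ≤ δ) (hr : 0 ≤ r)
    (hK : 1 ≤ K1) (hbs : bd.Small) (hlam : 0 ≤ lam) :
    K1 * (lam * bd.lip δ (pushR 1 0) * √Δ) ≤ lam * (Prog.bind p Δ bd).size (K1 • δ) r := by
  have hdm : 0 ≤ K1 • δ := fun ℓ => mul_nonneg (zero_le_one.trans hK) (hδ ℓ)
  calc K1 * (lam * bd.lip δ (pushR 1 0) * √Δ)
      = lam * (K1 * bd.lip δ (pushR √Δ 0)) := by rw [Prog.lip_pushR_zero bd δ √Δ]; ring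
    _ ≤ lam * bd.lip (K1 • δ) (pushR √Δ 0) := mul_le_mul_of_nonneg_left
        (Prog.lip_scale hδ hK hbs (pushR_nonneg (sqrt_nonneg _) fun _ => le_rfl)) hlam
    _ ≤ lam * bd.lip (K1 • δ) (pushR (√Δ + p.size (K1 • δ) r) 0) :=
        mul_le_mul_of_nonneg_left (bd.lip_mono hdm le_rfl
          (pushR_nonneg (sqrt_nonneg _) fun _ => le_rfl)
          (pushR_mono (le_add_of_nonneg_right (p.size_nonneg hdm hr)) fun _ => le_rfl)) hlam
    _ ≤ _ := mul_le_mul_of_nonneg_left (le_add_of_nonneg_left (bd.size_nonneg hdm hr)) hlam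

/-- The body of a binder, at `√3` times the weight, in the units of the binder. -/
lemma bind_body {H : Fam d} {dm : ℕ → ℝ} {r thr C3 P : ℝ} {Xf Yf e : E d → ℝ}
    {K3 Nr Q : ℕ} {p bd : Prog} {Δ : ℝ} (hdm : 0 ≤ dm) (hr : 0 ≤ r) (hC3 : 0 ≤ C3)
    (hX : ∀ y, 0 ≤ Xf y) (hP : ∀ y, 0 ≤ e y + P)
    (h : ProgSmp H dm r Xf Yf (fun y => C3 * (e y + P)) K3 Nr Q (2 * thr) bd) {lam : ℝ}
    (hlam : 0 ≤ lam) (hs : lam * (Prog.bind p Δ bd).size dm r ≤ thr)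
    {β : Type} [MeasurableSpace β] {y : β → E d} {env : β → Env d} (hy : Measurable y)
    (henv : ∀ i, Measurable fun z => env z i) :
    Smp d (K3 * ((Prog.bind p Δ bd).nodes * (Nr + 1)) ^ K3 * Q)
      (fun V (v : β × E d) => (√3 * lam) • bd.sem (H V (y v.1)) (push v.2 (env v.1))) fun v =>
      √3 * (lam * (Prog.bind p Δ bd).size dm r * Xf (y v.1)
          + lam * (Prog.bind p Δ bd).mass dm r * Yf (y v.1))
        + C3 * (((Prog.bind p Δ bd).nodes * (Nr + 1) : ℕ) : ℝ) ^ K3 * (e (y v.1) + P) := by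
  have h3 : √3 ≤ 2 := (sqrt_le_left zero_le_two).2 (by norm_num)
  have hsb : bd.size dm r ≤ (Prog.bind p Δ bd).size dm r :=
    le_add_of_nonneg_right (bd.lip_nonneg hdm (pushR_nonneg
      (add_nonneg (sqrt_nonneg _) (p.size_nonneg hdm hr)) fun _ => le_rfl))
  have hth : √3 * lam * bd.size dm r ≤ 2 * thr := by
    rw [mul_assoc]
    exact mul_le_mul h3 ((mul_le_mul_of_nonneg_left hsb hlam).trans hs)
      (mul_nonneg hlam (bd.size_nonneg hdm hr)) zero_le_two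
  have hnb : bd.nodes * (Nr + 1) ≤ (Prog.bind p Δ bd).nodes * (Nr + 1) :=
    Nat.mul_le_mul_right _ (by simp only [Prog.nodes]; omega)
  refine (h (√3 * lam) (by positivity) hth (β × E d) (fun v => y v.1)
    (fun v => push v.2 (env v.1)) (hy.comp measurable_fst)
    (measurable_push measurable_snd fun i => (henv i).comp measurable_fst)).mono
    (Nat.mul_le_mul (Nat.mul_le_mul le_rfl (Nat.pow_le_pow_left hnb _)) le_rfl) fun v => ?_
  calc √3 * lam * bd.size dm r * Xf (y v.1) + √3 * lam * bd.mass dm r * Yf (y v.1)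
        + ((bd.nodes * (Nr + 1) : ℕ) : ℝ) ^ K3 * (C3 * (e (y v.1) + P))
      ≤ √3 * lam * (Prog.bind p Δ bd).size dm r * Xf (y v.1)
        + √3 * lam * (Prog.bind p Δ bd).mass dm r * Yf (y v.1)
        + (((Prog.bind p Δ bd).nodes * (Nr + 1) : ℕ) : ℝ) ^ K3 * (C3 * (e (y v.1) + P)) :=
        add_le_add (add_le_add (mul_le_mul_of_nonneg_right
          (mul_le_mul_of_nonneg_left hsb (mul_nonneg (sqrt_nonneg _) hlam)) (hX _)) le_rfl)
          (mul_le_mul_of_nonneg_right (pow_le_pow_left₀ (Nat.cast_nonneg _)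
            (by exact_mod_cast hnb) _) (mul_nonneg hC3 (hP _)))
    _ = _ := by ring

/-- A constant times a smaller power is eventually below a larger one. -/
lemma eventually_const_rpow_le (C : ℝ) {s t : ℝ} (h : s < t) :
    ∀ᶠ d : ℕ in atTop, C * (d : ℝ) ^ s ≤ (d : ℝ) ^ t := by
  filter_upwards [((tendsto_rpow_atTop (sub_pos.2 h)).comp
    tendsto_natCast_atTop_atTop).eventually_ge_atTop C, eventually_gt_atTop 0] with d hd hd0
  have hd' : (0 : ℝ) < d := by exact_mod_cast hd0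
  calc C * (d : ℝ) ^ s ≤ (d : ℝ) ^ (t - s) * (d : ℝ) ^ s :=
        mul_le_mul_of_nonneg_right hd (rpow_nonneg hd'.le _)
    _ = _ := by rw [← rpow_add hd', sub_add_cancel]

/-- The recursion at fixed depth of nesting. -/
theorem real_step (hdb : DebiasGood) {α : ℝ} (hα : 0 < α) {M n m : ℕ}
    (hn : RealGood α M n (m + 1)) (hm : RealGood α M (n + 1) m) :
    RealGood α M (n + 1) (m + 1) := by
  intro eB
  obtain ⟨Ee, M2d, hdb⟩ := hdb (α / 4) (by positivity) M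
  obtain ⟨M2n, γn, hγn, hn⟩ := hn ((eB + 1) * Ee)
  obtain ⟨M2m, γm, hγm, hm⟩ := hm (eB + 1)
  set E0 : ℕ := (eB + 1) * Ee + eB + 1 with hE0
  refine ⟨M2d + M2n + M2m, min (min γn γm) (min α 1 / (8 * (E0 + 1))),
    lt_min (lt_min hγn hγm) (by positivity), fun γ hγ hγle => ?_⟩
  obtain ⟨Nd, hdb⟩ := hdb γ hγ
  obtain ⟨Nn, hn⟩ := hn γ hγ ((hγle.trans (min_le_left _ _)).trans (min_le_left _ _))
  obtain ⟨Nm, hm⟩ := hm γ hγ ((hγle.trans (min_le_left _ _)).trans (min_le_right _ _))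
  have hγs : γ * (8 * (E0 + 1)) ≤ min α 1 := by
    have h8 : (0 : ℝ) < 8 * (E0 + 1) := by positivity
    exact (le_div_iff₀ h8).1 (hγle.trans (min_le_right _ _))
  refine ⟨Nd + Nn + Nm + (⌈((M : ℝ) + 2) / γ⌉₊ + 1), fun N hN A₀ T Cb Cu₀ hT hCb hCu₀ => ?_⟩
  obtain ⟨k, c, ρ, Cc, hCc, hcb⟩ := exists_callBody N
  suffices key : ∀ (A : ℕ) (Cu : ℝ), 1 ≤ Cu → ∃ (K : ℕ) (C : ℝ), 1 ≤ K ∧ 1 ≤ C ∧
      ∀ᶠ d : ℕ in atTop, ∀ (Nr : ℕ) (εr : ℝ) (_ : Rule Nr εr),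
        εr ≤ ((d : ℝ) ^ (M2d + M2n + M2m))⁻¹ →
      ∀ (H : Fam d) (δ : ℕ → ℝ) (r : ℝ) (ℓ₀ qe ql : ℕ) (Λ Gb : E d → ℝ) (a b : ℝ) (e : E d → ℝ),
      Setting H δ r Cb N Λ e Gb a b → (∀ ℓ, ((d : ℝ) ^ α) ^ (m + 1) * δ ℓ ≤ 1) →
      r = (d : ℝ) ^ γ → LeafEst H δ r ℓ₀ qe Λ →
      (∀ j, j ≤ m + 1 → LeafSmp H δ r (((d : ℝ) ^ α) ^ j) (C * (√((d : ℝ) ^ α))⁻¹) ℓ₀ ql
        (fun y => (a * accR ((d : ℝ) ^ α) (n + 1) j + b) * Λ y) e) →
      ∀ F : Prog, F.WF ((((d : ℝ) ^ α) ^ (m + 1)) • δ) r (Cu * r ^ eB) T → F.LevelGe ℓ₀ →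
        F.depth ≤ A →
        ProgSmp H ((((d : ℝ) ^ α) ^ (m + 1)) • δ) r
          (fun y => C * ((1 + a) * accR ((d : ℝ) ^ α) (n + 1) (m + 1)
            + b * (√(√((d : ℝ) ^ α)))⁻¹) * Λ y)
          (fun y => C * (a * accR ((d : ℝ) ^ α) (n + 1) (m + 1) + b) * Λ y)
          (fun y => C * (e y + ((d : ℝ) ^ M)⁻¹)) K Nr (qe + ql + 1)
          (Cu * (√((d : ℝ) ^ α))⁻¹) F by
    obtain ⟨K, C, -, hC, hev⟩ := key A₀ Cu₀ hCu₀
    refine ⟨2 * K, C, hC, ?_⟩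
    filter_upwards [hev, eventually_ge_atTop 1] with d hd hd1
    intro Nr εr Rl hεr H δ r ℓ₀ qe ql Λ Gb a b e hδ hδ1 hr hfld hΛ ha hb he hE hleaf F hF hl hA lam
      hlam hs β _ y env hy henv
    have hr1 : 1 ≤ r := hr ▸ one_le_rpow (by exact_mod_cast hd1) hγ.le
    exact progSmp_of_real (zero_le_one.trans hC) he (by positivity) le_rfl
      (hd Nr εr Rl hεr H δ r ℓ₀ qe ql Λ Gb a b e ⟨hδ, hr1, hfld, hΛ, ha, hb, he⟩ hδ1 hr hE hleaf
        F hF hl hA) hlam hs β y env hy henv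
  intro A
  induction A with
  | zero =>
    intro Cu hCu
    refine ⟨1, 1, le_rfl, le_rfl, ?_⟩
    filter_upwards [eventually_ge_atTop 1] with d hd
    intro Nr εr _ _ H δ r ℓ₀ qe ql Λ Gb a b e hS _ hr _ _ F hF hl hA
    have hκ : (0 : ℝ) < ((d : ℝ) ^ α) ^ (m + 1) := by
      have hd0 : (0 : ℝ) < d := by exact_mod_cast hd
      positivity
    have hΛ0 : ∀ y, 0 ≤ Λ y := fun y => (sqrt_nonneg _).trans (hS.lam_ge y)
    have := hS.a_nonneg
    have := hS.b_nonneg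
    refine progSmp_struct (fun ℓ => mul_pos hκ (hS.pos ℓ)) (one_pos.trans_le hS.one_le) le_rfl
      (fun y => mul_nonneg (mul_nonneg zero_le_one
        (add_nonneg (mul_nonneg (by linarith) accR_nonneg) (by positivity))) (hΛ0 y))
      (fun y => mul_nonneg (mul_nonneg zero_le_one
        (add_nonneg (mul_nonneg (by linarith) accR_nonneg) (by positivity))) (hΛ0 y))
      (fun y => mul_nonneg zero_le_one (add_nonneg (hS.e_nonneg y) (by positivity)))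
      (fun ℓ τ p _ _ h => absurd h (by simp [Prog.depth]))
      (fun p Δ bd _ _ h => absurd h (by simp [Prog.depth])) F hF hl hA
  | succ A ih =>
    intro Cu hCu
    obtain ⟨K3, C3, hK3, hC3, hev3⟩ := ih (2 * Cu) (by linarith)
    set T1 : ℝ := Cc * T with hT1d
    set Cu1 : ℝ := Cc * √T * Cu with hCu1d
    have hsT : 1 ≤ √T := one_le_sqrt.2 hT
    have hT1 : 1 ≤ T1 := one_le_mul_of_one_le_of_one_le hCc hT
    have hCu1 : 1 ≤ Cu1 := one_le_mul_of_one_le_of_one_le (one_le_mul_of_one_le_of_one_le hCc hsT) hCu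
    obtain ⟨Kd, Cd, Td, hTd, hevd⟩ := hdb N (by omega) (A + 3) T1 Cb hT1 hCb
    set Cd' : ℝ := max Cd 1 with hCd'
    set Cu2 : ℝ := max (Cd' * Cu1 ^ Ee) (2 * Cu) with hCu2d
    have hCu2 : 1 ≤ Cu2 := le_max_of_le_right (by linarith)
    obtain ⟨Kn, Cn, hCn, hevn⟩ := hn N (by omega) Kd Td Cb Cu2 hTd hCb hCu2
    obtain ⟨Km, Cm, hCm, hevm⟩ := hm N (by omega) A T1 Cb Cu1 hT1 hCb hCu1
    set e0 : ℕ := Kd + 1 + ((4 * k + 6) * Kd + 1) with he0
    set K : ℕ := Km + K3 + Kn + 1 + e0 * Kn with hKd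
    set C : ℝ := 8 * (Cm + C3 + Cn) + 2 * Cu + 4 with hCd
    refine ⟨K, C, by omega, by linarith, ?_⟩
    have hexp : ((eB + 1) * Ee : ℕ) * γ < α / 4 ∧ ((eB + 1 : ℕ) : ℝ) * γ < α / 4 ∧
        ((eB + 1 : ℕ) : ℝ) * γ < 1 := by
      have h1 : (((eB + 1) * Ee : ℕ) : ℝ) ≤ E0 := by exact_mod_cast (by omega)
      have h2 : ((eB + 1 : ℕ) : ℝ) ≤ E0 := by exact_mod_cast (by omega)
      have h3 := mul_le_mul_of_nonneg_right h1 hγ.le
      have h4 := mul_le_mul_of_nonneg_right h2 hγ.le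
      have h5 : (0 : ℝ) ≤ (E0 : ℝ) * γ := by positivity
      have h6 := min_le_left α (1 : ℝ)
      have h7 := min_le_right α (1 : ℝ)
      exact ⟨by linarith, by linarith, by linarith⟩
    have hNγ : (M : ℝ) + 1 < γ * N := by
      have h1 : ((⌈((M : ℝ) + 2) / γ⌉₊ : ℕ) : ℝ) ≤ N := Nat.cast_le.2 (by omega)
      have h2 := (div_le_iff₀ hγ).1 ((Nat.le_ceil (((M : ℝ) + 2) / γ)).trans h1)
      linarith
    filter_upwards [hev3, hevd, hevn, hevm, eventually_ge_atTop 2,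
      eventually_const_rpow_le (2 * Cd' * Cu1 ^ Ee * Cc ^ 2 * Cu) hexp.1,
      eventually_const_rpow_le Cu1 hexp.2.1, eventually_const_rpow_le Cu1 hexp.2.2,
      eventually_log_pow_le_rpow 1 hγ,
      eventually_const_rpow_le (Cc * Cu * Cb) hNγ] with d hd3 hdd hdn hdm hd hbig hBq0 hBd0 hlog htail
    intro Nr εr Rl hεr H δ r ℓ₀ qe ql Λ Gb a b e hS hδ1 hr hE hleaf F hF hl hA
    have hd1 : (1 : ℝ) ≤ d := by exact_mod_cast (by omega : 1 ≤ d)
    have hd0 : (0 : ℝ) < d := one_pos.trans_le hd1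
    set κ := (d : ℝ) ^ α with hκd
    set q := √(√κ) with hqd
    set P := ((d : ℝ) ^ M)⁻¹ with hPd
    set Bd := Cu1 * r ^ (eB + 1) with hBdd
    set dm := κ ^ (m + 1) • δ with hdmd
    have hP0 : 0 ≤ P := by positivity
    have hκ : 1 ≤ κ := one_le_rpow hd1 hα.le
    have hκ0 : 0 < κ := one_pos.trans_le hκ
    have hq1 : 1 ≤ q := one_le_rt hκ
    have hq : q = (d : ℝ) ^ (α / 4) := by
      rw [hqd, hκd, sqrt_eq_rpow, sqrt_eq_rpow, ← rpow_mul hd0.le, ← rpow_mul hd0.le]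
      ring_nf
    have hpow : ∀ i : ℕ, r ^ i = (d : ℝ) ^ ((i : ℝ) * γ) := fun i => by
      rw [hr, mul_comm, rpow_mul hd0.le, rpow_natCast]
    have hr1 := hS.one_le
    have hr0 : 0 < r := one_pos.trans_le hr1
    have hBq : Bd ≤ q := by rw [hBdd, hpow, hq]; exact hBq0
    have hBdle : Bd ≤ d := by rw [hBdd, hpow]; simpa using hBd0
    have hBd1 : r ≤ Bd := by
      refine le_trans ?_ (le_mul_of_one_le_left (by positivity) hCu1)
      exact le_self_pow₀ hr1 (Nat.succ_ne_zero _)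
    have hbigB : 2 * Cd' * Bd ^ Ee * Cc ^ 2 * Cu ≤ q := by
      have : Bd ^ Ee = Cu1 ^ Ee * r ^ ((eB + 1) * Ee) := by rw [hBdd, mul_pow, pow_mul]
      rw [this, hpow, hq]
      calc _ = 2 * Cd' * Cu1 ^ Ee * Cc ^ 2 * Cu * (d : ℝ) ^ ((((eB + 1) * Ee : ℕ) : ℝ) * γ) := by
            ring
        _ ≤ _ := hbig
    have hsκ : q * q = √κ := mul_self_sqrt (sqrt_nonneg _)
    have hBd01 : 1 ≤ Bd := hr1.trans hBd1
    have hδ0 : 0 ≤ δ := fun ℓ => (hS.pos ℓ).le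
    have hdm0 : 0 ≤ dm := fun ℓ => mul_nonneg (by positivity) (hδ0 ℓ)
    have hle : δ ≤ dm := fun ℓ => le_mul_of_one_le_left (hδ0 ℓ) (one_le_pow₀ hκ)
    have hκm : κ ^ m • δ ≤ dm := fun ℓ =>
      mul_le_mul_of_nonneg_right (pow_le_pow_right₀ hκ (Nat.le_succ m)) (hδ0 ℓ)
    have hΛ0 : ∀ y, 0 ≤ Λ y := fun y => (sqrt_nonneg _).trans (hS.lam_ge y)
    have ha := hS.a_nonneg
    have hb := hS.b_nonneg
    have hcpos : ∀ j ℓ, 0 ≤ κ ^ j * δ ℓ * r := fun j ℓ =>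
      mul_nonneg (mul_nonneg (pow_nonneg hκ0.le j) (hδ0 ℓ)) hr0.le
    have hX0 : ∀ C' : ℝ, 0 ≤ C' → ∀ y, 0 ≤ C' * ((1 + a) * accR κ (n + 1) (m + 1) + b * q⁻¹) * Λ y :=
      fun C' hC' y => by
        have := hΛ0 y
        have := accR_nonneg (κ := κ) (n := n + 1) (m := m + 1)
        positivity
    have hY0 : ∀ C' : ℝ, 0 ≤ C' → ∀ y, 0 ≤ C' * (a * accR κ (n + 1) (m + 1) + b) * Λ y :=
      fun C' hC' y => by
        have := hΛ0 y
        have := accR_nonneg (κ := κ) (n := n + 1) (m := m + 1)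
        positivity
    have hC0 : 0 ≤ C := by linarith
    -- one node
    have gen : ∀ (G p bd : Prog) (Δ lam Lb ζ : ℝ), 0 < lam →
        lam * G.size dm r ≤ Cu * (√κ)⁻¹ → 2 ≤ G.nodes → p.nodes + 1 ≤ G.nodes →
        p.depth ≤ A → p.LevelGe ℓ₀ →
        (Prog.bind p Δ bd).WF dm r Bd T1 → (Prog.bind p Δ bd).depth ≤ A + 3 →
        (Prog.bind p Δ bd).LevelGe ℓ₀ →
        (Prog.bind p Δ bd).nodes ≤ (4 * k + 4) * G.nodes →
        (Prog.bind p Δ bd).size dm r ≤ Cc * G.size dm r →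
        0 ≤ G.mass dm r → 0 ≤ Lb → lam * ζ ≤ P →
        κ ^ (m + 1) * (lam * Lb * √Δ) ≤ lam * G.size dm r →
        (∀ (h : ℕ → E d → E d) (Gb' : ℝ), (∀ ℓ, Fld d (δ ℓ) r Gb' Cb N (h ℓ)) →
          ∀ env : Env d, G.sem h env = (Prog.bind p Δ bd).sem h env) →
        ∀ (β : Type) [MeasurableSpace β] (y : β → E d) (env : β → Env d),
        Measurable y → (∀ i, Measurable fun z => env z i) →
        ∀ mb : (E d → ℝ) → β × E d → E d,
        Smp d (K3 * (G.nodes * (Nr + 1)) ^ K3 * (qe + ql + 1))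
          (fun V u => (√3 * lam) • mb V u) (fun u =>
          (√3 * (C3 * (lam * G.size dm r * ((1 + a) * accR κ (n + 1) (m + 1) + b * q⁻¹)
            + lam * G.mass dm r * (a * accR κ (n + 1) (m + 1) + b)))) * Λ (y u.1)
          + C3 * ((G.nodes * (Nr + 1) : ℕ) : ℝ) ^ K3 * (e (y u.1) + P)) →
        (∀ V, InClass d V → ∀ z, ContDiff ℝ 1 (fun x => mb V (z, x)) ∧
          ∀ x x', ‖mb V (z, x) - mb V (z, x')‖ ≤ Lb * ‖x - x'‖) →
        (∀ V, InClass d V → ∀ z,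
          ∫ w, ‖mb V (z, p.sem (H V (y z)) (env z) + √Δ • w)
            - bd.sem (H V (y z)) (push (p.sem (H V (y z)) (env z) + √Δ • w) (env z))‖ ∂gau (Fin d)
          ≤ ζ) →
        Smp d (K * (G.nodes * (Nr + 1)) ^ K * (qe + ql + 1))
          (fun V z => lam • G.sem (H V (y z)) (env z))
          fun z => lam * G.size dm r * (C * ((1 + a) * accR κ (n + 1) (m + 1) + b * q⁻¹) * Λ (y z))
            + lam * G.mass dm r * (C * (a * accR κ (n + 1) (m + 1) + b) * Λ (y z))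
            + ((G.nodes * (Nr + 1) : ℕ) : ℝ) ^ K * (C * (e (y z) + P)) := by
      intro G p bd Δ lam Lb ζ hlam hU hG2 hpG hpA hpl hw hwA hwl hwn hwS hM0 hLb hζ hLbU hsem
        β _ y env hy henv mb hsb hmb hnear
      obtain ⟨hΔ, hpw, -, hpB, -, -⟩ := id hw
      have hsΔ : 0 < √Δ := sqrt_pos.2 hΔ
      set U := lam * G.size dm r with hUd
      have hwS' : lam * (Prog.bind p Δ bd).size dm r ≤ Cc * U := by
        rw [hUd, mul_left_comm]; exact mul_le_mul_of_nonneg_left hwS hlam.le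
      have hwS0 : 0 ≤ lam * (Prog.bind p Δ bd).size dm r :=
        mul_nonneg hlam.le ((Prog.bind p Δ bd).size_nonneg hdm0 hr0.le)
      obtain ⟨hU0, h2U, hsm, hΦU⟩ := deb_numeric hκ hCu hCc hBd01 hbigB hU hwS0 hwS'
      have hsmall : lam * (Prog.bind p Δ bd).size dm r * Bd ^ Ee ≤ (d : ℝ) ^ (-(α / 4)) := by
        rw [rpow_neg hd0.le, ← hq]; exact hsm
      obtain ⟨Φ, hΦs, hΦw, hΦA, hΦn, hΦl, hΦsize, hΦlip, hdeb⟩ := hdd Nr εr Rl
        (hεr.trans (inv_anti₀ (by positivity) (pow_le_pow_right₀ hd1 (by omega))))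
        δ dm r Bd lam Δ p bd hδ0 hle hδ1 hr.ge hBd1 (by
          refine le_trans ?_ hBd1; rw [hr]; simpa using hlog) hBdle hlam hw hwA hsmall
      have hΦU' := hΦsize.trans hΦU
      have hBd2 : Cd * Bd ^ Ee ≤ Cu2 * r ^ ((eB + 1) * Ee) := by
        rw [hBdd, mul_pow, ← pow_mul, ← mul_assoc]
        refine mul_le_mul_of_nonneg_right ?_ (by positivity)
        exact (mul_le_mul_of_nonneg_right (le_max_left _ _) (by positivity)).trans
          (le_max_left _ _)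
      obtain ⟨hW2, hnp, hnΦ⟩ := node_count hG2 hpG hwn hΦn
      set W := G.nodes * (Nr + 1) with hW
      rw [← he0] at hnΦ
      -- the point and the compensation
      have hsp := point_smp hS hκ (zero_le_one.trans hBd01) hBq hCu1 (zero_le_one.trans hCm)
        (one_pos.trans_le hT1) hP0 (W := W)
        (fun F hF hl hA => hdm Nr εr Rl (hεr.trans (inv_anti₀ (by positivity)
          (pow_le_pow_right₀ hd1 (by omega)))) H δ r ℓ₀ qe ql Λ Gb a b e hS.pos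
          (fun ℓ => (hκm ℓ).trans (hδ1 ℓ)) hr hS.fld hS.lam_ge ha hb hS.e_nonneg hE
          (fun j hj => (hleaf j (by omega)).mono (by gcongr; linarith) (hcpos j) fun y => le_rfl)
          F hF hl hA)
        hΔ hpw hpB hpl hpA hnp hy henv
      have hsc := phi_smp hS hκ (zero_le_one.trans hCn) hP0 hU0 hU (le_max_right _ _)
        (W := W) (e0 := e0)
        (fun F hF hl hA => hdn Nr εr Rl (hεr.trans (inv_anti₀ (by positivity)
          (pow_le_pow_right₀ hd1 (by omega)))) H δ r ℓ₀ qe ql Λ Gb a b e hS.pos hδ1 hr hS.fld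
          hS.lam_ge ha hb hS.e_nonneg hE
          (fun j hj => (hleaf j hj).mono (by gcongr; linarith) (hcpos j) fun y =>
            mul_le_mul_of_nonneg_right (add_le_add
              (mul_le_mul_of_nonneg_left (accR_succ_le hκ) ha) le_rfl) (hΛ0 y))
          F hF hl hA)
        (Prog.WF.mono hdm0 le_rfl hr0.le le_rfl hBd2 (one_pos.trans_le hTd) le_rfl hΦw)
        (hΦl _ hwl) hΦA hΦU' hnΦ hy henv
      -- the gain of the Lipschitz bound
      have hL : κ ^ (m + 1) * (lam * Lb * √Δ + Φ.lip δ (pushR 0 (pushR √Δ 0))) ≤ 2 * U := by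
        have h1 : κ ^ (m + 1) * Φ.lip δ (pushR 0 (pushR √Δ 0)) ≤ U := by
          refine (Prog.lip_scale hδ0 (one_le_pow₀ hκ) hΦs
            (pushR_nonneg le_rfl (pushR_nonneg (sqrt_nonneg _) fun _ => le_rfl))).trans ?_
          exact (hΦlip.trans hΦU).trans
            (mul_le_of_le_one_right hU0 (inv_le_one_of_one_le₀ hq1))
        rw [mul_add]; linarith
      have h := node_smp hS hκ (zero_le_one.trans hBd01) hBq (G := G) hΔ hlam.le hLb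
        (zero_le_one.trans hCm) (zero_le_one.trans hC3) (zero_le_one.trans hCn) (by positivity)
        (by positivity) (by positivity) hP0 hζ hM0 h2U hU0 hsem hL hdeb hsp hsb hsc hmb hnear
      refine h.mono (node_finish (C := C) hW2 le_rfl hCm hC3 hCn (by linarith) hU0 le_rfl le_rfl
        le_rfl le_rfl le_rfl).1 fun z => ?_
      have hfin := node_finish (Q := 0) (W := W) (X := (1 + a) * accR κ (n + 1) (m + 1) + b * q⁻¹)
        (Y := a * accR κ (n + 1) (m + 1) + b) (L := Λ (y z)) (Er := e (y z) + P) (C := C)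
        (Mu := lam * G.mass dm r) hW2 (le_refl K) hCm hC3 hCn (by linarith) hU0
        (mul_nonneg hlam.le hM0)
        (add_nonneg (mul_nonneg (by linarith) accR_nonneg)
          (mul_nonneg hb (inv_nonneg.2 (zero_le_one.trans hq1))))
        (add_nonneg (mul_nonneg ha accR_nonneg) hb) (hΛ0 _) (add_nonneg (hS.e_nonneg _) hP0)
      exact hfin.2
    refine progSmp_struct (A := A + 1) (fun ℓ => mul_pos (pow_pos hκ0 _) (hS.pos ℓ)) hr0 (by omega)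
      (hX0 C hC0) (hY0 C hC0)
      (fun y => mul_nonneg hC0 (add_nonneg (hS.e_nonneg y) hP0)) ?_ ?_ F hF hl hA
    · intro ℓ τ p hw hl' hA' lam hlam hs β _ y env hy henv
      have herr : ∀ z, 0 ≤ lam * (Prog.call ℓ τ p).size dm r
            * (C * ((1 + a) * accR κ (n + 1) (m + 1) + b * q⁻¹) * Λ (y z))
          + lam * (Prog.call ℓ τ p).mass dm r
            * (C * (a * accR κ (n + 1) (m + 1) + b) * Λ (y z))
          + (((Prog.call ℓ τ p).nodes * (Nr + 1) : ℕ) : ℝ) ^ K * (C * (e (y z) + P)) := fun z =>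
        add_nonneg (add_nonneg
          (mul_nonneg (mul_nonneg hlam (Prog.size_nonneg hdm0 hr0.le _)) (hX0 C hC0 _))
          (mul_nonneg (mul_nonneg hlam (Prog.mass_le_size hdm0 hr0.le _).1) (hY0 C hC0 _)))
          (mul_nonneg (pow_nonneg (Nat.cast_nonneg _) _)
            (mul_nonneg hC0 (add_nonneg (hS.e_nonneg _) hP0)))
      rcases hlam.eq_or_lt with rfl | hlam'
      · exact smp_zero_weight herr
      have hT0 : 0 < T := one_pos.trans_le hT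
      have hB1 : 1 ≤ Cu * r ^ eB := one_le_mul_of_one_le_of_one_le hCu (one_le_pow₀ hr1)
      obtain ⟨hcw, hcd, hcn, hcl, hcsize, hcsem⟩ :=
        hcb dm r (Cu * r ^ eB) T ℓ τ p hdm0 hr1 hB1 hT hw
      obtain ⟨hτ0, hτ1, hpw, hpB⟩ := id hw
      have hsτ : √τ ≤ r := (sqrt_le_one.2 hτ1).trans hr1
      have hmass : (Prog.call ℓ τ p).mass dm r ≤ (Prog.call ℓ τ p).size dm r :=
        (Prog.mass_le_size hdm0 hr0.le _).2
      have hUκ : lam * (dm ℓ * r) ≤ Cu * (√κ)⁻¹ :=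
        (mul_le_mul_of_nonneg_left hmass hlam).trans hs
      refine gen (.call ℓ τ p) p (callBody ℓ τ p c ρ) τ lam (δ ℓ)
        (Cc * (δ ℓ * r * √(d : ℝ) * Cb / r ^ N)) hlam' hs
        (Nat.succ_le_succ (nd_pos p)) le_rfl (Nat.le_of_succ_le_succ hA') hl'.2
        (Prog.WF.mono hdm0 le_rfl hr0.le le_rfl (by
          rw [hBdd, hCu1d, mul_assoc (Cc * √T) Cu]
          exact mul_le_mul_of_nonneg_left (mul_le_mul_of_nonneg_left
            (pow_le_pow_right₀ hr1 (Nat.le_succ _)) (zero_le_one.trans hCu))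
            (mul_nonneg (zero_le_one.trans hCc) (sqrt_nonneg _)))
          (mul_pos (one_pos.trans_le hCc) hT0) le_rfl hcw)
        (hcd.trans (by have := Nat.le_of_succ_le_succ hA'; omega)) (hcl _ hl') hcn hcsize
        (Prog.mass_le_size hdm0 hr0.le _).1 (hδ0 ℓ) ?_ ?_
        (fun h Gb' hh env => (hcsem d h δ Gb' Cb hCb hh env).1.symm) β y env hy henv
        (fun V u => H V (y u.1) ℓ u.2) ?_
        (fun V hV z => ⟨(hS.fld V hV (y z) ℓ).smooth, (hS.fld V hV (y z) ℓ).norm_sub_le⟩)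
        fun V hV z => ?_
      · -- the tail is small
        have h1 : lam * (δ ℓ * r) ≤ Cu := by
          refine le_trans ?_ (hUκ.trans (mul_le_of_le_one_right (zero_le_one.trans hCu)
            (inv_le_one_of_one_le₀ (one_le_sqrt.2 hκ))))
          exact mul_le_mul_of_nonneg_left (mul_le_mul_of_nonneg_right (hle ℓ) hr0.le) hlam
        refine call_tail hr0 hd1 (by positivity) hCb (zero_le_one.trans hCc)
          (zero_le_one.trans hCu) h1 ?_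
        rw [rpow_add hd0, rpow_natCast, rpow_one] at htail
        rwa [hr, ← rpow_natCast ((d : ℝ) ^ γ), ← rpow_mul hd0.le]
      · -- the Lipschitz bound
        calc κ ^ (m + 1) * (lam * δ ℓ * √τ) = lam * (dm ℓ * √τ) := by
              rw [hdmd, Pi.smul_apply, smul_eq_mul]; ring
          _ ≤ lam * (dm ℓ * (r + p.size dm r)) := mul_le_mul_of_nonneg_left
              (mul_le_mul_of_nonneg_left (by linarith [p.size_nonneg hdm0 hr0.le]) (hdm0 ℓ)) hlam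
      · -- the body is a leaf
        refine (call_body (Ct := Cu * (√κ)⁻¹) (C3 := C3) (P := P) (K3 := K3)
          (W := (Prog.call ℓ τ p).nodes * (Nr + 1)) (Q := qe + ql + 1)
          (S := (Prog.call ℓ τ p).size dm r)
          (Xf := fun w => ((1 + a) * accR κ (n + 1) (m + 1) + b * q⁻¹) * Λ w)
          (hleaf (m + 1) le_rfl) hl'.1 hlam hUκ (by rw [← mul_assoc]; gcongr; linarith)
          (hcpos _ _) hC3 hP0 hS.e_nonneg
          (fun w => mul_nonneg (add_nonneg (mul_nonneg ha accR_nonneg) hb) (hΛ0 w))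
          (fun w => by simpa using hX0 1 zero_le_one w)
          (Prog.size_nonneg hdm0 hr0.le _) (by omega) (by omega)
          (Nat.mul_pos (Nat.succ_pos _) (Nat.succ_pos _)) hy).mono le_rfl fun v => le_of_eq ?_
        simp only [Prog.mass, hdmd, Pi.smul_apply, smul_eq_mul]
        ring
      · refine le_of_eq_of_le ?_ (hcsem d _ δ _ Cb hCb (hS.fld V hV (y z)) (env z)).2
        simp only [norm_sub_rev]
    · intro p Δ bd hw hl' hA' lam hlam hs β _ y env hy henv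
      have herr : ∀ z, 0 ≤ lam * (Prog.bind p Δ bd).size dm r
            * (C * ((1 + a) * accR κ (n + 1) (m + 1) + b * q⁻¹) * Λ (y z))
          + lam * (Prog.bind p Δ bd).mass dm r
            * (C * (a * accR κ (n + 1) (m + 1) + b) * Λ (y z))
          + (((Prog.bind p Δ bd).nodes * (Nr + 1) : ℕ) : ℝ) ^ K * (C * (e (y z) + P)) := fun z =>
        add_nonneg (add_nonneg
          (mul_nonneg (mul_nonneg hlam (Prog.size_nonneg hdm0 hr0.le _)) (hX0 C hC0 _))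
          (mul_nonneg (mul_nonneg hlam (Prog.mass_le_size hdm0 hr0.le _).1) (hY0 C hC0 _)))
          (mul_nonneg (pow_nonneg (Nat.cast_nonneg _) _)
            (mul_nonneg hC0 (add_nonneg (hS.e_nonneg _) hP0)))
      rcases hlam.eq_or_lt with rfl | hlam'
      · exact smp_zero_weight herr
      have hT0 : 0 < T := one_pos.trans_le hT
      obtain ⟨hΔ, hpw, hbw, hpB, hbs, hbsens⟩ := id hw
      have hdep : p.depth ≤ A ∧ bd.depth ≤ A := max_le_iff.1 (Nat.le_of_succ_le_succ hA')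
      have hwB : (Prog.bind p Δ bd).WF dm r Bd T1 := by
        refine Prog.WF.mono hdm0 le_rfl hr0.le le_rfl ?_ hT0 (le_mul_of_one_le_left hT0.le hCc) hw
        exact mul_le_mul (le_mul_of_one_le_left (zero_le_one.trans hCu)
          (one_le_mul_of_one_le_of_one_le hCc hsT)) (pow_le_pow_right₀ hr1 (Nat.le_succ _))
          (pow_nonneg hr0.le _) (zero_le_one.trans hCu1)
      have hn0 := nd_pos p
      have hb0 := nd_pos bd
      have hG1 : (Prog.bind p Δ bd).nodes ≤ (4 * k + 4) * (Prog.bind p Δ bd).nodes :=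
        Nat.le_mul_of_pos_left _ (by omega)
      refine gen (.bind p Δ bd) p bd Δ lam (bd.lip δ (pushR 1 0)) 0 hlam' hs
        (by simp only [Prog.nodes]; omega) (by simp only [Prog.nodes]; omega) hdep.1 hl'.1
        hwB (hA'.trans (by omega)) hl' hG1
        (le_mul_of_one_le_left (Prog.size_nonneg hdm0 hr0.le _) hCc)
        (Prog.mass_le_size hdm0 hr0.le _).1
        (bd.lip_nonneg hδ0 (pushR_nonneg zero_le_one fun _ => le_rfl)) (by simpa using hP0) ?_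
        (fun h Gb' _ env => rfl) β y env hy henv
        (fun V u => bd.sem (H V (y u.1)) (push u.2 (env u.1))) ?_
        (fun V hV z => ⟨Prog.contDiff_sem_push (hS.fld V hV (y z)) bd (env z), fun x x' =>
          (Prog.norm_sem_push_sub_le (hS.fld V hV (y z)) bd (env z) x x').trans_eq (mul_comm _ _)⟩)
        fun V hV z => by simp
      · exact bind_lip hδ0 hr0.le (one_le_pow₀ hκ) hbs hlam
      · -- the body
        have hbody := hd3 Nr εr Rl hεr H δ r ℓ₀ qe ql Λ Gb a b e hS hδ1 hr hE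
          (fun j hj => (hleaf j hj).mono (by gcongr; linarith) (hcpos j) fun y => le_rfl) bd
          (Prog.WF.mono hdm0 le_rfl hr0.le le_rfl (by gcongr; linarith) hT0 le_rfl hbw) hl'.2
          hdep.2
        rw [mul_assoc 2 Cu] at hbody
        exact (bind_body hdm0 hr0.le (zero_le_one.trans hC3) (hX0 C3 (zero_le_one.trans hC3))
          (fun w => add_nonneg (hS.e_nonneg w) hP0) hbody hlam hs hy henv).mono le_rfl
          fun v => le_of_eq (by ring)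

/-- The recursion. -/
theorem real_good (hdb : DebiasGood) {α : ℝ} (hα : 0 < α) (M : ℕ) :
    ∀ n m : ℕ, RealGood α M n m
  | 0, _ => real_crude hα M (Or.inl rfl)
  | _ + 1, 0 => real_crude hα M (Or.inr rfl)
  | n + 1, m + 1 => real_step hdb hα (real_good hdb hα M n (m + 1)) (real_good hdb hα M (n + 1) m)

end Vale.Agent.P347
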