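import Vale.Agent.P347Zero.PhiBoundsT

/-!
P347, v5: the induction on the Picard iterates of the map of a tilt.
-/

open Real Finset

namespace Vale.Agent.P347

variable {P : Prog} {δ : ℕ → ℝ} {r B T X T₀ R ρ₀ ρ₁ : ℝ} {S k : ℕ}

/-- The depth and node exponent after one step. -/
def stepKT (q A k Kd : ℕ) : ℕ :=
  max (max (A + k) Kd + 4) (max (k + 4) ((Binder.wordExp q k k + 1) * Kd) + 20)

/-- The depth after one step. -/
theorem step_depth {n : ℕ} {ρ w : Fin n → ℝ} {conv : LProg → Prog} {A q j Kd : ℕ}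
    (hA : P.depth ≤ A) (hΦ : (iterT conv P ρ w ρ₀ ρ₁ q j).depth ≤ k)
    (hcd : (conv (sumTT (iterT conv P ρ w ρ₀ ρ₁ q j) q)).depth ≤ Kd) :
    (iterT conv P ρ w ρ₀ ρ₁ q (j + 1)).depth ≤ stepKT q A k Kd := by
  set Φ := iterT conv P ρ w ρ₀ ρ₁ q j with hΦdef
  set W := conv (sumTT Φ q) with hW
  set Q := P.subst fun i => Nat.casesOn i (.add (.inp 0) Φ) fun l => .inp (l + 1) with hQ
  set G : Fin n → Prog := fun kk => .add (.smul (-w kk) (wrapT (ρ kk) Q))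
    (.smul (w kk * ρ kk) (psiT (ρ₀ * ρ kk) W)) with hG
  have hQd : Q.depth ≤ A + k := (P.depth_subst_le (D := k) fun i => by
    rcases i with _ | i
    · exact max_le (Nat.zero_le k) hΦ
    · exact Nat.zero_le k).trans (by omega)
  refine (wrapT_depth (ρ := ρ₁) (W := Prog.sumFin G) (a := max (A + k) (Kd) + 1)
    (Prog.depth_sumFin fun kk => max_le ((wrapT_depth hQd).trans (by omega))
      ((psiT_depth hcd).trans (by omega)))).trans ?_
  rw [stepKT]; omega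

/-- The node count after one step. -/
theorem step_nodes {n : ℕ} {ρ w : Fin n → ℝ} {conv : LProg → Prog} {A q j Kd : ℕ}
    (hS : 4 ≤ S) (hn : n + 1 ≤ S) (hPn : P.nodes ≤ S)
    (hΦ : (iterT conv P ρ w ρ₀ ρ₁ q j).nodes ≤ S ^ k)
    (hwn : (sumTT (iterT conv P ρ w ρ₀ ρ₁ q j) q).nodes ≤ S ^ Binder.wordExp q k k)
    (hcn : (conv (sumTT (iterT conv P ρ w ρ₀ ρ₁ q j) q)).nodes
      ≤ Kd * (sumTT (iterT conv P ρ w ρ₀ ρ₁ q j) q).nodes ^ Kd) :
    (iterT conv P ρ w ρ₀ ρ₁ q (j + 1)).nodes ≤ S ^ stepKT q A k Kd := by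
  set Φ := iterT conv P ρ w ρ₀ ρ₁ q j with hΦdef
  set W := conv (sumTT Φ q) with hW
  set Q := P.subst fun i => Nat.casesOn i (.add (.inp 0) Φ) fun l => .inp (l + 1) with hQ
  set G : Fin n → Prog := fun kk => .add (.smul (-w kk) (wrapT (ρ kk) Q))
    (.smul (w kk * ρ kk) (psiT (ρ₀ * ρ kk) W)) with hG
  have h2S : 2 ≤ S := by omega
  obtain ⟨pc, hpc⟩ : ∃ pc, (Binder.wordExp q k k + 1) * Kd = pc := ⟨_, rfl⟩
  have hWn : W.nodes ≤ S ^ pc :=
    hcn.trans ((Nat.mul_le_mul (Nat.lt_two_pow_self.le.trans (Nat.pow_le_pow_left h2S _))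
      (Nat.pow_le_pow_left hwn _)).trans_eq (by rw [← pow_mul, ← pow_add, ← hpc]; ring_nf))
  have hQn : Q.nodes ≤ S ^ (k + 4) := by
    refine (P.nodes_subst_le (F := S ^ (k + 3)) (Nat.one_le_pow _ _ (by omega)) fun i => ?_).trans
      ((Nat.mul_le_mul_right _ (hPn.trans_eq (pow_one S).symm)).trans_eq
        (by rw [← pow_add]; ring_nf))
    rcases i with _ | i
    · show 1 + Φ.nodes + 1 ≤ _
      have := succ_le_pow h2S (succ_le_pow h2S hΦ)
      have := Nat.pow_le_pow_right (show 1 ≤ S by omega) (show k + 1 + 1 ≤ k + 3 by omega)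
      omega
    · exact Nat.one_le_pow _ _ (by omega)
  have hGn : ∀ kk, (G kk).nodes ≤ S ^ (max (k + 4) pc + 6) := fun kk => by
    show (wrapT (ρ kk) Q).nodes + 1 + ((psiT (ρ₀ * ρ kk) W).nodes + 1) + 1 ≤ _
    exact (succ_le_pow h2S (add_le_pow h2S (succ_le_pow h2S (wrapT_nodes hS hQn))
      (succ_le_pow h2S (psiT_nodes hS hWn)))).trans
      (Nat.pow_le_pow_right (by omega) (by omega))
  have hn1 : n + 1 ≤ S ^ 1 := by rw [pow_one]; exact hn
  refine (wrapT_nodes hS ((Prog.nodes_sumFin hGn).trans (sum_le_pow 1 h2S hn1 le_rfl))).trans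
    (Nat.pow_le_pow_right (by omega) ?_)
  rw [stepKT, hpc]; omega

/-- One step of the iteration. -/
theorem BdT.step {e : ℕ} {n : ℕ} {ρ w : Fin n → ℝ} {conv : LProg → Prog} {Kc : ℕ → ℝ → ℕ}
    {Cc Tc : ℕ → ℝ → ℝ} {A q j : ℕ} (h : TiltOk P δ r B T) (hR : 1 ≤ R)
    (hr : PicardRule R ρ₀ ρ₁ ρ w) (hconv : ConvSyn e δ r Kc Cc Tc conv)
    (hnoise : ConvNoise e δ r Cc conv) (hB : B ≤ X) (hT : T ≤ T₀)
    (hU : X ^ 2 * tiltV P δ r ≤ 1) (hA : P.depth ≤ A) (hS : 4 ≤ S) (hn : n + 1 ≤ S)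
    (hPn : P.nodes ≤ S) (hΦ : BdT P δ r X T₀ S k (iterT conv P ρ w ρ₀ ρ₁ q j)) :
    BdT P δ r
      (Binder.stepC q R (max 1 (Cc (Binder.wordDepth q k) T₀)) * X ^ (3 * e + 4))
      (max T₀ (Tc (Binder.wordDepth q k) T₀)) S
      (stepKT q A k (Kc (Binder.wordDepth q k) T₀))
      (iterT conv P ρ w ρ₀ ρ₁ q (j + 1)) := by
  obtain ⟨Ad, hAd⟩ : ∃ Ad, Binder.wordDepth q k = Ad := ⟨_, rfl⟩
  rw [hAd]
  set c := max 1 (Cc Ad T₀) with hc
  set T₁ := max T₀ (Tc Ad T₀) with hT₁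
  set Φ := iterT conv P ρ w ρ₀ ρ₁ q j with hΦdef
  have hV := h.tiltV_nonneg
  have hr0 := zero_le_one.trans h.r_one
  have hX1 : 1 ≤ X := h.B_one.trans hB
  have hX0 : 0 ≤ X := zero_le_one.trans hX1
  have hc1 : 1 ≤ c := le_max_left _ _
  have hT0 : 1 ≤ T₀ := h.T_one.trans hT
  have hXe : 1 ≤ X ^ e := one_le_pow₀ hX1
  have hwd : (sumTT Φ q).depth ≤ Ad := (sumTT_depth hΦ.depth_le q).trans_eq hAd
  have hwn := sumTT_nodes (by omega : 2 ≤ S) hΦ.depth_le hΦ.nodes_le q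
  have hww := sumTT_wf hX0 hΦ.wf q
  have hws := sumTT_small hΦ.small q
  have hl : Φ.lip δ (pushR 1 0) ≤ X ^ 2 * tiltV P δ r := hΦ.lip_le h hB
  have hwno : (sumTT Φ q).norm' δ ≤ q * (X ^ 2 * tiltV P δ r) :=
    (sumTT_norm h.delta hl hU q).trans (mul_le_mul_of_nonneg_left
      (pow_le_of_le_one (mul_nonneg (sq_nonneg X) hV) hU two_ne_zero) (Nat.cast_nonneg q))
  obtain ⟨hcT, hcs, hcl, hcw, hcd, hcn, hcsz, hcse⟩ :=
    hconv Ad T₀ X (sumTT Φ q) hT0 hX1 (h.r_le.trans hB) hws hww hwd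
  have hcno := hnoise Ad T₀ X (sumTT Φ q) hT0 hX1 (h.r_le.trans hB) hws hww hwd
  set W := conv (sumTT Φ q) with hW
  obtain ⟨Y, hY⟩ : ∃ Y, 2 * c * X ^ (e + 1) = Y := ⟨_, rfl⟩
  have hcY : Cc Ad T₀ * X ^ e ≤ c * X ^ e :=
    mul_le_mul_of_nonneg_right (le_max_right _ _) (by linarith)
  have hcX : c * X ^ e * 2 * X = Y := by rw [← hY]; ring
  have h1cX : 1 ≤ c * X ^ e := one_le_mul_of_one_le_of_one_le hc1 hXe
  have h2XY : 2 * X ≤ Y := by rw [← hcX, mul_assoc _ 2 X]; exact le_mul_of_one_le_left (by linarith) h1cX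
  have hPY : c * X ^ e ≤ Y := by
    rw [← hcX, mul_assoc _ 2 X]
    exact le_mul_of_one_le_right (by linarith) (by linarith)
  have hY1 : 1 ≤ Y := by linarith
  have hY0 : 0 ≤ Y := by linarith
  have hTT : T₀ ≤ T₁ := le_max_left _ _
  have hT1 : 0 < T₁ := zero_lt_one.trans_le (hT0.trans hTT)
  have hWw : W.WF δ r Y T₁ := hcw.mono h.delta le_rfl hr0 le_rfl (hcY.trans hPY)
    (zero_lt_one.trans_le hcT) (le_max_right _ _)
  have hWs : ∀ a t : ℝ, 0 ≤ a → 0 ≤ t → a + t ≤ 2 →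
      W.SensLe δ Y (pushR a (t • pushR 1 0)) := by
    intro a t ha ht hat
    have hv : ∀ i, 0 ≤ (t • pushR (1 : ℝ) 0) i := fun i => mul_nonneg ht (unit_nonneg i)
    refine (hcse _ a (t * X) hv ha (mul_nonneg ht hX0) ((sumTT_sensLe hΦ.sens q).smul ht)).mono
      h.delta le_rfl ?_ (pushR_nonneg ha hv) fun _ => le_rfl
    refine (mul_le_mul_of_nonneg_right hcY (by positivity)).trans ?_
    rw [← hcX, mul_assoc _ 2 X]
    refine mul_le_mul_of_nonneg_left ?_ (by positivity)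
    have := mul_le_mul_of_nonneg_right hat hX0
    have := le_mul_of_one_le_right ha hX1
    linarith
  obtain ⟨Z, hZd⟩ : ∃ Z, c * X ^ e * (q * (X ^ 2 * tiltV P δ r)) = Z := ⟨_, rfl⟩
  have hWz : W.size δ r ≤ Z := by
    rw [← hZd]
    exact hcsz.trans (mul_le_mul hcY hwno (LProg.norm'_nonneg h.delta _) (by positivity))
  have hZ0 : 0 ≤ Z := (W.size_nonneg h.delta hr0).trans hWz
  obtain ⟨hQw, hQs, hQz, hQv, hQn⟩ := shifted_bounds h hB hT hU hΦ
  set Q := P.subst fun i => Nat.casesOn i (.add (.inp 0) Φ) fun l => .inp (l + 1) with hQ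
  have hQsm : Q.Small := h.small.subst _
  have hkern : ∀ kk, 0 ≤ ρ₀ * ρ kk ∧ ρ₀ * ρ kk < 1 := fun kk =>
    ⟨mul_nonneg hr.node₀.1 (hr.node kk).1,
      mul_lt_one_of_nonneg_of_lt_one_left hr.node₀.1 hr.node₀.2 (hr.node kk).2.le⟩
  have hq := fun kk => wrapT_bounds (T₀ := T₁) h.delta h.r_one hY1 hQsm
    (hQw.mono h.delta le_rfl hr0 le_rfl h2XY (zero_lt_one.trans_le hT0) hTT)
    (hQs.mono h.delta le_rfl h2XY unit_nonneg fun _ => le_rfl) hQz (hr.node kk).1 (hr.node kk).2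
  have hp := fun kk =>
    psiT_bounds (T₀ := T₁) h.delta h.r_one hY1 hcs hWw hWs hWz (hkern kk).1 (hkern kk).2
  set G : Fin n → Prog := fun kk => .add (.smul (-w kk) (wrapT (ρ kk) Q))
    (.smul (w kk * ρ kk) (psiT (ρ₀ * ρ kk) W)) with hG
  have hGsmall : ∀ kk, (G kk).Small := fun kk => ⟨hQsm.subst _, hcs.subst _⟩
  have hGsize : (Prog.sumFin G).size δ r ≤ 2 * R * Y * (tiltV P δ r + Z) := by
    rw [Prog.size_sumFin]
    calc ∑ kk, (G kk).size δ r
        ≤ ∑ kk, (w kk * (2 * Y * tiltV P δ r)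
            + w kk * ρ kk / cpl (ρ₀ * ρ kk) * (2 * Y * Z)) := by
          refine sum_le_sum fun kk _ => ?_
          show |(-w kk)| * (wrapT (ρ kk) Q).size δ r
            + |w kk * ρ kk| * (psiT (ρ₀ * ρ kk) W).size δ r ≤ _
          have hwk := mul_nonneg (hr.weight kk) (hr.node kk).1
          rw [abs_neg, abs_of_nonneg (hr.weight kk), abs_of_nonneg hwk]
          refine add_le_add (mul_le_mul_of_nonneg_left (hq kk).2.2.1 (hr.weight kk)) ?_
          rw [div_eq_mul_inv, mul_assoc _ (cpl _)⁻¹]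
          exact mul_le_mul_of_nonneg_left (hp kk).2.2.1 hwk
      _ ≤ R * (2 * Y * tiltV P δ r) + R * (2 * Y * Z) := by
          rw [sum_add_distrib, ← sum_mul, ← sum_mul]
          exact add_le_add (mul_le_mul_of_nonneg_right hr.sum_le (by positivity))
            (mul_le_mul_of_nonneg_right hr.kernel (by positivity))
      _ = _ := by ring
  have hwrap := wrapT_bounds (T₀ := T₁) h.delta h.r_one hY1 (Prog.small_sumFin hGsmall)
    (Prog.wf_sumFin fun kk =>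
      (show (G kk).WF δ r Y T₁ from ⟨(hq kk).1, (hp kk).1⟩))
    (Prog.sensLe_sumFin fun kk =>
      (show (G kk).SensLe δ Y (pushR 1 0) from ⟨(hq kk).2.1, (hp kk).2.1⟩))
    hGsize hr.node₁.1 hr.node₁.2
  have hX' : Y ≤ Binder.stepC q R c * X ^ (3 * e + 4) := by
    rw [← hY]
    exact mul_le_mul (Binder.two_c_le_stepC hR hc1) (pow_le_pow_right₀ hX1 (by omega))
      (by positivity) (zero_le_one.trans (Binder.one_le_stepC hR hc1))
  have hcv : ∀ {B' : ℝ}, 0 ≤ B' → Cc Ad T₀ * X ^ e * (X * B') ≤ Y * B' := fun hB' => by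
    refine (mul_le_mul_of_nonneg_right hcY (by positivity)).trans ?_
    rw [← hcX]
    rw [← mul_assoc, mul_assoc (c * X ^ e) 2 X]
    exact mul_le_mul_of_nonneg_right (mul_le_mul_of_nonneg_left (by linarith) (by positivity)) hB'
  constructor
  · exact wrapT_small (Prog.small_sumFin hGsmall)
  · exact hwrap.1.mono h.delta le_rfl hr0 le_rfl hX' hT1 le_rfl
  · exact hwrap.2.1.mono h.delta le_rfl hX' unit_nonneg fun _ => le_rfl
  · refine hwrap.2.2.1.trans ?_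
    have h8 : tiltV P δ r + Z ≤ c * X ^ (e + 2) * (q + 1) * tiltV P δ r := by
      rw [← hZd, pow_add]
      have h9 : tiltV P δ r ≤ c * (X ^ e * X ^ 2) * tiltV P δ r :=
        le_mul_of_one_le_left hV (one_le_mul_of_one_le_of_one_le hc1
          (one_le_mul_of_one_le_of_one_le hXe (one_le_pow₀ hX1)))
      calc tiltV P δ r + c * X ^ e * (q * (X ^ 2 * tiltV P δ r))
          ≤ c * (X ^ e * X ^ 2) * tiltV P δ r + c * X ^ e * (q * (X ^ 2 * tiltV P δ r)) :=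
            add_le_add h9 le_rfl
        _ = _ := by ring
    have hR0 : 0 ≤ R := by linarith
    rw [← hY]
    calc 2 * (2 * c * X ^ (e + 1)) * (2 * R * (2 * c * X ^ (e + 1)) * (tiltV P δ r + Z))
        ≤ 2 * (2 * c * X ^ (e + 1)) * (2 * R * (2 * c * X ^ (e + 1))
            * (c * X ^ (e + 2) * (q + 1) * tiltV P δ r)) :=
          mul_le_mul_of_nonneg_left (mul_le_mul_of_nonneg_left h8 (by positivity)) (by positivity)
      _ = 16 * (q + 1) * R * c ^ 3 * X ^ (3 * e + 4) * tiltV P δ r := by ring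
      _ ≤ _ := by
          rw [Binder.stepC]
          have h16 : 16 * R ≤ 1024 * R ^ 2 :=
            mul_le_mul (by norm_num) (le_self_pow₀ hR two_ne_zero) hR0 (by norm_num)
          have h0 : 0 ≤ (q + 1) * c ^ 3 * X ^ (3 * e + 4) * tiltV P δ r := by positivity
          calc 16 * (q + 1) * R * c ^ 3 * X ^ (3 * e + 4) * tiltV P δ r
              = 16 * R * ((q + 1) * c ^ 3 * X ^ (3 * e + 4) * tiltV P δ r) := by ring
            _ ≤ 1024 * R ^ 2 * ((q + 1) * c ^ 3 * X ^ (3 * e + 4) * tiltV P δ r) :=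
                mul_le_mul_of_nonneg_right h16 h0
            _ = _ := by ring
  · exact step_depth hA hΦ.depth_le hcd
  · exact step_nodes hS hn hPn hΦ.nodes_le hwn hcn
  · exact fun l hl => wrapT_levelGe (Prog.levelGe_sumFin fun kk =>
      ⟨wrapT_levelGe (hl.subst fun i => by
          rcases i with _ | i
          · exact ⟨trivial, hΦ.level l hl⟩
          · trivial),
        psiT_levelGe (hcl l (sumTT_levelGe (hΦ.level l hl) q))⟩)
  · intro v B' hv hB' hs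
    refine Prog.SensLe.mono h.delta le_rfl (mul_le_mul_of_nonneg_right hX' hB') ?_
      (pushR_nonneg le_rfl hv) fun _ => le_rfl
    refine hwrap.2.2.2.1 v _ (Prog.sensLe_sumFin fun kk => ⟨?_, ?_⟩)
    · exact (hq kk).2.2.2.1 v _ ((hQv v B' hv hB' hs).mono h.delta le_rfl
        (mul_le_mul_of_nonneg_right h2XY hB') (pushR_nonneg le_rfl hv) fun _ => le_rfl)
    · refine (hp kk).2.2.2.1 v _ ?_
      refine (hcse (pushR 0 v) 0 (X * B') (pushR_nonneg le_rfl hv) le_rfl (mul_nonneg hX0 hB')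
        (sumTT_sensLe (hΦ.sens_v v B' hv hB' hs) q)).mono h.delta le_rfl ?_
        (pushR_nonneg le_rfl (pushR_nonneg le_rfl hv)) fun _ => le_rfl
      rw [zero_add]; exact hcv hB'
  · intro v B' hv hB' hs hsn
    refine Prog.NoiseLe.mono h.delta le_rfl (mul_le_mul_of_nonneg_right hX' hB') ?_
      (pushR_nonneg le_rfl hv) fun _ => le_rfl
    refine hwrap.2.2.2.2 v _ (mul_nonneg hY0 hB') (Prog.noiseLe_sumFin fun kk => ⟨?_, ?_⟩)
    · exact (hq kk).2.2.2.2 v _ (mul_nonneg hY0 hB') ((hQn v B' hv hB' hs hsn).mono h.delta le_rfl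
        (mul_le_mul_of_nonneg_right h2XY hB') (pushR_nonneg le_rfl hv) fun _ => le_rfl)
    · refine (hp kk).2.2.2.2 v _ (mul_nonneg hY0 hB') ?_
      exact (hcno (pushR 0 v) (X * B') (pushR_nonneg le_rfl hv) (mul_nonneg hX0 hB')
        (sumTT_sensLe (hΦ.sens_v v B' hv hB' hs) q)
        (sumTT_noiseLe (hΦ.noise_v v B' hv hB' hs hsn) q)).mono h.delta le_rfl (hcv hB')
        (pushR_nonneg le_rfl (pushR_nonneg le_rfl hv)) fun _ => le_rfl

/-- All iterates up to `j` are bounded with one exponent of `B`. -/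
theorem iterT_bd (e j : ℕ) : ∃ k : ℕ, 1 ≤ k ∧
    ∀ (Kc : ℕ → ℝ → ℕ) (Cc Tc : ℕ → ℝ → ℝ) (q : ℕ) (R : ℝ) (A : ℕ) (T : ℝ), 1 ≤ R → 1 ≤ T →
    ∃ (K : ℕ) (C T₁ : ℝ), 1 ≤ C ∧ T ≤ T₁ ∧
      ∀ (P : Prog) (δ : ℕ → ℝ) (r B : ℝ) (n : ℕ) (ρ w : Fin n → ℝ) (ρ₀ ρ₁ : ℝ)
        (conv : LProg → Prog) (S : ℕ),
        TiltOk P δ r B T → PicardRule R ρ₀ ρ₁ ρ w → ConvSyn e δ r Kc Cc Tc conv →
        ConvNoise e δ r Cc conv → P.depth ≤ A → 4 ≤ S → n + 1 ≤ S → P.nodes ≤ S →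
        (C * B ^ k) ^ 2 * tiltV P δ r ≤ 1 →
        ∀ i ≤ j, BdT P δ r (C * B ^ k) T₁ S K (iterT conv P ρ w ρ₀ ρ₁ q i) := by
  induction j with
  | zero =>
    refine ⟨1, le_rfl, fun Kc Cc Tc q R A T _ _ => ⟨0, 1, T, le_rfl, le_rfl, ?_⟩⟩
    intro P δ r B n ρ w ρ₀ ρ₁ conv S h _ _ _ _ hS _ _ _ i hi
    rw [Nat.le_zero.1 hi]
    exact { small := trivial, wf := trivial, sens := trivial,
            size_le := mul_nonneg (mul_nonneg zero_le_one (pow_nonneg (zero_le_one.trans h.B_one) 1))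
              h.tiltV_nonneg,
            depth_le := le_rfl, nodes_le := by simp [iterT, Prog.nodes],
            level := fun _ _ => trivial,
            sens_v := fun _ _ _ _ _ => trivial,
            noise_v := fun _ _ _ _ _ _ => trivial }
  | succ j ih =>
    obtain ⟨k, hk, ih⟩ := ih
    refine ⟨k * (3 * e + 4), hk.trans (Nat.le_mul_of_pos_right k (by omega)), ?_⟩
    intro Kc Cc Tc q R A T hR hT
    obtain ⟨K, C, T₁, hC, hT1, ih⟩ := ih Kc Cc Tc q R A T hR hT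
    set c := max 1 (Cc (Binder.wordDepth q K) T₁)
    have hsc : 1 ≤ Binder.stepC q R c := Binder.one_le_stepC hR (le_max_left _ _)
    have hC0 : 0 ≤ C := zero_le_one.trans hC
    have hCC : C ≤ Binder.stepC q R c * C ^ (3 * e + 4) :=
      (le_self_pow₀ hC (by omega)).trans (le_mul_of_one_le_left (pow_nonneg hC0 _) hsc)
    refine ⟨max K (stepKT q A K (Kc (Binder.wordDepth q K) T₁)),
      Binder.stepC q R c * C ^ (3 * e + 4), max T₁ (Tc (Binder.wordDepth q K) T₁), hC.trans hCC,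
      hT1.trans (le_max_left _ _), ?_⟩
    intro P δ r B n ρ w ρ₀ ρ₁ conv S h hr hconv hnoise hA hS hn hPn hU i hi
    have hB1 : 1 ≤ B := h.B_one
    have hB0 : 0 ≤ B := zero_le_one.trans hB1
    have hle : C * B ^ k ≤ Binder.stepC q R c * C ^ (3 * e + 4) * B ^ (k * (3 * e + 4)) :=
      mul_le_mul hCC (pow_le_pow_right₀ hB1 (Nat.le_mul_of_pos_right k (by omega)))
        (pow_nonneg hB0 k) (hC0.trans hCC)
    have hXp : 0 < C * B ^ k := mul_pos (by linarith) (pow_pos (by linarith) k)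
    have hUj : (C * B ^ k) ^ 2 * tiltV P δ r ≤ 1 :=
      (mul_le_mul_of_nonneg_right (pow_le_pow_left₀ hXp.le hle 2) h.tiltV_nonneg).trans hU
    have hpre := ih P δ r B n ρ w ρ₀ ρ₁ conv S h hr hconv hnoise hA hS hn hPn hUj
    rcases Nat.of_le_succ hi with hi | rfl
    · exact (hpre i hi).mono h hXp hle (zero_lt_one.trans_le (hT.trans hT1))
        (le_max_left _ _) (by omega) (le_max_left _ _)
    · have hBX : B ≤ C * B ^ k :=
        (le_self_pow₀ hB1 (by omega)).trans (le_mul_of_one_le_left (pow_nonneg hB0 k) hC)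
      refine ((hpre j le_rfl).step h hR hr hconv hnoise hBX hT1 hUj hA hS hn hPn).mono h ?_ ?_
        (zero_lt_one.trans_le ((hT.trans hT1).trans (le_max_left _ _))) le_rfl (by omega)
        (le_max_right _ _)
      · exact mul_pos (zero_lt_one.trans_le hsc) (pow_pos hXp _)
      · rw [mul_pow, ← pow_mul, ← mul_assoc]

/-- The syntactic bounds of the Picard iterates of the map of a tilt and of their words. -/
theorem iterT_bounds (e j : ℕ) : ∃ E : ℕ,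
    ∀ (Kc : ℕ → ℝ → ℕ) (Cc Tc : ℕ → ℝ → ℝ) (q : ℕ) (R : ℝ) (A : ℕ) (T : ℝ), 1 ≤ R → 1 ≤ T →
    ∃ (K : ℕ) (C T₁ : ℝ), 1 ≤ C ∧ T ≤ T₁ ∧
      ∀ (P : Prog) (δ : ℕ → ℝ) (r B : ℝ) (n : ℕ) (ρ w : Fin n → ℝ) (ρ₀ ρ₁ : ℝ)
        (conv : LProg → Prog),
        TiltOk P δ r B T → PicardRule R ρ₀ ρ₁ ρ w → ConvSyn e δ r Kc Cc Tc conv →
        ConvNoise e δ r Cc conv → P.depth ≤ A → C * B ^ E * tiltV P δ r ≤ 1 → ∀ i ≤ j,
          let Φ := iterT conv P ρ w ρ₀ ρ₁ q i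
          (Φ.Small ∧ Φ.WF δ r (C * B ^ E) T₁ ∧ Φ.depth ≤ K ∧
            Φ.nodes ≤ K * (P.nodes + n + 1) ^ K ∧ (∀ l, P.LevelGe l → Φ.LevelGe l) ∧
            Φ.size δ r ≤ C * B ^ E * tiltV P δ r ∧
            Φ.lip δ (pushR 1 0) ≤ C * B ^ E * tiltV P δ r ∧
            Φ.SensLe δ (C * B ^ E) (pushR 1 0) ∧
            ∀ (v : ℕ → ℝ) (B' : ℝ), (∀ i, 0 ≤ v i) → 0 ≤ B' → P.SensLe δ B' (pushR 0 v) →
              Φ.SensLe δ (C * B ^ E * B') (pushR 0 v) ∧
              Φ.lip δ (pushR 0 v) ≤ C * B ^ E * (P.lip δ (pushR 0 v) + B' * tiltV P δ r) ∧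
              (P.NoiseLe δ B' (pushR 0 v) → Φ.NoiseLe δ (C * B ^ E * B') (pushR 0 v))) ∧
          (sumTT Φ q).Small ∧ (sumTT Φ q).WF δ r (C * B ^ E) T₁ ∧
            (sumTT Φ q).SensLe δ (C * B ^ E) (pushR 1 0) ∧ (sumTT Φ q).depth ≤ K ∧
            (sumTT Φ q).norm' δ ≤ q * (C * B ^ E * tiltV P δ r) ^ 2 ∧
            (∀ l, P.LevelGe l → (sumTT Φ q).LevelGe l) ∧
            ∀ (v : ℕ → ℝ) (B' : ℝ), (∀ i, 0 ≤ v i) → 0 ≤ B' → P.SensLe δ B' (pushR 0 v) →
              (sumTT Φ q).SensLe δ (C * B ^ E * B') (pushR 0 v) := by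
  obtain ⟨k, hk, hiter⟩ := iterT_bd e j
  refine ⟨2 * k, fun Kc Cc Tc q R A T hR hT => ?_⟩
  obtain ⟨K, C, T₁, hC, hT1, hiter⟩ := hiter Kc Cc Tc q R A T hR hT
  refine ⟨max (max K (4 ^ K)) (Binder.wordDepth q K), C ^ 2, T₁, one_le_pow₀ hC, hT1, ?_⟩
  intro P δ r B n ρ w ρ₀ ρ₁ conv h hr hconv hnoise hA hU i hi
  intro Φ
  have hB0 : 0 ≤ B := zero_le_one.trans h.B_one
  have hV := h.tiltV_nonneg
  have hC0 : 0 ≤ C := zero_le_one.trans hC
  have hsq : (C * B ^ k) ^ 2 = C ^ 2 * B ^ (2 * k) := by rw [mul_pow, ← pow_mul, mul_comm k 2]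
  have hX1 : 1 ≤ C * B ^ k := one_le_mul_of_one_le_of_one_le hC (one_le_pow₀ h.B_one)
  have hX : C * B ^ k ≤ C ^ 2 * B ^ (2 * k) := (le_self_pow₀ hX1 two_ne_zero).trans_eq hsq
  have hUj : (C * B ^ k) ^ 2 * tiltV P δ r ≤ 1 := by rwa [hsq]
  have hPn := P.one_le_nodes
  have hb := hiter P δ r B n ρ w ρ₀ ρ₁ conv (4 * (P.nodes + n + 1)) h hr hconv hnoise hA (by omega)
    (by omega) (by omega) hUj i hi
  have hBX : B ≤ C * B ^ k :=
    (le_self_pow₀ h.B_one (by omega)).trans (le_mul_of_one_le_left (pow_nonneg hB0 k) hC)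
  have hT0 : 0 < T₁ := zero_lt_one.trans_le (hT.trans hT1)
  have hr0 := zero_le_one.trans h.r_one
  have hX0 : 0 ≤ C * B ^ k := zero_le_one.trans hX1
  have hl : Φ.lip δ (pushR 1 0) ≤ C ^ 2 * B ^ (2 * k) * tiltV P δ r := by
    rw [← hsq]; exact hb.lip_le h hBX
  refine ⟨⟨hb.small, hb.wf.mono h.delta le_rfl hr0 le_rfl hX hT0 le_rfl,
    hb.depth_le.trans ((le_max_left _ _).trans (le_max_left _ _)), ?_, hb.level,
    hb.size_le.trans (mul_le_mul_of_nonneg_right hX hV), hl,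
    hb.sens.mono h.delta le_rfl hX unit_nonneg fun _ => le_rfl, fun v B' hv hB' hs => ⟨?_, ?_, ?_⟩⟩,
    sumTT_small hb.small q, (sumTT_wf hX0 hb.wf q).mono h.delta le_rfl hr0 le_rfl hX hT0 le_rfl,
    (sumTT_sensLe hb.sens q).mono h.delta le_rfl hX unit_nonneg fun _ => le_rfl,
    (sumTT_depth hb.depth_le q).trans (le_max_right _ _),
    sumTT_norm h.delta hl hU q, fun l hl => sumTT_levelGe (hb.level l hl) q,
    fun v B' hv hB' hs => (sumTT_sensLe (hb.sens_v v B' hv hB' hs) q).mono h.delta le_rfl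
      (mul_le_mul_of_nonneg_right hX hB') (pushR_nonneg le_rfl hv) fun _ => le_rfl⟩
  · refine hb.nodes_le.trans ?_
    rw [mul_pow]
    exact Nat.mul_le_mul ((le_max_right K (4 ^ K)).trans (le_max_left _ _))
      (Nat.pow_le_pow_right (by omega) ((le_max_left _ _).trans (le_max_left _ _)))
  · exact (hb.sens_v v B' hv hB' hs).mono h.delta le_rfl (mul_le_mul_of_nonneg_right hX hB')
      (pushR_nonneg le_rfl hv) fun _ => le_rfl
  · refine (hb.lip_v_le h hBX hv hB' hs).trans ?_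
    rw [hsq]
    exact mul_le_mul_of_nonneg_left
      (le_add_of_nonneg_left (P.lip_nonneg h.delta (pushR_nonneg le_rfl hv))) (by positivity)
  · exact fun hn => (hb.noise_v v B' hv hB' hs hn).mono h.delta le_rfl
      (mul_le_mul_of_nonneg_right hX hB') (pushR_nonneg le_rfl hv) fun _ => le_rfl

end Vale.Agent.P347
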