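import Vale.Agent.P347Zero.TiltMapStep
import Vale.Agent.P347Zero.PhiIterT

/-!
P347 (exponent zero, M10): the map of a tilt as a program, from a conversion of programs of linear
maps with a quadratic mean error.
-/

open MeasureTheory ProbabilityTheory Real Filter
open scoped RealInnerProductSpace Topology

set_option maxSynthPendingDepth 3

namespace Vale.Agent.P347

open Quad

noncomputable section

/-- The quadratic mean error of a conversion with `θ = 1 / r`. -/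
def ConvErr (N : ℕ) (δ0 δ : ℕ → ℝ) (r Cb : ℝ) (Ce : ℕ → ℝ → ℝ) (conv : LProg → Prog) : Prop :=
  ∀ (A : ℕ) (T B : ℝ) (W : LProg), 1 ≤ T → 1 ≤ B → r ≤ B → W.Small → W.WF δ r B T → W.depth ≤ A →
    ∀ (d : ℕ) (h : ℕ → E d → E d) (Gb : ℝ), (∀ ℓ, Fld d (δ0 ℓ) r Gb Cb N (h ℓ)) → ∀ env : Env d,
      ∫ u, ‖(conv W).sem h (push u env) - W.app h env u‖ ^ 2 ∂gau (Fin d)
        ≤ (Ce A T * (1 + Cb) * W.norm' δ * √(d : ℝ) * (r ^ 2 / r ^ N)) ^ 2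

variable {d : ℕ}

/-- The bound on a field can be increased. -/
lemma Fld.mono_delta_tilt {δ δ' r Gb C : ℝ} {N : ℕ} {h : E d → E d} (hh : Fld d δ r Gb C N h)
    (hδ : δ ≤ δ') (hr : 0 < r) (hC : 0 ≤ C) : Fld d δ' r Gb C N h := by
  have h0 : 0 ≤ δ := hh.delta_nonneg
  have hmono : δ * r * √d * C / r ^ N ≤ δ' * r * √d * C / r ^ N := by gcongr
  refine ⟨hh.smooth, fun x => (hh.lip x).trans hδ, hh.bdd, hh.symm,
    fun m c ρ hρ hc p τ hτ => (hh.tail m c ρ hρ hc p τ hτ).trans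
      (pow_le_pow_left₀ ?_ (mul_le_mul_of_nonneg_left hmono ?_) 2),
    fun m c ρ hρ hc p τ hτ => (hh.tail_one m c ρ hρ hc p τ hτ).trans
      (pow_le_pow_left₀ ?_ (mul_le_mul_of_nonneg_left hmono ?_) 2)⟩
  all_goals positivity

/-- A constant multiple of `d ^ (-α)` is at most `d ^ (-α / 2)` for large `d`. -/
lemma eventually_absorb {α : ℝ} (hα : 0 < α) (c : ℝ) :
    ∀ᶠ d : ℕ in atTop, c * (d : ℝ) ^ (-α) ≤ (d : ℝ) ^ (-(α / 2)) := by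
  have h := ((tendsto_rpow_atTop (half_pos hα)).comp tendsto_natCast_atTop_atTop).eventually_ge_atTop c
  filter_upwards [h, eventually_gt_atTop 0] with d hd hd0
  have hd0' : (0 : ℝ) < d := by exact_mod_cast hd0
  refine (mul_le_mul_of_nonneg_right hd (Real.rpow_nonneg hd0'.le _)).trans_eq ?_
  show (d : ℝ) ^ (α / 2) * (d : ℝ) ^ (-α) = _
  rw [← Real.rpow_add hd0']
  congr 1
  ring

/-- A power of a small power of `d`. -/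
lemma rpow_neg_pow_le (hd : 1 ≤ d) {β : ℝ} {J k : ℕ} (h : (k : ℝ) ≤ β * J) :
    ((d : ℝ) ^ (-β)) ^ J ≤ ((d : ℝ) ^ k)⁻¹ := by
  have hd' : (1 : ℝ) ≤ d := by exact_mod_cast hd
  rw [← Real.rpow_natCast _ J, ← Real.rpow_mul (Nat.cast_nonneg d), ← Real.rpow_natCast _ k,
    ← Real.rpow_neg (Nat.cast_nonneg d)]
  exact Real.rpow_le_rpow_of_exponent_le hd' (by linarith)

/-- A large power of a small power of `d`. -/
lemma pow_le_rpow_pow (hd : 1 ≤ d) {γ r : ℝ} (hr : (d : ℝ) ^ γ ≤ r) {k N : ℕ}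
    (h : (k : ℝ) ≤ γ * N) : (d : ℝ) ^ k ≤ r ^ N := by
  have hd' : (1 : ℝ) ≤ d := by exact_mod_cast hd
  refine le_trans ?_ (pow_le_pow_left₀ (Real.rpow_nonneg (Nat.cast_nonneg d) γ) hr N)
  rw [← Real.rpow_natCast _ N, ← Real.rpow_mul (Nat.cast_nonneg d), ← Real.rpow_natCast _ k]
  exact Real.rpow_le_rpow_of_exponent_le hd' h

/-- The rule of the Picard iteration with the smoothings of a tilt. -/
lemma tilt_rule {n : ℕ} {ε B : ℝ} (Rl : Rule n ε) {M3 : ℕ} (hM : 1 ≤ M3) (hd : 2 ≤ d)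
    (hε : ε ≤ (((d : ℝ) ^ M3) ^ 4)⁻¹) (hB : 1 ≤ B) (hlog : Real.log d ≤ B) :
    PicardRule 6 (tiltρ0 d M3) (tiltρ1 d M3) (fun k => Rl.node k 0) (fun k => Rl.weight k 0) ∧
      RuleBds (fun k => Rl.weight k 0) (fun k => Rl.node k 0) (tiltρ0 d M3) (tiltρ1 d M3)
        ((7 + 2 * M3) * B) := by
  obtain ⟨h0, h1⟩ := tiltρ_mem hd hM
  have hb1 := one_le_pow_dim (show 1 ≤ d by omega) M3
  have hε0 := Rl.eps_nonneg
  have hu1 : 1 - tiltρ1 d M3 = (((d : ℝ) ^ M3) ^ 4)⁻¹ := by rw [tiltρ1, sub_sub_cancel]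
  have hu0 : 1 - tiltρ0 d M3 = (((d : ℝ) ^ M3) ^ 2)⁻¹ := by rw [tiltρ0, sub_sub_cancel]
  have hp1 : 0 < 1 - tiltρ1 d M3 := by linarith [h1.2]
  have hp0 : 0 < 1 - tiltρ0 d M3 := by linarith [h0.2]
  have he1 : ε / (1 - tiltρ1 d M3) ≤ 1 := by rw [div_le_one hp1, hu1]; exact hε
  have he0 : ε / (1 - tiltρ0 d M3) ≤ 1 := by
    rw [div_le_one hp0, hu0]
    refine hε.trans (inv_anti₀ (by positivity) (pow_le_pow_right₀ hb1 (by norm_num)))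
  have h00 : (0 : ℝ) ≤ tiltρ0 d M3 := by linarith [h0.1]
  have h10 : (0 : ℝ) ≤ tiltρ1 d M3 := by linarith [h1.1]
  have hε1 : ε ≤ 1 :=
    hε.trans (inv_le_one_of_one_le₀ (one_le_pow₀ hb1))
  refine ⟨⟨fun k => Rl.node_unit k 0, fun k => Rl.weight_nonneg k 0, ?_, ?_, ⟨h00, h0.2⟩, ⟨h10, h1.2⟩⟩,
    ruleBds_of_rule Rl 0 h0 ⟨by linarith [h1.1], h1.2⟩ ?_ ?_⟩
  · have h := (abs_le.1 (Rl.moment 0 0)).2
    simp only [pow_zero, mul_one, Nat.cast_zero, zero_add, div_one] at h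
    linarith
  · have h := rule_sum_le Rl h00 h0.2 0
    calc ∑ k, Rl.weight k 0 * Rl.node k 0 / cpl (tiltρ0 d M3 * Rl.node k 0)
        ≤ ∑ k, 2 * (Rl.weight k 0 * (tiltρ0 d M3 * Rl.node k 0) /
            √(1 - (tiltρ0 d M3 * Rl.node k 0) ^ 2)) := by
          refine Finset.sum_le_sum fun k _ => ?_
          rw [← mul_div_assoc, cpl]
          refine div_le_div_of_nonneg_right ?_ (Real.sqrt_nonneg _)
          have hw := mul_nonneg (Rl.weight_nonneg k 0) (Rl.node_unit k 0).1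
          calc Rl.weight k 0 * Rl.node k 0 = 1 * (Rl.weight k 0 * Rl.node k 0) := (one_mul _).symm
            _ ≤ (2 * tiltρ0 d M3) * (Rl.weight k 0 * Rl.node k 0) :=
                mul_le_mul_of_nonneg_right (by linarith [h0.1]) hw
            _ = _ := by ring
      _ ≤ 6 := by rw [← Finset.mul_sum]; linarith
  · rw [mul_div_assoc]
    have : (7 : ℝ) * 1 ≤ (7 + 2 * M3) * B := mul_le_mul (by linarith [Nat.cast_nonneg (α := ℝ) M3])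
      hB zero_le_one (by positivity)
    linarith
  · rw [hu0, one_div, inv_inv, Real.log_pow, Real.log_pow]
    rw [hu0] at he0
    have := mul_le_mul_of_nonneg_left hlog (Nat.cast_nonneg (α := ℝ) M3)
    push_cast
    linarith

lemma sqrt_dim_le (hd : 1 ≤ d) : √(d : ℝ) ≤ d := by
  have h : (1 : ℝ) ≤ d := by exact_mod_cast hd
  rw [Real.sqrt_le_iff]
  constructor
  · linarith
  · nlinarith

/-- The contraction constant and its powers. -/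
lemma tilt_contraction {J M : ℕ} {B Rc C lP V Bk L z D : ℝ} (hd : 1 ≤ d) (hBd : B ≤ d)
    (hB0 : 0 ≤ B) (hRc : 0 ≤ Rc) (hlP0 : 0 ≤ lP) (hlP : lP ≤ V * Bk) (hu0 : 0 ≤ C * Bk * V)
    (hC : 0 ≤ C) (hV : V * (Bk * B) ≤ D)
    (hD : 2 * Rc * (1 + ((J : ℝ) + 1) ^ 2 * C) * D ≤ z) (hCu : C * Bk * V ≤ z)
    (hu1 : C * Bk * V ≤ 1) (hzJ : z ^ J ≤ ((d : ℝ) ^ (2 * M + 4))⁻¹) (hL : 1 ≤ L) (hRL : Rc ≤ L) :
    2 * (Rc * B) * (lP + ((J : ℝ) + 1) ^ 2 * (C * Bk * V)) ≤ z ∧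
    (2 * (Rc * B) * (lP + ((J : ℝ) + 1) ^ 2 * (C * Bk * V))) ^ J * (Rc * B) ≤
      L / (d : ℝ) ^ (2 * M + 3) ∧
    (C * Bk * V) ^ (J + 2) ≤ L / (d : ℝ) ^ (2 * M + 3) := by
  have hdp : (0 : ℝ) < d := by exact_mod_cast hd
  have hd0 : (1 : ℝ) ≤ d := by exact_mod_cast hd
  have hκ0 : 0 ≤ 2 * (Rc * B) * (lP + ((J : ℝ) + 1) ^ 2 * (C * Bk * V)) := by positivity
  have hκz : 2 * (Rc * B) * (lP + ((J : ℝ) + 1) ^ 2 * (C * Bk * V)) ≤ z := by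
    refine le_trans ?_ ((mul_le_mul_of_nonneg_left hV (by positivity)).trans hD)
    calc 2 * (Rc * B) * (lP + ((J : ℝ) + 1) ^ 2 * (C * Bk * V))
        ≤ 2 * (Rc * B) * (V * Bk + ((J : ℝ) + 1) ^ 2 * (C * Bk * V)) :=
          mul_le_mul_of_nonneg_left (add_le_add hlP le_rfl) (by positivity)
      _ = _ := by ring
  have hdd : ((d : ℝ) ^ (2 * M + 4))⁻¹ * d = ((d : ℝ) ^ (2 * M + 3))⁻¹ := by
    rw [pow_succ _ (2 * M + 3), mul_inv, mul_assoc, inv_mul_cancel₀ hdp.ne', mul_one]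
  refine ⟨hκz, ?_, ?_⟩
  · refine (mul_le_mul ((pow_le_pow_left₀ hκ0 hκz J).trans hzJ)
      (mul_le_mul_of_nonneg_left hBd hRc) (mul_nonneg hRc hB0) (by positivity)).trans ?_
    rw [mul_left_comm, hdd, ← div_eq_mul_inv]
    exact div_le_div_of_nonneg_right hRL (by positivity)
  · refine (pow_le_pow_of_le_one hu0 hu1 (by omega : J ≤ J + 2)).trans ?_
    refine ((pow_le_pow_left₀ hu0 hCu J).trans hzJ).trans ?_
    rw [div_eq_mul_inv]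
    refine le_trans ?_ (le_mul_of_one_le_left (by positivity) hL)
    exact inv_anti₀ (by positivity) (pow_le_pow_right₀ hd0 (by omega))

/-- The error of a conversion for a bounded word. -/
lemma conv_err_le {M M3 N J : ℕ} {c Cb w r : ℝ} (hd : 1 ≤ d) (hCb : 0 ≤ Cb) (hw0 : 0 ≤ w)
    (hwJ : w ≤ J) (hr : 0 < r) (hrd : r ≤ d) (hNd : (d : ℝ) ^ (2 * M3 + 2 * M + 6) ≤ r ^ N) :
    (c * (1 + Cb) * w * √(d : ℝ) * (r ^ 2 / r ^ N)) ^ 2 ≤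
      (|c| * (1 + Cb) * J * ((d : ℝ) * ((d : ℝ) ^ 2 / (d : ℝ) ^ (2 * M3 + 2 * M + 6)))) ^ 2 := by
  have hsd := sqrt_dim_le hd
  have hdp : (0 : ℝ) < d := by exact_mod_cast hd
  have hq : r ^ 2 / r ^ N ≤ (d : ℝ) ^ 2 / (d : ℝ) ^ (2 * M3 + 2 * M + 6) :=
    div_le_div₀ (by positivity) (pow_le_pow_left₀ hr.le hrd 2) (by positivity) hNd
  rw [← sq_abs]
  refine pow_le_pow_left₀ (abs_nonneg _) ?_ 2
  rw [abs_mul, abs_mul, abs_mul, abs_mul, abs_of_nonneg hw0,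
    abs_of_nonneg (Real.sqrt_nonneg _), abs_of_nonneg (show 0 ≤ r ^ 2 / r ^ N by positivity),
    abs_of_nonneg (show 0 ≤ 1 + Cb by linarith)]
  calc |c| * (1 + Cb) * w * √(d : ℝ) * (r ^ 2 / r ^ N)
      ≤ |c| * (1 + Cb) * J * d * ((d : ℝ) ^ 2 / (d : ℝ) ^ (2 * M3 + 2 * M + 6)) := by gcongr
    _ = _ := by ring

/-- The error of one program step. -/
lemma step_err_le {M M3 J : ℕ} {c L G ζ : ℝ} (hd : 2 ≤ d) (hM3 : 1 ≤ M3) (hc : 0 ≤ c)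
    (hL : 12 * J * c ≤ L) (hL0 : 0 ≤ L) (hG : 0 ≤ G) (hζ : 0 ≤ ζ) :
    (1 + (√(1 - tiltρ1 d M3 ^ 2))⁻¹) *
      (6 * (c * J * ((d : ℝ) * ((d : ℝ) ^ 2 / (d : ℝ) ^ (2 * M3 + 2 * M + 6))))) ≤
      L * (1 + G + ζ) / (d : ℝ) ^ (2 * M + 3) := by
  have hd1 : 1 ≤ d := by omega
  have hdp : (0 : ℝ) < d := by exact_mod_cast (show 0 < d by omega)
  obtain ⟨-, hρ1⟩ := tiltρ_mem hd hM3
  have hs1 : (√(1 - tiltρ1 d M3 ^ 2))⁻¹ ≤ ((d : ℝ) ^ M3) ^ 2 := by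
    have h1 : 1 - tiltρ1 d M3 ≤ 1 - tiltρ1 d M3 ^ 2 := by
      have := mul_le_mul_of_nonneg_left hρ1.2.le (show 0 ≤ tiltρ1 d M3 by linarith [hρ1.1])
      rw [sq]
      linarith
    refine (inv_anti₀ (Real.sqrt_pos.2 (by linarith [hρ1.2])) (Real.sqrt_le_sqrt h1)).trans_eq ?_
    rw [tiltρ1, sub_sub_cancel, Real.sqrt_inv, inv_inv,
      show ((d : ℝ) ^ M3) ^ 4 = (((d : ℝ) ^ M3) ^ 2) ^ 2 by ring, Real.sqrt_sq (by positivity)]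
  have hb2 : 1 ≤ ((d : ℝ) ^ M3) ^ 2 := one_le_pow₀ (one_le_pow_dim hd1 M3)
  refine (mul_le_mul_of_nonneg_right (add_le_add hb2 hs1) (by positivity)).trans ?_
  rw [le_div_iff₀ (by positivity)]
  calc (((d : ℝ) ^ M3) ^ 2 + ((d : ℝ) ^ M3) ^ 2) *
        (6 * (c * J * ((d : ℝ) * ((d : ℝ) ^ 2 / (d : ℝ) ^ (2 * M3 + 2 * M + 6))))) *
          (d : ℝ) ^ (2 * M + 3)
      = 12 * J * c * (((d : ℝ) ^ M3) ^ 2 * d * (d : ℝ) ^ 2 *
          (d : ℝ) ^ (2 * M + 3) / (d : ℝ) ^ (2 * M3 + 2 * M + 6)) := by ring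
    _ = 12 * J * c := by
        rw [show ((d : ℝ) ^ M3) ^ 2 * d * (d : ℝ) ^ 2 * (d : ℝ) ^ (2 * M + 3) =
          (d : ℝ) ^ (2 * M3 + 2 * M + 6) by ring, div_self (by positivity), mul_one]
    _ ≤ L * (1 + G + ζ) := hL.trans (le_mul_of_one_le_right hL0 (by linarith))

/-- The Lipschitz constant of the matrix of the engine. -/
lemma word_lip_le {J K E0 : ℕ} {w dp s C L B x : ℝ} (hd : 1 ≤ d) (hw0 : 0 ≤ w) (hwJ : w ≤ J)
    (hdp0 : 0 ≤ dp) (hdp : dp ≤ K) (hs : 0 ≤ s) (hC : 0 ≤ C) (hB0 : 0 ≤ B) (hBd : B ≤ d)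
    (hx : 0 ≤ x) (hL : J * K * s * C ≤ L) :
    √(d : ℝ) * (w * dp * s * (C * B ^ E0) * x) ≤ L * (d : ℝ) ^ (E0 + 1) * x := by
  have hsd := sqrt_dim_le hd
  have h3 : B ^ E0 ≤ (d : ℝ) ^ E0 := pow_le_pow_left₀ hB0 hBd _
  calc √(d : ℝ) * (w * dp * s * (C * B ^ E0) * x)
      ≤ d * (J * K * s * (C * (d : ℝ) ^ E0) * x) := by gcongr
    _ = J * K * s * C * ((d : ℝ) ^ E0 * d) * x := by ring
    _ ≤ _ := by rw [← pow_succ]; gcongr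

/-- The meaning of the last iterate. -/
lemma tilt_iterates_mean_le {M M3 J E' : ℕ} (hM3 : 1 ≤ M3) (hd : 2 ≤ d)
    (hE : 2 * M + 4 + E' ≤ M3) {n : ℕ} {ε : ℝ} (Rl : Rule n ε) {h : ℕ → E d → E d}
    {δ : ℕ → ℝ} {r Gb Cb : ℝ} {N : ℕ} (hh : ∀ ℓ, Fld d (δ ℓ) r Gb Cb N (h ℓ))
    (env : Env d) (conv : LProg → Prog) (P : Prog) (Φp : ℕ → Prog)
    (hΦp : Φp = iterT conv P (fun k => Rl.node k 0) (fun k => Rl.weight k 0) (tiltρ0 d M3)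
      (tiltρ1 d M3) J)
    (hrule : PicardRule 6 (tiltρ0 d M3) (tiltρ1 d M3) (fun k => Rl.node k 0) (fun k => Rl.weight k 0))
    {Rb u L ec : ℝ} (hrb : RuleBds (fun k => Rl.weight k 0) (fun k => Rl.node k 0) (tiltρ0 d M3)
      (tiltρ1 d M3) Rb)
    (hlip : ∀ j ≤ J, (Φp j).lip δ (pushR 1 0) ≤ u) (hu1 : u ≤ 1) (hL : 0 ≤ L)
    (hκ : 2 * Rb * (P.lip δ (pushR 1 0) + ((J : ℝ) + 1) ^ 2 * u) ≤ 1 / 2)
    (hκJ : (2 * Rb * (P.lip δ (pushR 1 0) + ((J : ℝ) + 1) ^ 2 * u)) ^ J * Rb ≤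
      L / (d : ℝ) ^ (2 * M + 3))
    (huq : u ^ (J + 2) ≤ L / (d : ℝ) ^ (2 * M + 3))
    (hec : 0 ≤ ec)
    (herr : ∀ j < J, ∀ env' : Env d, ∫ v, ‖(conv (sumTT (Φp j) J)).sem h (push v env') -
      (sumTT (Φp j) J).app h env' v‖ ^ 2 ∂gau (Fin d) ≤ ec ^ 2)
    {R : E d → ℝ} {g : E d → E d} {δg r1 ζ G : ℝ} (hR : Pot d δg r1 R g)
    (hζ : ∀ x, ‖g x - P.sem h (push x env)‖ ≤ ζ) (hG : ∀ x, ‖g x‖ ≤ G)
    (hstep : (1 + (√(1 - tiltρ1 d M3 ^ 2))⁻¹) * (6 * ec) ≤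
      L * (1 + G + ζ) / (d : ℝ) ^ (2 * M + 3))
    {X T : ℝ} (hX : 0 ≤ X) (hT : 0 < T) (hWw : (sumTT (Φp J) J).WF δ r X T)
    (hWs : (sumTT (Φp J) J).SensLe δ X (pushR 1 0))
    (hWl : ∀ x : ℝ, 0 ≤ x → √(d : ℝ) * ((sumTT (Φp J) J).norm' δ * (sumTT (Φp J) J).depth * √T * X * x)
      ≤ L * (d : ℝ) ^ E' * x)
    (hε : ε ≤ ((d : ℝ) ^ (3 * M3 + 2 * M + 6))⁻¹)
    {v : E d → ℝ} (hv : ContDiff ℝ 1 v) {Kv : ℝ} (hvb : ∀ x, |v x| ≤ Kv)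
    (hv1 : ∀ x, ‖fderiv ℝ v x‖ ≤ 1) :
    |(∫ w, v (w + (Φp J).sem h (push w env)) ∂gau (Fin d)) - ∫ x, v x ∂tilt R| ≤
      300 * (1 + L) * ((J : ℝ) + 1) * (ζ + (1 + G) / (d : ℝ) ^ M) := by
  have hδ := Prog.delta_nonneg_of_fld hh
  have hpb : ∀ x, ‖fnT h env P x‖ ≤ G + ζ := fun x => by
    have h1 := norm_le_norm_add_norm_sub' (fnT h env P x) (g x)
    have h2 : ‖fnT h env P x - g x‖ ≤ ζ := by rw [norm_sub_rev]; exact hζ x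
    have := hG x
    linarith
  have hu : ∀ j ≤ J, ∀ x, ‖fderiv ℝ (fnT h env (Φp j)) x‖ ≤ u := fun j hj x =>
    (norm_fderiv_fnT_le hh (Φp j) x).trans (hlip j hj)
  refine tilt_map_semantic hM3 hd Rl 0 hR hG hζ (tame_fnT env hh P).continuous
    (P.lip_nonneg hδ unit_nonneg)
    (fun x y => (Prog.norm_sem_push_sub_le hh P env x y).trans_eq (mul_comm _ _))
    hE (Φs := fun j => fnT h env (Φp j)) (fun j _ => tame_fnT env hh (Φp j))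
    (by subst hΦp; rfl) hu hu1 hrb hL hκ hκJ huq (fun j hj => ?_)
    (fun x y => (hn_tiltN_lip hh (Φp J) J hT hX hWw hWs x y).trans (hWl _ (norm_nonneg _)))
    hε hv hvb hv1
  subst hΦp
  exact (sdist_iterT_le (env := env) hh conv P hrule J j hpb (hu j hj.le) hu1 hec
    (herr j hj)).trans hstep

/-- The map of a tilt, for any conversion with bounds and a quadratic mean error. -/
theorem exists_tilt_map_of_conv (e : ℕ) (α : ℝ) (hα : 0 < α) (M : ℕ) :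
    ∃ Ee M2 : ℕ, ∀ γ : ℝ, 0 < γ → ∃ N₀ : ℕ, ∀ N, N₀ ≤ N →
    ∀ (conv : (ℕ → ℝ) → ℝ → LProg → Prog) (Kc : ℕ → ℝ → ℕ) (Cc Tc Ce : ℕ → ℝ → ℝ),
    (∀ (δ0 δ : ℕ → ℝ) (r Cb : ℝ), 0 ≤ δ0 → δ0 ≤ δ → δ ≤ 1 → 4 ≤ r → 0 ≤ Cb →
      ConvSyn e δ r Kc Cc Tc (conv δ r) ∧ ConvNoise e δ r Cc (conv δ r) ∧
        ConvErr N δ0 δ r Cb Ce (conv δ r)) →
    ∀ (A : ℕ) (T Cb : ℝ), 1 ≤ T → 0 ≤ Cb → ∃ (K : ℕ) (C T' : ℝ), 1 ≤ T' ∧ ∀ᶠ d : ℕ in atTop,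
    ∀ (Nr : ℕ) (εr : ℝ) (Rl : Rule Nr εr), εr ≤ ((d : ℝ) ^ M2)⁻¹ →
    ∀ (δ0 δ : ℕ → ℝ) (r B : ℝ) (P : Prog),
    0 ≤ δ0 → δ0 ≤ δ → δ ≤ 1 → (d : ℝ) ^ γ ≤ r → r ≤ B → Real.log d ≤ B → B ≤ d →
    P.Small → P.WF δ r B T → P.depth ≤ A → P.SensLe δ B (pushR 1 0) →
    P.NoiseLe δ B (pushR 1 0) →
    (P.lip δ (pushR 1 0) + P.size δ r) * B ^ Ee ≤ (d : ℝ) ^ (-α) →
    ∃ Φ : Prog, Φ.Small ∧ Φ.WF δ r (C * B ^ Ee) T' ∧ Φ.depth ≤ K ∧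
      Φ.nodes ≤ K * (P.nodes + Nr + 1) ^ K ∧ (∀ ℓ₀, P.LevelGe ℓ₀ → Φ.LevelGe ℓ₀) ∧
      Φ.size δ r ≤ C * B ^ Ee * (P.lip δ (pushR 1 0) + P.size δ r) ∧
      Φ.lip δ (pushR 1 0) ≤ C * B ^ Ee * (P.lip δ (pushR 1 0) + P.size δ r) ∧
      Φ.SensLe δ (C * B ^ Ee) (pushR 1 0) ∧
      (∀ (v : ℕ → ℝ) (B' : ℝ), (∀ i, 0 ≤ v i) → 0 ≤ B' → P.SensLe δ B' (pushR 0 v) →
        Φ.SensLe δ (C * B ^ Ee * B') (pushR 0 v) ∧
          Φ.lip δ (pushR 0 v) ≤ C * B ^ Ee * (P.lip δ (pushR 0 v)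
            + B' * (P.lip δ (pushR 1 0) + P.size δ r)) ∧
          (P.NoiseLe δ B' (pushR 0 v) → Φ.NoiseLe δ (C * B ^ Ee * B') (pushR 0 v))) ∧
      ∀ (h : ℕ → E d → E d) (Gb : ℝ), (∀ ℓ, Fld d (δ0 ℓ) r Gb Cb N (h ℓ)) → ∀ env : Env d,
        ∀ (R : E d → ℝ) (g : E d → E d) (δg r1 ζ G : ℝ), Pot d δg r1 R g →
          (∀ x, ‖g x - P.sem h (push x env)‖ ≤ ζ) → (∀ x, ‖g x‖ ≤ G) →
          ∀ v : E d → ℝ, ContDiff ℝ 1 v → (∃ K', ∀ x, |v x| ≤ K') →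
            (∀ x, ‖fderiv ℝ v x‖ ≤ 1) →
            |(∫ ξ, v (ξ + Φ.sem h (push ξ env)) ∂gau (Fin d)) - ∫ x, v x ∂tilt R|
              ≤ C * (ζ + (1 + G) * ((d : ℝ) ^ M)⁻¹) := by
  obtain ⟨J, hJ⟩ : ∃ J : ℕ, ((2 * M + 4 : ℕ) : ℝ) ≤ α / 2 * J := by
    obtain ⟨J, hJ⟩ := exists_nat_ge (((2 * M + 4 : ℕ) : ℝ) / (α / 2))
    exact ⟨J, by rw [div_le_iff₀ (half_pos hα)] at hJ; linarith⟩
  obtain ⟨E0, hbds⟩ := iterT_bounds e J
  obtain ⟨M3, hM3d⟩ : ∃ M3, 2 * M + 5 + E0 = M3 := ⟨_, rfl⟩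
  refine ⟨E0 + 1, 7 * M3 + 2 * M + 6, fun γ hγ => ?_⟩
  obtain ⟨N₀, hN₀⟩ := exists_nat_ge (((2 * M3 + 2 * M + 6 : ℕ) : ℝ) / γ)
  refine ⟨N₀, fun N hN conv Kc Cc Tc Ce hconv A T Cb hT hCb => ?_⟩
  obtain ⟨K, C, T₁, hC, hT1, hbds⟩ := hbds Kc Cc Tc J 6 A T (by norm_num) hT
  set Rc : ℝ := 7 + 2 * M3 with hRc
  set κc : ℝ := 2 * Rc * (1 + ((J : ℝ) + 1) ^ 2 * C) with hκc
  set L : ℝ := max (max Rc (J * K * √T₁ * C)) (max 1 (12 * J * (|Ce K T₁| * (1 + Cb)))) with hLd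
  have hL1 : (1 : ℝ) ≤ L := (le_max_left _ _).trans (le_max_right _ _)
  have hL0 : 0 ≤ L := zero_le_one.trans hL1
  set Cf : ℝ := max C (300 * (1 + L) * ((J : ℝ) + 1)) with hCf
  refine ⟨K, Cf, T₁, hT.trans hT1, ?_⟩
  filter_upwards [eventually_absorb hα κc, eventually_absorb hα C,
    ((tendsto_rpow_atTop (half_pos hα)).comp tendsto_natCast_atTop_atTop).eventually_ge_atTop 2,
    ((tendsto_rpow_atTop hγ).comp tendsto_natCast_atTop_atTop).eventually_ge_atTop 4,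
    eventually_ge_atTop 2] with d hdκ hdC hd2 hd4 hd
  intro Nr εr Rl hεr δ0 δ r B P hδ0 hδδ hδ1 hr hrB hlog hBd hPs hPw hPA hPse hPn hV
  have hd1 : 1 ≤ d := by omega
  have hd0 : (1 : ℝ) ≤ d := by exact_mod_cast hd1
  have hdp : (0 : ℝ) < d := by linarith
  have hr4 : 4 ≤ r := le_trans hd4 hr
  have hr1 : 1 ≤ r := by linarith
  have hB1 : 1 ≤ B := hr1.trans hrB
  have hB0 : 0 ≤ B := zero_le_one.trans hB1
  have hδp : 0 ≤ δ := hδ0.trans hδδ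
  have hok : TiltOk P δ r B T := ⟨hδp, hr1, hB1, hrB, hT, hPs, hPw, hPse, hPn⟩
  obtain ⟨hcs, hcn, hce⟩ := hconv δ0 δ r Cb hδ0 hδδ hδ1 hr4 hCb
  have hεM : εr ≤ (((d : ℝ) ^ M3) ^ 4)⁻¹ := hεr.trans (inv_anti₀ (by positivity)
    (by rw [← pow_mul]; exact pow_le_pow_right₀ hd0 (by omega)))
  obtain ⟨hrule, hrb⟩ := tilt_rule Rl (show 1 ≤ M3 by omega) hd hεM hB1 hlog
  -- the smallness
  set V := P.lip δ (pushR 1 0) + P.size δ r with hVd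
  have hV0 : 0 ≤ V := hok.tiltV_nonneg
  set z := (d : ℝ) ^ (-(α / 2)) with hz
  have hz0 : 0 ≤ z := Real.rpow_nonneg hdp.le _
  have hz2 : z ≤ 1 / 2 := by
    rw [hz, Real.rpow_neg hdp.le, one_div]
    exact inv_anti₀ two_pos hd2
  have hBE : B ^ E0 ≤ B ^ (E0 + 1) := pow_le_pow_right₀ hB1 (Nat.le_succ _)
  have hVE : V * B ^ E0 ≤ (d : ℝ) ^ (-α) :=
    (mul_le_mul_of_nonneg_left hBE hV0).trans hV
  have hCu : C * B ^ E0 * V ≤ z := by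
    rw [mul_assoc, mul_comm (B ^ E0)]
    exact (mul_le_mul_of_nonneg_left hVE (zero_le_one.trans hC)).trans hdC
  have hCu1 : C * B ^ E0 * V ≤ 1 := hCu.trans (hz2.trans (by norm_num))
  have hb := hbds P δ r B Nr (fun k => Rl.node k 0) (fun k => Rl.weight k 0) (tiltρ0 d M3)
    (tiltρ1 d M3) (conv δ r) hok hrule hcs hcn hPA hCu1
  set Φp := fun j => iterT (conv δ r) P (fun k => Rl.node k 0) (fun k => Rl.weight k 0)
    (tiltρ0 d M3) (tiltρ1 d M3) J j with hΦp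
  obtain ⟨⟨hsm, hwf, hdep, hnod, hlev, hsz, hlip, hsens, hv'⟩, hWsm, hWwf, hWse, hWdep, hWno, -, -⟩ :=
    hb J le_rfl
  have hCC : C ≤ Cf := le_max_left _ _
  have hX : C * B ^ E0 ≤ Cf * B ^ (E0 + 1) :=
    mul_le_mul hCC hBE (pow_nonneg hB0 _) (zero_le_one.trans (hC.trans hCC))
  have hT10 : 0 < T₁ := zero_lt_one.trans_le (hT.trans hT1)
  refine ⟨Φp J, hsm, hwf.mono hδp le_rfl (zero_le_one.trans hr1) le_rfl hX hT10 le_rfl, hdep, hnod,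
    hlev, hsz.trans (mul_le_mul_of_nonneg_right hX hV0),
    hlip.trans (mul_le_mul_of_nonneg_right hX hV0),
    hsens.mono hδp le_rfl hX unit_nonneg fun _ => le_rfl, fun v B' hv hB' hs => ?_, ?_⟩
  · obtain ⟨v1, v2, v3⟩ := hv' v B' hv hB' hs
    refine ⟨v1.mono hδp le_rfl (mul_le_mul_of_nonneg_right hX hB') (pushR_nonneg le_rfl hv)
      fun _ => le_rfl, v2.trans (mul_le_mul_of_nonneg_right hX ?_), fun hn => (v3 hn).mono hδp le_rfl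
      (mul_le_mul_of_nonneg_right hX hB') (pushR_nonneg le_rfl hv) fun _ => le_rfl⟩
    exact add_nonneg (P.lip_nonneg hδp (pushR_nonneg le_rfl hv)) (mul_nonneg hB' hV0)
  intro h Gb hh env R g δg r1 ζ G hR hζ hG v hv hvb hv1
  obtain ⟨Kv, hKv⟩ := hvb
  have hh' : ∀ ℓ, Fld d (δ ℓ) r Gb Cb N (h ℓ) := fun ℓ =>
    (hh ℓ).mono_delta_tilt (hδδ ℓ) (by linarith) hCb
  have hG0 : 0 ≤ G := (norm_nonneg _).trans (hG 0)
  have hζ0 : 0 ≤ ζ := (norm_nonneg _).trans (hζ 0)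
  have hu0 : 0 ≤ C * B ^ E0 * V := mul_nonneg (mul_nonneg (by linarith) (pow_nonneg hB0 _)) hV0
  have hC0 : 0 ≤ C := by linarith
  have hlV : P.lip δ (pushR 1 0) ≤ V * B ^ E0 :=
    (le_add_of_nonneg_right (P.size_nonneg hδp (by linarith))).trans
      (le_mul_of_one_le_right hV0 (one_le_pow₀ hB1))
  obtain ⟨hκz, hκJ, huq⟩ := tilt_contraction (J := J) (M := M) (L := L) (z := z)
    (D := (d : ℝ) ^ (-α)) hd1 hBd hB0 (show 0 ≤ Rc by positivity) (P.lip_nonneg hδp unit_nonneg)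
    hlV hu0 hC0 (by rwa [← pow_succ]) hdκ hCu hCu1 (rpow_neg_pow_le hd1 hJ) hL1
    ((le_max_left _ _).trans (le_max_left _ _))
  have hNd : (d : ℝ) ^ (2 * M3 + 2 * M + 6) ≤ r ^ N := by
    refine pow_le_rpow_pow hd1 hr ?_
    have hN' : (N₀ : ℝ) ≤ N := by exact_mod_cast hN
    rw [div_le_iff₀ hγ] at hN₀
    exact (hN₀.trans (mul_le_mul_of_nonneg_right hN' hγ.le)).trans_eq (mul_comm _ _)
  have hwJ : ∀ j ≤ J, (sumTT (Φp j) J).norm' δ ≤ J := fun j hj =>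
    (hb j hj).2.2.2.2.2.1.trans
      (mul_le_of_le_one_right (Nat.cast_nonneg J) (pow_le_one₀ hu0 hCu1))
  have hX1 : 1 ≤ C * B ^ (E0 + 1) := one_le_mul_of_one_le_of_one_le hC (one_le_pow₀ hB1)
  have hrX : r ≤ C * B ^ (E0 + 1) :=
    hrB.trans ((le_self_pow₀ hB1 (Nat.succ_ne_zero _)).trans
      (le_mul_of_one_le_left (pow_nonneg hB0 _) hC))
  refine (tilt_iterates_mean_le (M := M) (L := L)
    (ec := |Ce K T₁| * (1 + Cb) * J *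
      ((d : ℝ) * ((d : ℝ) ^ 2 / (d : ℝ) ^ (2 * M3 + 2 * M + 6))))
    (show 1 ≤ M3 by omega) hd (show 2 * M + 4 + (E0 + 1) ≤ M3 by omega) Rl hh' env
    (conv δ r) P Φp rfl hrule hrb (fun j hj => (hb j hj).1.2.2.2.2.2.2.1) hCu1 hL0
    (hκz.trans hz2) hκJ huq (by positivity) (fun j hj env' => ?_) hR hζ hG
    (step_err_le hd (by omega) (by positivity)
      ((le_max_right _ _).trans (le_max_right _ _)) hL0 hG0 hζ0)
    (mul_nonneg hC0 (pow_nonneg hB0 _)) hT10 hWwf hWse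
    (fun x hx => word_lip_le hd1 (LProg.norm'_nonneg hδp _) (hwJ J le_rfl) (Nat.cast_nonneg _)
      (by exact_mod_cast hWdep) (Real.sqrt_nonneg _) hC0 hB0 hBd hx
      ((le_max_right _ _).trans (le_max_left _ _)))
    (hεr.trans (inv_anti₀ (by positivity) (pow_le_pow_right₀ hd0 (by omega)))) hv hKv hv1).trans ?_
  · obtain ⟨-, wsm, wwf, -, wdep, -, -, -⟩ := hb j hj.le
    exact (hce K T₁ _ (sumTT (Φp j) J) (hT.trans hT1) hX1 hrX wsm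
      (wwf.mono hδp le_rfl (zero_le_one.trans hr1) le_rfl (mul_le_mul_of_nonneg_left hBE hC0) hT10
        le_rfl) wdep d h Gb hh env').trans
      (conv_err_le hd1 hCb (LProg.norm'_nonneg hδp _) (hwJ j hj.le) (by linarith) (hrB.trans hBd) hNd)
  rw [div_eq_mul_inv]
  exact mul_le_mul_of_nonneg_right (le_max_right _ _) (by positivity)

end

end Vale.Agent.P347
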