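import Vale.Agent.P347Zero.DebiasSemantic
import Vale.Agent.P347Zero.PhiBounds
import Vale.Agent.P347Zero.ConvInst
import Vale.Agent.P347Zero.TiltMapCore
import Vale.Agent.P347Zero.Real

/-!
P347 (exponent zero, M9): programs compensate the noise of a binder, in the form the recursion uses.
-/

open MeasureTheory ProbabilityTheory Real Filter WithLp
open scoped RealInnerProductSpace Topology

set_option maxSynthPendingDepth 3

namespace Vale.Agent.P347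

open Quad

noncomputable section

/-! ### The three blocks -/

/-- The index set of the noise of a binder: the point, the layer, the fresh noise. -/
abbrev NoiseIdx (d : ℕ) := Fin d ⊕ (Fin d ⊕ Fin d)

variable {d : ℕ}

/-- The coordinates read by `f`. -/
def sel (f : Fin d → NoiseIdx d) : EuclideanSpace ℝ (NoiseIdx d) →L[ℝ] E d :=
  LinearMap.toContinuousLinearMap
    { toFun := fun z => toLp 2 fun i => z (f i)
      map_add' := fun x y => by ext i; simp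
      map_smul' := fun c x => by ext i; simp }

/-- The point. -/
def blkA (d : ℕ) : EuclideanSpace ℝ (NoiseIdx d) →L[ℝ] E d := sel Sum.inl

/-- The layer. -/
def blkB (d : ℕ) : EuclideanSpace ℝ (NoiseIdx d) →L[ℝ] E d := sel (Sum.inr ∘ Sum.inl)

/-- The fresh noise. -/
def blkC (d : ℕ) : EuclideanSpace ℝ (NoiseIdx d) →L[ℝ] E d := sel (Sum.inr ∘ Sum.inr)

lemma sel_adjoint_self {f : Fin d → NoiseIdx d} (hf : Function.Injective f) (a : E d) :
    sel f ((sel f).adjoint a) = a := by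
  refine PiLp.ext fun i => ?_
  have h : (sel f).adjoint a (f i) = ⟪(sel f).adjoint a, EuclideanSpace.single (f i) (1 : ℝ)⟫ := by
    simp [EuclideanSpace.inner_single_right]
  show (sel f).adjoint a (f i) = a i
  rw [h, ContinuousLinearMap.adjoint_inner_left]
  simp [sel, PiLp.inner_apply, hf.eq_iff]

lemma sel_adjoint_ne {f g : Fin d → NoiseIdx d} (hfg : ∀ i j, g i ≠ f j) (a : E d) :
    sel g ((sel f).adjoint a) = 0 := by
  refine PiLp.ext fun i => ?_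
  have h : (sel f).adjoint a (g i) = ⟪(sel f).adjoint a, EuclideanSpace.single (g i) (1 : ℝ)⟫ := by
    simp [EuclideanSpace.inner_single_right]
  show (sel f).adjoint a (g i) = 0
  rw [h, ContinuousLinearMap.adjoint_inner_left]
  simp [sel, PiLp.inner_apply, fun j => (hfg i j).symm]

lemma blk_facts (d : ℕ) :
    (∀ a, blkA d ((blkA d).adjoint a) = a) ∧ (∀ a, blkB d ((blkB d).adjoint a) = a) ∧
      (∀ a, blkC d ((blkC d).adjoint a) = a) ∧ (∀ a, blkA d ((blkB d).adjoint a) = 0) ∧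
      (∀ a, blkA d ((blkC d).adjoint a) = 0) ∧ (∀ a, blkB d ((blkC d).adjoint a) = 0) ∧
      (∀ a, blkC d ((blkB d).adjoint a) = 0) :=
  ⟨sel_adjoint_self Sum.inl_injective,
    sel_adjoint_self (Sum.inr_injective.comp Sum.inl_injective),
    sel_adjoint_self (Sum.inr_injective.comp Sum.inr_injective),
    sel_adjoint_ne fun i j => by simp, sel_adjoint_ne fun i j => by simp,
    sel_adjoint_ne fun i j => by simp, sel_adjoint_ne fun i j => by simp⟩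

lemma norm_sq_blk (z : EuclideanSpace ℝ (NoiseIdx d)) :
    ‖z‖ ^ 2 = ‖blkA d z‖ ^ 2 + (‖blkB d z‖ ^ 2 + ‖blkC d z‖ ^ 2) := by
  simp [EuclideanSpace.real_norm_sq_eq, Fintype.sum_sum_type, blkA, blkB, blkC, sel]

lemma norm_blk_le (z : EuclideanSpace ℝ (NoiseIdx d)) : ‖blkA d z‖ ≤ ‖z‖ ∧ ‖blkB d z‖ ≤ ‖z‖ :=
  ⟨le_of_pow_le_pow_left₀ two_ne_zero (norm_nonneg _)
      (by nlinarith [norm_sq_blk z]),
    le_of_pow_le_pow_left₀ two_ne_zero (norm_nonneg _)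
      (by nlinarith [norm_sq_blk z])⟩

/-- The noise left to a binder once its body is compensated. -/
def noiseU (d : ℕ) : EuclideanSpace ℝ (NoiseIdx d) →L[ℝ] E d :=
  (√3)⁻¹ • blkB d + √(2 / 3) • blkC d

lemma noise_weights : (√3)⁻¹ ^ 2 + √(2 / 3 : ℝ) ^ 2 = 1 := by
  rw [inv_pow, sq_sqrt (by norm_num), sq_sqrt (by norm_num)]; norm_num

lemma noiseU_adjoint (v : E d) :
    (noiseU d).adjoint v = (√3)⁻¹ • (blkB d).adjoint v + √(2 / 3) • (blkC d).adjoint v := by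
  simp [noiseU, map_add, map_smulₛₗ]

lemma noiseU_facts (d : ℕ) :
    (∀ v, noiseU d ((noiseU d).adjoint v) = v) ∧ ‖noiseU d‖ ≤ 1 ∧
      (∀ v, noiseU d ((blkB d).adjoint v) = (√3)⁻¹ • v) ∧
      ∀ v, blkA d ((noiseU d).adjoint v) = 0 := by
  obtain ⟨-, hB, hC, hAB, hAC, hBC, hCB⟩ := blk_facts d
  refine ⟨fun v => ?_, ContinuousLinearMap.opNorm_le_bound _ zero_le_one fun z => ?_, fun v => ?_,
    fun v => ?_⟩
  · rw [noiseU_adjoint]
    simp only [noiseU, _root_.add_apply, smul_apply, map_add, map_smul, hB, hC, hBC, hCB, smul_zero,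
      add_zero, zero_add, smul_smul, ← add_smul]
    rw [← pow_two, ← pow_two, noise_weights, one_smul]
  · rw [one_mul]
    refine le_of_pow_le_pow_left₀ two_ne_zero (norm_nonneg _) ?_
    have h1 : ‖noiseU d z‖ ≤ (√3)⁻¹ * ‖blkB d z‖ + √(2 / 3) * ‖blkC d z‖ := by
      refine (norm_add_le _ _).trans (le_of_eq ?_)
      simp [norm_smul, abs_of_nonneg]
    refine (pow_le_pow_left₀ (norm_nonneg _) h1 2).trans ?_
    rw [norm_sq_blk z]
    have h2 := noise_weights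
    nlinarith [sq_nonneg ((√3)⁻¹ * ‖blkC d z‖ - √(2 / 3) * ‖blkB d z‖), sq_nonneg ‖blkA d z‖]
  · simp [noiseU, hB, hCB]
  · simp [noiseU_adjoint, hAB, hAC]

/-- Three independent standard vectors are the three blocks of one. -/
lemma integral_three {f : E d → E d → E d → ℝ}
    (hf : Continuous fun p : E d × E d × E d => f p.1 p.2.1 p.2.2) {K : ℝ}
    (hK : ∀ a b c, |f a b c| ≤ K) :
    ∫ z, f (blkA d z) (blkB d z) (blkC d z) ∂gau (NoiseIdx d)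
      = ∫ a, ∫ b, ∫ c, f a b c ∂gau (Fin d) ∂gau (Fin d) ∂gau (Fin d) := by
  let f' : E d × EuclideanSpace ℝ (Fin d ⊕ Fin d) → ℝ := fun p =>
    f p.1 (toLp 2 fun i => p.2 (Sum.inl i)) (toLp 2 fun i => p.2 (Sum.inr i))
  have hf' : Continuous f' :=
    hf.comp (continuous_fst.prodMk (Continuous.prodMk (by fun_prop) (by fun_prop)))
  have hi : Integrable f' ((gau (Fin d)).prod (gau (Fin d ⊕ Fin d))) :=
    Integrable.of_bound hf'.aestronglyMeasurable K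
      (ae_of_all _ fun p => (Real.norm_eq_abs _).trans_le (hK _ _ _))
  have e1 : ∫ z, f (blkA d z) (blkB d z) (blkC d z) ∂gau (NoiseIdx d)
      = ∫ p, f' p ∂(gau (Fin d)).prod (gau (Fin d ⊕ Fin d)) := by
    rw [← gau_split, integral_map (by fun_prop) hf'.aestronglyMeasurable]
    rfl
  rw [e1, integral_prod _ hi]
  refine integral_congr_ae (ae_of_all _ fun a => ?_)
  have hc : Continuous fun p : E d × E d => f a p.1 p.2 :=
    hf.comp (continuous_const.prodMk continuous_id)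
  have hi2 : Integrable (fun p : E d × E d => f a p.1 p.2) ((gau (Fin d)).prod (gau (Fin d))) :=
    Integrable.of_bound hc.aestronglyMeasurable K
      (ae_of_all _ fun p => (Real.norm_eq_abs _).trans_le (hK _ _ _))
  simp only
  rw [← integral_prod _ hi2, ← gau_split, integral_map (by fun_prop) hc.aestronglyMeasurable]

/-! ### The programs of a binder in standard variables -/

section binder

variable {h : ℕ → E d → E d} {δ : ℕ → ℝ} {r Gb Cb : ℝ} {N : ℕ} (D : Binder) (env : Env d)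

/-- A program of a binder on the noise. -/
abbrev binderFn (h : ℕ → E d → E d) (S : Prog) : EuclideanSpace ℝ (NoiseIdx d) → E d :=
  D.fn h env (blkA d) (blkB d) S

lemma envW_sub_le (x y : EuclideanSpace ℝ (NoiseIdx d)) (i : ℕ) :
    ‖D.envW h env (blkA d x) (blkB d x) i - D.envW h env (blkA d y) (blkB d y) i‖
      ≤ (‖x - y‖ • e1 D.Δ) i := by
  rw [D.envW_affine env h (blkA d) (blkB d) x i, D.envW_affine env h (blkA d) (blkB d) y i,
    add_sub_add_left_eq_sub, ← map_sub]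
  rcases i with _ | _ | i
  · simpa [Binder.dirW, e1, pushR] using (norm_blk_le (x - y)).2
  · simp only [Binder.dirW, e1, pushR, Pi.smul_apply, smul_eq_mul, smul_apply, norm_smul,
      Real.norm_eq_abs, abs_of_nonneg (sqrt_nonneg _)]
    exact (mul_le_mul_of_nonneg_left (norm_blk_le (x - y)).1 (sqrt_nonneg _)).trans_eq (mul_comm _ _)
  · simp [Binder.dirW, e1, pushR]

lemma norm_fderiv_binderFn_le (hh : ∀ ℓ, Fld d (δ ℓ) r Gb Cb N (h ℓ)) (S : Prog)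
    (x : EuclideanSpace ℝ (NoiseIdx d)) :
    ‖fderiv ℝ (binderFn D env h S) x‖ ≤ S.lip δ (e1 D.Δ) := by
  have hv : ∀ i, 0 ≤ e1 D.Δ i := pushR_nonneg zero_le_one
    (pushR_nonneg (sqrt_nonneg _) fun _ => le_rfl)
  refine norm_fderiv_le_of_lip' ℝ (S.lip_nonneg (Prog.delta_nonneg_of_fld hh) hv)
    (Eventually.of_forall fun y => ?_)
  refine (Prog.norm_sem_sub_le hh (Prog.delta_nonneg_of_fld hh) S _ _
    (envW_sub_le D env y x)).trans_eq ?_
  rw [Prog.lip_smul_v, mul_comm]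

lemma binder_setup (hh : ∀ ℓ, Fld d (δ ℓ) r Gb Cb N (h ℓ)) {u : ℝ} (hu : u ≤ 1 / 4)
    (hG : D.G.lip δ (e1 D.Δ) ≤ u / 2) :
    DebiasSetup (noiseU d) (blkB d).adjoint (√3)⁻¹ (binderFn D env h D.G) u := by
  obtain ⟨hUU, hU, hUB, hAU⟩ := noiseU_facts d
  obtain ⟨-, hB, -, hAB, -, -, -⟩ := blk_facts d
  refine ⟨hUU, hU, D.tame_fn env hh _ _ _, fun x v => ?_, ?_, by positivity, ?_, hUB, fun x v => ?_,
    hu, fun x => (norm_fderiv_binderFn_le D env hh _ x).trans hG⟩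
  · rw [D.fderiv_fn_G env hh, ContinuousLinearMap.comp_apply, smul_apply, hAU, smul_zero, map_zero]
  · rw [LinearIsometryEquiv.norm_map]
    exact ContinuousLinearMap.opNorm_le_bound _ zero_le_one fun z => by
      rw [one_mul]; exact (norm_blk_le z).2
  · rw [inv_inv, Real.sqrt_le_iff]; norm_num
  · rw [D.fderiv_fn_G env hh, ContinuousLinearMap.comp_apply, smul_apply, hAB, smul_zero, map_zero]

/-- The word of an iterate is the matrix of the engine. -/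
lemma clm_sumT_eq (hh : ∀ ℓ, Fld d (δ ℓ) r Gb Cb N (h ℓ)) (hΔ : 0 ≤ D.Δ) (hσ : D.σ = (√3)⁻¹)
    (Φ : Prog) {n : ℕ} (ρ w : Fin n → ℝ) (q : ℕ) :
    (fun z => (D.sumT Φ ρ w q).clm hh (D.envW h env (blkA d z) (blkB d z)))
      = matM (binderFn D env h D.G) (covQ ρ w (binderFn D env h D.G)) (blkB d).adjoint (√3)⁻¹ q
          (binderFn D env h Φ) := by
  obtain ⟨hA, hB, -, hAB, -, -, -⟩ := blk_facts d
  funext z
  rw [D.clm_sumT env _ _ hh hΔ hA hB hAB, hσ]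
  rfl

/-- The matrix of the engine is Lipschitz in the Hilbert–Schmidt norm. -/
lemma hn_matM_lip (hh : ∀ ℓ, Fld d (δ ℓ) r Gb Cb N (h ℓ)) (hΔ : 0 ≤ D.Δ) (hσ : D.σ = (√3)⁻¹)
    (Φ : Prog) {n : ℕ} (ρ w : Fin n → ℝ) (q : ℕ) {r' X T : ℝ} (hT : 0 < T) (hX : 0 ≤ X)
    (hw : (D.sumT Φ ρ w q).WF δ r' X T) (hs : (D.sumT Φ ρ w q).SensLe δ X (e1 D.Δ))
    (x y : EuclideanSpace ℝ (NoiseIdx d)) :
    hn (matM (binderFn D env h D.G) (covQ ρ w (binderFn D env h D.G)) (blkB d).adjoint (√3)⁻¹ q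
          (binderFn D env h Φ) x
        - matM (binderFn D env h D.G) (covQ ρ w (binderFn D env h D.G)) (blkB d).adjoint (√3)⁻¹ q
          (binderFn D env h Φ) y)
      ≤ √(d : ℝ) * ((D.sumT Φ ρ w q).norm' δ * (D.sumT Φ ρ w q).depth * √T * X) * ‖x - y‖ := by
  rw [← clm_sumT_eq D env hh hΔ hσ, mul_assoc]
  refine (hn_le_op _).trans ?_
  rw [Fintype.card_fin]
  refine mul_le_mul_of_nonneg_left (ContinuousLinearMap.opNorm_le_bound _ ?_ fun a => ?_)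
    (Real.sqrt_nonneg _)
  · have := LProg.norm'_nonneg (Prog.delta_nonneg_of_fld hh) (D.sumT Φ ρ w q)
    positivity
  · exact ((D.sumT Φ ρ w q).norm_app_sub_le hh hT (mul_nonneg (norm_nonneg (x - y)) hX) hw _
      (hs.smul (norm_nonneg (x - y))) _ _ (envW_sub_le D env x y) a).trans_eq (by ring)

/-- One program step against one semantic step. -/
lemma iter_step_le (hh : ∀ ℓ, Fld d (δ ℓ) r Gb Cb N (h ℓ)) (hΔ : 0 ≤ D.Δ) (hσ : D.σ = (√3)⁻¹)
    (conv : LProg → Prog) {n : ℕ} {ρ w : Fin n → ℝ} {ρ₀ ρ₁ R e : ℝ}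
    (hr : PicardRule R ρ₀ ρ₁ ρ w) (q j : ℕ)
    (hM : PG (matM (binderFn D env h D.G) (covQ ρ w (binderFn D env h D.G)) (blkB d).adjoint (√3)⁻¹ q
      (binderFn D env h (D.iter conv ρ w ρ₀ ρ₁ q j))))
    (he0 : 0 ≤ e)
    (he : ∀ env' : Env d, ∫ v, ‖(conv (D.sumT (D.iter conv ρ w ρ₀ ρ₁ q j) ρ w q)).sem h (push v env')
      - (D.sumT (D.iter conv ρ w ρ₀ ρ₁ q j) ρ w q).app h env' v‖ ^ 2 ∂gau (Fin d) ≤ e ^ 2) :
    ∃ g, PG g ∧ binderFn D env h (D.iter conv ρ w ρ₀ ρ₁ q (j + 1)) = ou ρ₁ g ∧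
      l2 (fun x => g x - preM (blkB d).adjoint.adjoint (√3)⁻¹ ρ w ρ₀
        (matM (binderFn D env h D.G) (covQ ρ w (binderFn D env h D.G)) (blkB d).adjoint (√3)⁻¹ q
          (binderFn D env h (D.iter conv ρ w ρ₀ ρ₁ q j))) x) ≤ 2 * R * e := by
  obtain ⟨hA, hB, -, hAB, -, -, -⟩ := blk_facts d
  set Φ := D.iter conv ρ w ρ₀ ρ₁ q j
  set Pc := conv (D.sumT Φ ρ w q)
  rw [ContinuousLinearMap.adjoint_adjoint]
  set M := matM (binderFn D env h D.G) (covQ ρ w (binderFn D env h D.G)) (blkB d).adjoint (√3)⁻¹ q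
    (binderFn D env h Φ) with hMd
  have hT : ∀ S, PG (binderFn D env h S) := fun S => PG.of_tame (D.tame_fn env hh _ _ S)
  refine ⟨_, PG.sum _ fun k _ => (hT _).smul _, D.fn_iter_succ env _ _ hh hΔ hA hB hAB conv ρ w ρ₀ ρ₁
    q j, ?_⟩
  have hk : ∀ k, (ρ₀ * ρ k) ^ 2 < 1 := fun k =>
    pow_lt_one₀ (mul_nonneg hr.node₀.1 (hr.node k).1)
      (mul_lt_one_of_nonneg_of_lt_one_left hr.node₀.1 hr.node₀.2 (hr.node k).2.le) two_ne_zero
  simp only [preM, hσ, ← Finset.sum_sub_distrib, ← smul_sub]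
  refine (l2_sum _ fun k _ => ((hT _).sub (pg_psi hM _)).smul _).trans ?_
  calc _ ≤ ∑ k, w k * ρ k / cpl (ρ₀ * ρ k) * (2 * e) := by
        refine Finset.sum_le_sum fun k _ => ?_
        have hc := mul_nonneg (hr.weight k) (hr.node k).1
        rw [l2_smul, abs_of_nonneg (div_nonneg hc (by positivity))]
        have h1 := D.l2_psi_sub_le env _ _ hh hΔ hA hB hAB (hk k) Pc (D.sumT Φ ρ w q) he
        rw [clm_sumT_eq D env hh hΔ hσ] at h1
        refine (mul_le_mul_of_nonneg_left (l2_le (div_nonneg he0 (sqrt_nonneg _)) h1)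
          (div_nonneg hc (by positivity))).trans ?_
        rw [div_inv_eq_mul, cpl]
        have : √3 ≤ (2 : ℝ) := by rw [Real.sqrt_le_iff]; norm_num
        calc w k * ρ k * √3 * (e / √(1 - (ρ₀ * ρ k) ^ 2))
            ≤ w k * ρ k * 2 * (e / √(1 - (ρ₀ * ρ k) ^ 2)) :=
              mul_le_mul_of_nonneg_right (mul_le_mul_of_nonneg_left this hc)
                (div_nonneg he0 (sqrt_nonneg _))
          _ = _ := by ring
    _ ≤ R * (2 * e) := by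
        rw [← Finset.sum_mul]; exact mul_le_mul_of_nonneg_right hr.kernel (by linarith)
    _ = _ := by ring

/-- The law of a compensated binder through the blocks. -/
lemma debLaw_eq (hh : ∀ ℓ, Fld d (δ ℓ) r Gb Cb N (h ℓ)) (Φ : Prog) {v : E d → ℝ} (hv : IsTest v) :
    debLaw D.lam D.Δ (fun x => D.b.sem h (push x env))
        (fun x ξ => Φ.sem h (push ξ (push x env))) (D.p.sem h env) v
      = ∫ z, v (pt (noiseU d) (fun z => binderFn D env h D.G z + binderFn D env h Φ z) 0 z)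
          ∂gau (NoiseIdx d) := by
  obtain ⟨hc, ⟨K, hK⟩, -⟩ := hv
  have hcont : ∀ S : Prog, Continuous fun p : E d × E d => S.sem h (D.envW h env p.1 p.2) := fun S =>
    (Prog.continuous_sem hh S).comp (continuous_pi fun i => by
      rcases i with _ | _ | i <;> simp only [Binder.envW, push] <;> fun_prop)
  set f := fun a b c => v ((√3)⁻¹ • b + √(2 / 3) • c + (D.G.sem h (D.envW h env a b)
    + Φ.sem h (D.envW h env a b))) with hf
  have hfc : Continuous fun p : E d × E d × E d => f p.1 p.2.1 p.2.2 := by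
    refine hc.continuous.comp (Continuous.add (by fun_prop) ?_)
    exact ((hcont D.G).add (hcont Φ)).comp (continuous_fst.prodMk (continuous_fst.comp continuous_snd))
  have h1 := integral_three hfc fun a b c => hK _
  refine Eq.trans ?_ (h1.symm.trans ?_)
  · simp only [debLaw, hf]
    refine integral_congr_ae (ae_of_all _ fun a => integral_congr_ae (ae_of_all _ fun b =>
      integral_congr_ae (ae_of_all _ fun c => ?_)))
    simp only [Binder.sem_G, Binder.envW]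
    congr 1
    rw [show push b (push (D.p.sem h env + √D.Δ • a) env) ∘ Nat.succ
      = push (D.p.sem h env + √D.Δ • a) env from rfl]
    abel
  · simp only [hf, pt, noiseU, zero_add, _root_.add_apply, smul_apply]
    rfl

/-- The mean of the body. -/
lemma integral_G (hh : ∀ ℓ, Fld d (δ ℓ) r Gb Cb N (h ℓ)) :
    ∫ z, binderFn D env h D.G z ∂gau (NoiseIdx d) = D.lam • (Prog.bind D.p D.Δ D.b).sem h env := by
  have hc : Continuous fun a : E d => D.b.sem h (push (D.p.sem h env + √D.Δ • a) env) :=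
    (Prog.continuous_sem hh D.b).comp (continuous_pi fun i => by
      rcases i with _ | i <;> simp only [push] <;> fun_prop)
  simp only [binderFn, Binder.fn, Binder.sem_G, Binder.envW]
  rw [show (fun z => D.lam • D.b.sem h (push (blkB d z)
      (push (D.p.sem h env + √D.Δ • blkA d z) env) ∘ Nat.succ))
    = fun z => D.lam • D.b.sem h (push (D.p.sem h env + √D.Δ • blkA d z) env) from rfl,
    integral_smul, integral_block (blkA d) (blk_facts d).1 hc]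
  rfl

end binder

/-! ### The arithmetic -/

/-- The error of the iteration in powers of the dimension. -/
lemma debias_err_le {q m : ℕ} {D s c K2 R u θ e ε ρ₀ ρ₁ Lip a b Z L X : ℝ}
    (hD : 1 ≤ D) (hs0 : 0 ≤ s) (hs : s ≤ D) (hc0 : 0 ≤ c) (hc : c ≤ 2 * D) (hK0 : 0 ≤ K2)
    (hR : 0 ≤ R) (hθ0 : 0 ≤ θ) (hθ : θ ^ m ≤ Z) (he0 : 0 ≤ e) (hε0 : 0 ≤ ε) (hL : 1 ≤ L)
    (hu : (2 * u) ^ (q + 2) ≤ Z) (ha0 : 0 ≤ a) (hb0 : 0 ≤ b)
    (he : a * e ≤ L * Z) (he1 : e ≤ L * Z) (hab : a * (ε * b) ≤ Z) (hεb : ε * b ≤ Z) (hε : ε ≤ Z)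
    (hρ : 1 - ρ₁ ≤ Z) (hLip : Lip * √(2 * (1 - ρ₁ * ρ₀) * c ^ 2) ≤ L * X)
    (hX : 0 ≤ X) :
    24 * R * q ^ 2 * (θ ^ m * c + 4 * a * e) + e + ε * (2 * b * s) +
        K2 * (s * 2) * ((θ ^ m * c + 4 * a * e) + a * e + a * (ε * (2 * b * s))) +
        K2 * (D * (2 * u) ^ (q + 2)) +
        K2 * (s * 2 * (Lip * √(2 * (1 - ρ₁ * ρ₀) * c ^ 2) + (1 - ρ₁) * s + ε * c))
      ≤ (144 * R * q ^ 2 + 3 + 30 * K2 * D) * L * D * Z + 2 * K2 * D * (L * X) := by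
  have hZ : 0 ≤ Z := hε0.trans hε
  have hLD : 1 ≤ L * D := one_le_mul_of_one_le_of_one_le hL hD
  have hLZ : L * Z ≤ L * D * Z :=
    mul_le_mul_of_nonneg_right (le_mul_of_one_le_right (by linarith) hD) hZ
  have hDZ : D * Z ≤ L * D * Z :=
    mul_le_mul_of_nonneg_right (le_mul_of_one_le_left (by linarith) hL) hZ
  have hA : θ ^ m * c + 4 * a * e ≤ 6 * (L * D * Z) := by
    have h1 : θ ^ m * c ≤ Z * (2 * D) := mul_le_mul hθ hc hc0 hZ
    linarith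
  have h2 : ε * (2 * b * s) ≤ 2 * (L * D * Z) := by
    have := mul_le_mul hεb hs hs0 hZ
    linarith
  have h3 : a * (ε * (2 * b * s)) ≤ 2 * (L * D * Z) := by
    have := mul_le_mul hab hs hs0 hZ
    linarith
  have h4 : (1 - ρ₁) * s + ε * c ≤ 3 * (L * D * Z) := by
    have := mul_le_mul hρ hs hs0 hZ
    have := mul_le_mul hε hc hc0 hZ
    linarith
  have t1 : 24 * R * q ^ 2 * (θ ^ m * c + 4 * a * e) ≤ 24 * R * q ^ 2 * (6 * (L * D * Z)) :=
    mul_le_mul_of_nonneg_left hA (by positivity)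
  have t2 : K2 * (s * 2) * ((θ ^ m * c + 4 * a * e) + a * e + a * (ε * (2 * b * s)))
      ≤ K2 * (D * 2) * (10 * (L * D * Z)) := by
    refine mul_le_mul (mul_le_mul_of_nonneg_left (by linarith) hK0) (by linarith) ?_ (by positivity)
    positivity
  have t3 : K2 * (D * (2 * u) ^ (q + 2)) ≤ K2 * (D * (L * D * Z)) := by
    gcongr
    exact hu.trans (le_mul_of_one_le_left hZ hLD)
  have t4 : K2 * (s * 2 * (Lip * √(2 * (1 - ρ₁ * ρ₀) * c ^ 2) + (1 - ρ₁) * s + ε * c))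
      ≤ K2 * (D * 2 * (L * X + 3 * (L * D * Z))) := by
    refine mul_le_mul_of_nonneg_left ?_ hK0
    refine le_trans (mul_le_mul_of_nonneg_left (show _ ≤ L * X + 3 * (L * D * Z) by linarith)
      (by positivity)) (mul_le_mul_of_nonneg_right (by linarith) ?_)
    have : 0 ≤ L * D * Z := by positivity
    have : 0 ≤ L * X := mul_nonneg (by linarith) hX
    linarith
  have h5 : 0 ≤ L * D * Z := by positivity
  have h6 : 0 ≤ K2 * D * (L * D * Z) := by positivity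
  linarith

/-- The smoothings of the iteration at dimension `d`. -/
lemma rho_facts {M3 : ℕ} (hd : 2 ≤ d) (hM : 1 ≤ M3) {c : ℝ} (hc : 0 ≤ c) :
    1 - tiltρ1 d M3 ≤ ((d : ℝ) ^ M3)⁻¹ ∧
    (√(1 - tiltρ1 d M3 ^ 2))⁻¹ ≤ ((d : ℝ) ^ M3) ^ 2 ∧
    (√(1 - tiltρ0 d M3 ^ 2))⁻¹ ≤ (d : ℝ) ^ M3 ∧
    √(2 * (1 - tiltρ1 d M3 * tiltρ0 d M3) * c ^ 2) ≤ 2 * c / (d : ℝ) ^ M3 := by
  obtain ⟨h0, h1⟩ := tiltρ_mem hd hM
  have hb1 := one_le_pow_dim (show 1 ≤ d by omega) M3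
  set b := (d : ℝ) ^ M3 with hb
  have hb0 : 0 < b := by linarith
  have e1 : 1 - tiltρ1 d M3 = ((b ^ 2) ^ 2)⁻¹ := by rw [tiltρ1, sub_sub_cancel]; ring
  have e0 : 1 - tiltρ0 d M3 = (b ^ 2)⁻¹ := by rw [tiltρ0, sub_sub_cancel]
  have key : ∀ {t z : ℝ}, 0 < z → 1 - t = (z ^ 2)⁻¹ → t ∈ Set.Ico (1 / 2 : ℝ) 1 →
      (√(1 - t ^ 2))⁻¹ ≤ z := fun {t z} hz he ht => by
    have h : (z ^ 2)⁻¹ ≤ 1 - t ^ 2 := by rw [← he]; nlinarith [ht.1, ht.2]
    refine (inv_anti₀ (sqrt_pos.2 (by positivity)) (sqrt_le_sqrt h)).trans_eq ?_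
    rw [sqrt_inv, inv_inv, sqrt_sq hz.le]
  refine ⟨?_, key (by positivity) e1 h1, key hb0 e0 h0, ?_⟩
  · rw [e1, ← pow_mul]
    exact inv_anti₀ hb0 (le_self_pow₀ hb1 (by norm_num))
  · have h2 : 1 - tiltρ1 d M3 * tiltρ0 d M3 ≤ 2 * (b ^ 2)⁻¹ := by
      have h3 : ((b ^ 2) ^ 2)⁻¹ ≤ (b ^ 2)⁻¹ :=
        inv_anti₀ (by positivity) (le_self_pow₀ (one_le_pow₀ hb1) two_ne_zero)
      nlinarith [h0.1, h0.2, h1.1, h1.2]
    refine (sqrt_le_iff.2 ⟨by positivity, ?_⟩)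
    rw [div_pow, le_div_iff₀ (by positivity)]
    calc 2 * (1 - tiltρ1 d M3 * tiltρ0 d M3) * c ^ 2 * b ^ 2
        ≤ 2 * (2 * (b ^ 2)⁻¹) * c ^ 2 * b ^ 2 := by gcongr
      _ = _ := by field_simp

/-- Small multiples of a small product. -/
lemma debias_small {C Rc B U z D κ : ℝ} {E q : ℕ} (hC : 1 ≤ C) (hRc : 1 ≤ Rc) (hB : 1 ≤ B)
    (hU : 0 ≤ U) (hD : U * B ^ (E + 1) ≤ D) (hκ : 48 * Rc * q ^ 2 * C + 8 * q * C + 4 * C ≤ κ)
    (hz : κ * D ≤ z) (hz2 : z ≤ 1 / 2) :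
    C * B ^ E * U ≤ 1 ∧ 2 * (2 * (C * B ^ E * U)) ≤ z ∧
      4 * (q : ℝ) * (2 * (C * B ^ E * U)) ≤ 1 ∧
      24 * (Rc * B) * q ^ 2 * (2 * (C * B ^ E * U)) ≤ z ∧ U ≤ C * B ^ E * U := by
  have hD0 : 0 ≤ D := le_trans (by positivity) hD
  have hE : U * B ^ E ≤ D :=
    (mul_le_mul_of_nonneg_left (pow_le_pow_right₀ hB (Nat.le_succ E)) hU).trans hD
  have hk : ∀ a : ℝ, 0 ≤ a → a ≤ κ → a * (U * B ^ E) ≤ z := fun a ha hak =>
    le_trans (mul_le_mul hak hE (by positivity) (ha.trans hak)) hz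
  have h0 : 0 ≤ 48 * Rc * (q : ℝ) ^ 2 * C := by positivity
  have h1 : 0 ≤ 8 * (q : ℝ) * C := by positivity
  have a1 := hk (4 * C) (by linarith) (by linarith)
  have a2 := hk (8 * q * C) h1 (by linarith)
  have a3 : 48 * Rc * q ^ 2 * C * (U * B ^ (E + 1)) ≤ z :=
    le_trans (mul_le_mul (by linarith) hD (by positivity) (by linarith)) hz
  have h2 : 0 ≤ C * B ^ E * U := by positivity
  refine ⟨by linarith, by linarith, by linarith, le_of_eq_of_le ?_ a3,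
    le_mul_of_one_le_left hU (one_le_mul_of_one_le_of_one_le hC (one_le_pow₀ hB))⟩
  rw [pow_succ]; ring

/-- The error of a conversion of a bounded word at dimension `d`. -/
lemma debias_conv_le {c Cb w r C : ℝ} {k N : ℕ} (hd : 1 ≤ d) (hc : 0 ≤ c) (hCb : 0 ≤ Cb)
    (hw0 : 0 ≤ w) (hw : w ≤ C) (hr : 0 < r) (hrd : r ≤ d) (hN : (d : ℝ) ^ (k + 3) ≤ r ^ N) :
    0 ≤ c * (1 + Cb) * w * √(d : ℝ) * (r ^ 2 / r ^ N) ∧
      c * (1 + Cb) * w * √(d : ℝ) * (r ^ 2 / r ^ N) ≤ c * (1 + Cb) * C * ((d : ℝ) ^ k)⁻¹ := by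
  have hdp : (0 : ℝ) < d := by exact_mod_cast (show 0 < d by omega)
  have hq : r ^ 2 / r ^ N ≤ (d : ℝ) ^ 2 / (d : ℝ) ^ (k + 3) :=
    div_le_div₀ (by positivity) (pow_le_pow_left₀ hr.le hrd 2) (by positivity) hN
  have hC : 0 ≤ C := hw0.trans hw
  refine ⟨by positivity, ?_⟩
  calc c * (1 + Cb) * w * √(d : ℝ) * (r ^ 2 / r ^ N)
      ≤ c * (1 + Cb) * C * d * ((d : ℝ) ^ 2 / (d : ℝ) ^ (k + 3)) := by
        gcongr
        exact sqrt_dim_le hd
    _ = _ := by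
        rw [pow_add, div_mul_eq_div_div]
        field_simp

/-- The choice of powers. -/
lemma debias_total {D L X : ℝ} {M q : ℕ} (hD : 1 ≤ D) (hL : 0 ≤ L) (hX : X = (D ^ (2 * M + 8))⁻¹)
    (hbig : 2 * L * (864 * (q : ℝ) ^ 2 + 35) + 2 ≤ D) :
    2 * ((144 * 6 * (q : ℝ) ^ 2 + 3 + 30 * D ^ (M + 2) * D) * L * D * X
        + 2 * D ^ (M + 2) * D * (L * X)) + 2 * ((D ^ (M + 2))⁻¹ * D) ≤ (D ^ M)⁻¹ := by
  have hD0 : 0 < D := by linarith
  subst hX
  set W := (D ^ (M + 1))⁻¹ with hW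
  have hW0 : 0 ≤ W := by positivity
  have h1 : 1 ≤ D ^ (M + 2) * D := one_le_mul_of_one_le_of_one_le (one_le_pow₀ hD) hD
  have h2 : (D ^ (2 * M + 8))⁻¹ * (D ^ (M + 2) * D * D) ≤ W := by
    rw [← pow_succ, ← pow_succ, inv_mul_le_iff₀ (by positivity), ← div_eq_mul_inv,
      le_div_iff₀ (by positivity), ← pow_add]
    exact pow_le_pow_right₀ hD (by omega)
  have h3 : (144 * 6 * (q : ℝ) ^ 2 + 3 + 30 * D ^ (M + 2) * D) * L * D * (D ^ (2 * M + 8))⁻¹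
        + 2 * D ^ (M + 2) * D * (L * (D ^ (2 * M + 8))⁻¹)
      ≤ L * (864 * (q : ℝ) ^ 2 + 35) * W := by
    refine le_trans ?_ (mul_le_mul_of_nonneg_left h2 (by positivity))
    set Y := D ^ (M + 2) * D with hY
    have hi : 0 ≤ L * (D ^ (2 * M + 8))⁻¹ * D := by positivity
    have a1 := mul_le_mul_of_nonneg_left h1 (mul_nonneg hi (show 0 ≤ 864 * (q : ℝ) ^ 2 + 3 by positivity))
    have a2 : Y * (L * (D ^ (2 * M + 8))⁻¹) ≤ Y * (L * (D ^ (2 * M + 8))⁻¹) * D :=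
      le_mul_of_one_le_right (by positivity) hD
    linarith
  have h4 : (D ^ (M + 2))⁻¹ * D = W := by
    rw [hW, pow_succ D (M + 1), mul_inv, mul_assoc, inv_mul_cancel₀ hD0.ne', mul_one]
  have h5 : W * D = (D ^ M)⁻¹ := by
    rw [hW, pow_succ, mul_inv, mul_assoc, inv_mul_cancel₀ hD0.ne', mul_one]
  rw [h4, ← h5]
  nlinarith [mul_le_mul_of_nonneg_left hbig hW0]

/-- The error of the iterates meets the target. -/
lemma debias_budget {M M3 Ee J K : ℕ} {εr L Ce C T B u z : ℝ} (hd : 2 ≤ d)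
    (hM3 : M3 = 2 * M + 8 + Ee + 2) (hε0 : 0 ≤ εr)
    (hεr : εr ≤ ((d : ℝ) ^ (4 * M3 + (2 * M + 8)))⁻¹) (hC : 1 ≤ C) (hCe : 0 ≤ Ce) (hB : 0 ≤ B)
    (hBd : B ≤ d) (hu0 : 0 ≤ u) (hu2 : 2 * u ≤ z) (hz0 : 0 ≤ z) (hz2 : z ≤ 1 / 2)
    (hzJ : z ^ J ≤ ((d : ℝ) ^ (2 * M + 8))⁻¹)
    (hL : max (max 1 (12 * Ce)) (4 * (C * K * √T * C)) ≤ L)
    (hbig : 2 * L * (864 * (J : ℝ) ^ 2 + 35) + 2 ≤ d) :
    2 * debiasErr d (Fintype.card (NoiseIdx d)) J ((d : ℝ) ^ (M + 2)) 6 u z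
        (2 * 6 * (Ce * ((d : ℝ) ^ (2 * M3 + (2 * M + 8)))⁻¹)) εr (tiltρ0 d M3) (tiltρ1 d M3)
        (√(d : ℝ) * (C * K * √T * (C * B ^ Ee))) J
      + 2 * (((d : ℝ) ^ (M + 2))⁻¹ * √(d : ℝ)) ≤ ((d : ℝ) ^ M)⁻¹ := by
  have hd1 : 1 ≤ d := by omega
  have hd0 : (1 : ℝ) ≤ d := by exact_mod_cast hd1
  have hdp : (0 : ℝ) < d := by linarith
  set b := (d : ℝ) ^ M3 with hb
  set Z := ((d : ℝ) ^ (2 * M + 8))⁻¹ with hZ
  obtain ⟨hr1, hr1', hr0', hr01⟩ := rho_facts (d := d) hd (show 1 ≤ M3 by omega)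
    (c := √((Fintype.card (NoiseIdx d) : ℕ) : ℝ)) (Real.sqrt_nonneg _)
  set ρ₀ := tiltρ0 d M3
  set ρ₁ := tiltρ1 d M3
  set e := 2 * 6 * (Ce * ((d : ℝ) ^ (2 * M3 + (2 * M + 8)))⁻¹) with he
  have he0 : 0 ≤ e := by positivity
  set Lip := √(d : ℝ) * (C * K * √T * (C * B ^ Ee)) with hLipd
  have hLip0 : 0 ≤ Lip := by
    have : 0 ≤ C := by linarith
    positivity
  have hsd := sqrt_dim_le hd1
  have hL1 : 1 ≤ L := ((le_max_left _ _).trans (le_max_left _ _)).trans hL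
  have hLe : 12 * Ce ≤ L := ((le_max_right _ _).trans (le_max_left _ _)).trans hL
  have hLL : 4 * (C * K * √T * C) ≤ L := (le_max_right _ _).trans hL
  have hc2 : √((Fintype.card (NoiseIdx d) : ℕ) : ℝ) ≤ 2 * d := by
    rw [Real.sqrt_le_iff]
    refine ⟨by positivity, ?_⟩
    simp only [Fintype.card_sum, Fintype.card_fin]
    push_cast
    nlinarith
  have hbZ : ((d : ℝ) ^ M3)⁻¹ ≤ Z :=
    inv_anti₀ (by positivity) (pow_le_pow_right₀ hd0 (by omega))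
  have eb : ∀ k : ℕ, b ^ k = (d : ℝ) ^ (M3 * k) := fun k => (pow_mul _ _ _).symm
  have hεb' : ∀ k : ℕ, k ≤ 4 → εr * b ^ k ≤ Z := fun k hk => by
    refine (mul_le_mul_of_nonneg_right hεr (by positivity)).trans ?_
    rw [eb, hZ, inv_mul_le_iff₀ (by positivity), ← div_eq_mul_inv, le_div_iff₀ (by positivity),
      ← pow_add]
    exact pow_le_pow_right₀ hd0 (by nlinarith)
  have hu' : (2 * u) ^ (J + 2) ≤ Z :=
    ((pow_le_pow_of_le_one (by positivity) (by linarith) (Nat.le_add_right J 2)).trans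
      (pow_le_pow_left₀ (by positivity) hu2 J)).trans hzJ
  have hae : (√(1 - ρ₁ ^ 2))⁻¹ * e ≤ L * Z := by
    refine (mul_le_mul_of_nonneg_right hr1' he0).trans ?_
    rw [he, eb, hZ, pow_add, mul_inv, mul_comm M3 2]
    calc _ = 12 * Ce * ((d : ℝ) ^ (2 * M + 8))⁻¹ := by field_simp; ring
      _ ≤ _ := by gcongr
  have he1 : e ≤ L * Z := by
    rw [he, hZ, ← mul_assoc]
    exact mul_le_mul (by linarith) (inv_anti₀ (by positivity) (pow_le_pow_right₀ hd0 (by omega)))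
      (by positivity) (by linarith)
  have hLipX : Lip * √(2 * (1 - ρ₁ * ρ₀) * √((Fintype.card (NoiseIdx d) : ℕ) : ℝ) ^ 2) ≤ L * Z := by
    refine (mul_le_mul_of_nonneg_left hr01 hLip0).trans ?_
    have hBE : B ^ Ee ≤ (d : ℝ) ^ Ee := pow_le_pow_left₀ hB hBd Ee
    have : 0 ≤ C * K * √T * C := by positivity
    calc Lip * (2 * √((Fintype.card (NoiseIdx d) : ℕ) : ℝ) / b)
        ≤ d * (C * K * √T * (C * (d : ℝ) ^ Ee)) * (2 * (2 * d) / b) := by
          rw [hLipd]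
          gcongr
      _ = 4 * (C * K * √T * C) * ((d : ℝ) ^ Ee * (d : ℝ) ^ 2 / b) := by ring
      _ ≤ L * Z := by
          refine mul_le_mul hLL (le_of_eq ?_) (by positivity) (by linarith)
          rw [hb, hM3, hZ, pow_add, pow_add]
          field_simp
  have key := debias_err_le (q := J) (m := J) (K2 := (d : ℝ) ^ (M + 2)) (R := 6) (u := u) (θ := z)
    (Lip := Lip) (a := (√(1 - ρ₁ ^ 2))⁻¹) (b := (√(1 - ρ₀ ^ 2))⁻¹) (ρ₀ := ρ₀) (ρ₁ := ρ₁) (ε := εr)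
    (e := e) (X := Z) hd0 (Real.sqrt_nonneg (d : ℝ)) hsd (Real.sqrt_nonneg _) hc2 (by positivity)
    (by norm_num) hz0 hzJ he0 hε0 hL1 hu' (by positivity) (by positivity) hae he1
    (by
      calc _ ≤ b ^ 2 * (εr * b) := by gcongr
        _ = εr * b ^ 3 := by ring
        _ ≤ Z := hεb' 3 (by norm_num))
    (by
      calc _ ≤ εr * b ^ 1 := by rw [pow_one]; gcongr
        _ ≤ Z := hεb' 1 (by norm_num))
    (by simpa using hεb' 0 (by norm_num)) (hr1.trans hbZ) hLipX (by positivity)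
  refine le_trans (add_le_add (mul_le_mul_of_nonneg_left (le_trans ?_ key) zero_le_two)
    (mul_le_mul_of_nonneg_left (mul_le_mul_of_nonneg_left hsd (by positivity)) zero_le_two))
    (debias_total hd0 (zero_le_one.trans hL1) rfl hbig)
  unfold debiasErr
  refine le_of_eq ?_
  simp only [Real.sq_sqrt (Nat.cast_nonneg _)]

/-- The compensation of a binder, at one dimension, from the bounds of the iterates. -/
lemma debias_dim {M M3 Ee J : ℕ} {h : ℕ → E d → E d} {δ : ℕ → ℝ} {r Gb Cb C L Ce T B κ α : ℝ}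
    {N K Nr : ℕ} {εr : ℝ} (hd : 2 ≤ d) (hM3 : M3 = 2 * M + 8 + Ee + 2) (Rl : Rule Nr εr)
    (hεr : εr ≤ ((d : ℝ) ^ (4 * M3 + (2 * M + 8)))⁻¹) (D : Binder) (conv : LProg → Prog)
    (env : Env d) (hh : ∀ ℓ, Fld d (δ ℓ) r Gb Cb N (h ℓ)) (hΔ : 0 ≤ D.Δ) (hσ : D.σ = (√3)⁻¹)
    (hT : 0 < T) (hC : 1 ≤ C) (hB : 1 ≤ B) (hBd : B ≤ d) (hlog : Real.log d ≤ B) (hU : 0 ≤ D.U δ r)
    (hUB : D.U δ r * B ^ (Ee + 1) ≤ (d : ℝ) ^ (-α))
    (hκ : 48 * (7 + 2 * (M3 : ℝ)) * (J : ℝ) ^ 2 * C + 8 * J * C + 4 * C ≤ κ)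
    (hκd : κ * (d : ℝ) ^ (-α) ≤ (d : ℝ) ^ (-(α / 2)))
    (hd2 : 2 ≤ (d : ℝ) ^ (α / 2)) (hJ : ((2 * M + 8 : ℕ) : ℝ) ≤ α / 2 * J)
    (hG : D.G.lip δ (e1 D.Δ) ≤ D.U δ r) (hCe : 0 ≤ Ce)
    (hiter : ∀ j ≤ J + 1,
      let Φ := D.iter conv (fun k => Rl.node k 0) (fun k => Rl.weight k 0) (tiltρ0 d M3) (tiltρ1 d M3) J j
      Φ.lip δ (e1 D.Δ) ≤ C * B ^ Ee * D.U δ r ∧
        (D.sumT Φ (fun k => Rl.node k 0) (fun k => Rl.weight k 0) J).WF δ r (C * B ^ Ee) T ∧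
        (D.sumT Φ (fun k => Rl.node k 0) (fun k => Rl.weight k 0) J).SensLe δ (C * B ^ Ee) (e1 D.Δ) ∧
        (D.sumT Φ (fun k => Rl.node k 0) (fun k => Rl.weight k 0) J).depth ≤ K ∧
        (D.sumT Φ (fun k => Rl.node k 0) (fun k => Rl.weight k 0) J).norm' δ ≤ C ∧
        ∀ env' : Env d, ∫ v,
          ‖(conv (D.sumT Φ (fun k => Rl.node k 0) (fun k => Rl.weight k 0) J)).sem h (push v env')
            - (D.sumT Φ (fun k => Rl.node k 0) (fun k => Rl.weight k 0) J).app h env' v‖ ^ 2 ∂gau (Fin d)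
          ≤ (Ce * ((d : ℝ) ^ (2 * M3 + (2 * M + 8)))⁻¹) ^ 2)
    (hL : max (max 1 (12 * Ce)) (4 * (C * K * √T * C)) ≤ L)
    (hbig : 2 * L * (864 * (J : ℝ) ^ 2 + 35) + 2 ≤ d) {v : E d → ℝ} (hv : IsTest v) :
    |debLaw D.lam D.Δ (fun x => D.b.sem h (push x env))
        (fun x ξ => (D.iter conv (fun k => Rl.node k 0) (fun k => Rl.weight k 0) (tiltρ0 d M3)
          (tiltρ1 d M3) J (J + 1)).sem h (push ξ (push x env))) (D.p.sem h env) v
      - ∫ w, v (D.lam • (Prog.bind D.p D.Δ D.b).sem h env + w) ∂gau (Fin d)| ≤ ((d : ℝ) ^ M)⁻¹ := by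
  have hd1 : 1 ≤ d := by omega
  have hd0 : (1 : ℝ) ≤ d := by exact_mod_cast hd1
  have hdp : (0 : ℝ) < d := by linarith
  have hM31 : 1 ≤ M3 := by omega
  set b := (d : ℝ) ^ M3 with hb
  set Z := ((d : ℝ) ^ (2 * M + 8))⁻¹ with hZ
  have hb1 : 1 ≤ b := one_le_pow₀ hd0
  have hε0 := Rl.eps_nonneg
  have hεb : εr ≤ (b ^ 4)⁻¹ := hεr.trans (inv_anti₀ (by positivity)
    (by rw [hb, ← pow_mul]; exact pow_le_pow_right₀ hd0 (by omega)))
  obtain ⟨hrule, -⟩ := tilt_rule Rl hM31 hd hεb hB hlog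
  obtain ⟨hρ0, hρ1⟩ := tiltρ_mem hd hM31
  set ρ₀ := tiltρ0 d M3
  set ρ₁ := tiltρ1 d M3
  set z := (d : ℝ) ^ (-(α / 2)) with hzd
  have hz2 : z ≤ 1 / 2 := by
    rw [hzd, Real.rpow_neg hdp.le, one_div]
    exact inv_anti₀ two_pos hd2
  have hz0 : 0 ≤ z := Real.rpow_nonneg hdp.le _
  have hzJ : z ^ J ≤ Z := rpow_neg_pow_le hd1 hJ
  obtain ⟨-, hu2, hqu, hθu, hUu⟩ := debias_small (E := Ee) (q := J) hC
    (show (1 : ℝ) ≤ 7 + 2 * M3 by linarith [Nat.cast_nonneg (α := ℝ) M3]) hB hU hUB hκ hκd hz2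
  set u := 2 * (C * B ^ Ee * D.U δ r) with hu
  have hu0 : 0 ≤ u := by positivity
  have S := binder_setup D env hh (u := u) (by linarith) (by linarith)
  have hε1 : εr ≤ 1 := hεb.trans (inv_le_one_of_one_le₀ (one_le_pow₀ hb1))
  have hlogL : ∑ k, Rl.weight k 0 * (Rl.node k 0 / (1 - Rl.node k 0 * ρ₀)) ≤ (7 + 2 * M3) * B := by
    refine (rule_sum_geom_le Rl (by linarith [hρ0.1]) hρ0.2 0).trans ?_
    have e0 : 1 - ρ₀ = (b ^ 2)⁻¹ := sub_sub_cancel _ _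
    have he : εr / (1 - ρ₀) ≤ 1 := by
      rw [div_le_one (by linarith [hρ0.2]), e0]
      exact hεb.trans (inv_anti₀ (by positivity) (pow_le_pow_right₀ hb1 (by norm_num)))
    rw [e0, one_div, inv_inv, Real.log_pow, hb, Real.log_pow]
    rw [e0] at he
    have := mul_le_mul_of_nonneg_left hlog (Nat.cast_nonneg (α := ℝ) M3)
    push_cast
    linarith
  have hR : ∑ k, Rl.weight k 0 * Rl.node k 0 / √(1 - (ρ₀ * Rl.node k 0) ^ 2) ≤ 6 := hrule.kernel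
  have h0 : ρ₀ ∈ Set.Ioo (0 : ℝ) 1 := ⟨by linarith [hρ0.1], hρ0.2⟩
  have h1 : ρ₁ ∈ Set.Ioo (0 : ℝ) 1 := ⟨by linarith [hρ1.1], hρ1.2⟩
  set ρ := fun k => Rl.node k 0 with hρd
  set w := fun k => Rl.weight k 0 with hwd
  set Φp := fun j => D.iter conv ρ w ρ₀ ρ₁ J j with hΦp
  set e := 2 * 6 * (Ce * ((d : ℝ) ^ (2 * M3 + (2 * M + 8)))⁻¹) with he
  have he0 : 0 ≤ e := by positivity
  set Lip := √(d : ℝ) * (C * K * √T * (C * B ^ Ee)) with hLipd
  have hLip0 : 0 ≤ Lip := by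
    have : 0 ≤ C := by linarith
    positivity
  have hfu : ∀ j ≤ J + 1, ∀ x, ‖fderiv ℝ (binderFn D env h (Φp j)) x‖ ≤ u := fun j hj x =>
    (norm_fderiv_binderFn_le D env hh _ x).trans ((hiter j hj).1.trans (by linarith))
  have hstein := debias_semantic S Rl 0 hε1 hqu h0 h1 hR hlogL hθu hz2 (m := J)
    (Φs := fun j => binderFn D env h (Φp j)) (fun j _ => D.tame_fn env hh _ _ _) (fun x => rfl) hfu
    (fun j hj => iter_step_le D env hh hΔ hσ conv hrule J j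
      (S.pg_mat Rl 0 hε1 hqu (D.tame_fn env hh _ _ _) (hfu j (by omega))).1 (by positivity)
      (hiter j (by omega)).2.2.2.2.2) hLip0 (fun x y => ?_)
    ((d : ℝ) ^ (M + 2)) (by positivity)
  swap
  · obtain ⟨-, hw, hs, hdep, hno, -⟩ := hiter (J + 1) le_rfl
    refine (hn_matM_lip D env hh hΔ hσ _ ρ w J hT (by have := hB; positivity) hw hs x y).trans ?_
    have : 0 ≤ C * B ^ Ee := by positivity
    refine mul_le_mul_of_nonneg_right (mul_le_mul_of_nonneg_left ?_ (Real.sqrt_nonneg _)) (norm_nonneg _)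
    gcongr
  obtain ⟨hvc, -, hv1⟩ := id hv
  have htame := tame_pt (U := noiseU d) ((D.tame_fn env hh (blkA d) (blkB d) D.G).add
    (D.tame_fn env hh (blkA d) (blkB d) (Φp (J + 1)))) 0
  have hsub := abs_sub_le_of_steinLeAt (μ := gau (NoiseIdx d)) htame.continuous.measurable
    (PG.of_tame htame).integrable.norm _ (t := (((d : ℝ) ^ (M + 2))⁻¹) ^ 2) (by positivity)
    (by rwa [Real.sqrt_sq (by positivity), one_div, inv_inv]) hvc hv1
  rw [integral_G D env hh, Real.sqrt_sq (by positivity)] at hsub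
  rw [debLaw_eq D env hh _ hv]
  refine hsub.trans ?_
  exact debias_budget hd hM3 hε0 hεr hC hCe (by linarith) hBd hu0 hu2 hz0 hz2 hzJ hL hbig

/-- The compensation of one binder. -/
theorem debiasGood : DebiasGood := by
  intro α hα M
  obtain ⟨J, hJ⟩ : ∃ J : ℕ, ((2 * M + 8 : ℕ) : ℝ) ≤ α / 2 * J := by
    obtain ⟨J, hJ⟩ := exists_nat_ge (((2 * M + 8 : ℕ) : ℝ) / (α / 2))
    exact ⟨J, by rw [div_le_iff₀ (half_pos hα)] at hJ; linarith⟩
  obtain ⟨E, hbds⟩ := Binder.iter_bounds 3 (J + 1)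
  obtain ⟨M3, hM3⟩ : ∃ M3, M3 = 2 * M + 8 + E + 2 := ⟨_, rfl⟩
  refine ⟨E + 1, 4 * M3 + (2 * M + 8), fun γ hγ => ?_⟩
  obtain ⟨N₀, hN₀⟩ := exists_nat_ge (((2 * M3 + (2 * M + 8) + 3 : ℕ) : ℝ) / γ)
  refine ⟨max N₀ 1, fun N hN A T Cb hT hCb => ?_⟩
  obtain ⟨conv, Kc, Cc, Tc, hCc, hconv⟩ := exists_conv_syn N ((le_max_right _ _).trans hN)
  obtain ⟨K, C, T₁, hC, hT1, hbds⟩ := hbds Kc Cc Tc J 6 A T (by norm_num) hT
  set κ : ℝ := 48 * (7 + 2 * (M3 : ℝ)) * (J : ℝ) ^ 2 * C + 8 * J * C + 4 * C with hκ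
  set Ce : ℝ := Cc K T₁ * (1 + Cb) * C with hCe
  set L : ℝ := max (max 1 (12 * Ce)) (4 * (C * K * √T₁ * C)) with hL
  refine ⟨K, C, T₁, hT.trans hT1, ?_⟩
  filter_upwards [eventually_absorb hα κ,
    ((tendsto_rpow_atTop (half_pos hα)).comp tendsto_natCast_atTop_atTop).eventually_ge_atTop 2,
    ((tendsto_rpow_atTop hγ).comp tendsto_natCast_atTop_atTop).eventually_ge_atTop 4,
    eventually_ge_atTop 2,
    (tendsto_natCast_atTop_atTop (R := ℝ)).eventually_ge_atTop (2 * L * (864 * (J : ℝ) ^ 2 + 35) + 2)]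
    with d hdκ hd2 hd4 hd hbig
  intro Nr εr Rl hεr δ0 δ r B lam Δ p b hδ0 hδδ hδ1 hr hrB hlog hBd hlam hwf hdep hsmall
  have hd1 : 1 ≤ d := by omega
  have hd0 : (1 : ℝ) ≤ d := by exact_mod_cast hd1
  have hr4 : 4 ≤ r := le_trans hd4 hr
  have hr1 : 1 ≤ r := by linarith
  have hB1 : 1 ≤ B := hr1.trans hrB
  have hB0 : 0 ≤ B := zero_le_one.trans hB1
  have hδp : 0 ≤ δ := hδ0.trans hδδ
  set D : Binder := ⟨p, Δ, b, lam, (√3)⁻¹⟩ with hDd
  have hσ : (1 / 2 : ℝ) ≤ D.σ := by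
    show (1 / 2 : ℝ) ≤ (√3)⁻¹
    rw [one_div]
    exact inv_anti₀ (by positivity) (Real.sqrt_le_iff.2 ⟨by norm_num, by norm_num⟩)
  have hok : D.Ok δ r B T := ⟨hδp, hr1, hB1, hrB, hT, hwf, hσ⟩
  have hU : D.U δ r = lam * (Prog.bind p Δ b).size δ r := by
    rw [Binder.U, abs_of_nonneg hlam.le]
  have hU0 := hok.U_nonneg
  obtain ⟨hcs, -, hce⟩ := hconv δ r hδp hδ1 hr4
  have hεM : εr ≤ (((d : ℝ) ^ M3) ^ 4)⁻¹ := hεr.trans (inv_anti₀ (by positivity)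
    (by rw [← pow_mul]; exact pow_le_pow_right₀ hd0 (by omega)))
  obtain ⟨hrule, -⟩ := tilt_rule Rl (show 1 ≤ M3 by omega) hd hεM hB1 hlog
  have hUB : D.U δ r * B ^ (E + 1) ≤ (d : ℝ) ^ (-α) := hU ▸ hsmall
  have hz2 : (d : ℝ) ^ (-(α / 2)) ≤ 1 / 2 := by
    rw [Real.rpow_neg (by linarith), one_div]
    exact inv_anti₀ two_pos hd2
  obtain ⟨hCU, -, -, -, hUC⟩ := debias_small (E := E) (q := J) hC
    (show (1 : ℝ) ≤ 7 + 2 * M3 by linarith [Nat.cast_nonneg (α := ℝ) M3]) hB1 hU0 hUB le_rfl hdκ hz2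
  have hU1 : D.U δ r ≤ 1 := hUC.trans hCU
  have hb := hbds D δ r B Nr (fun k => Rl.node k 0) (fun k => Rl.weight k 0) (tiltρ0 d M3)
    (tiltρ1 d M3) (conv δ r⁻¹) hok hrule hcs hdep hCU
  set Φp := fun j => D.iter (conv δ r⁻¹) (fun k => Rl.node k 0) (fun k => Rl.weight k 0)
    (tiltρ0 d M3) (tiltρ1 d M3) J j with hΦp
  obtain ⟨⟨hsm, hw, -, hdp, hnod, hsz, hlip, hlev⟩, -⟩ := hb (J + 1) le_rfl
  have hBE : C * B ^ E ≤ C * B ^ (E + 1) :=
    mul_le_mul_of_nonneg_left (pow_le_pow_right₀ hB1 (Nat.le_succ _)) (by linarith)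
  have hT10 : 0 < T₁ := zero_lt_one.trans_le (hT.trans hT1)
  refine ⟨Φp (J + 1), hsm, hw.mono hδp le_rfl (zero_le_one.trans hr1) le_rfl hBE hT10 le_rfl, hdp,
    hnod, hlev, ?_, ?_, fun h Gb hh env v hv => ?_⟩
  · rw [← hU]; exact hsz.trans (mul_le_mul_of_nonneg_right hBE (sq_nonneg _))
  · rw [← hU]
    refine ((Φp (J + 1)).lip_mono hδp le_rfl (pushR_nonneg le_rfl (pushR_nonneg (Real.sqrt_nonneg _)
      fun _ => le_rfl)) fun i => ?_).trans (hlip.trans (mul_le_mul_of_nonneg_right hBE (sq_nonneg _)))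
    rcases i with _ | i
    · exact zero_le_one
    · exact le_rfl
  have hh' : ∀ ℓ, Fld d (δ ℓ) r Gb Cb N (h ℓ) := fun ℓ =>
    (hh ℓ).mono_delta_tilt (hδδ ℓ) (by linarith) hCb
  have hG : D.G.lip δ (e1 Δ) ≤ D.U δ r := by
    show |lam| * (b.ren Nat.succ).lip δ _ ≤ _
    rw [Prog.lip_ren]
    exact hok.body_lip
  have hCe0 : 0 ≤ Ce := by
    have := hCc K T₁
    positivity
  have hNd : (d : ℝ) ^ (2 * M3 + (2 * M + 8) + 3) ≤ r ^ N := by
    refine pow_le_rpow_pow hd1 hr ?_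
    have hN' : (N₀ : ℝ) ≤ N := by exact_mod_cast (le_max_left _ _).trans hN
    rw [div_le_iff₀ hγ] at hN₀
    exact (hN₀.trans (mul_le_mul_of_nonneg_right hN' hγ.le)).trans_eq (mul_comm _ _)
  refine debias_dim (α := α) (κ := κ) (L := L) (Ce := Ce) (C := C) (K := K) hd hM3 Rl hεr D
    (conv δ r⁻¹) env hh' hwf.1.le rfl hT10 hC hB1 hBd hlog hU0 hUB le_rfl hdκ hd2 hJ hG hCe0
    (fun j hj => ?_) le_rfl hbig hv
  obtain ⟨⟨-, -, -, -, -, -, hl, -⟩, wsm, wwf, wse, wdep, wno, -⟩ := hb j hj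
  have hno : (D.sumT (Φp j) (fun k => Rl.node k 0) (fun k => Rl.weight k 0) J).norm' δ ≤ C :=
    wno.trans (mul_le_of_le_one_right (by linarith) (pow_le_one₀ hU0 hU1))
  refine ⟨hl.trans ?_, wwf, wse, wdep, hno, fun env' => ?_⟩
  · exact mul_le_mul_of_nonneg_left (by nlinarith) (mul_nonneg (by linarith) (pow_nonneg hB0 _))
  obtain ⟨hc0, hc1⟩ := debias_conv_le (c := Cc K T₁) (Cb := Cb) (k := 2 * M3 + (2 * M + 8)) hd1
    (zero_le_one.trans (hCc _ _)) hCb (LProg.norm'_nonneg hδp _) hno (by linarith) (hrB.trans hBd) hNd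
  refine (hce K T₁ _ _ (hT.trans hT1) (one_le_mul_of_one_le_of_one_le hC (one_le_pow₀ hB1))
    (hrB.trans ((le_self_pow₀ hB1 (Nat.succ_ne_zero E)).trans
      (le_mul_of_one_le_left (pow_nonneg hB0 _) hC))) wsm
    (wwf.mono hδp le_rfl (zero_le_one.trans hr1) le_rfl hBE hT10 le_rfl) wdep d δ0 Gb Cb hδ0 hδδ hCb
    h hh env').trans ?_
  exact pow_le_pow_left₀ hc0 hc1 2

end

end Vale.Agent.P347
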