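import Vale.Agent.P347Zero.PhiAff
import Vale.Agent.P347Zero.Engine

/-!
P347 (v5, PhiSem, part 2): what the programs of `PhiDefs` mean. In the standard variables of a
binder `wrap` is the Ornstein–Uhlenbeck operator, `psi` the Mehler form of the converted word, and
`wordT`, `sumT` are products of derivatives and adjoints; the same for the programs of a tilt.
-/

open MeasureTheory ProbabilityTheory Real Finset
open scoped RealInnerProductSpace

namespace Vale.Agent.P347

variable {d : ℕ} {h : ℕ → E d → E d} {δ : ℕ → ℝ} {r Gb C : ℝ} {N : ℕ}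

/-- The covariance kernel of `S` by the rule with nodes `ρ` and weights `wt`. -/
noncomputable def covQ {ι : Type*} [Fintype ι] {n : ℕ} (ρ wt : Fin n → ℝ)
    (S : EuclideanSpace ℝ ι → E d) (x : EuclideanSpace ℝ ι) : EuclideanSpace ℝ ι →L[ℝ] E d :=
  ∑ k, wt k • ou (ρ k) (fderiv ℝ S) x

/-- Two programs with the same values along one input have the same derivative there. -/
theorem Prog.clm_fwd_congr (hh : ∀ ℓ, Fld d (δ ℓ) r Gb C N (h ℓ)) {p p' : Prog} {e e' : Env d}
    {i j : ℕ} (hij : e i = e' j)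
    (hs : ∀ y, p.sem h (Function.update e i y) = p'.sem h (Function.update e' j y)) :
    (p.fwd i .id).clm hh e = (p'.fwd j .id).clm hh e' := by
  have h1 := p.hasFDerivAt_sem hh e i (e i)
  have h2 := p'.hasFDerivAt_sem hh e' j (e' j)
  rw [Function.update_eq_self] at h1 h2
  rw [show (fun y => p.sem h (Function.update e i y)) =
    fun y => p'.sem h (Function.update e' j y) from funext hs, hij] at h1
  exact h1.unique h2

namespace Binder

variable (D : Binder)

/-- The inputs of a debias program at the standard variables `a` of the binder and `b` of the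
layer. -/
noncomputable def envW (h : ℕ → E d → E d) (env : Env d) (a b : E d) : Env d :=
  push b (push (D.p.sem h env + √D.Δ • a) env)

/-- A debias program as a function of a vector whose blocks are read by `A` and `B`. -/
noncomputable def fn (h : ℕ → E d → E d) (env : Env d) {X : Type} [NormedAddCommGroup X]
    [NormedSpace ℝ X] (A B : X →L[ℝ] E d) (S : Prog) (z : X) : E d :=
  S.sem h (D.envW h env (A z) (B z))

variable {X : Type} [NormedAddCommGroup X] [NormedSpace ℝ X] (env : Env d)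

/-- The motion of the inputs along the blocks. -/
noncomputable def dirW (A B : X →L[ℝ] E d) : ℕ → X →L[ℝ] E d
  | 0 => B
  | 1 => √D.Δ • A
  | _ + 2 => 0

theorem envW_affine (h : ℕ → E d → E d) (A B : X →L[ℝ] E d) (z : X) (i : ℕ) :
    D.envW h env (A z) (B z) i = D.envW h env (A 0) (B 0) i + D.dirW A B i z := by
  rcases i with _ | _ | i <;> simp [envW, push, dirW]

theorem tame_fn (hh : ∀ ℓ, Fld d (δ ℓ) r Gb C N (h ℓ)) [FiniteDimensional ℝ X]
    (A B : X →L[ℝ] E d) (S : Prog) : Tame (D.fn h env A B S) :=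
  S.tame_sem_affine hh (F := fun z => D.envW h env (A z) (B z)) (D.dirW A B)
    (D.envW_affine env h A B)

/-- The derivative of a debias program in the blocks. -/
theorem hasFDerivAt_fn (hh : ∀ ℓ, Fld d (δ ℓ) r Gb C N (h ℓ)) (A B : X →L[ℝ] E d) (S : Prog)
    (z : X) :
    HasFDerivAt (D.fn h env A B S)
      (((S.fwd 1 .id).clm hh (D.envW h env (A z) (B z))).comp (√D.Δ • A) +
        ((S.fwd 0 .id).clm hh (D.envW h env (A z) (B z))).comp B) z := by
  obtain ⟨k, hk⟩ : ∃ k, max S.width 2 = k + 2 :=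
    ⟨max S.width 2 - 2, by have := le_max_right S.width 2; omega⟩
  refine (S.hasFDerivAt_comp hh (M := k + 2) (hk ▸ le_max_left _ _)
    (fun y => D.envW h env (A y) (B y)) (fun _ => D.dirW A B) (fun j => ‖D.dirW A B j‖)
    (fun x j => ?_) (fun x j => le_rfl) z).congr_fderiv ?_
  · rw [show (fun y => D.envW h env (A y) (B y) j) =
      fun y => D.envW h env (A 0) (B 0) j + D.dirW A B j y from
      funext fun y => D.envW_affine env h A B y j]
    exact (D.dirW A B j).hasFDerivAt.const_add _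
  · rw [sum_range_succ', sum_range_succ']
    simp only [dirW, ContinuousLinearMap.comp_zero, sum_const_zero, zero_add]

theorem fderiv_fn (hh : ∀ ℓ, Fld d (δ ℓ) r Gb C N (h ℓ)) (A B : X →L[ℝ] E d) (S : Prog) (z : X) :
    fderiv ℝ (D.fn h env A B S) z =
      ((S.fwd 1 .id).clm hh (D.envW h env (A z) (B z))).comp (√D.Δ • A) +
        ((S.fwd 0 .id).clm hh (D.envW h env (A z) (B z))).comp B :=
  (D.hasFDerivAt_fn env hh A B S z).fderiv

theorem sem_G (h : ℕ → E d → E d) (e : Env d) :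
    D.G.sem h e = D.lam • D.b.sem h (e ∘ Nat.succ) := by
  simp [G, Prog.sem, Prog.sem_ren]

/-- The body does not read the layer. -/
theorem clm_fwd_zero_G (hh : ∀ ℓ, Fld d (δ ℓ) r Gb C N (h ℓ)) (e : Env d) :
    (D.G.fwd 0 .id).clm hh e = 0 := by
  have h1 := D.G.hasFDerivAt_sem hh e 0 (e 0)
  rw [Function.update_eq_self] at h1
  have hc : (fun y => D.G.sem h (Function.update e 0 y)) = fun _ => D.G.sem h e := funext fun y => by
    rw [sem_G, sem_G]
    congr 2
  rw [hc] at h1
  exact h1.unique (hasFDerivAt_const (D.G.sem h e) (e 0))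

theorem fderiv_fn_G (hh : ∀ ℓ, Fld d (δ ℓ) r Gb C N (h ℓ)) (A B : X →L[ℝ] E d) (z : X) :
    fderiv ℝ (D.fn h env A B D.G) z =
      ((D.G.fwd 1 .id).clm hh (D.envW h env (A z) (B z))).comp (√D.Δ • A) := by
  rw [D.fderiv_fn env hh, D.clm_fwd_zero_G hh, ContinuousLinearMap.zero_comp, add_zero]

/-- The derivative of the body at the sampled point does not depend on the layer. -/
theorem clm_fwd_one_G (hh : ∀ ℓ, Fld d (δ ℓ) r Gb C N (h ℓ)) (a b : E d) :
    (D.G.fwd 1 .id).clm hh (D.envW h env a b) = (D.G.fwd 1 .id).clm hh (D.envW h env a 0) := by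
  refine Prog.clm_fwd_congr hh rfl fun y => ?_
  rw [sem_G, sem_G]
  congr 2

/-- The copy of the body inside `difW`. -/
theorem app_copy (hh : ∀ ℓ, Fld d (δ ℓ) r Gb C N (h ℓ)) (hΔ : 0 ≤ D.Δ) (ρ : ℝ) (L : LProg)
    (a b v : E d) :
    (LProg.bind (D.copyMean ρ) (D.Δ * (1 - ρ ^ 2))
        ((Prog.smul D.lam (D.b.ren fun i => Nat.casesOn i 0 fun j => j + 3)).fwd 0
          (.smul √D.Δ (L.lift 0)))).app h (D.envW h env a b) v =
      ∫ a', (D.G.fwd 1 .id).app h (D.envW h env (ρ • a + √(1 - ρ ^ 2) • a') 0)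
        (√D.Δ • L.app h (D.envW h env a b) v) ∂gau (Fin d) := by
  simp only [LProg.app]
  refine integral_congr_ae (ae_of_all _ fun a' => ?_)
  simp only
  rw [Prog.app_fwd, LProg.app, LProg.app_lift_push]
  have hx : (D.copyMean ρ).sem h (D.envW h env a b) + √(D.Δ * (1 - ρ ^ 2)) • a' =
      D.p.sem h env + √D.Δ • (ρ • a + √(1 - ρ ^ 2) • a') := by
    have e : D.envW h env a b ∘ (· + 2) = env := funext fun i => rfl
    simp only [copyMean, Prog.sem, Prog.sem_ren, e]
    simp only [envW, push, Real.sqrt_mul hΔ]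
    module
  rw [hx]
  simp only [← LProg.clm_apply hh]
  congr 1
  refine Prog.clm_fwd_congr hh rfl fun y => ?_
  rw [sem_G, Prog.sem, Prog.sem_ren]
  congr 2
  funext i
  rcases i with _ | i <;> simp [envW, push]

variable {ι : Type} [Fintype ι] (A B : EuclideanSpace ℝ ι →L[ℝ] E d)

theorem covQ_apply (hh : ∀ ℓ, Fld d (δ ℓ) r Gb C N (h ℓ)) (hA : ∀ a, A (A.adjoint a) = a) {n : ℕ}
    (ρ wt : Fin n → ℝ) (z u : EuclideanSpace ℝ ι) :
    covQ ρ wt (D.fn h env A B D.G) z u = ∑ k, wt k • ∫ a', (D.G.fwd 1 .id).app h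
      (D.envW h env (ρ k • A z + √(1 - ρ k ^ 2) • a') 0) (√D.Δ • A u) ∂gau (Fin d) := by
  obtain ⟨hc, K, m, hK, -, hb⟩ := D.tame_fn env hh A B D.G
  simp only [covQ, _root_.sum_apply, smul_apply]
  refine sum_congr rfl fun k _ => ?_
  congr 1
  rw [ou, ContinuousLinearMap.integral_apply
    (integrable_slice2 (hc.continuous_fderiv one_ne_zero) hK hb _ _ z)]
  rw [← integral_block A hA (f := fun a' => (D.G.fwd 1 .id).app h
    (D.envW h env (ρ k • A z + √(1 - ρ k ^ 2) • a') 0) (√D.Δ • A u))]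
  · refine integral_congr_ae (ae_of_all _ fun v => ?_)
    simp only
    rw [D.fderiv_fn_G env hh, ContinuousLinearMap.comp_apply, smul_apply, D.clm_fwd_one_G env hh,
      LProg.clm_apply]
    simp only [map_add, map_smul]
  · refine (D.G.fwd 1 .id).continuous_app hh (fun i => ?_) continuous_const
    rcases i with _ | _ | i <;> simp only [envW, push] <;> fun_prop

/-- A word `wordT` is the transposed target of the engine with the quadrature covariance kernel. -/
theorem clm_wordT (hh : ∀ ℓ, Fld d (δ ℓ) r Gb C N (h ℓ)) (hΔ : 0 ≤ D.Δ)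
    (hA : ∀ a, A (A.adjoint a) = a) (hB : ∀ b, B (B.adjoint b) = b)
    (hAB : ∀ b, A (B.adjoint b) = 0) (Φ : Prog) {n : ℕ} (ρ wt : Fin n → ℝ) (L : LProg)
    (z : EuclideanSpace ℝ ι) :
    (D.wordT Φ ρ wt L).clm hh (D.envW h env (A z) (B z)) =
      ((fderiv ℝ (D.fn h env A B Φ) z - covQ ρ wt (D.fn h env A B D.G) z).comp
        (fderiv ℝ (D.fn h env A B D.G) z + fderiv ℝ (D.fn h env A B Φ) z).adjoint).comp
        (L.clm hh (D.envW h env (A z) (B z))) := by
  set e := D.envW h env (A z) (B z) with he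
  have hBA : ∀ a, B (A.adjoint a) = 0 := fun a => ext_inner_right ℝ fun b => by
    rw [← ContinuousLinearMap.adjoint_inner_right, ContinuousLinearMap.adjoint_inner_left, hAB,
      inner_zero_right, inner_zero_left]
  refine ContinuousLinearMap.ext fun v => ?_
  set u := L.clm hh e v with hu
  set Q := (D.G.fwd 1 .id).clm hh e + (Φ.fwd 1 .id).clm hh e with hQ
  set P := (Φ.fwd 0 .id).clm hh e with hP
  set y := A.adjoint (√D.Δ • Q.adjoint u) + B.adjoint (P.adjoint u) with hy
  have hAy : A y = √D.Δ • Q.adjoint u := by rw [hy, map_add, hA, hAB, add_zero]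
  have hBy : B y = P.adjoint u := by rw [hy, map_add, hB, hBA, zero_add]
  have hadj : (fderiv ℝ (D.fn h env A B D.G) z + fderiv ℝ (D.fn h env A B Φ) z).adjoint u = y := by
    refine ext_inner_right ℝ fun x => ?_
    rw [ContinuousLinearMap.adjoint_inner_left, hy, inner_add_left,
      ContinuousLinearMap.adjoint_inner_left, ContinuousLinearMap.adjoint_inner_left,
      real_inner_smul_left, ContinuousLinearMap.adjoint_inner_left,
      ContinuousLinearMap.adjoint_inner_left, D.fderiv_fn_G env hh, D.fderiv_fn env hh]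
    simp only [hQ, hP, ← he, _root_.add_apply, ContinuousLinearMap.comp_apply, smul_apply, map_smul,
      inner_add_right, real_inner_smul_right]
    ring
  have hadd : ((Prog.add D.G Φ).fwd 1 .id).clm hh e = Q := rfl
  have hL : (LProg.smul √D.Δ ((Prog.add D.G Φ).adj 1 L)).clm hh e v = A y := by
    rw [LProg.clm_smul, Prog.clm_adj, hadd, smul_apply, ContinuousLinearMap.comp_apply, hAy]
  rw [ContinuousLinearMap.comp_apply, ← hu, ContinuousLinearMap.comp_apply, hadj, sub_apply,
    D.fderiv_fn env hh, D.covQ_apply env A B hh hA]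
  simp only [wordT, difW, LProg.clm_add, LProg.clm_smul, LProg.clm_sumFin, Prog.clm_fwd _ Φ 1
    (LProg.smul _ _), Prog.clm_fwd _ Φ 0 (Φ.adj 0 L), _root_.add_apply, smul_apply,
    _root_.sum_apply, ContinuousLinearMap.comp_apply, ← he, Prog.clm_adj _ Φ 0 L]
  have hc : ∀ k, (LProg.bind (D.copyMean (ρ k)) (D.Δ * (1 - ρ k ^ 2))
      ((Prog.smul D.lam (D.b.ren fun i => Nat.casesOn i 0 fun j => j + 3)).fwd 0
        (.smul √D.Δ ((LProg.smul √D.Δ ((Prog.add D.G Φ).adj 1 L)).lift 0)))).clm hh e v =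
      ∫ a', (D.G.fwd 1 .id).app h (D.envW h env (ρ k • A z + √(1 - ρ k ^ 2) • a') 0)
        (√D.Δ • A y) ∂gau (Fin d) := fun k => by
    rw [LProg.clm_apply, he, D.app_copy env hh hΔ, ← he, ← LProg.clm_apply hh
      (LProg.smul √D.Δ ((Prog.add D.G Φ).adj 1 L)), hL]
  simp only [hc]
  rw [LProg.clm_smul] at hL
  simp only [smul_apply] at hL
  rw [hL, hBy, ← hu, neg_one_smul, ← hP]
  abel

theorem blockD_fn (hh : ∀ ℓ, Fld d (δ ℓ) r Gb C N (h ℓ)) (hB : ∀ b, B (B.adjoint b) = b)
    (hAB : ∀ b, A (B.adjoint b) = 0) (S : Prog) (σ : ℝ) (z : EuclideanSpace ℝ ι) :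
    blockD (D.fn h env A B S) B.adjoint σ z =
      σ⁻¹ • ((S.fwd 0 .id).clm hh (D.envW h env (A z) (B z))).adjoint := by
  rw [blockD, D.fderiv_fn env hh]
  congr 2
  ext1 v
  simp [hB, hAB]

theorem clm_crossT (hh : ∀ ℓ, Fld d (δ ℓ) r Gb C N (h ℓ)) (hB : ∀ b, B (B.adjoint b) = b)
    (hAB : ∀ b, A (B.adjoint b) = 0) (Φ : Prog) (z : EuclideanSpace ℝ ι) : ∀ i,
    (D.crossT Φ i).clm hh (D.envW h env (A z) (B z)) =
      (-blockD (D.fn h env A B Φ) B.adjoint D.σ z) ^ i := by
  intro i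
  induction i with
  | zero => rw [pow_zero]; rfl
  | succ i ih =>
    rw [pow_succ', crossT, Prog.clm_adj, LProg.clm_smul, ih, D.blockD_fn env A B hh hB hAB]
    ext1 v
    simp

/-- The word `sumT` is the truncated series of the engine. -/
theorem clm_sumT (hh : ∀ ℓ, Fld d (δ ℓ) r Gb C N (h ℓ)) (hΔ : 0 ≤ D.Δ)
    (hA : ∀ a, A (A.adjoint a) = a) (hB : ∀ b, B (B.adjoint b) = b)
    (hAB : ∀ b, A (B.adjoint b) = 0) (Φ : Prog) {n : ℕ} (ρ wt : Fin n → ℝ) (q : ℕ)
    (z : EuclideanSpace ℝ ι) :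
    (D.sumT Φ ρ wt q).clm hh (D.envW h env (A z) (B z)) =
      series ((fderiv ℝ (D.fn h env A B Φ) z - covQ ρ wt (D.fn h env A B D.G) z).comp
        (fderiv ℝ (D.fn h env A B D.G) z + fderiv ℝ (D.fn h env A B Φ) z).adjoint)
        (blockD (D.fn h env A B Φ) B.adjoint D.σ z) q := by
  rw [series, mul_sum, ← Fin.sum_univ_eq_sum_range, sumT, LProg.clm_sumFin]
  exact sum_congr rfl fun i _ => by
    rw [D.clm_wordT env A B hh hΔ hA hB hAB, D.clm_crossT env A B hh hB hAB]
    rfl

theorem sem_wrap (hΔ : 0 ≤ D.Δ) (h : ℕ → E d → E d) (ρ : ℝ) (S : Prog) (a b : E d) :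
    (D.wrap ρ S).sem h (D.envW h env a b) = ∫ a', ∫ b', S.sem h (D.envW h env
      (ρ • a + √(1 - ρ ^ 2) • a') (ρ • b + √(1 - ρ ^ 2) • b')) ∂gau (Fin d) ∂gau (Fin d) := by
  have e0 : D.envW h env a b ∘ (· + 2) = env := funext fun i => rfl
  simp only [wrap, copyMean, Prog.sem, Prog.sem_subst, Prog.sem_ren, e0]
  refine integral_congr_ae (ae_of_all _ fun a' => integral_congr_ae (ae_of_all _ fun b' => ?_))
  simp only
  congr 1
  funext i
  rcases i with _ | _ | i
  · simp [envW, push, Prog.sem]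
  · simp only [envW, push, Prog.sem, Real.sqrt_mul hΔ]
    module
  · simp [envW, push, Prog.sem]

/-- In standard variables `wrap` is the Ornstein–Uhlenbeck operator. -/
theorem fn_wrap (hh : ∀ ℓ, Fld d (δ ℓ) r Gb C N (h ℓ)) (hΔ : 0 ≤ D.Δ)
    (hA : ∀ a, A (A.adjoint a) = a) (hB : ∀ b, B (B.adjoint b) = b)
    (hAB : ∀ b, A (B.adjoint b) = 0) (ρ : ℝ) (S : Prog) :
    D.fn h env A B (D.wrap ρ S) = ou ρ (D.fn h env A B S) := by
  funext z
  set s := √(1 - ρ ^ 2) with hs
  have e : ∀ v, D.fn h env A B S (ρ • z + s • v) =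
      S.sem h (D.envW h env (ρ • A z + s • A v) (ρ • B z + s • B v)) := fun v => by
    simp only [fn, map_add, map_smul]
  obtain ⟨hc, K, m, hK, hb, -⟩ := D.tame_fn env hh A B S
  have hi := integrable_slice2 hc.continuous hK hb ρ s z
  simp only [e] at hi
  have hcont : Continuous fun p : E d × E d =>
      S.sem h (D.envW h env (ρ • A z + s • p.1) (ρ • B z + s • p.2)) :=
    (Prog.continuous_sem hh S).comp (continuous_pi fun i => by
      rcases i with _ | _ | i <;> simp only [envW, push] <;> fun_prop)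
  rw [ou, ← hs]
  simp only [e]
  rw [integral_blocks A B hA hB hAB (f := fun a' b' =>
    S.sem h (D.envW h env (ρ • A z + s • a') (ρ • B z + s • b'))) hcont hi]
  exact D.sem_wrap env hΔ h ρ S (A z) (B z)

theorem sem_psi (hΔ : 0 ≤ D.Δ) (h : ℕ → E d → E d) (ρ : ℝ) (Pc : Prog) (a b : E d) :
    (D.psi ρ Pc).sem h (D.envW h env a b) = (√(1 - ρ ^ 2))⁻¹ • ∫ a', ∫ b', Pc.sem h
      (push (√(1 - ρ ^ 2) • b - ρ • b') (D.envW h env (ρ • a + √(1 - ρ ^ 2) • a')
        (ρ • b + √(1 - ρ ^ 2) • b'))) ∂gau (Fin d) ∂gau (Fin d) := by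
  have e0 : D.envW h env a b ∘ (· + 2) = env := funext fun i => rfl
  simp only [psi, copyMean, cpl, Prog.sem, Prog.sem_subst, Prog.sem_ren, e0]
  congr 1
  refine integral_congr_ae (ae_of_all _ fun a' => integral_congr_ae (ae_of_all _ fun b' => ?_))
  simp only
  congr 1
  funext i
  rcases i with _ | _ | _ | i
  · simp only [envW, push, Prog.sem, Real.sqrt_one]
    module
  · simp only [envW, push, Prog.sem, Real.sqrt_one]
    module
  · simp only [envW, push, Prog.sem, Real.sqrt_mul hΔ]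
    module
  · simp [envW, push, Prog.sem]

/-- In standard variables `psi` is the Mehler form with the converted program for the word. -/
theorem fn_psi (hh : ∀ ℓ, Fld d (δ ℓ) r Gb C N (h ℓ)) (hΔ : 0 ≤ D.Δ)
    (hA : ∀ a, A (A.adjoint a) = a) (hB : ∀ b, B (B.adjoint b) = b)
    (hAB : ∀ b, A (B.adjoint b) = 0) (ρ : ℝ) (Pc : Prog) (z : EuclideanSpace ℝ ι) :
    D.fn h env A B (D.psi ρ Pc) z = (√(1 - ρ ^ 2))⁻¹ • ∫ v, Pc.sem h
      (push (B (√(1 - ρ ^ 2) • z - ρ • v))
        (D.envW h env (A (Quad.mix ρ (z, v))) (B (Quad.mix ρ (z, v))))) ∂gau ι := by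
  set s := √(1 - ρ ^ 2) with hs
  let F : EuclideanSpace ℝ ι → Env d := fun v =>
    push (s • B z - ρ • B v) (D.envW h env (ρ • A z + s • A v) (ρ • B z + s • B v))
  have e : ∀ v, push (B (s • z - ρ • v))
      (D.envW h env (A (Quad.mix ρ (z, v))) (B (Quad.mix ρ (z, v)))) = F v := fun v => by
    simp only [F, Quad.mix, ← hs, map_add, map_sub, map_smul]
  have hT : Tame fun v => Pc.sem h (F v) := by
    refine Pc.tame_sem_affine hh (fun i => match i with
      | 0 => (-ρ) • B
      | 1 => s • B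
      | 2 => (√D.Δ * s) • A
      | _ + 3 => 0) fun v i => ?_
    rcases i with _ | _ | _ | i <;> simp only [F, envW, push, map_zero, smul_zero, smul_apply,
      zero_apply, add_zero, sub_zero] <;> module
  obtain ⟨hTc, K, m, hK, hb, -⟩ := hT
  have hi : Integrable (fun v => Pc.sem h (F v)) (gau ι) :=
    integrable_of_polyLe hTc.continuous.aestronglyMeasurable hb
  have hcont : Continuous fun p : E d × E d => Pc.sem h
      (push (s • B z - ρ • p.2) (D.envW h env (ρ • A z + s • p.1) (ρ • B z + s • p.2))) :=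
    (Prog.continuous_sem hh Pc).comp (continuous_pi fun i => by
      rcases i with _ | _ | _ | i <;> simp only [envW, push] <;> fun_prop)
  simp only [e]
  rw [integral_blocks A B hA hB hAB (f := fun a' b' => Pc.sem h
    (push (s • B z - ρ • b') (D.envW h env (ρ • A z + s • a') (ρ • B z + s • b')))) hcont hi]
  exact D.sem_psi env hΔ h ρ Pc (A z) (B z)

/-- With a conversion of error `e` in quadratic mean, `psi` is the Mehler form of the word up to
`e / √(1 - ρ²)`. -/
theorem l2_psi_sub_le (hh : ∀ ℓ, Fld d (δ ℓ) r Gb C N (h ℓ)) (hΔ : 0 ≤ D.Δ)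
    (hA : ∀ a, A (A.adjoint a) = a) (hB : ∀ b, B (B.adjoint b) = b)
    (hAB : ∀ b, A (B.adjoint b) = 0) {ρ e : ℝ} (hρ : ρ ^ 2 < 1) (Pc : Prog) (W : LProg)
    (he : ∀ env' : Env d, ∫ u, ‖Pc.sem h (push u env') - W.app h env' u‖ ^ 2 ∂gau (Fin d) ≤ e ^ 2) :
    ∫ z, ‖D.fn h env A B (D.psi ρ Pc) z
        - _root_.Vale.Agent.P347.psi B ρ (fun y => W.clm hh (D.envW h env (A y) (B y))) z‖ ^ 2
      ∂gau ι ≤ (e / √(1 - ρ ^ 2)) ^ 2 := by
  simp only [D.fn_psi env A B hh hΔ hA hB hAB]
  refine l2_mehler_sub_le B hB (W.continuous_clm hh fun i => ?_) (fun y => W.norm_clm_le hh _)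
    (f := fun y u => Pc.sem h (push u (D.envW h env (A y) (B y)))) ?_ hρ fun y => he _
  · rcases i with _ | _ | i <;> simp only [envW, push] <;> fun_prop
  · refine Pc.tame_sem_affine hh (fun i => match i with
      | 0 => ContinuousLinearMap.snd ℝ _ _
      | j + 1 => (D.dirW A B j).comp (ContinuousLinearMap.fst ℝ _ _)) fun p i => ?_
    rcases i with _ | i
    · simp [push]
    · exact D.envW_affine env h A B p.1 i

/-- One step of the Picard iteration, in standard variables. -/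
theorem fn_iter_succ (hh : ∀ ℓ, Fld d (δ ℓ) r Gb C N (h ℓ)) (hΔ : 0 ≤ D.Δ)
    (hA : ∀ a, A (A.adjoint a) = a) (hB : ∀ b, B (B.adjoint b) = b)
    (hAB : ∀ b, A (B.adjoint b) = 0) (conv : LProg → Prog) {n : ℕ} (ρ wt : Fin n → ℝ)
    (ρ₀ ρ₁ : ℝ) (q j : ℕ) :
    D.fn h env A B (D.iter conv ρ wt ρ₀ ρ₁ q (j + 1)) = ou ρ₁ fun z => ∑ k, (wt k * ρ k / D.σ) •
      D.fn h env A B (D.psi (ρ₀ * ρ k) (conv (D.sumT (D.iter conv ρ wt ρ₀ ρ₁ q j) ρ wt q))) z := by
  rw [iter, D.fn_wrap env A B hh hΔ hA hB hAB]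
  congr 1
  funext z
  simp [fn, Prog.sem_sumFin, Prog.sem]

end Binder

/-! ### Programs of a tilt -/

section tilt

variable (env : Env d)

/-- A program of a tilt as a function of its Gaussian variable. -/
noncomputable def fnT (h : ℕ → E d → E d) (env : Env d) (S : Prog) (z : E d) : E d :=
  S.sem h (push z env)

theorem tame_fnT (hh : ∀ ℓ, Fld d (δ ℓ) r Gb C N (h ℓ)) (S : Prog) : Tame (fnT h env S) :=
  S.tame_sem_affine hh (F := fun z => push z env)
    (fun i => match i with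
      | 0 => ContinuousLinearMap.id ℝ (E d)
      | _ + 1 => 0) fun z i => by
    rcases i with _ | i <;> simp [push]

theorem update_push (x y : E d) : Function.update (push x env) 0 y = push y env := by
  funext i
  rcases i with _ | i <;> simp [push]

theorem fderiv_fnT (hh : ∀ ℓ, Fld d (δ ℓ) r Gb C N (h ℓ)) (S : Prog) (z : E d) :
    fderiv ℝ (fnT h env S) z = (S.fwd 0 .id).clm hh (push z env) := by
  have h1 := S.hasFDerivAt_sem hh (push z env) 0 z
  simp only [update_push] at h1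
  exact h1.fderiv

/-- `wrapT` is the Ornstein–Uhlenbeck operator. -/
theorem fnT_wrapT (h : ℕ → E d → E d) (ρ : ℝ) (S : Prog) :
    fnT h env (wrapT ρ S) = ou ρ (fnT h env S) := by
  funext z
  simp only [fnT, wrapT, ou, Prog.sem, Prog.sem_subst]
  refine integral_congr_ae (ae_of_all _ fun w => ?_)
  simp only
  congr 1
  funext i
  rcases i with _ | i <;> simp [push, Prog.sem]

/-- `psiT` is the Mehler form with the converted program for the word. -/
theorem fnT_psiT (h : ℕ → E d → E d) (ρ : ℝ) (Pc : Prog) (z : E d) :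
    fnT h env (psiT ρ Pc) z = (√(1 - ρ ^ 2))⁻¹ • ∫ v, Pc.sem h
      (push (√(1 - ρ ^ 2) • z - ρ • v) (push (Quad.mix ρ (z, v)) env)) ∂gau (Fin d) := by
  simp only [fnT, psiT, cpl, Prog.sem, Prog.sem_subst]
  congr 1
  refine integral_congr_ae (ae_of_all _ fun v => ?_)
  simp only
  congr 1
  funext i
  rcases i with _ | _ | i
  · simp only [push, Prog.sem, Real.sqrt_one]
    module
  · simp only [push, Prog.sem, Real.sqrt_one, Quad.mix]
    module
  · simp [push, Prog.sem]

theorem l2_psiT_sub_le (hh : ∀ ℓ, Fld d (δ ℓ) r Gb C N (h ℓ)) {ρ e : ℝ} (hρ : ρ ^ 2 < 1)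
    (Pc : Prog) (W : LProg)
    (he : ∀ env' : Env d, ∫ u, ‖Pc.sem h (push u env') - W.app h env' u‖ ^ 2 ∂gau (Fin d) ≤ e ^ 2) :
    ∫ z, ‖fnT h env (psiT ρ Pc) z
        - psi (ContinuousLinearMap.id ℝ (E d)) ρ (fun y => W.clm hh (push y env)) z‖ ^ 2
      ∂gau (Fin d) ≤ (e / √(1 - ρ ^ 2)) ^ 2 := by
  simp only [fnT_psiT]
  refine l2_mehler_sub_le (ContinuousLinearMap.id ℝ (E d))
    (fun a => by rw [ContinuousLinearMap.adjoint_id]; rfl)
    (W.continuous_clm hh fun i => ?_) (fun y => W.norm_clm_le hh _)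
    (f := fun y u => Pc.sem h (push u (push y env))) ?_ hρ fun y => he _
  · rcases i with _ | i <;> simp only [push] <;> fun_prop
  · refine Pc.tame_sem_affine hh (fun i => match i with
      | 0 => ContinuousLinearMap.snd ℝ _ _
      | 1 => ContinuousLinearMap.fst ℝ _ _
      | _ + 2 => 0) fun p i => ?_
    rcases i with _ | _ | i <;> simp [push]

/-- The word `sumTT` is the truncated series of the engine with nothing but the map. -/
theorem clm_sumTT (hh : ∀ ℓ, Fld d (δ ℓ) r Gb C N (h ℓ)) (Φ : Prog) (q : ℕ) (z : E d) :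
    (sumTT Φ q).clm hh (push z env) =
      series ((fderiv ℝ (fnT h env Φ) z).comp (fderiv ℝ (fnT h env Φ) z).adjoint)
        (blockD (fnT h env Φ) (ContinuousLinearMap.id ℝ (E d)) 1 z) q := by
  have hi : ∀ i, (((fun L => Φ.adj 0 (.smul (-1) L))^[i]) LProg.id).clm hh (push z env) =
      (-blockD (fnT h env Φ) (ContinuousLinearMap.id ℝ (E d)) 1 z) ^ i := by
    intro i
    induction i with
    | zero => rw [pow_zero]; rfl
    | succ i ih =>
      rw [Function.iterate_succ_apply', pow_succ', Prog.clm_adj, LProg.clm_smul, ih, blockD,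
        fderiv_fnT env hh]
      ext1 v
      simp
  rw [series, mul_sum, ← Fin.sum_univ_eq_sum_range, sumTT, LProg.clm_sumFin]
  exact sum_congr rfl fun i _ => by
    rw [Prog.clm_fwd, Prog.clm_adj, hi, fderiv_fnT env hh]
    rfl

/-- One step of the Picard iteration for a tilt with score `P`. -/
theorem fnT_iterT_succ (h : ℕ → E d → E d) (conv : LProg → Prog) (P : Prog) {n : ℕ}
    (ρ wt : Fin n → ℝ) (ρ₀ ρ₁ : ℝ) (q j : ℕ) :
    fnT h env (iterT conv P ρ wt ρ₀ ρ₁ q (j + 1)) = ou ρ₁ fun z => ∑ k,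
      ((-wt k) • ou (ρ k) (fun y =>
          fnT h env P (y + fnT h env (iterT conv P ρ wt ρ₀ ρ₁ q j) y)) z +
        (wt k * ρ k) •
          fnT h env (psiT (ρ₀ * ρ k) (conv (sumTT (iterT conv P ρ wt ρ₀ ρ₁ q j) q))) z) := by
  rw [iterT, fnT_wrapT]
  congr 1
  funext z
  simp only [fnT, Prog.sem_sumFin, Prog.sem]
  refine sum_congr rfl fun k _ => ?_
  congr 2
  rw [← fnT, fnT_wrapT]
  congr 1
  funext y
  simp only [fnT, Prog.sem_subst]
  congr 1
  funext i
  rcases i with _ | i <;> simp [push, Prog.sem]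

end tilt

end Vale.Agent.P347
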