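import Vale.Agent.P347Zero.DebiasEngine
import Vale.Agent.P347Zero.PhiSem

/-!
P347 (exponent zero, M9): finitely many perturbed Picard steps bound the Stein operator of the
compensated binder on tests with bounded second derivative.
-/

open MeasureTheory ProbabilityTheory Real Filter
open scoped RealInnerProductSpace Topology

set_option maxSynthPendingDepth 3

namespace Vale.Agent.P347

open Quad

noncomputable section

variable {ι : Type} [Fintype ι] {d : ℕ}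

lemma l2_le_of_bound {F : Type*} [NormedAddCommGroup F] [NormedSpace ℝ F]
    {f : EuclideanSpace ℝ ι → F} {K : ℝ} (hK : 0 ≤ K) (h : ∀ x, ‖f x‖ ≤ K) : l2 f ≤ K :=
  l2_le hK ((integral_mono_of_nonneg (ae_of_all _ fun x => sq_nonneg _) (integrable_const (K ^ 2))
    (ae_of_all _ fun x => pow_le_pow_left₀ (norm_nonneg _) (h x) 2)).trans_eq (by simp))

lemma Tame.sub {f g : EuclideanSpace ℝ ι → E d} (hf : Tame f) (hg : Tame g) :
    Tame fun y => f y - g y := by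
  simpa [sub_eq_add_neg] using hf.add (hg.smul_const (-1))

lemma Tame.pg_hentry {f : EuclideanSpace ℝ ι → E d} (hf : Tame f) :
    PG fun x => hentry (fderiv ℝ f x) := by
  obtain ⟨-, K, k, hK, -, hb⟩ := id hf
  exact (show PG (fderiv ℝ f) from ⟨hf.continuous_fderiv, K, k, hK, hb⟩).clm hentry

/-- The data of the compensation of a binder: a decomposition of the noise and the body. -/
structure DebiasSetup (U : EuclideanSpace ℝ ι →L[ℝ] E d) (J : E d →L[ℝ] EuclideanSpace ℝ ι)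
    (σ : ℝ) (Gv : EuclideanSpace ℝ ι → E d) (u : ℝ) : Prop where
  unit : ∀ v, U (U.adjoint v) = v
  norm_U : ‖U‖ ≤ 1
  tame : Tame Gv
  orth : ∀ x v, fderiv ℝ Gv x (U.adjoint v) = 0
  norm_J : ‖J‖ ≤ 1
  sigma : 0 < σ
  sigma_inv : σ⁻¹ ≤ 2
  cross : ∀ v, U (J v) = σ • v
  layer : ∀ x v, fderiv ℝ Gv x (J v) = 0
  small : u ≤ 1 / 4
  bound : ∀ x, ‖fderiv ℝ Gv x‖ ≤ u / 2

namespace DebiasSetup

variable {U : EuclideanSpace ℝ ι →L[ℝ] E d} {J : E d →L[ℝ] EuclideanSpace ℝ ι} {σ : ℝ}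
  {Gv : EuclideanSpace ℝ ι → E d} {u : ℝ} (S : DebiasSetup U J σ Gv u)
  {n : ℕ} {ε : ℝ} (Rl : Rule n ε) (U0 : ℝ)

include S

lemma nonneg : 0 ≤ u := by linarith [(norm_nonneg _).trans (S.bound 0)]

lemma bound' (x : EuclideanSpace ℝ ι) : ‖fderiv ℝ Gv x‖ ≤ u :=
  (S.bound x).trans (by linarith [S.nonneg])

lemma norm_covQ_le (hε : ε ≤ 1) (x : EuclideanSpace ℝ ι) :
    ‖covQ (fun k => Rl.node k U0) (fun k => Rl.weight k U0) Gv x‖ ≤ u := by
  have hw : ∑ k, Rl.weight k U0 ≤ 2 := by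
    have h := (abs_le.1 (Rl.moment 0 U0)).2
    simp only [pow_zero, mul_one, Nat.cast_zero, zero_add, div_one] at h
    linarith
  refine (norm_sum_le _ _).trans ((Finset.sum_le_sum fun k _ => (norm_smul_le _ _).trans
    (mul_le_mul_of_nonneg_left (norm_ou_fderiv_le S.bound _ x) (norm_nonneg _))).trans ?_)
  simp only [Real.norm_eq_abs, abs_of_nonneg (Rl.weight_nonneg _ U0), ← Finset.sum_mul]
  calc _ ≤ 2 * (u / 2) := mul_le_mul_of_nonneg_right hw (by linarith [S.nonneg])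
    _ = u := by ring

lemma norm_covD_le (x : EuclideanSpace ℝ ι) : ‖covD Gv x‖ ≤ u :=
  (intervalIntegral.norm_integral_le_of_norm_le_const fun ρ _ =>
    norm_ou_fderiv_le S.bound' ρ x).trans_eq (by simp)

lemma pg_covQ : PG (covQ (fun k => Rl.node k U0) (fun k => Rl.weight k U0) Gv) := by
  obtain ⟨-, K, m, hK, -, hb⟩ := id S.tame
  exact PG.sum _ fun k _ => (pg_ou (show PG (fderiv ℝ Gv) from
    ⟨S.tame.continuous_fderiv, K, m, hK, hb⟩) _).smul _

/-- The rule reproduces the covariance kernel. -/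
lemma l2_covQ_sub_covD_le :
    l2 (fun x => hentry (covQ (fun k => Rl.node k U0) (fun k => Rl.weight k U0) Gv x - covD Gv x)) ≤
      ε * (√(Fintype.card ι : ℝ) * u) := by
  have hε : 0 ≤ ε := (abs_nonneg _).trans (Rl.moment 0 U0)
  obtain ⟨-, K, m, hK, -, hb⟩ := id S.tame
  have hDG : PG (fderiv ℝ Gv) := ⟨S.tame.continuous_fderiv, K, m, hK, hb⟩
  set g := fun x => hentry (fderiv ℝ Gv x) with hg
  have hou : ∀ ρ x, hentry (ou ρ (fderiv ℝ Gv) x) = ou ρ g x := fun ρ x =>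
    (hentry.integral_comp_comm (integrable_slice2 hDG.1 hK hb _ _ x)).symm
  have e : ∀ x, hentry (covQ (fun k => Rl.node k U0) (fun k => Rl.weight k U0) Gv x - covD Gv x) =
      (-1 : ℝ) • (mean01 g x - ∑ k, Rl.weight k U0 • ou (Rl.node k U0) g x) := fun x => by
    rw [map_sub, covQ, map_sum, covD_eq_mean01, clm_mean01 hDG hentry x, neg_one_smul, neg_sub]
    simp only [map_smul, hou]
    rfl
  simp only [e]
  rw [l2_smul, abs_neg, abs_one, one_mul]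
  refine (rule_L2_pg Rl U0 (hDG.clm hentry)).trans (mul_le_mul_of_nonneg_left ?_ hε)
  exact l2_le_of_bound (mul_nonneg (Real.sqrt_nonneg _) S.nonneg) fun x =>
    (hn_le_op _).trans (mul_le_mul_of_nonneg_left (S.bound' x) (Real.sqrt_nonneg _))

/-- The matrix of a step is small and continuous. -/
lemma pg_mat (hε : ε ≤ 1) {q : ℕ} (hqu : 4 * (q : ℝ) * u ≤ 1) {Φ : EuclideanSpace ℝ ι → E d}
    (hΦ : Tame Φ) (hu : ∀ x, ‖fderiv ℝ Φ x‖ ≤ u) :
    PG (matM Gv (covQ (fun k => Rl.node k U0) (fun k => Rl.weight k U0) Gv) J σ q Φ) ∧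
      ∀ x, ‖matM Gv (covQ (fun k => Rl.node k U0) (fun k => Rl.weight k U0) Gv) J σ q Φ x‖ ≤ u := by
  have hb : ∀ x,
      ‖matM Gv (covQ (fun k => Rl.node k U0) (fun k => Rl.weight k U0) Gv) J σ q Φ x‖ ≤ u := by
    intro x
    refine (norm_matM_le S.small S.sigma S.sigma_inv S.norm_J (S.bound' x) (hu x)
      (S.norm_covQ_le Rl U0 hε x) q).trans ?_
    calc 4 * (q : ℝ) * u ^ 2 = 4 * q * u * u := by ring
      _ ≤ 1 * u := mul_le_mul_of_nonneg_right hqu S.nonneg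
      _ = u := one_mul u
  exact ⟨⟨continuous_matM S.tame hΦ (S.pg_covQ Rl U0).1 J σ q, u, 0, S.nonneg,
    PolyLe.of_bound hb⟩, hb⟩

/-- Two exact steps are close when the derivatives of the iterates are. -/
lemma l2_step_diff_le (hε : ε ≤ 1) {q : ℕ} (hqu : 4 * (q : ℝ) * u ≤ 1) {ρ₀ ρ₁ : ℝ}
    (h0 : ρ₀ ∈ Set.Ioo (0 : ℝ) 1) (h1 : ρ₁ ∈ Set.Ioo (0 : ℝ) 1) {R L θ : ℝ}
    (hR : ∑ k, Rl.weight k U0 * Rl.node k U0 / √(1 - (ρ₀ * Rl.node k U0) ^ 2) ≤ R)
    (hL : ∑ k, Rl.weight k U0 * (Rl.node k U0 / (1 - Rl.node k U0 * ρ₀)) ≤ L)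
    (hθu : 24 * L * q ^ 2 * u ≤ θ) {Φ Φ' : EuclideanSpace ℝ ι → E d} (hΦ : Tame Φ) (hΦ' : Tame Φ')
    (hu : ∀ x, ‖fderiv ℝ Φ x‖ ≤ u) (hu' : ∀ x, ‖fderiv ℝ Φ' x‖ ≤ u) :
    let T := fun Ψ => stepM J.adjoint σ (fun k => Rl.node k U0) (fun k => Rl.weight k U0) ρ₀ ρ₁
      (matM Gv (covQ (fun k => Rl.node k U0) (fun k => Rl.weight k U0) Gv) J σ q Ψ)
    let D := l2 fun x => hentry (fderiv ℝ (fun y => Φ y - Φ' y) x)
    l2 (fun x => T Φ x - T Φ' x) ≤ 24 * R * q ^ 2 * D ∧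
      l2 (fun x => hentry (fderiv ℝ (fun y => T Φ y - T Φ' y) x)) ≤ θ * D := by
  intro T D
  set ρ := fun k => Rl.node k U0 with hρd
  set w := fun k => Rl.weight k U0 with hwd
  set M := fun Ψ => matM Gv (covQ ρ w Gv) J σ q Ψ with hMdef
  have hu0 := S.nonneg
  have hρ : ∀ k, ρ k ∈ Set.Ico (0 : ℝ) 1 := fun k =>
    ⟨Rl.lo_nonneg.trans (Rl.node_mem k U0).1, (Rl.node_mem k U0).2.trans_lt Rl.hi_lt_one⟩
  have hw : ∀ k, 0 ≤ w k := fun k => Rl.weight_nonneg k U0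
  have hR0 : 0 ≤ R := (Finset.sum_nonneg fun k _ =>
    div_nonneg (mul_nonneg (hw k) (hρ k).1) (Real.sqrt_nonneg _)).trans hR
  have hL0 : 0 ≤ L := (Finset.sum_nonneg fun k _ => mul_nonneg (hw k) (div_nonneg (hρ k).1
    (by nlinarith [(hρ k).1, (hρ k).2, h0.1, h0.2]))).trans hL
  obtain ⟨hv, hd⟩ := l2_stepM_sub_le hρ h0 hw
    (show ‖J.adjoint‖ ≤ 1 by rw [LinearIsometryEquiv.norm_map]; exact S.norm_J)
    S.sigma hR hL h1 (S.pg_mat Rl U0 hε hqu hΦ hu).1 (S.pg_mat Rl U0 hε hqu hΦ' hu').1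
  have hMd : l2 (fun x => hentry (M Φ x - M Φ' x)) ≤ 12 * q ^ 2 * u * D := by
    rw [show 12 * (q : ℝ) ^ 2 * u * D = |12 * (q : ℝ) ^ 2 * u| * D by
      rw [abs_of_nonneg (by positivity)], ← l2_smul]
    refine l2_mono ((hΦ.sub hΦ').pg_hentry.smul _) fun x => ?_
    rw [norm_smul, Real.norm_eq_abs, abs_of_nonneg (by positivity),
      fderiv_fun_sub (hΦ.differentiable x) (hΦ'.differentiable x)]
    exact hn_matM_sub_le S.small S.sigma S.sigma_inv S.norm_J (S.bound' x) (hu x) (hu' x)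
      (S.norm_covQ_le Rl U0 hε x) q
  have hD0 : 0 ≤ D := l2_nonneg _
  refine ⟨hv.trans ?_, hd.trans ?_⟩
  · refine (mul_le_mul (mul_le_mul_of_nonneg_left S.sigma_inv hR0) hMd (l2_nonneg _)
      (by positivity)).trans ?_
    calc R * 2 * (12 * q ^ 2 * u * D) = 24 * R * q ^ 2 * D * u := by ring
      _ ≤ 24 * R * q ^ 2 * D * 1 := by gcongr; linarith [S.small]
      _ = _ := mul_one _
  · refine (mul_le_mul (mul_le_mul_of_nonneg_left S.sigma_inv hL0) hMd (l2_nonneg _)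
      (by positivity)).trans ?_
    calc L * 2 * (12 * q ^ 2 * u * D) = 24 * L * q ^ 2 * u * D := by ring
      _ ≤ _ := mul_le_mul_of_nonneg_right hθu hD0

/-- The mismatch between the smoothed matrix and the target. -/
lemma l2_mismatch_le (hε : ε ≤ 1) {q : ℕ} (hqu : 4 * (q : ℝ) * u ≤ 1) {ρ₀ ρ₁ : ℝ}
    (h0 : ρ₀ ∈ Set.Ioo (0 : ℝ) 1) (h1 : ρ₁ ∈ Set.Ioo (0 : ℝ) 1)
    {Φ : EuclideanSpace ℝ ι → E d} (hΦ : Tame Φ) (hu : ∀ x, ‖fderiv ℝ Φ x‖ ≤ u)
    {Lip : ℝ} (hLip0 : 0 ≤ Lip) (hLip : ∀ x y,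
      hn (matM Gv (covQ (fun k => Rl.node k U0) (fun k => Rl.weight k U0) Gv) J σ q Φ x -
        matM Gv (covQ (fun k => Rl.node k U0) (fun k => Rl.weight k U0) Gv) J σ q Φ y) ≤
          Lip * ‖x - y‖) :
    l2 (fun x => hentry (ρ₁ • ou (ρ₁ * ρ₀)
        (matM Gv (covQ (fun k => Rl.node k U0) (fun k => Rl.weight k U0) Gv) J σ q Φ) x -
      matM Gv (covD Gv) J σ q Φ x)) ≤
      Lip * √(2 * (1 - ρ₁ * ρ₀) * Fintype.card ι) + (1 - ρ₁) * √(d : ℝ) +
        ε * √(Fintype.card ι : ℝ) := by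
  set Q := covQ (fun k => Rl.node k U0) (fun k => Rl.weight k U0) Gv with hQd
  set c := √(Fintype.card ι : ℝ) with hc
  set Mf := matM Gv Q J σ q Φ with hMf
  have hu0 := S.nonneg
  have hε0 : 0 ≤ ε := (abs_nonneg _).trans (Rl.moment 0 U0)
  obtain ⟨hMp', hMb⟩ := S.pg_mat Rl U0 hε hqu hΦ hu
  have hml : l2 (fun x => hentry (Mf x)) ≤ √(d : ℝ) := l2_le_of_bound (Real.sqrt_nonneg _) fun x =>
    (hn_le_op _).trans (by
      rw [Fintype.card_fin]
      exact mul_le_of_le_one_right (Real.sqrt_nonneg _) ((hMb x).trans (by linarith [S.small])))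
  have hρ01 : ρ₁ * ρ₀ ∈ Set.Icc (0 : ℝ) 1 :=
    ⟨mul_nonneg h1.1.le h0.1.le, mul_le_one₀ h1.2.le h0.1.le h0.2.le⟩
  have hMp : PG Mf := hMp'
  have hC : PG (covD Gv) := by
    obtain ⟨hcc, K, k, hK, hb⟩ := polyLe_covD S.tame
    exact ⟨hcc, K, k, hK, hb⟩
  have hQC : PG fun x => hentry (Q x - covD Gv x) := ((S.pg_covQ Rl U0).sub hC).clm hentry
  have hsub : PG fun x => Mf x - ou (ρ₁ * ρ₀) Mf x := hMp.sub (pg_ou hMp _)
  set Mc := matM Gv (covD Gv) J σ q (Φ) with hMc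
  have hMcp : PG Mc := ⟨continuous_matM S.tame hΦ hC.1 J σ q,
    4 * q * u ^ 2, 0, by positivity, PolyLe.of_bound fun x => norm_matM_le S.small S.sigma
      S.sigma_inv S.norm_J (S.bound' x) (hu x) (S.norm_covD_le x) q⟩
  rw [show (fun x => hentry (ρ₁ • ou (ρ₁ * ρ₀) Mf x - Mc x)) = fun x =>
    ((-ρ₁) • hentry (Mf x - ou (ρ₁ * ρ₀) Mf x) + (ρ₁ - 1) • hentry (Mf x)) +
      hentry (Mf x - Mc x) from funext fun x => by
    simp only [map_sub, map_smul, sub_smul, smul_sub, one_smul, neg_smul]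
    abel]
  refine (l2_add (((hsub.clm hentry).smul _).add ((hMp.clm hentry).smul _))
    ((hMp.sub hMcp).clm hentry)).trans (add_le_add ((l2_add ((hsub.clm hentry).smul _)
      ((hMp.clm hentry).smul _)).trans (add_le_add ?_ ?_)) ?_)
  · rw [l2_smul, abs_neg, abs_of_pos h1.1]
    exact (mul_le_of_le_one_left (l2_nonneg _) h1.2.le).trans
      (l2_sub_ou_le hMp hLip0 hLip hρ01)
  · rw [l2_smul, abs_sub_comm, abs_of_nonneg (by linarith [h1.2])]
    exact mul_le_mul_of_nonneg_left hml (by linarith [h1.2])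
  · refine (l2_mono (hQC.smul (2 * q * u)) fun x => ?_).trans ?_
    · rw [norm_smul, Real.norm_eq_abs, abs_of_nonneg (by positivity)]
      exact hn_matM_kernel_le S.small S.sigma S.sigma_inv S.norm_J (S.bound' x)
        (hu x) q
    · rw [l2_smul, abs_of_nonneg (by positivity)]
      refine (mul_le_mul (show 2 * (q : ℝ) * u ≤ 1 by linarith)
        ((S.l2_covQ_sub_covD_le Rl U0).trans (mul_le_mul_of_nonneg_left
          (mul_le_of_le_one_right (Real.sqrt_nonneg _) (by linarith [S.small])) hε0))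
        (l2_nonneg _) zero_le_one).trans_eq (one_mul _)

end DebiasSetup

/-- The error after the iteration, with the powers of the dimension left as variables. -/
def debiasErr (d c q : ℕ) (K2 R u θ e ε ρ₀ ρ₁ Lip : ℝ) (m : ℕ) : ℝ :=
  let c₁ := (√(1 - ρ₁ ^ 2))⁻¹
  let F := 2 * (√(1 - ρ₀ ^ 2))⁻¹ * √(d : ℝ)
  let A := θ ^ m * √(c : ℝ) + 4 * c₁ * e
  24 * R * q ^ 2 * A + e + ε * F + K2 * (√(d : ℝ) * 2) * (A + c₁ * e + c₁ * (ε * F)) +
    K2 * ((d : ℝ) * (2 * u) ^ (q + 2)) +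
    K2 * (√(d : ℝ) * 2 * (Lip * √(2 * (1 - ρ₁ * ρ₀) * c) + (1 - ρ₁) * √(d : ℝ) + ε * √(c : ℝ)))

variable {U : EuclideanSpace ℝ ι →L[ℝ] E d} {J : E d →L[ℝ] EuclideanSpace ℝ ι} {σ : ℝ}
  {Gv : EuclideanSpace ℝ ι → E d} {u : ℝ}

/-- The derivatives of successive iterates decrease geometrically up to the error of a step. -/
lemma deriv_diff_le {Φs T : ℕ → EuclideanSpace ℝ ι → E d} {m : ℕ} {θ e c₁ : ℝ} (hθ0 : 0 ≤ θ)
    (hθ : θ ≤ 1 / 2) (hce : 0 ≤ c₁ * e) (hΦ : ∀ j ≤ m + 1, Tame (Φs j))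
    (hTt : ∀ j ≤ m + 1, Tame (T j)) (hz : ∀ x, Φs 0 x = 0) (hu1 : ∀ x, ‖fderiv ℝ (Φs 1) x‖ ≤ 1)
    (hTM : ∀ j ≤ m, l2 (fun x => hentry (fderiv ℝ (fun y => T (j + 1) y - T j y) x)) ≤
      θ * l2 fun x => hentry (fderiv ℝ (fun y => Φs (j + 1) y - Φs j y) x))
    (herr : ∀ j ≤ m, l2 (fun x => hentry (fderiv ℝ (fun y => T j y - Φs (j + 1) y) x)) ≤ c₁ * e) :
    ∀ j ≤ m, l2 (fun x => hentry (fderiv ℝ (fun y => Φs (j + 1) y - Φs j y) x)) ≤
      θ ^ j * √(Fintype.card ι : ℝ) + 4 * c₁ * e := by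
  set c := √(Fintype.card ι : ℝ) with hc
  intro j
  induction j with
  | zero =>
    intro _
    have h : ∀ x, ‖hentry (fderiv ℝ (fun y => Φs (0 + 1) y - Φs 0 y) x)‖ ≤ c := fun x => by
      simp only [hz, sub_zero, zero_add]
      refine (hn_le_op _).trans ?_
      calc c * ‖fderiv ℝ (Φs 1) x‖ ≤ c * 1 :=
            mul_le_mul_of_nonneg_left (hu1 x)
              (Real.sqrt_nonneg _)
        _ = c := mul_one c
    refine (l2_le_of_bound (Real.sqrt_nonneg _) h).trans ?_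
    rw [pow_zero, one_mul]
    exact le_add_of_nonneg_right (by linarith)
  | succ j ih =>
    intro hj
    have hj' : j ≤ m := by omega
    have t1 := hΦ (j + 1) (by omega)
    have t2 := hΦ (j + 1 + 1) (by omega)
    have t3 := hTt j (by omega)
    have t4 := hTt (j + 1) (by omega)
    have e1 : (fun x => hentry (fderiv ℝ (fun y => Φs (j + 1 + 1) y - Φs (j + 1) y) x)) = fun x =>
        ((-1 : ℝ) • hentry (fderiv ℝ (fun y => T (j + 1) y - Φs (j + 1 + 1) y) x) +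
          hentry (fderiv ℝ (fun y => T (j + 1) y - T j y) x)) +
          hentry (fderiv ℝ (fun y => T j y - Φs (j + 1) y) x) := funext fun x => by
      rw [fderiv_fun_sub (t2.differentiable x) (t1.differentiable x),
        fderiv_fun_sub (t4.differentiable x) (t2.differentiable x),
        fderiv_fun_sub (t4.differentiable x) (t3.differentiable x),
        fderiv_fun_sub (t3.differentiable x) (t1.differentiable x), ← map_smul, ← map_add,
        ← map_add]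
      congr 1
      simp only [neg_one_smul]
      abel
    simp only [e1]
    refine (l2_add (((t4.sub t2).pg_hentry.smul _).add (t4.sub t3).pg_hentry)
      (t3.sub t1).pg_hentry).trans ((add_le_add ((l2_add ((t4.sub t2).pg_hentry.smul _)
        (t4.sub t3).pg_hentry).trans (add_le_add (b := c₁ * e) ?_ (hTM j hj'))) (herr j hj')).trans ?_)
    · rw [l2_smul, abs_neg, abs_one, one_mul]; exact (herr (j + 1) hj)
    · have h4 := mul_le_mul_of_nonneg_left (ih hj') hθ0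
      have h5 := mul_le_mul_of_nonneg_right hθ (show 0 ≤ 4 * c₁ * e by linarith)
      have h6 : θ ^ (j + 1) * c = θ * (θ ^ j * c) := by ring
      linarith [mul_add θ (θ ^ j * c) (4 * c₁ * e)]

/-- Approximate Picard iterates compensate the noise of a binder. -/
theorem debias_semantic (S : DebiasSetup U J σ Gv u) {n : ℕ} {ε : ℝ} (Rl : Rule n ε) (U0 : ℝ)
    (hε : ε ≤ 1) {q : ℕ} (hqu : 4 * (q : ℝ) * u ≤ 1) {ρ₀ ρ₁ : ℝ}
    (h0 : ρ₀ ∈ Set.Ioo (0 : ℝ) 1) (h1 : ρ₁ ∈ Set.Ioo (0 : ℝ) 1) {R L θ : ℝ}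
    (hR : ∑ k, Rl.weight k U0 * Rl.node k U0 / √(1 - (ρ₀ * Rl.node k U0) ^ 2) ≤ R)
    (hL : ∑ k, Rl.weight k U0 * (Rl.node k U0 / (1 - Rl.node k U0 * ρ₀)) ≤ L)
    (hθu : 24 * L * q ^ 2 * u ≤ θ) (hθ : θ ≤ 1 / 2) {m : ℕ} {Φs : ℕ → EuclideanSpace ℝ ι → E d}
    (hΦ : ∀ j ≤ m + 1, Tame (Φs j)) (hz : ∀ x, Φs 0 x = 0)
    (hu : ∀ j ≤ m + 1, ∀ x, ‖fderiv ℝ (Φs j) x‖ ≤ u) {e : ℝ}
    (hstep : ∀ j ≤ m, ∃ g : EuclideanSpace ℝ ι → E d, PG g ∧ Φs (j + 1) = ou ρ₁ g ∧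
      l2 (fun x => g x - preM J.adjoint σ (fun k => Rl.node k U0) (fun k => Rl.weight k U0) ρ₀
        (matM Gv (covQ (fun k => Rl.node k U0) (fun k => Rl.weight k U0) Gv) J σ q (Φs j)) x) ≤ e)
    {Lip : ℝ} (hLip0 : 0 ≤ Lip) (hLip : ∀ x y,
      hn (matM Gv (covQ (fun k => Rl.node k U0) (fun k => Rl.weight k U0) Gv) J σ q (Φs (m + 1)) x -
        matM Gv (covQ (fun k => Rl.node k U0) (fun k => Rl.weight k U0) Gv) J σ q (Φs (m + 1)) y) ≤
          Lip * ‖x - y‖)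
    (K2 : ℝ) (hK2 : 0 ≤ K2) :
    SteinLeAt (gau ι)
      (fun x => pt U (fun x => Gv x + Φs (m + 1) x) 0 x - ∫ x, Gv x ∂gau ι) K2
      (debiasErr d (Fintype.card ι) q K2 R u θ e ε ρ₀ ρ₁ Lip m) := by
  intro φ hφ hφ1 hφ2
  set ρ := fun k => Rl.node k U0 with hρd
  set w := fun k => Rl.weight k U0 with hwd
  set P := J.adjoint with hP
  set Q := covQ ρ w Gv with hQd
  set M := fun j => matM Gv Q J σ q (Φs j) with hMd
  set c := √(Fintype.card ι : ℝ) with hc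
  set c₁ := (√(1 - ρ₁ ^ 2))⁻¹ with hc₁
  set T := fun j => stepM P σ ρ w ρ₀ ρ₁ (M j) with hTd
  have hu0 := S.nonneg
  have he0 : 0 ≤ e := by
    obtain ⟨g, -, -, he⟩ := hstep 0 (Nat.zero_le m)
    exact (l2_nonneg _).trans he
  have hε0 : 0 ≤ ε := (abs_nonneg _).trans (Rl.moment 0 U0)
  have hρ : ∀ k, ρ k ∈ Set.Ico (0 : ℝ) 1 := fun k =>
    ⟨Rl.lo_nonneg.trans (Rl.node_mem k U0).1, (Rl.node_mem k U0).2.trans_lt Rl.hi_lt_one⟩
  have hw : ∀ k, 0 ≤ w k := fun k => Rl.weight_nonneg k U0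
  have hPn : ‖P‖ ≤ 1 := by rw [hP, LinearIsometryEquiv.norm_map]; exact S.norm_J
  have hR0 : 0 ≤ R := (Finset.sum_nonneg fun k _ =>
    div_nonneg (mul_nonneg (hw k) (hρ k).1) (Real.sqrt_nonneg _)).trans hR
  have hL0 : 0 ≤ L := (Finset.sum_nonneg fun k _ => mul_nonneg (hw k) (div_nonneg (hρ k).1
    (by nlinarith [(hρ k).1, (hρ k).2, h0.1, h0.2]))).trans hL
  have hθ0 : 0 ≤ θ := le_trans (by positivity) hθu
  have h1sq : ρ₁ ^ 2 < 1 := pow_lt_one₀ h1.1.le h1.2 two_ne_zero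
  have hc₁0 : 0 ≤ c₁ := by positivity
  have hMb : ∀ j ≤ m + 1, ∀ x, ‖M j x‖ ≤ u := fun j hj x => by
    refine (norm_matM_le S.small S.sigma S.sigma_inv S.norm_J (S.bound' x) (hu j hj x)
      (S.norm_covQ_le Rl U0 hε x) q).trans ?_
    calc 4 * (q : ℝ) * u ^ 2 = 4 * q * u * u := by ring
      _ ≤ 1 * u := mul_le_mul_of_nonneg_right hqu hu0
      _ = u := one_mul u
  have hM : ∀ j ≤ m + 1, PG (M j) := fun j hj =>
    ⟨continuous_matM S.tame (hΦ j hj) (S.pg_covQ Rl U0).1 J σ q, u, 0, hu0,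
      PolyLe.of_bound (hMb j hj)⟩
  have hTt : ∀ j ≤ m + 1, Tame (T j) := fun j hj => tame_ou_growth (pg_preM (hM j hj)) h1sq
  -- the differences of the derivatives
  set D := fun j => l2 (fun x => hentry (fderiv ℝ (fun y => Φs (j + 1) y - Φs j y) x)) with hDd
  have hTM : ∀ j ≤ m,
      l2 (fun x => T (j + 1) x - T j x) ≤ 24 * R * q ^ 2 * D j ∧
      l2 (fun x => hentry (fderiv ℝ (fun y => T (j + 1) y - T j y) x)) ≤ θ * D j := fun j hj =>
    S.l2_step_diff_le Rl U0 hε hqu h0 h1 hR hL hθu (hΦ (j + 1) (by omega)) (hΦ j (by omega))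
      (hu (j + 1) (by omega)) (hu j (by omega))
  have herr : ∀ j ≤ m, l2 (fun x => T j x - Φs (j + 1) x) ≤ e ∧
      l2 (fun x => hentry (fderiv ℝ (fun y => T j y - Φs (j + 1) y) x)) ≤ c₁ * e := by
    intro j hj
    obtain ⟨g, hg, hgj, hge⟩ := hstep j hj
    have hpre := pg_preM (P := P) (σ := σ) (ρ := ρ) (w := w) (ρ₀ := ρ₀) (hM j (by omega))
    have hgd : l2 (fun x => preM P σ ρ w ρ₀ (M j) x - g x) ≤ e := by
      refine le_of_eq_of_le ?_ hge
      simp only [l2, norm_sub_rev]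
      rfl
    obtain ⟨hv, hd⟩ := l2_ou_diff_le (hpre.sub hg) ⟨h1.1.le, h1.2⟩ hgd
    have e1 : (fun x => T j x - Φs (j + 1) x) = ou ρ₁ fun x => preM P σ ρ w ρ₀ (M j) x - g x :=
      funext fun x => by rw [hgj, ou_sub_pg hpre hg]; rfl
    rw [e1]
    exact ⟨hv, hd⟩
  have hrec : ∀ j ≤ m, D j ≤ θ ^ j * c + 4 * c₁ * e :=
    deriv_diff_le hθ0 hθ (by positivity) hΦ hTt hz (fun x => (hu 1 (by omega) x).trans (by linarith [S.small]))
      (fun j hj => (hTM j hj).2) fun j hj => (herr j hj).2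
  -- the residual at the last iterate
  set A := θ ^ m * c + 4 * c₁ * e with hA
  have hDm : D m ≤ A := hrec m le_rfl
  have hV : l2 (fun x => T (m + 1) x - Φs (m + 1) x) ≤ 24 * R * q ^ 2 * A + e := by
    rw [show (fun x => T (m + 1) x - Φs (m + 1) x) = fun x => (T (m + 1) x - T m x) +
      (T m x - Φs (m + 1) x) from funext fun x => by abel]
    refine (l2_add (PG.of_tame ((hTt (m + 1) le_rfl).sub (hTt m (by omega))))
      (PG.of_tame ((hTt m (by omega)).sub (hΦ (m + 1) le_rfl)))).trans (add_le_add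
        ((hTM m le_rfl).1.trans (mul_le_mul_of_nonneg_left hDm (by positivity))) (herr m le_rfl).1)
  have hDb : l2 (fun x => hentry (fderiv ℝ (fun y => T (m + 1) y - Φs (m + 1) y) x)) ≤
      A + c₁ * e := by
    have t1 := hΦ (m + 1) le_rfl
    have t3 := hTt m (by omega)
    have t4 := hTt (m + 1) le_rfl
    rw [show (fun x => hentry (fderiv ℝ (fun y => T (m + 1) y - Φs (m + 1) y) x)) = fun x =>
        hentry (fderiv ℝ (fun y => T (m + 1) y - T m y) x) +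
          hentry (fderiv ℝ (fun y => T m y - Φs (m + 1) y) x) from funext fun x => by
      rw [fderiv_fun_sub (t4.differentiable x) (t1.differentiable x),
        fderiv_fun_sub (t4.differentiable x) (t3.differentiable x),
        fderiv_fun_sub (t3.differentiable x) (t1.differentiable x), ← map_add]
      congr 1
      abel]
    refine (l2_add ((t4.sub t3).pg_hentry) ((t3.sub t1).pg_hentry)).trans (add_le_add
      ((hTM m le_rfl).2.trans ?_) (herr m le_rfl).2)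
    calc θ * D m ≤ 1 * A := mul_le_mul (hθ.trans (by norm_num)) hDm (l2_nonneg _) zero_le_one
      _ = A := one_mul A
  set Mf := M (m + 1) with hMf
  have hMh : ∀ x, ‖hentry (Mf x)‖ ≤ √(d : ℝ) := fun x => by
    refine (hn_le_op _).trans ?_
    rw [Fintype.card_fin]
    exact mul_le_of_le_one_right (Real.sqrt_nonneg _)
      ((hMb (m + 1) le_rfl x).trans (by linarith [S.small]))
  have hml : l2 (fun x => hentry (Mf x)) ≤ √(d : ℝ) := l2_le_of_bound (Real.sqrt_nonneg _) hMh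
  have hmat := S.l2_mismatch_le Rl U0 hε hqu h0 h1 (hΦ (m + 1) le_rfl) (hu (m + 1) le_rfl)
    hLip0 hLip
  -- the test
  set m0 := ∫ x, Gv x ∂gau ι with hm0
  set f := fun y => φ (-m0 + y) with hf
  have hfd : fderiv ℝ f = fun y => fderiv ℝ φ (-m0 + y) := funext fun y => fderiv_comp_add_left _
  have hf2 : ∀ y, fderiv ℝ (fderiv ℝ f) y = fderiv ℝ (fderiv ℝ φ) (-m0 + y) := fun y => by
    rw [hfd]; exact fderiv_comp_add_left _
  have hgen : ∀ y, steinOp φ (y - m0) = genOp f 0 m0 (fun _ => 0) y := fun y => by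
    simp only [steinOp, genOp, hf2]
    simp only [hfd, neg_add_eq_sub, sub_zero, add_zero,
      EuclideanSpace.basisFun_apply]
  simp only [hgen]
  have key := debias_residual (f := f) (hφ.comp (contDiff_const.add contDiff_id))
    (fun y => by rw [hfd]; exact hφ1 _) (fun y => by rw [hf2]; exact hφ2 _) S.unit S.norm_U
    S.tame (hΦ (m + 1) le_rfl) S.orth S.norm_J S.sigma S.sigma_inv S.cross S.layer S.small
    S.bound' (hu (m + 1) le_rfl) Rl U0 q h0 h1 (hM (m + 1) le_rfl) hV hDb hmat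
  refine key.trans ?_
  have hcov : ∫ x, ‖covD Gv x‖ ∂gau ι ≤ u :=
    (integral_mono_of_nonneg (ae_of_all _ fun x => norm_nonneg _) (integrable_const u)
      (ae_of_all _ fun x => S.norm_covD_le x)).trans_eq (by simp)
  have hF : 2 * (√(1 - ρ₀ ^ 2))⁻¹ * l2 (fun x => hentry (Mf x)) ≤
      2 * (√(1 - ρ₀ ^ 2))⁻¹ * √(d : ℝ) := mul_le_mul_of_nonneg_left hml (by positivity)
  have hpow : (u + ∫ x, ‖covD Gv x‖ ∂gau ι) * (2 * u) * (2 * u) ^ q ≤ (2 * u) ^ (q + 2) := by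
    rw [show (2 * u) ^ (q + 2) = (2 * u) * (2 * u) * (2 * u) ^ q by ring]
    gcongr
    linarith
  unfold debiasErr
  simp only [← hc₁, ← hc, ← hA]
  gcongr

end

end Vale.Agent.P347
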