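import Vale.Agent.P347Zero.Field
import Vale.Agent.P347.Smooth

/-!
P347 (exponent zero): combinators for samplers which are correct up to Lipschitz test functions.

`SmpT d q T e` is the notion `Smp` with the Gaussian target replaced by any functional `T` of the
test function. Two samplers can be run in turn, the second at a point drawn by the first.
-/

open MeasureTheory ProbabilityTheory Real
open scoped RealInnerProductSpace

namespace Vale.Agent.P347

variable {d q q' : ℕ} {α α' : Type} [MeasurableSpace α] [MeasurableSpace α']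

/-- A test function: bounded, once continuously differentiable and `1`-Lipschitz. -/
def IsTest {d : ℕ} (v : E d → ℝ) : Prop :=
  ContDiff ℝ 1 v ∧ (∃ K, ∀ x, |v x| ≤ K) ∧ ∀ x, ‖fderiv ℝ v x‖ ≤ 1

/-- With `q` queries one can draw from a law which agrees with the target `T` up to `e` on test
functions. -/
def SmpT (d q : ℕ) {α : Type} [MeasurableSpace α] (T : (E d → ℝ) → α → (E d → ℝ) → ℝ) (e : α → ℝ) :
    Prop :=
  ∃ (S : Type) (_ : MeasurableSpace S) (_ : StandardBorelSpace S) (law : Measure S)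
    (_ : IsProbabilityMeasure law) (F : (E d → ℝ) → α × S → E d),
    (∀ (β : Type) [MeasurableSpace β] (g : β → α × S), Measurable g →
      Comp d q fun V x => (x, F V (g x))) ∧
      ∀ V, InClass d V → ∀ a, ∀ v : E d → ℝ, ContDiff ℝ 1 v → (∃ K, ∀ x, |v x| ≤ K) →
        (∀ x, ‖fderiv ℝ v x‖ ≤ 1) →
        |(∫ s, v (F V (a, s)) ∂law) - T V a v| ≤ e a

/-- The Gaussian target of mean `m` and unit covariance. -/
noncomputable def gTarget {d : ℕ} {α : Type} (m : (E d → ℝ) → α → E d) :
    (E d → ℝ) → α → (E d → ℝ) → ℝ :=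
  fun V a v => ∫ w, v (m V a + w) ∂gau (Fin d)

theorem smp_iff {m : (E d → ℝ) → α → E d} {e : α → ℝ} :
    Smp d q m e ↔ SmpT d q (gTarget m) e := Iff.rfl

theorem Comp.mono {β : Type} [MeasurableSpace β] {F : (E d → ℝ) → α → β} (h : Comp d q F)
    (hq : q ≤ q') : Comp d q' F :=
  ⟨h.1, fun q₀ L hL => (h.2 q₀ L hL).mono (by omega)⟩

/-- More queries, a larger error and a nearby target. -/
theorem SmpT.weaken {T T' : (E d → ℝ) → α → (E d → ℝ) → ℝ} {e e' η : α → ℝ} (h : SmpT d q T e)
    (hq : q ≤ q') (hT : ∀ V, InClass d V → ∀ a, ∀ v : E d → ℝ, IsTest v →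
      |T V a v - T' V a v| ≤ η a) (he : ∀ a, e a + η a ≤ e' a) : SmpT d q' T' e' := by
  obtain ⟨S, _, _, law, _, F, hF, herr⟩ := h
  refine ⟨S, inferInstance, inferInstance, law, inferInstance, F,
    fun β _ g hg => (hF β g hg).mono hq, fun V hV a v hv hb hl => ?_⟩
  exact (abs_sub_le _ (T V a v) _).trans
    ((add_le_add (herr V hV a v hv hb hl) (hT V hV a v ⟨hv, hb, hl⟩)).trans (he a))

/-- More queries and a larger error. -/
theorem Smp.mono {m : (E d → ℝ) → α → E d} {e e' : α → ℝ} (h : Smp d q m e) (hq : q ≤ q')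
    (he : ∀ a, e a ≤ e' a) : Smp d q' m e' :=
  SmpT.weaken (η := fun _ => 0) h hq (fun _ _ _ _ _ => by rw [sub_self, abs_zero])
    (fun a => by linarith [he a])

/-- A sampler only sees the mean on the class. -/
theorem Smp.congr {m m' : (E d → ℝ) → α → E d} {e : α → ℝ} (h : Smp d q m e)
    (hm : ∀ V, InClass d V → ∀ a, m V a = m' V a) : Smp d q m' e :=
  SmpT.weaken (η := fun _ => 0) h le_rfl
    (fun V hV a _ _ => le_of_eq (by simp [hm V hV a])) (fun a => (add_zero _).le)

/-- Pre-composition. -/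
theorem SmpT.comap {T : (E d → ℝ) → α → (E d → ℝ) → ℝ} {e : α → ℝ} (h : SmpT d q T e)
    {f : α' → α} (hf : Measurable f) : SmpT d q (fun V b => T V (f b)) (fun b => e (f b)) := by
  obtain ⟨S, _, _, law, _, F, hF, herr⟩ := h
  exact ⟨S, inferInstance, inferInstance, law, inferInstance, fun V p => F V (f p.1, p.2),
    fun β _ g hg => hF β (fun x => (f (g x).1, (g x).2))
      ((hf.comp (measurable_fst.comp hg)).prodMk (measurable_snd.comp hg)),
    fun V hV b v hv hb hl => herr V hV (f b) v hv hb hl⟩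

/-- Pre-composition. -/
theorem Smp.comap {m : (E d → ℝ) → α → E d} {e : α → ℝ} (h : Smp d q m e)
    {f : α' → α} (hf : Measurable f) : Smp d q (fun V b => m V (f b)) (fun b => e (f b)) :=
  SmpT.comap (smp_iff.1 h) hf

/-- A computable mean is sampled exactly. -/
theorem Smp.exact {m : (E d → ℝ) → α → E d}
    (hm : ∀ (β : Type) [MeasurableSpace β] (g : β → α), Measurable g →
      Comp d q fun V x => (x, m V (g x))) : Smp d q m fun _ => 0 := by
  refine ⟨E d, inferInstance, inferInstance, gau (Fin d), inferInstance,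
    fun V p => m V p.1 + p.2, fun β _ g hg => ?_, fun V _ a v _ _ _ => ?_⟩
  · exact (hm β (fun x => (g x).1) (measurable_fst.comp hg)).trans
      (Comp.const (f := fun y : β × E d => (y.1, y.2 + (g y.1).2))
        (measurable_fst.prodMk (measurable_snd.add
          (measurable_snd.comp (hg.comp measurable_fst)))))
  · rw [sub_self, abs_zero]

/-- A known mean costs no query. -/
theorem Smp.known {f : α → E d} (hf : Measurable f) : Smp d 0 (fun _ => f) fun _ => 0 :=
  Smp.exact fun _ _ _ hg => Comp.const (measurable_id.prodMk (hf.comp hg))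

/-! ### Test functions -/

section tests

variable {v : E d → ℝ} {S : Type} [MeasurableSpace S] {μ : Measure S} [IsProbabilityMeasure μ]

lemma integrable_comp_bdd {K : ℝ} (hv : Continuous v) (hb : ∀ x, |v x| ≤ K) {X : S → E d}
    (hX : Measurable X) : Integrable (fun s => v (X s)) μ :=
  Integrable.of_bound (hv.measurable.comp hX).aestronglyMeasurable K
    (ae_of_all _ fun s => by simpa using hb (X s))

lemma measurable_of_frame {F : (E d → ℝ) → α × S → E d}
    (hF : ∀ (β : Type) [MeasurableSpace β] (g : β → α × S), Measurable g →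
      Comp d q fun V x => (x, F V (g x))) {V : E d → ℝ} (hV : ContDiff ℝ 2 V) (a : α) :
    Measurable fun s => F V (a, s) :=
  (measurable_snd.comp ((hF _ id measurable_id).1 V hV)).comp
    (measurable_const.prodMk measurable_id)

/-- A bound for test functions with any Lipschitz constant. -/
lemma lip_test_prod {S' : Type} [MeasurableSpace S'] {μ' : Measure S'} [IsProbabilityMeasure μ']
    {X : S → E d} {Y : S' → E d} {e : ℝ}
    (h : ∀ v : E d → ℝ, ContDiff ℝ 1 v → (∃ K, ∀ x, |v x| ≤ K) →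
      (∀ x, ‖fderiv ℝ v x‖ ≤ 1) → |(∫ s, v (X s) ∂μ) - ∫ s, v (Y s) ∂μ'| ≤ e)
    (hv : ContDiff ℝ 1 v) {K L : ℝ} (hb : ∀ x, |v x| ≤ K) (hl : ∀ x, ‖fderiv ℝ v x‖ ≤ L) :
    |(∫ s, v (X s) ∂μ) - ∫ s, v (Y s) ∂μ'| ≤ L * e := by
  rcases eq_or_lt_of_le ((norm_nonneg _).trans (hl 0)) with rfl | hL
  · have hc : ∀ x, v x = v 0 := fun x =>
      is_const_of_fderiv_eq_zero (hv.differentiable one_ne_zero)
        (fun y => norm_le_zero_iff.1 (hl y)) x 0
    simp [hc]
  · have h' := h (fun x => L⁻¹ * v x) (contDiff_const.mul hv)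
      ⟨L⁻¹ * K, fun x => by
        rw [abs_mul, abs_of_pos (inv_pos.2 hL)]
        exact mul_le_mul_of_nonneg_left (hb x) (inv_pos.2 hL).le⟩
      fun x => by
        rw [fderiv_const_mul ((hv.differentiable one_ne_zero) x), norm_smul, Real.norm_eq_abs,
          abs_of_pos (inv_pos.2 hL), inv_mul_le_iff₀ hL, mul_one]
        exact hl x
    rw [integral_const_mul, integral_const_mul, ← mul_sub, abs_mul, abs_of_pos (inv_pos.2 hL),
      inv_mul_le_iff₀ hL] at h'
    exact h'

lemma contDiff_Psm_test (hv : ContDiff ℝ 1 v) {L : ℝ} (hl : ∀ x, ‖fderiv ℝ v x‖ ≤ L) (t : ℝ) :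
    ContDiff ℝ 1 (Psm t v) ∧ ∀ x, ‖fderiv ℝ (Psm t v) x‖ ≤ L := by
  have hd := hv.differentiable one_ne_zero
  have hc : Continuous (fderiv ℝ v) := hv.continuous_fderiv one_ne_zero
  refine ⟨contDiff_one_iff_fderiv.2
    ⟨fun x => (hasFDerivAt_Psm_comm hd hl x).differentiableAt, ?_⟩, fun x => ?_⟩
  · rw [funext (fderiv_Psm_comm (t := t) hd hl)]
    refine continuous_of_dominated (fun x => (hc.comp (by fun_prop)).aestronglyMeasurable)
      (fun x => ae_of_all _ fun g => hl _) (integrable_const L)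
      (ae_of_all _ fun g => hc.comp (by fun_prop))
  · rw [fderiv_Psm_comm hd hl x]
    exact norm_Psm_le hl x

lemma Psm_one_eq (x : E d) : Psm 1 v x = ∫ w, v (x + w) ∂gau (Fin d) := by
  simp [Psm]

lemma integral_gau_neg {f : E d → ℝ} (hf : Continuous f) :
    ∫ w, f (-w) ∂gau (Fin d) = ∫ w, f w ∂gau (Fin d) := by
  rw [← integral_comb (c := -1) (s := 0) (by norm_num) hf]
  simp only [neg_one_smul, zero_smul, add_zero]
  exact ((integral_fun_fst (ν := gau (Fin d)) fun w => f (-w)).trans (by simp)).symm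

/-- The mean of a bounded function. -/
lemma abs_integral_le {f : S → ℝ} {K : ℝ} (hf : ∀ s, |f s| ≤ K) : |∫ s, f s ∂μ| ≤ K := by
  have := norm_integral_le_of_norm_le_const (μ := μ) (C := K)
    (ae_of_all _ fun s => show ‖f s‖ ≤ K from hf s)
  simpa using this

end tests

/-- A random estimate of the mean gives a sampler of its multiples. -/
theorem Smp.of_estimate {m : (E d → ℝ) → α → E d} {e : α → ℝ} (S : Type) [MeasurableSpace S]
    [StandardBorelSpace S] (law : Measure S) [IsProbabilityMeasure law]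
    (H : (E d → ℝ) → α × S → E d)
    (hH : ∀ (β : Type) [MeasurableSpace β] (g : β → α × S), Measurable g →
      Comp d q fun V x => (x, H V (g x)))
    (hi : ∀ V, InClass d V → ∀ a, Integrable (fun s => ‖H V (a, s) - m V a‖) law)
    (he : ∀ V, InClass d V → ∀ a, ∫ s, ‖H V (a, s) - m V a‖ ∂law ≤ e a) (c : ℝ) :
    Smp d q (fun V a => c • m V a) fun a => |c| * e a := by
  refine ⟨S × E d, inferInstance, inferInstance, law.prod (gau (Fin d)), inferInstance,
    fun V p => c • H V (p.1, p.2.1) + p.2.2, fun β _ g hg => ?_, fun V hV a v hv hb hl => ?_⟩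
  · exact (hH β (fun x => ((g x).1, (g x).2.1))
      ((measurable_fst.comp hg).prodMk (measurable_fst.comp (measurable_snd.comp hg)))).trans
        (Comp.const (f := fun z : β × E d => (z.1, c • z.2 + (g z.1).2.2))
          (measurable_fst.prodMk ((measurable_snd.const_smul c).add
            ((measurable_snd.comp (measurable_snd.comp hg)).comp measurable_fst))))
  · obtain ⟨K, hK⟩ := hb
    have hX := measurable_of_frame hH hV.1 a
    have hint : Integrable (fun p : S × E d => v (c • H V (a, p.1) + p.2))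
        (law.prod (gau (Fin d))) :=
      Integrable.of_bound (hv.continuous.measurable.comp (((hX.comp measurable_fst).const_smul c).add
        measurable_snd)).aestronglyMeasurable K (ae_of_all _ fun p => hK _)
    obtain ⟨hP, hPl⟩ := contDiff_Psm_test hv hl 1
    have hPb : ∀ x, |Psm 1 v x| ≤ K := fun x => abs_integral_le fun w => hK _
    show |(∫ p : S × E d, v (c • H V (a, p.1) + p.2) ∂law.prod (gau (Fin d))) - _| ≤ _
    rw [integral_prod _ hint]
    simp only [← Psm_one_eq]
    calc |(∫ s, Psm 1 v (c • H V (a, s)) ∂law) - Psm 1 v (c • m V a)|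
        = |∫ s, (Psm 1 v (c • H V (a, s)) - Psm 1 v (c • m V a)) ∂law| := by
          have hI : Integrable (fun s => Psm 1 v (c • H V (a, s))) law :=
            integrable_comp_bdd hP.continuous hPb (hX.const_smul c)
          rw [integral_sub hI (integrable_const _)]
          simp
      _ ≤ ∫ s, |Psm 1 v (c • H V (a, s)) - Psm 1 v (c • m V a)| ∂law := abs_integral_le_integral_abs
      _ ≤ ∫ s, |c| * ‖H V (a, s) - m V a‖ ∂law := by
          refine integral_mono_of_nonneg (ae_of_all _ fun s => abs_nonneg _) ((hi V hV a).const_mul _)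
            (ae_of_all _ fun s => ?_)
          refine (Convex.norm_image_sub_le_of_norm_fderiv_le (𝕜 := ℝ)
            (fun z _ => (hP.differentiable one_ne_zero) z) (fun z _ => hPl z) convex_univ
            (Set.mem_univ (c • m V a)) (Set.mem_univ (c • H V (a, s)))).trans ?_
          rw [one_mul, ← smul_sub, norm_smul, Real.norm_eq_abs]
      _ ≤ |c| * e a := by
          rw [integral_const_mul]
          exact mul_le_mul_of_nonneg_left (he V hV a) (abs_nonneg c)

/-! ### Two samplers -/

/-- Independent samples combined with weights of squares adding to one: the variance split. -/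
theorem Smp.add {q₁ q₂ : ℕ} {m₁ m₂ : (E d → ℝ) → α → E d} {e₁ e₂ : α → ℝ}
    (h₁ : Smp d q₁ m₁ e₁) (h₂ : Smp d q₂ m₂ e₂) {c₁ c₂ : ℝ} (hc : c₁ ^ 2 + c₂ ^ 2 = 1) :
    Smp d (q₁ + q₂) (fun V a => c₁ • m₁ V a + c₂ • m₂ V a)
      fun a => |c₁| * e₁ a + |c₂| * e₂ a := by
  obtain ⟨S₁, _, _, l₁, _, F₁, hF₁, herr₁⟩ := h₁
  obtain ⟨S₂, _, _, l₂, _, F₂, hF₂, herr₂⟩ := h₂
  refine ⟨S₁ × S₂, inferInstance, inferInstance, l₁.prod l₂, inferInstance,
    fun V p => c₁ • F₁ V (p.1, p.2.1) + c₂ • F₂ V (p.1, p.2.2), fun β _ g hg => ?_,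
    fun V hV a v hv hb hl => ?_⟩
  · have k1 := hF₁ β (fun x => ((g x).1, (g x).2.1))
      ((measurable_fst.comp hg).prodMk (measurable_fst.comp (measurable_snd.comp hg)))
    have k2 := hF₂ (β × E d) (fun y => ((g y.1).1, (g y.1).2.2))
      (((measurable_fst.comp hg).comp measurable_fst).prodMk
        ((measurable_snd.comp (measurable_snd.comp hg)).comp measurable_fst))
    exact k1.trans (k2.trans (Comp.const
      (f := fun z : (β × E d) × E d => (z.1.1, c₁ • z.1.2 + c₂ • z.2)) (by fun_prop)))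
  · obtain ⟨K, hK⟩ := hb
    have hX₁ := measurable_of_frame hF₁ hV.1 a
    have hX₂ := measurable_of_frame hF₂ hV.1 a
    set X₁ := fun s => F₁ V (a, s) with hX₁d
    set X₂ := fun s => F₂ V (a, s) with hX₂d
    set u₂ : E d → E d → ℝ := fun x y => v (c₁ • x + c₂ • y)
    set u₁ : E d → ℝ := fun x => Psm (c₂ ^ 2) v (c₁ • x + c₂ • m₂ V a)
    have hu₂ : ∀ x, |(∫ s, u₂ x (X₂ s) ∂l₂) - ∫ w, u₂ x (m₂ V a + w) ∂gau (Fin d)| ≤
        |c₂| * e₂ a := fun x => by
      have hd : ∀ y, HasFDerivAt (u₂ x)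
          ((fderiv ℝ v (c₁ • x + c₂ • y)).comp (c₂ • ContinuousLinearMap.id ℝ (E d))) y :=
        fun y => ((hv.differentiable one_ne_zero) _).hasFDerivAt.comp y
          (((hasFDerivAt_id y).const_smul c₂).const_add (c₁ • x))
      have hc2 : ContDiff ℝ 1 (u₂ x) := hv.comp (contDiff_const.add (contDiff_id.const_smul c₂))
      refine lip_test_prod (herr₂ V hV a) hc2 (fun y => hK _) fun y => ?_
      rw [(hd y).fderiv, ContinuousLinearMap.comp_smul, ContinuousLinearMap.comp_id, norm_smul,
        Real.norm_eq_abs]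
      exact mul_le_of_le_one_right (abs_nonneg _) (hl _)
    obtain ⟨hP, hPl⟩ := contDiff_Psm_test hv hl (c₂ ^ 2)
    have hu₁ : |(∫ s, u₁ (X₁ s) ∂l₁) - ∫ w, u₁ (m₁ V a + w) ∂gau (Fin d)| ≤ |c₁| * e₁ a := by
      have hd : ∀ x, HasFDerivAt u₁
          ((fderiv ℝ (Psm (c₂ ^ 2) v) (c₁ • x + c₂ • m₂ V a)).comp
            (c₁ • ContinuousLinearMap.id ℝ (E d))) x := fun x =>
        ((hP.differentiable one_ne_zero) _).hasFDerivAt.comp x
          (((hasFDerivAt_id x).const_smul c₁).add_const (c₂ • m₂ V a))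
      have hc1 : ContDiff ℝ 1 u₁ := hP.comp ((contDiff_id.const_smul c₁).add contDiff_const)
      refine lip_test_prod (herr₁ V hV a) hc1
        (fun x => (abs_integral_le fun w => hK _)) fun x => ?_
      rw [(hd x).fderiv, ContinuousLinearMap.comp_smul, ContinuousLinearMap.comp_id, norm_smul,
        Real.norm_eq_abs]
      exact mul_le_of_le_one_right (abs_nonneg _) (hPl _)
    have hmid : ∀ x, ∫ w, u₂ x (m₂ V a + w) ∂gau (Fin d) = u₁ x := fun x => by
      simp only [u₁, u₂, Psm, Real.sqrt_sq_eq_abs]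
      rcases abs_choice c₂ with hs | hs
      · simp_rw [hs, smul_add, add_assoc]
      · rw [← integral_gau_neg (f := fun w => v (c₁ • x + c₂ • (m₂ V a + w)))
          (hv.continuous.comp (by fun_prop))]
        simp_rw [hs, smul_add, smul_neg, neg_smul, add_assoc]
    have hint : Integrable (fun p : S₁ × S₂ => u₂ (X₁ p.1) (X₂ p.2)) (l₁.prod l₂) :=
      Integrable.of_bound ((hv.continuous.measurable.comp (by fun_prop)).aestronglyMeasurable) K
        (ae_of_all _ fun p => hK _)
    have hA : |(∫ p, u₂ (X₁ p.1) (X₂ p.2) ∂l₁.prod l₂) - ∫ s, u₁ (X₁ s) ∂l₁| ≤ |c₂| * e₂ a := by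
      rw [integral_prod _ hint, ← integral_sub hint.integral_prod_left
        (integrable_comp_bdd hP.continuous (fun y => abs_integral_le fun w => hK _) (by fun_prop))]
      refine abs_integral_le fun s => ?_
      show |_ - u₁ (X₁ s)| ≤ _
      rw [← hmid]
      exact hu₂ (X₁ s)
    have htgt : ∫ w, u₁ (m₁ V a + w) ∂gau (Fin d)
        = ∫ w, v (c₁ • m₁ V a + c₂ • m₂ V a + w) ∂gau (Fin d) := by
      simp_rw [← hmid, u₂]
      have hi : Integrable (fun p : E d × E d =>
          v (c₁ • (m₁ V a + p.1) + c₂ • (m₂ V a + p.2))) ((gau (Fin d)).prod (gau (Fin d))) :=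
        Integrable.of_bound (hv.continuous.comp (by fun_prop)).aestronglyMeasurable K
          (ae_of_all _ fun p => hK _)
      rw [← integral_prod _ hi, ← integral_comb hc (f := fun w => v (c₁ • m₁ V a + c₂ • m₂ V a + w))
        (hv.continuous.comp (by fun_prop))]
      congr 1
      funext p
      congr 1
      module
    rw [htgt] at hu₁
    show |(∫ p, u₂ (X₁ p.1) (X₂ p.2) ∂l₁.prod l₂) - _| ≤ _
    linarith [abs_sub_le (∫ p, u₂ (X₁ p.1) (X₂ p.2) ∂l₁.prod l₂) (∫ s, u₁ (X₁ s) ∂l₁)
      (∫ w, v (c₁ • m₁ V a + c₂ • m₂ V a + w) ∂gau (Fin d))]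

end Vale.Agent.P347
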