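import Vale.Agent.P347Zero.Core
import Vale.Agent.P347Zero.Smp
import Vale.Agent.P347Zero.ProgBasic

/-!
P347 (exponent zero): crude sampling of every program from crude estimators of its fields.
-/

open MeasureTheory ProbabilityTheory Real
open scoped RealInnerProductSpace

namespace Vale.Agent.P347

/-! ### Combinators for estimators -/

variable {d q q' : ℕ} {α α' : Type} [MeasurableSpace α] [MeasurableSpace α']
  {m : (E d → ℝ) → α → E d} {e : α → ℝ}

/-- More queries and a larger error. -/
theorem Est.mono {e' : α → ℝ} (h : Est d q m e) (hq : q ≤ q') (he : ∀ a, e a ≤ e' a) :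
    Est d q' m e' := by
  obtain ⟨S, _, _, law, _, F, hF, herr⟩ := h
  exact ⟨S, inferInstance, inferInstance, law, inferInstance, F,
    fun β _ g hg => (hF β g hg).mono hq,
    fun V hV a => ⟨(herr V hV a).1, (herr V hV a).2.trans (he a)⟩⟩

/-- Pre-composition. -/
theorem Est.comap (h : Est d q m e) {f : α' → α} (hf : Measurable f) :
    Est d q (fun V b => m V (f b)) fun b => e (f b) := by
  obtain ⟨S, _, _, law, _, F, hF, herr⟩ := h
  exact ⟨S, inferInstance, inferInstance, law, inferInstance, fun V p => F V (f p.1, p.2),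
    fun β _ g hg => hF β (fun x => (f (g x).1, (g x).2))
      ((hf.comp (measurable_fst.comp hg)).prodMk (measurable_snd.comp hg)),
    fun V hV b => herr V hV (f b)⟩

/-- A known mean costs no query. -/
theorem Est.known {f : α → E d} (hf : Measurable f) : Est d 0 (fun _ => f) fun _ => 0 := by
  refine ⟨PUnit, inferInstance, inferInstance, Measure.dirac PUnit.unit, inferInstance,
    fun _ p => f p.1, fun β _ g hg => Comp.const
      (measurable_id.prodMk (hf.comp (measurable_fst.comp hg))), fun V _ a => ?_⟩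
  simp

/-- A multiple of an estimate. -/
theorem Est.smul (h : Est d q m e) (c : ℝ) :
    Est d q (fun V a => c • m V a) fun a => |c| * e a := by
  obtain ⟨S, _, _, law, _, F, hF, herr⟩ := h
  refine ⟨S, inferInstance, inferInstance, law, inferInstance, fun V p => c • F V p,
    fun β _ g hg => (hF β g hg).trans (Comp.const (f := fun z : β × E d => (z.1, c • z.2))
      (by fun_prop)), fun V hV a => ?_⟩
  simp only [← smul_sub, norm_smul, Real.norm_eq_abs, integral_const_mul]
  exact ⟨(herr V hV a).1.const_mul _, mul_le_mul_of_nonneg_left (herr V hV a).2 (abs_nonneg c)⟩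

/-- The sum of two independent estimates. -/
theorem Est.add {q₁ q₂ : ℕ} {m₁ m₂ : (E d → ℝ) → α → E d} {e₁ e₂ : α → ℝ}
    (h₁ : Est d q₁ m₁ e₁) (h₂ : Est d q₂ m₂ e₂) :
    Est d (q₁ + q₂) (fun V a => m₁ V a + m₂ V a) fun a => e₁ a + e₂ a := by
  obtain ⟨S₁, _, _, l₁, _, F₁, hF₁, herr₁⟩ := h₁
  obtain ⟨S₂, _, _, l₂, _, F₂, hF₂, herr₂⟩ := h₂
  refine ⟨S₁ × S₂, inferInstance, inferInstance, l₁.prod l₂, inferInstance,
    fun V p => F₁ V (p.1, p.2.1) + F₂ V (p.1, p.2.2), fun β _ g hg => ?_, fun V hV a => ?_⟩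
  · have k1 := hF₁ β (fun x => ((g x).1, (g x).2.1))
      ((measurable_fst.comp hg).prodMk (measurable_fst.comp (measurable_snd.comp hg)))
    have k2 := hF₂ (β × E d) (fun y => ((g y.1).1, (g y.1).2.2))
      (((measurable_fst.comp hg).comp measurable_fst).prodMk
        ((measurable_snd.comp (measurable_snd.comp hg)).comp measurable_fst))
    exact k1.trans (k2.trans (Comp.const
      (f := fun z : (β × E d) × E d => (z.1.1, z.1.2 + z.2)) (by fun_prop)))
  · obtain ⟨i₁, b₁⟩ := herr₁ V hV a
    obtain ⟨i₂, b₂⟩ := herr₂ V hV a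
    have hX₁ := measurable_of_frame hF₁ hV.1 a
    have hX₂ := measurable_of_frame hF₂ hV.1 a
    have hg : Integrable (fun p : S₁ × S₂ =>
        ‖F₁ V (a, p.1) - m₁ V a‖ + ‖F₂ V (a, p.2) - m₂ V a‖) (l₁.prod l₂) :=
      (i₁.comp_fst _).add (i₂.comp_snd _)
    have hle : ∀ p : S₁ × S₂, ‖F₁ V (a, p.1) + F₂ V (a, p.2) - (m₁ V a + m₂ V a)‖
        ≤ ‖F₁ V (a, p.1) - m₁ V a‖ + ‖F₂ V (a, p.2) - m₂ V a‖ := fun p => by
      rw [add_sub_add_comm]
      exact norm_add_le _ _
    have hint : Integrable (fun p : S₁ × S₂ =>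
        ‖F₁ V (a, p.1) + F₂ V (a, p.2) - (m₁ V a + m₂ V a)‖) (l₁.prod l₂) :=
      hg.mono' ((((hX₁.comp measurable_fst).add (hX₂.comp measurable_snd)).sub_const
        _).norm.aestronglyMeasurable) (ae_of_all _ fun p => by rw [norm_norm]; exact hle p)
    refine ⟨hint, (integral_mono hint hg hle).trans ?_⟩
    rw [integral_add (i₁.comp_fst _) (i₂.comp_snd _),
      integral_fun_fst (fun s => ‖F₁ V (a, s) - m₁ V a‖),
      integral_fun_snd (fun s => ‖F₂ V (a, s) - m₂ V a‖)]
    simp only [probReal_univ, one_smul]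
    exact add_le_add b₁ b₂

/-- An estimate at a Gaussian point around an estimated centre, for the mean of a Lipschitz map. -/
theorem Est.seq {q₁ q₂ : ℕ} {m₁ : (E d → ℝ) → α → E d} {e₁ : α → ℝ}
    {m₂ : (E d → ℝ) → α × E d → E d} {e₂ : α × E d → ℝ} {L b : α → ℝ}
    (h₁ : Est d q₁ m₁ e₁) (h₂ : Est d q₂ m₂ e₂) (s : ℝ) (hL0 : ∀ a, 0 ≤ L a)
    (hL : ∀ V, InClass d V → ∀ a x x', ‖m₂ V (a, x) - m₂ V (a, x')‖ ≤ L a * ‖x - x'‖)
    (hb : ∀ a x, e₂ (a, x) ≤ b a) :
    Est d (q₁ + q₂) (fun V a => ∫ w, m₂ V (a, m₁ V a + s • w) ∂gau (Fin d))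
      fun a => b a + L a * (e₁ a + 2 * (|s| * √(d : ℝ))) := by
  obtain ⟨S₁, _, _, l₁, _, F₁, hF₁, herr₁⟩ := h₁
  obtain ⟨S₂, _, _, l₂, _, F₂, hF₂, herr₂⟩ := h₂
  refine ⟨(S₁ × E d) × S₂, inferInstance, inferInstance, (l₁.prod (gau (Fin d))).prod l₂,
    inferInstance, fun V p => F₂ V ((p.1, F₁ V (p.1, p.2.1.1) + s • p.2.1.2), p.2.2),
    fun β _ g hg => ?_, fun V hV a => ?_⟩
  · have k1 := hF₁ β (fun x => ((g x).1, (g x).2.1.1))
      ((measurable_fst.comp hg).prodMk
        (measurable_fst.comp (measurable_fst.comp (measurable_snd.comp hg))))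
    have k2 := hF₂ (β × E d) (fun y => (((g y.1).1, y.2 + s • (g y.1).2.1.2), (g y.1).2.2))
      ((((measurable_fst.comp hg).comp measurable_fst).prodMk (measurable_snd.add
        (((measurable_snd.comp (measurable_fst.comp (measurable_snd.comp hg))).comp
          measurable_fst).const_smul s))).prodMk
        ((measurable_snd.comp (measurable_snd.comp hg)).comp measurable_fst))
    exact k1.trans (k2.trans (Comp.const
      (f := fun z : (β × E d) × E d => (z.1.1, z.2)) (by fun_prop)))
  · obtain ⟨i₁, b₁⟩ := herr₁ V hV a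
    have hX₁ := measurable_of_frame hF₁ hV.1 a
    have hF₂m : Measurable (F₂ V) := measurable_snd.comp ((hF₂ _ id measurable_id).1 V hV.1)
    set X : S₁ × E d → E d := fun p => F₁ V (a, p.1) + s • p.2 with hXd
    have hX : Measurable X := (hX₁.comp measurable_fst).add (measurable_snd.const_smul s)
    set M : E d := ∫ w, m₂ V (a, m₁ V a + s • w) ∂gau (Fin d) with hMd
    have hgn : Integrable (fun w : E d => ‖w‖) (gau (Fin d)) :=
      integrable_gau_of_poly (by fun_prop) 1 1 fun w => by simp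
    have hgb : ∫ w : E d, ‖w‖ ∂gau (Fin d) ≤ √(d : ℝ) := by
      simpa using integral_gau_norm (ι := Fin d)
    set A : S₁ × E d → ℝ :=
      fun p => ‖F₁ V (a, p.1) - m₁ V a‖ + |s| * ‖p.2‖ + |s| * √(d : ℝ) with hAd
    have hi1 : Integrable (fun p : S₁ × E d => ‖F₁ V (a, p.1) - m₁ V a‖) (l₁.prod (gau (Fin d))) :=
      i₁.comp_fst _
    have hi2 : Integrable (fun p : S₁ × E d => |s| * ‖p.2‖) (l₁.prod (gau (Fin d))) :=
      (hgn.const_mul |s|).comp_snd l₁
    have hA : Integrable A (l₁.prod (gau (Fin d))) := (hi1.add hi2).add (integrable_const _)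
    have hmid : ∀ p, ‖m₂ V (a, X p) - M‖ ≤ L a * A p := fun p => by
      have hi : Integrable (fun w => m₂ V (a, m₁ V a + s • w)) (gau (Fin d)) :=
        integrable_gau_of_lip (K := L a * |s|) fun w w' => (hL V hV a _ _).trans_eq (by
          rw [add_sub_add_left_eq_sub, ← smul_sub, norm_smul, Real.norm_eq_abs, mul_assoc])
      have hsplit : m₂ V (a, X p) - M
          = ∫ w, (m₂ V (a, X p) - m₂ V (a, m₁ V a + s • w)) ∂gau (Fin d) := by
        rw [integral_sub (integrable_const _) hi]
        simp [hMd]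
      have hK : Integrable (fun w : E d => L a * (‖F₁ V (a, p.1) - m₁ V a‖ + |s| * ‖p.2‖
          + |s| * ‖w‖)) (gau (Fin d)) := ((integrable_const _).add (hgn.const_mul _)).const_mul _
      rw [hsplit]
      refine (norm_integral_le_integral_norm _).trans ((integral_mono_of_nonneg
        (ae_of_all _ fun w => norm_nonneg _) hK (ae_of_all _ fun w => ?_)).trans ?_)
      · refine (hL V hV a _ _).trans (mul_le_mul_of_nonneg_left ?_ (hL0 a))
        rw [hXd]
        calc ‖F₁ V (a, p.1) + s • p.2 - (m₁ V a + s • w)‖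
            = ‖(F₁ V (a, p.1) - m₁ V a) + s • p.2 + (-(s • w))‖ := by congr 1; abel
          _ ≤ _ := norm_add₃_le
          _ = _ := by rw [norm_neg, norm_smul, norm_smul, Real.norm_eq_abs]
      · rw [integral_const_mul, integral_add (integrable_const _) (hgn.const_mul _),
          integral_const_mul]
        simp only [integral_const, probReal_univ, one_smul]
        exact mul_le_mul_of_nonneg_left
          (add_le_add le_rfl (mul_le_mul_of_nonneg_left hgb (abs_nonneg s))) (hL0 a)
    set Φ : (S₁ × E d) × S₂ → ℝ := fun p => ‖F₂ V ((a, X p.1), p.2) - M‖ with hΦd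
    have hΦm : Measurable Φ :=
      ((hF₂m.comp ((measurable_const.prodMk (hX.comp measurable_fst)).prodMk
        measurable_snd)).sub_const M).norm
    have hsec : ∀ p, Integrable (fun t => Φ (p, t)) l₂ ∧
        ∫ t, Φ (p, t) ∂l₂ ≤ b a + L a * A p := fun p => by
      obtain ⟨i₂, b₂⟩ := herr₂ V hV (a, X p)
      have hle : ∀ t, Φ (p, t)
          ≤ ‖F₂ V ((a, X p), t) - m₂ V (a, X p)‖ + ‖m₂ V (a, X p) - M‖ := fun t =>
        norm_sub_le_norm_sub_add_norm_sub _ _ _
      have hint : Integrable (fun t => Φ (p, t)) l₂ :=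
        (i₂.add (integrable_const _)).mono'
          (hΦm.comp (measurable_const.prodMk measurable_id)).aestronglyMeasurable
          (ae_of_all _ fun t => by
            rw [Real.norm_eq_abs, abs_of_nonneg (norm_nonneg _)]
            exact hle t)
      refine ⟨hint, (integral_mono hint (i₂.add (integrable_const _)) hle).trans ?_⟩
      rw [integral_add' i₂ (integrable_const _)]
      simp only [integral_const, probReal_univ, one_smul]
      exact add_le_add (b₂.trans (hb _ _)) (hmid p)
    have hbA : Integrable (fun p => b a + L a * A p) (l₁.prod (gau (Fin d))) :=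
      (integrable_const _).add (hA.const_mul _)
    have hint : Integrable Φ ((l₁.prod (gau (Fin d))).prod l₂) := by
      refine (integrable_prod_iff hΦm.aestronglyMeasurable).2
        ⟨ae_of_all _ fun p => (hsec p).1, hbA.mono' ?_ (ae_of_all _ fun p => ?_)⟩
      · exact hΦm.norm.stronglyMeasurable.integral_prod_right'.aestronglyMeasurable
      · simp only [hΦd, Real.norm_eq_abs]
        rw [abs_of_nonneg (integral_nonneg fun t => abs_nonneg _)]
        simp only [abs_norm]
        exact (hsec p).2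
    refine ⟨hint, ?_⟩
    show ∫ p, Φ p ∂_ ≤ _
    rw [integral_prod _ hint]
    refine (integral_mono hint.integral_prod_left hbA fun p => (hsec p).2).trans ?_
    rw [integral_add (integrable_const _) (hA.const_mul _), integral_const_mul]
    simp only [hAd]
    have hi12 : Integrable (fun p : S₁ × E d => ‖F₁ V (a, p.1) - m₁ V a‖ + |s| * ‖p.2‖)
        (l₁.prod (gau (Fin d))) := hi1.add hi2
    rw [integral_add hi12 (integrable_const _), integral_add hi1 hi2,
      integral_fun_fst (fun t => ‖F₁ V (a, t) - m₁ V a‖), integral_fun_snd (fun w : E d => |s| * ‖w‖),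
      integral_const_mul]
    simp only [integral_const, probReal_univ, one_smul]
    have h3 : (∫ t, ‖F₁ V (a, t) - m₁ V a‖ ∂l₁) + |s| * ∫ w : E d, ‖w‖ ∂gau (Fin d)
        ≤ e₁ a + |s| * √(d : ℝ) := add_le_add b₁ (mul_le_mul_of_nonneg_left hgb (abs_nonneg s))
    exact add_le_add le_rfl (mul_le_mul_of_nonneg_left (by linarith) (hL0 a))

/-! ### Programs -/

theorem measurable_push {β : Type} [MeasurableSpace β] {x : β → E d} {env : β → Env d}
    (hx : Measurable x) (henv : ∀ i, Measurable fun b => env b i) (i : ℕ) :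
    Measurable fun b => push (x b) (env b) i := by
  cases i with
  | zero => exact hx
  | succ j => exact henv j

/-- Every program is estimated with one query budget per node. -/
theorem est_prog_nodes {H : Fam d} {δ : ℕ → ℝ} {r Cb : ℝ} {N ℓ₀ q : ℕ} {Λ Gb : E d → ℝ}
    (hΛ : ∀ y, √(d : ℝ) ≤ Λ y) (h0 : 0 ≤ δ) (hr : 1 ≤ r)
    (hH : ∀ V, InClass d V → ∀ y ℓ, Fld d (δ ℓ) r (Gb y) Cb N (H V y ℓ))
    (hleaf : LeafEst H δ r ℓ₀ q Λ) {B T : ℝ} (F : Prog) :
    F.WF δ r B T → F.LevelGe ℓ₀ → ∀ (β : Type) [MeasurableSpace β] (y : β → E d)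
      (env : β → Env d), Measurable y → (∀ i, Measurable fun b => env b i) →
      Est d (q * F.nodes) (fun V b => F.sem (H V (y b)) (env b))
        fun b => 3 * F.size δ r * Λ (y b) := by
  induction F with
  | inp i =>
    intro _ _ β _ y env _ henv
    exact (Est.known (henv i)).mono (Nat.zero_le _) fun b => by simp [Prog.size]
  | zero =>
    intro _ _ β _ y env _ _
    exact (Est.known (f := fun _ : β => (0 : E d)) measurable_const).mono (Nat.zero_le _)
      fun b => by simp [Prog.size]
  | add p p' hp hp' =>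
    intro hw hl β _ y env hy henv
    refine ((hp hw.1 hl.1 β y env hy henv).add (hp' hw.2 hl.2 β y env hy henv)).mono
      ?_ fun b => ?_
    · simp only [Prog.nodes, Nat.mul_add]; omega
    · simp only [Prog.size]; exact le_of_eq (by ring)
  | smul c p hp =>
    intro hw hl β _ y env hy henv
    refine ((hp hw hl β y env hy henv).smul c).mono ?_ fun b => ?_
    · simp only [Prog.nodes, Nat.mul_add]; omega
    · simp only [Prog.size]; exact le_of_eq (by ring)
  | call ℓ τ p hp =>
    intro hw hl β _ y env hy henv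
    obtain ⟨_, hτ, hpw, _⟩ := hw
    have h₂ := (hleaf ℓ hl.1).comap (f := fun a : β × E d => (y a.1, a.2))
      ((hy.comp measurable_fst).prodMk measurable_snd)
    refine ((hp hpw hl.2 β y env hy henv).seq h₂ √τ (L := fun _ => δ ℓ)
      (b := fun b => δ ℓ * r * Λ (y b)) (fun _ => h0 ℓ)
      (fun V hV b x x' => (hH V hV (y b) ℓ).norm_sub_le x x') (fun b x => le_rfl)).mono
      ?_ fun b => ?_
    · simp only [Prog.nodes, Nat.mul_add, Nat.mul_one]; omega
    · simp only [Prog.size, abs_of_nonneg (Real.sqrt_nonneg τ)]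
      have h1 : √τ * √(d : ℝ) ≤ r * Λ (y b) := by
        refine (mul_le_of_le_one_left (Real.sqrt_nonneg _) ?_).trans
          ((hΛ _).trans (le_mul_of_one_le_left ((Real.sqrt_nonneg _).trans (hΛ _)) hr))
        exact Real.sqrt_le_one.2 hτ
      nlinarith [mul_le_mul_of_nonneg_left h1 (h0 ℓ)]
  | bind p Δ b hp hb =>
    intro hw hl β _ y env hy henv
    obtain ⟨hΔ, hpw, hbw, _⟩ := hw
    have h₂ := hb hbw hl.2 (β × E d) (fun a => y a.1) (fun a => push a.2 (env a.1))
      (hy.comp measurable_fst)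
      (measurable_push measurable_snd fun i => (henv i).comp measurable_fst)
    have hL0 : 0 ≤ b.lip δ (pushR 1 0) :=
      b.lip_nonneg h0 (pushR_nonneg zero_le_one fun _ => le_rfl)
    refine ((hp hpw hl.1 β y env hy henv).seq h₂ √Δ (L := fun _ => b.lip δ (pushR 1 0))
      (b := fun a => 3 * b.size δ r * Λ (y a)) (fun _ => hL0)
      (fun V hV a x x' => (Prog.norm_sem_push_sub_le (hH V hV (y a)) b (env a) x x').trans_eq
        (mul_comm _ _)) (fun a x => le_rfl)).mono ?_ fun a => ?_
    · simp only [Prog.nodes, Nat.mul_add]; omega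
    · simp only [Prog.size, abs_of_nonneg (Real.sqrt_nonneg Δ)]
      rw [Prog.lip_pushR_zero b δ (√Δ + p.size δ r)]
      have h1 : √Δ * √(d : ℝ) ≤ √Δ * Λ (y a) :=
        mul_le_mul_of_nonneg_left (hΛ _) (Real.sqrt_nonneg _)
      have h2 : 0 ≤ √Δ * Λ (y a) := (mul_nonneg (Real.sqrt_nonneg _) (Real.sqrt_nonneg _)).trans h1
      nlinarith [mul_le_mul_of_nonneg_left h1 hL0, mul_nonneg hL0 h2]

end Vale.Agent.P347
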