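import Vale.Agent.P347Zero.Prog

/-!
P347: programs for linear maps built from Hessians of smoothed potentials, and the derivatives of
programs as such maps.
-/

open MeasureTheory ProbabilityTheory Real

namespace Vale.Agent.P347

/-- Programs of linear maps of `E d`: words in the derivatives of the smoothed field. -/
inductive LProg : Type
  | id
  | zero
  | add (L M : LProg)
  | smul (c : ℝ) (L : LProg)
  | hess (ℓ : ℕ) (τ : ℝ) (q : Prog) (L : LProg)
  | bind (p : Prog) (Δ : ℝ) (L : LProg)

/-- Shifting the inputs at or above `c` up by one. -/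
def Prog.lift : Prog → ℕ → Prog
  | .inp i, c => if i < c then .inp i else .inp (i + 1)
  | .zero, _ => .zero
  | .add p q, c => .add (p.lift c) (q.lift c)
  | .smul a p, c => .smul a (p.lift c)
  | .call ℓ τ p, c => .call ℓ τ (p.lift c)
  | .bind p Δ b, c => .bind (p.lift c) Δ (b.lift (c + 1))

/-- The same for programs of linear maps. -/
def LProg.lift : LProg → ℕ → LProg
  | .id, _ => .id
  | .zero, _ => .zero
  | .add L M, c => .add (L.lift c) (M.lift c)
  | .smul a L, c => .smul a (L.lift c)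
  | .hess ℓ τ q L, c => .hess ℓ τ (q.lift c) (L.lift c)
  | .bind p Δ L, c => .bind (p.lift c) Δ (L.lift (c + 1))

/-- The derivative of a program in input `i`, composed with `L`. -/
def Prog.fwd : Prog → ℕ → LProg → LProg
  | .inp j, i, L => if i = j then L else .zero
  | .zero, _, _ => .zero
  | .add p q, i, L => .add (p.fwd i L) (q.fwd i L)
  | .smul c p, i, L => .smul c (p.fwd i L)
  | .call ℓ τ p, i, L => .hess ℓ τ p (p.fwd i L)
  | .bind p Δ b, i, L =>
      .add (.bind p Δ (b.fwd (i + 1) (L.lift 0))) (.bind p Δ (b.fwd 0 ((p.fwd i L).lift 0)))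

/-- The transposed derivative of a program in input `i`, composed with `L`. -/
def Prog.adj : Prog → ℕ → LProg → LProg
  | .inp j, i, L => if i = j then L else .zero
  | .zero, _, _ => .zero
  | .add p q, i, L => .add (p.adj i L) (q.adj i L)
  | .smul c p, i, L => .smul c (p.adj i L)
  | .call ℓ τ p, i, L => p.adj i (.hess ℓ τ p L)
  | .bind p Δ b, i, L =>
      .add (.bind p Δ (b.adj (i + 1) (L.lift 0))) (p.adj i (.bind p Δ (b.adj 0 (L.lift 0))))

/-- The transpose, composed with `M`. -/
def LProg.transp : LProg → LProg → LProg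
  | .id, M => M
  | .zero, _ => .zero
  | .add L L', M => .add (L.transp M) (L'.transp M)
  | .smul c L, M => .smul c (L.transp M)
  | .hess ℓ τ q L, M => L.transp (.hess ℓ τ q M)
  | .bind p Δ L, M => .bind p Δ (L.transp (M.lift 0))

variable {d : ℕ}

/-- The linear map named by a program. -/
noncomputable def LProg.app (g : ℕ → E d → E d) : LProg → Env d → E d → E d
  | .id, _, x => x
  | .zero, _, _ => 0
  | .add L M, env, x => L.app g env x + M.app g env x
  | .smul c L, env, x => c • L.app g env x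
  | .hess ℓ τ q L, env, x => fderiv ℝ (Psm τ (g ℓ)) (q.sem g env) (L.app g env x)
  | .bind p Δ L, env, x => ∫ w, L.app g (push (p.sem g env + √Δ • w) env) x ∂gau (Fin d)

/-- A bound on the operator norm. -/
noncomputable def LProg.norm' (δ : ℕ → ℝ) : LProg → ℝ
  | .id => 1
  | .zero => 0
  | .add L M => L.norm' δ + M.norm' δ
  | .smul c L => |c| * L.norm' δ
  | .hess ℓ _ _ L => δ ℓ * L.norm' δ
  | .bind _ _ L => L.norm' δ

/-- When the inputs move by at most `v`, every point of a derivative moves by at most `B`. -/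
def LProg.SensLe (δ : ℕ → ℝ) (B : ℝ) : LProg → (ℕ → ℝ) → Prop
  | .id, _ => True
  | .zero, _ => True
  | .add L M, v => L.SensLe δ B v ∧ M.SensLe δ B v
  | .smul _ L, v => L.SensLe δ B v
  | .hess _ _ q L, v => q.lip δ v ≤ B ∧ q.SensLe δ B v ∧ L.SensLe δ B v
  | .bind p _ L, v => p.SensLe δ B v ∧ L.SensLe δ B (pushR (p.lip δ v) v)

/-- Well-formedness of programs of linear maps. -/
def LProg.WF (δ : ℕ → ℝ) (r B T : ℝ) : LProg → Prop
  | .id => True
  | .zero => True
  | .add L M => L.WF δ r B T ∧ M.WF δ r B T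
  | .smul _ L => L.WF δ r B T
  | .hess _ τ q L => T⁻¹ ≤ τ ∧ τ ≤ 1 ∧ q.WF δ r B T ∧ q.size δ r ≤ B ∧ L.WF δ r B T
  | .bind p Δ L => 0 < Δ ∧ p.WF δ r B T ∧ L.WF δ r B T ∧ p.size δ r ≤ B * √Δ ∧
      L.SensLe δ B (pushR (√Δ) 0)

/-- The nesting depth of a program of linear maps. -/
def LProg.depth : LProg → ℕ
  | .id => 0
  | .zero => 0
  | .add L M => max L.depth M.depth
  | .smul _ L => L.depth
  | .hess _ _ q L => max q.depth L.depth + 1
  | .bind p _ L => max p.depth L.depth + 1

/-- The number of leaves and nodes. -/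
def LProg.nodes : LProg → ℕ
  | .id => 1
  | .zero => 1
  | .add L M => L.nodes + M.nodes + 1
  | .smul _ L => L.nodes + 1
  | .hess _ _ q L => q.nodes + L.nodes + 1
  | .bind p _ L => p.nodes + L.nodes + 1

/-- Every derivative is of a field at level at least `ℓ₀`. -/
def LProg.LevelGe (ℓ₀ : ℕ) : LProg → Prop
  | .id => True
  | .zero => True
  | .add L M => L.LevelGe ℓ₀ ∧ M.LevelGe ℓ₀
  | .smul _ L => L.LevelGe ℓ₀
  | .hess ℓ _ q L => ℓ₀ ≤ ℓ ∧ q.LevelGe ℓ₀ ∧ L.LevelGe ℓ₀
  | .bind p _ L => p.LevelGe ℓ₀ ∧ L.LevelGe ℓ₀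

end Vale.Agent.P347
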