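import Vale.Agent.P347Zero.LadderDefs
import Vale.Agent.P347Zero.Langevin
import Vale.Agent.P347.Kernel

/-!
P347 (exponent zero): the ladder of smoothed scores of the cut-off oracle. Each level is a field of
the programs with a crude six-query estimator, consecutive levels are tied by an exact identity,
the bottom level is close to the gradient itself, and the cut-off moves the oracle by little.
-/

open MeasureTheory ProbabilityTheory Real Filter Set
open scoped RealInnerProductSpace Gradient Topology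

noncomputable section

namespace Vale.Agent.P347

variable {d : ℕ}

/-! ### Bounded potentials -/

/-- The weight of a potential. -/
def wgt (R : E d → ℝ) (x : E d) : ℝ := exp (-R x)

section bounded

variable {R : E d → ℝ} {B : ℝ} {F : Type*} [NormedAddCommGroup F] [NormedSpace ℝ F]

lemma wgt_bdd (hB : ∀ x, |R x| ≤ B) (x : E d) : ‖wgt R x‖ ≤ exp B := by
  rw [wgt, norm_eq_abs, abs_of_pos (exp_pos _)]
  exact exp_le_exp.2 ((neg_le_abs _).trans (hB x))

lemma continuous_wgt (hR : Continuous R) : Continuous (wgt R) := hR.neg.rexp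

omit [NormedSpace ℝ F] in
lemma integrable_gau_bdd {f : E d → F} [SecondCountableTopology F] (hf : Continuous f) {K : ℝ}
    (hK : ∀ x, ‖f x‖ ≤ K) : Integrable f (gau (Fin d)) :=
  Integrable.of_bound hf.aestronglyMeasurable K (ae_of_all _ hK)

lemma continuous_Psm_bdd [SecondCountableTopology F] {u : E d → F} (hu : Continuous u) {K : ℝ}
    (hK : ∀ x, ‖u x‖ ≤ K) (t : ℝ) : Continuous (Psm t u) := by
  unfold Psm
  exact continuous_of_dominated (fun x => (hu.comp (by fun_prop)).aestronglyMeasurable)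
    (fun x => ae_of_all _ fun g => hK _) (integrable_const K)
    (ae_of_all _ fun g => hu.comp (by fun_prop))

lemma Psm_wgt_pos (hR : Continuous R) (hB : ∀ x, |R x| ≤ B) (t : ℝ) (x : E d) :
    0 < Psm t (wgt R) x :=
  integral_exp_pos (integrable_gau_bdd (f := fun g : E d => wgt R (x + √t • g))
    ((continuous_wgt hR).comp (by fun_prop)) fun g => wgt_bdd hB _)

lemma exp_neg_upot (hR : Continuous R) (hB : ∀ x, |R x| ≤ B) {σ : ℝ} (hσ : 0 ≤ σ) (x : E d) :
    exp (-upot σ R x) = Psm (σ ^ 2) (wgt R) x := by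
  have h := Psm_wgt_pos hR hB (σ ^ 2) x
  simp only [Psm, wgt, sqrt_sq hσ] at h ⊢
  rw [upot, neg_neg, exp_log h]

lemma isProb_tilt_upot (hR : Continuous R) (hB : ∀ x, |R x| ≤ B) {σ : ℝ} (hσ : 0 ≤ σ) (t : ℝ)
    (q : E d) : IsProbabilityMeasure (tilt fun z => upot σ R (q + √t • z)) := by
  refine isProbabilityMeasure_tilted ?_
  simp only [exp_neg_upot hR hB hσ]
  exact integrable_gau_bdd ((continuous_Psm_bdd (continuous_wgt hR) (wgt_bdd hB) _).comp (by fun_prop))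
    fun z => norm_Psm_le (wgt_bdd hB) _

/-- Integrals against the tilt by a smoothed potential. -/
lemma integral_tilt_upot (hR : Continuous R) (hB : ∀ x, |R x| ≤ B) {σ t : ℝ} (hσ : 0 ≤ σ)
    (ht : 0 ≤ t) (q : E d) (f : E d → F) :
    ∫ z, f z ∂tilt (fun z => upot σ R (q + √t • z)) = (Psm (t + σ ^ 2) (wgt R) q)⁻¹ •
      ∫ z, Psm (σ ^ 2) (wgt R) (q + √t • z) • f z ∂gau (Fin d) := by
  rw [tilt, integral_tilted, ← integral_smul,
    ← Psm_add ht (sq_nonneg σ) (continuous_wgt hR).measurable (wgt_bdd hB)]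
  refine integral_congr_ae (ae_of_all _ fun z => ?_)
  simp only [exp_neg_upot hR hB hσ, smul_smul, div_eq_inv_mul]
  rfl

lemma score_eq (g : E d → E d) {σ : ℝ} (hσ : 0 ≤ σ) (q : E d) :
    score σ R g q = (Psm (σ ^ 2) (wgt R) q)⁻¹ • Psm (σ ^ 2) (fun x => wgt R x • g x) q := by
  simp only [score, tilt, Psm, sqrt_sq hσ]
  rw [integral_tilted, ← integral_smul]
  refine integral_congr_ae (ae_of_all _ fun z => ?_)
  simp only [smul_smul, div_eq_inv_mul]
  rfl

lemma norm_wgt_smul_le (hB : ∀ x, |R x| ≤ B) {g : E d → E d} {Gb : ℝ} (hG : ∀ x, ‖g x‖ ≤ Gb)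
    (x : E d) : ‖wgt R x • g x‖ ≤ exp B * Gb := by
  rw [norm_smul]
  exact mul_le_mul (wgt_bdd hB x) (hG x) (norm_nonneg _) (exp_nonneg _)

lemma continuous_score (hR : Continuous R) (hB : ∀ x, |R x| ≤ B) {g : E d → E d}
    (hg : Continuous g) {Gb : ℝ} (hG : ∀ x, ‖g x‖ ≤ Gb) {σ : ℝ} (hσ : 0 ≤ σ) :
    Continuous (score σ R g) := by
  rw [funext (score_eq g hσ)]
  exact ((continuous_Psm_bdd (continuous_wgt hR) (wgt_bdd hB) _).inv₀
    fun x => (Psm_wgt_pos hR hB _ x).ne').smul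
      (continuous_Psm_bdd ((continuous_wgt hR).smul hg) (norm_wgt_smul_le hB hG) _)

lemma norm_score_le (hR : Continuous R) (hB : ∀ x, |R x| ≤ B) {g : E d → E d}
    {Gb : ℝ} (hG : ∀ x, ‖g x‖ ≤ Gb) (σ : ℝ) (q : E d) : ‖score σ R g q‖ ≤ Gb := by
  have : IsProbabilityMeasure (tilt fun w => R (q + σ • w)) :=
    isProbabilityMeasure_tilted (integrable_gau_bdd
      (f := fun w => exp (-R (q + σ • w))) (by fun_prop) fun w => wgt_bdd hB (q + σ • w))
  refine (norm_integral_le_of_norm_le_const (ae_of_all _ fun w => hG (q + σ • w))).trans_eq ?_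
  simp

/-- The tower of smoothed scores. -/
theorem score_tower_bdd (hR : Continuous R) (hB : ∀ x, |R x| ≤ B) {g : E d → E d}
    (hg : Continuous g) {Gb : ℝ} (hG : ∀ x, ‖g x‖ ≤ Gb) {σ ρ : ℝ} (hρ : 0 ≤ ρ) (hσ : ρ ≤ σ)
    (q : E d) :
    score σ R g q = ∫ z, score ρ R g (q + √(σ ^ 2 - ρ ^ 2) • z)
      ∂tilt fun z => upot ρ R (q + √(σ ^ 2 - ρ ^ 2) • z) := by
  have ht : 0 ≤ σ ^ 2 - ρ ^ 2 := by nlinarith
  rw [integral_tilt_upot hR hB hρ ht, sub_add_cancel, score_eq g (hρ.trans hσ)]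
  congr 1
  have e : ∀ z, Psm (ρ ^ 2) (wgt R) (q + √(σ ^ 2 - ρ ^ 2) • z)
      • score ρ R g (q + √(σ ^ 2 - ρ ^ 2) • z)
      = Psm (ρ ^ 2) (fun x => wgt R x • g x) (q + √(σ ^ 2 - ρ ^ 2) • z) := fun z => by
    rw [score_eq g hρ, smul_smul, mul_inv_cancel₀ (Psm_wgt_pos hR hB _ _).ne', one_smul]
  simp only [e]
  have h := congrFun (Psm_add (u := fun x => wgt R x • g x) ht (sq_nonneg ρ)
    ((continuous_wgt hR).smul hg).measurable (norm_wgt_smul_le hB hG)) q
  rw [sub_add_cancel] at h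
  rw [← h]
  rfl

/-- A test at an intermediate smoothing, from the tilt at a finer smoothing and fresh noise. -/
theorem mid_test [SecondCountableTopology F] [CompleteSpace F] (hR : Continuous R) (hB : ∀ x, |R x| ≤ B)
    {σ₀ σ₁ σ₂ : ℝ} (h2 : 0 ≤ σ₂) (h12 : σ₂ ≤ σ₁) (h01 : σ₁ < σ₀) {φ : E d → F}
    (hφ : Continuous φ) {K : ℝ} (hK : ∀ x, ‖φ x‖ ≤ K) (q : E d) :
    ∫ z, φ (q + √(σ₀ ^ 2 - σ₁ ^ 2) • z) ∂tilt (fun z => upot σ₁ R (q + √(σ₀ ^ 2 - σ₁ ^ 2) • z))
      = ∫ z, ∫ w, φ (q + ((σ₀ ^ 2 - σ₁ ^ 2) / (σ₀ ^ 2 - σ₂ ^ 2) * √(σ₀ ^ 2 - σ₂ ^ 2)) • z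
          + √((σ₀ ^ 2 - σ₁ ^ 2) / (σ₀ ^ 2 - σ₂ ^ 2) * (σ₁ ^ 2 - σ₂ ^ 2)) • w) ∂gau (Fin d)
          ∂tilt fun z => upot σ₂ R (q + √(σ₀ ^ 2 - σ₂ ^ 2) • z) := by
  set t₁ := σ₀ ^ 2 - σ₁ ^ 2 with ht₁d
  set t := σ₀ ^ 2 - σ₂ ^ 2 with htd
  set b := σ₁ ^ 2 - σ₂ ^ 2 with hbd
  have h1 : 0 ≤ σ₁ := h2.trans h12
  have ht₁ : 0 < t₁ := by rw [ht₁d]; nlinarith
  have hb : 0 ≤ b := by rw [hbd]; nlinarith
  have htb : t₁ + b = t := by rw [ht₁d, hbd, htd]; ring
  have ht : 0 < t := by linarith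
  rw [integral_tilt_upot hR hB h1 ht₁.le, integral_tilt_upot hR hB h2 ht.le,
    show t₁ + σ₁ ^ 2 = t + σ₂ ^ 2 by rw [ht₁d, htd]; ring]
  congr 1
  set U := Psm (σ₂ ^ 2) (wgt R) with hUd
  have hUc : Continuous U := continuous_Psm_bdd (continuous_wgt hR) (wgt_bdd hB) _
  have hUb : ∀ x, ‖U x‖ ≤ exp B := fun x => norm_Psm_le (wgt_bdd hB) x
  have hsplit : ∀ x, Psm (σ₁ ^ 2) (wgt R) x = ∫ w, U (x + √b • w) ∂gau (Fin d) := fun x => by
    rw [show σ₁ ^ 2 = b + σ₂ ^ 2 by rw [hbd]; ring,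
      ← Psm_add hb (sq_nonneg _) (continuous_wgt hR).measurable (wgt_bdd hB)]
    rfl
  simp only [hsplit, ← integral_smul, ← integral_smul_const]
  set f : E d × E d → F := fun p => U (q + √t₁ • p.1 + √b • p.2) • φ (q + √t₁ • p.1) with hfd
  have hfc : Continuous f := by fun_prop
  have hfb : ∀ p, ‖f p‖ ≤ exp B * K := fun p => by
    simp only [hfd, norm_smul]
    exact mul_le_mul (hUb _) (hK _) (norm_nonneg _) (exp_nonneg _)
  have hcs : (√t₁ / √t) ^ 2 + (-(√b / √t)) ^ 2 = 1 := by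
    rw [neg_sq, div_pow, div_pow, sq_sqrt ht₁.le, sq_sqrt hb, sq_sqrt ht.le, ← add_div, htb,
      div_self ht.ne']
  have hst : √t ≠ 0 := (sqrt_pos.2 ht).ne'
  have hrot : ∀ p : E d × E d, f (rot (√t₁ / √t) (-(√b / √t)) p)
      = U (q + √t • p.1) • φ (q + (t₁ / t * √t) • p.1 + (-√(t₁ / t * b)) • p.2) := fun p => by
    have h₁ := mul_self_sqrt ht₁.le
    have h₂ := mul_self_sqrt hb
    have h₃ := mul_self_sqrt ht.le
    have e0 : √t₁ * (√t₁ / √t) = t₁ / t * √t := by field_simp; linear_combination t * h₁ - t₁ * h₃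
    have e1 : √t₁ * (√b / √t) = √(t₁ / t * b) := by
      rw [sqrt_mul (by positivity), sqrt_div ht₁.le]; ring
    have e2 : √t₁ * (√t₁ / √t) + √b * (√b / √t) = √t := by
      field_simp; linear_combination h₁ + h₂ - h₃ + htb
    simp only [hfd, rot]
    congr 1
    · congr 1
      match_scalars <;> first | ring1 | linear_combination e2
    · congr 1
      match_scalars <;> first | ring1 | linear_combination e0 | linear_combination -e1
  have hneg : ∀ z : E d, ∫ w, φ (q + (t₁ / t * √t) • z + (-√(t₁ / t * b)) • w) ∂gau (Fin d)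
      = ∫ w, φ (q + (t₁ / t * √t) • z + √(t₁ / t * b) • w) ∂gau (Fin d) := fun z => by
    have h := integral_comb (c := -1) (s := 0) (by norm_num : (-1 : ℝ) ^ 2 + 0 ^ 2 = 1)
      (f := fun w : E d => φ (q + (t₁ / t * √t) • z + √(t₁ / t * b) • w))
      (hφ.comp (by fun_prop))
    simp only [neg_one_smul, zero_smul, add_zero, smul_neg] at h
    rw [← h, integral_fun_fst (fun w : E d => φ (q + (t₁ / t * √t) • z + -(√(t₁ / t * b) • w)))]
    simp [neg_smul]
  have hi1 : Integrable f ((gau (Fin d)).prod (gau (Fin d))) :=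
    Integrable.of_bound hfc.aestronglyMeasurable _ (ae_of_all _ hfb)
  have hi2 : Integrable (fun p => f (rot (√t₁ / √t) (-(√b / √t)) p))
      ((gau (Fin d)).prod (gau (Fin d))) :=
    Integrable.of_bound (hfc.comp (by unfold rot; fun_prop)).aestronglyMeasurable _
      (ae_of_all _ fun p => hfb _)
  calc ∫ z, ∫ w, U (q + √t₁ • z + √b • w) • φ (q + √t₁ • z) ∂gau (Fin d) ∂gau (Fin d)
      = ∫ p, f p ∂(gau (Fin d)).prod (gau (Fin d)) := (integral_prod _ hi1).symm
    _ = ∫ p, f (rot (√t₁ / √t) (-(√b / √t)) p) ∂(gau (Fin d)).prod (gau (Fin d)) :=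
        (integral_rot hcs hfc.aestronglyMeasurable).symm
    _ = _ := by
        rw [integral_prod _ hi2]
        refine integral_congr_ae (ae_of_all _ fun z => ?_)
        simp only [hrot, integral_smul, hneg]

end bounded

/-! ### Levels -/

section levels

variable {r : ℝ}

lemma lvlσ_pos (hr : 0 < r) (i : ℕ) : 0 < lvlσ r i := by unfold lvlσ; positivity

lemma lvlS_pos (hr : 0 < r) (i : ℕ) : 0 < lvlS r i := by unfold lvlS; positivity

lemma lvlS_eq (r : ℝ) (i : ℕ) : lvlS r i = lvlσ r (i + 1) := rfl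

lemma lvlσ_le_one (hr : 1 ≤ r) (i : ℕ) : lvlσ r i ≤ 1 := inv_le_one_of_one_le₀ (one_le_pow₀ hr)

lemma lvlσ_anti (hr : 1 ≤ r) {i j : ℕ} (h : i ≤ j) : lvlσ r j ≤ lvlσ r i := by
  have : 0 < r := zero_lt_one.trans_le hr
  exact inv_anti₀ (by positivity) (pow_le_pow_right₀ hr h)

lemma lvlσ_lt (hr : 1 < r) (i : ℕ) : lvlσ r (i + 1) < lvlσ r i := by
  have : 0 < r := zero_lt_one.trans hr
  exact inv_strictAnti₀ (by positivity) (pow_lt_pow_right₀ hr (Nat.lt_succ_self i))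

lemma lvlσ_div_lvlS (hr : 0 < r) (i : ℕ) : lvlσ r i / lvlS r i = r := by
  unfold lvlσ lvlS
  field_simp
  ring

/-- The score of a level through the next one, coordinatewise. -/
theorem score_midMean {R : E d → ℝ} {B Gb : ℝ} (hR : Continuous R) (hB : ∀ x, |R x| ≤ B)
    {g : E d → E d} (hg : Continuous g) (hG : ∀ x, ‖g x‖ ≤ Gb) (hr : 1 < r) (i : ℕ) (q : E d)
    (j : Fin d) :
    score (lvlσ r i) R g q j = midMean r R i (fun x => score (lvlσ r (i + 1)) R g x j) q := by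
  have hr0 : 0 < r := zero_lt_one.trans hr
  have h1 := lvlσ_pos hr0 (i + 1)
  have h01 := lvlσ_lt hr i
  have hs := continuous_score hR hB hg hG h1.le
  have hb := norm_score_le hR hB hG (lvlσ r (i + 1))
  rw [score_tower_bdd hR hB hg hG h1.le h01.le q]
  have : IsProbabilityMeasure (tilt fun z => upot (lvlσ r (i + 1)) R
      (q + √(lvlσ r i ^ 2 - lvlσ r (i + 1) ^ 2) • z)) := isProb_tilt_upot hR hB h1.le _ q
  have hint : Integrable
      (fun z => score (lvlσ r (i + 1)) R g (q + √(lvlσ r i ^ 2 - lvlσ r (i + 1) ^ 2) • z))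
      (tilt fun z => upot (lvlσ r (i + 1)) R (q + √(lvlσ r i ^ 2 - lvlσ r (i + 1) ^ 2) • z)) :=
    Integrable.of_bound (hs.comp (by fun_prop)).aestronglyMeasurable Gb (ae_of_all _ fun z => hb _)
  refine ((EuclideanSpace.proj (𝕜 := ℝ) j).integral_comp_comm hint).symm.trans ?_
  exact mid_test hR hB (lvlσ_pos hr0 (i + 2)).le (lvlσ_anti hr.le (Nat.le_succ _)) h01
    (φ := fun x => score (lvlσ r (i + 1)) R g x j)
    ((EuclideanSpace.proj (𝕜 := ℝ) j).continuous.comp hs)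
    (fun x => (PiLp.norm_apply_le _ j).trans (hb x)) q

/-- The mean of a test at the next level is its mean under the tilt of the next level. -/
theorem midMean_eq {R : E d → ℝ} {B : ℝ} (hR : Continuous R) (hB : ∀ x, |R x| ≤ B) (hr : 1 < r)
    (i : ℕ) {φ : E d → ℝ} (hφ : Continuous φ) {K : ℝ} (hK : ∀ x, |φ x| ≤ K) (q : E d) :
    midMean r R i φ q = ∫ z, φ (q + √(lvlσ r i ^ 2 - lvlσ r (i + 1) ^ 2) • z)
      ∂tilt fun z => upot (lvlσ r (i + 1)) R (q + √(lvlσ r i ^ 2 - lvlσ r (i + 1) ^ 2) • z) :=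
  (mid_test hR hB (lvlσ_pos (zero_lt_one.trans hr) (i + 2)).le
    (lvlσ_anti hr.le (Nat.le_succ _)) (lvlσ_lt hr i) hφ hK q).symm

end levels

/-! ### The bottom level -/

namespace Pot

variable {δ r0 Gb σ : ℝ} {R : E d → ℝ} {g : E d → E d}

/-- A potential seen from a point at a smaller scale. -/
lemma zoom (h : Pot d δ r0 R g) (hG : ∀ x, ‖g x‖ ≤ Gb) (hσ : 0 ≤ σ) (hσ1 : σ ≤ 1) (q : E d) :
    Pot d δ (σ * Gb) (fun w => R (q + σ • w)) (fun w => σ • g (q + σ • w)) where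
  pos := h.pos
  le_eighth := h.le_eighth
  r0_nonneg := mul_nonneg hσ ((norm_nonneg _).trans (hG q))
  hasGrad w := by
    refine ((h.hasGrad (q + σ • w)).comp w
      (((hasFDerivAt_id w).const_smul σ).const_add q)).congr_fderiv ?_
    ext v
    simp
  smooth := by have := h.smooth; fun_prop
  lip w w' := by
    rw [← smul_sub, norm_smul, norm_eq_abs, abs_of_nonneg hσ]
    refine (mul_le_mul_of_nonneg_left (h.lip _ _) hσ).trans ?_
    rw [add_sub_add_left_eq_sub, ← smul_sub, norm_smul, norm_eq_abs, abs_of_nonneg hσ]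
    calc σ * (δ * (σ * ‖w - w'‖)) = σ * σ * (δ * ‖w - w'‖) := by ring
      _ ≤ δ * ‖w - w'‖ := mul_le_of_le_one_left (by have := h.pos; positivity)
          (mul_le_one₀ hσ1 hσ hσ1)
  at_zero := by
    rw [smul_zero, add_zero, norm_smul, norm_eq_abs, abs_of_nonneg hσ]
    exact mul_le_mul_of_nonneg_left (hG q) hσ

lemma integrable_norm_tilt (h : Pot d δ r0 R g) : Integrable (fun x : E d => ‖x‖) (tilt R) :=
  h.integrable_tilt (by fun_prop) 1 1 fun x => by simp

/-- A Lipschitz quantity under the tilt seen from `q`. -/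
lemma abs_tilt_sub_le (h : Pot d δ r0 R g) (hd : 0 < d) (hG : ∀ x, ‖g x‖ ≤ Gb) (hσ : 0 ≤ σ)
    (hσ1 : σ ≤ 1) (q : E d) {G : Type*} [NormedAddCommGroup G] [NormedSpace ℝ G] [CompleteSpace G]
    [SecondCountableTopology G] {u : E d → G} {L : ℝ} (hL : 0 ≤ L) (hu : Continuous u)
    (hul : ∀ x y, ‖u x - u y‖ ≤ L * ‖x - y‖) :
    ‖(∫ w, u (q + σ • w) ∂tilt fun w => R (q + σ • w)) - u q‖
      ≤ L * σ * (2 * √d + 2 * (σ * Gb)) := by
  have hz := h.zoom hG hσ hσ1 q
  have := hz.isProb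
  have hp : ∀ w, ‖u (q + σ • w) - u q‖ ≤ L * σ * ‖w‖ := fun w => by
    refine (hul _ _).trans_eq ?_
    rw [add_sub_cancel_left, norm_smul, norm_eq_abs, abs_of_nonneg hσ, mul_assoc]
  have hi : Integrable (fun w => u (q + σ • w)) (tilt fun w => R (q + σ • w)) :=
    hz.integrable_tilt (hu.comp (by fun_prop)) (L * σ + ‖u q‖) 1 fun w => by
      have := norm_le_norm_add_norm_sub' (u (q + σ • w)) (u q)
      nlinarith [hp w, norm_nonneg w, norm_nonneg (u q), mul_nonneg hL hσ]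
  calc ‖(∫ w, u (q + σ • w) ∂tilt fun w => R (q + σ • w)) - u q‖
      = ‖∫ w, (u (q + σ • w) - u q) ∂tilt fun w => R (q + σ • w)‖ := by
        rw [integral_sub hi (integrable_const _)]; simp
    _ ≤ ∫ w, L * σ * ‖w‖ ∂tilt fun w => R (q + σ • w) :=
        norm_integral_le_of_norm_le (hz.integrable_norm_tilt.const_mul _) (ae_of_all _ hp)
    _ ≤ _ := by
        rw [integral_const_mul]
        exact mul_le_mul_of_nonneg_left (hz.integral_norm_le hd) (mul_nonneg hL hσ)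

/-- The tilt at `q` at small smoothing is close to the point mass. -/
theorem abs_bottom_test_le (h : Pot d δ r0 R g) (hd : 0 < d) (hG : ∀ x, ‖g x‖ ≤ Gb) (hσ : 0 ≤ σ)
    (hσ1 : σ ≤ 1) (q : E d) {v : E d → ℝ} (hv : ContDiff ℝ 1 v)
    (hl : ∀ x, ‖fderiv ℝ v x‖ ≤ 1) :
    |(∫ w, v (q + σ • w) ∂tilt fun w => R (q + σ • w)) - v q| ≤ 2 * σ * (√d + σ * Gb) := by
  have := h.abs_tilt_sub_le hd hG hσ hσ1 q zero_le_one hv.continuous fun x y =>
    convex_univ.norm_image_sub_le_of_norm_fderiv_le (𝕜 := ℝ)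
      (fun z _ => hv.differentiable one_ne_zero z) (fun z _ => hl z) (mem_univ y) (mem_univ x)
  rw [norm_eq_abs] at this
  linarith

/-- The score at small smoothing is close to the gradient. -/
theorem norm_score_sub_le (h : Pot d δ r0 R g) (hd : 0 < d) (hG : ∀ x, ‖g x‖ ≤ Gb) (hσ : 0 ≤ σ)
    (hσ1 : σ ≤ 1) (q : E d) : ‖score σ R g q - g q‖ ≤ 2 * δ * σ * (√d + σ * Gb) :=
  (h.abs_tilt_sub_le hd hG hσ hσ1 q h.pos.le h.contg h.lip).trans_eq (by ring)

/-! ### Two potentials -/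

/-- The mean of one Langevin step. -/
def stepOp (g : E d → E d) (τ : ℝ) (u : E d → ℝ) (z : E d) : ℝ :=
  Psm (2 * τ) u (z - τ • (z + g z))

lemma stepOp_spec (h : Pot d δ r0 R g) {τ : ℝ} (hτ : 0 ≤ τ) (hτ1 : τ ≤ 1) {u : E d → ℝ}
    (hu : ContDiff ℝ 1 u) {B L : ℝ} (hB : ∀ x, |u x| ≤ B) (hL : ∀ x, ‖fderiv ℝ u x‖ ≤ L) :
    ContDiff ℝ 1 (stepOp g τ u) ∧ (∀ x, |stepOp g τ u x| ≤ B) ∧
      ∀ x, ‖fderiv ℝ (stepOp g τ u) x‖ ≤ L * (1 - τ * (1 - δ)) := by
  have hd1 := hu.differentiable one_ne_zero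
  have hcf : Continuous (fderiv ℝ u) := hu.continuous_fderiv one_ne_zero
  have hPd : ∀ x, HasFDerivAt (Psm (2 * τ) u) (Psm (2 * τ) (fderiv ℝ u) x) x :=
    hasFDerivAt_Psm_comm hd1 hL
  have hP : ContDiff ℝ 1 (Psm (2 * τ) u) := by
    refine contDiff_one_iff_fderiv.2 ⟨fun x => (hPd x).differentiableAt, ?_⟩
    rw [funext fun x => (hPd x).fderiv]
    exact continuous_Psm_bdd hcf hL _
  have hgs := h.smooth
  refine ⟨hP.comp (by fun_prop), fun x => ?_, fun x => ?_⟩
  · have := norm_Psm_le (u := u) (t := 2 * τ) (K := B) (fun y => by simpa using hB y)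
      (x - τ • (x + g x))
    simpa [stepOp] using this
  · have hi : HasFDerivAt (fun z => z - τ • (z + g z))
        ((1 - τ) • ContinuousLinearMap.id ℝ (E d) - τ • fderiv ℝ g x) x := by
      refine ((hasFDerivAt_id x).sub (((hasFDerivAt_id x).add
        (hgs.differentiable one_ne_zero x).hasFDerivAt).const_smul τ)).congr_fderiv ?_
      ext v
      simp [smul_add, sub_smul]
      abel
    show ‖fderiv ℝ (Psm (2 * τ) u ∘ fun z => z - τ • (z + g z)) x‖ ≤ _
    rw [((hPd _).comp x hi).fderiv]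
    refine (ContinuousLinearMap.opNorm_comp_le _ _).trans (mul_le_mul (norm_Psm_le hL _) ?_
      (norm_nonneg _) ((norm_nonneg _).trans (hL 0)))
    refine (norm_sub_le _ _).trans ?_
    rw [norm_smul, norm_smul, norm_eq_abs, norm_eq_abs, abs_of_nonneg (by linarith : 0 ≤ 1 - τ),
      abs_of_nonneg hτ]
    nlinarith [mul_le_mul_of_nonneg_left (h.norm_fderiv_g x) hτ,
      mul_le_mul_of_nonneg_left (ContinuousLinearMap.norm_id_le (𝕜 := ℝ) (E := E d))
        (by linarith : 0 ≤ 1 - τ)]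

/-- Steps of a second drift move a tilt by the mean distance of the drifts. -/
lemma abs_iterate_le {δ' r0' e : ℝ} {R' : E d → ℝ} {g' : E d → E d} (h : Pot d δ r0 R g)
    (h' : Pot d δ' r0' R' g') (he : Integrable (fun x => ‖g x - g' x‖) (tilt R))
    (hle : ∫ x, ‖g x - g' x‖ ∂tilt R ≤ e) {τ : ℝ} (hτ : 0 ≤ τ) (hτ1 : τ ≤ 1) :
    ∀ (k : ℕ) (u : E d → ℝ), ContDiff ℝ 1 u → ∀ B L : ℝ, (∀ x, |u x| ≤ B) →
      (∀ x, ‖fderiv ℝ u x‖ ≤ L) →
      |(∫ z, (stepOp g' τ)^[k] u z ∂tilt R) - ∫ z, u z ∂tilt R|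
          ≤ L * (4 * √d * (τ * √τ) + τ * e) * ∑ j ∈ Finset.range k, (1 - τ * (1 - δ')) ^ j := by
  have := h.isProb
  intro k
  induction k with
  | zero => intro u _ B L _ _; simp
  | succ k ih =>
    intro u hu B L hB hL
    have hL0 : 0 ≤ L := (norm_nonneg _).trans (hL 0)
    obtain ⟨hc, hb, hl⟩ := h'.stepOp_spec hτ hτ1 hu hB hL
    have h1 : |(∫ z, stepOp g' τ u z ∂tilt R) - ∫ z, u z ∂tilt R|
        ≤ L * (4 * √d * (τ * √τ) + τ * e) := by
      obtain ⟨hc0, hb0, -⟩ := h.stepOp_spec hτ hτ1 hu hB hL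
      have hstep : |(∫ z, stepOp g τ u z ∂tilt R) - ∫ z, u z ∂tilt R|
          ≤ 4 * L * √(d : ℝ) * (τ * √τ) := Asm0.tilt_step_le h hu hB hL hτ
      have i1 : Integrable (stepOp g' τ u) (tilt R) :=
        Integrable.of_bound hc.continuous.aestronglyMeasurable B
          (ae_of_all _ fun x => by simpa using hb x)
      have i0 : Integrable (stepOp g τ u) (tilt R) :=
        Integrable.of_bound hc0.continuous.aestronglyMeasurable B
          (ae_of_all _ fun x => by simpa using hb0 x)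
      have hdiff : |(∫ z, stepOp g' τ u z ∂tilt R) - ∫ z, stepOp g τ u z ∂tilt R|
          ≤ L * (τ * e) := by
        rw [← integral_sub i1 i0, ← norm_eq_abs]
        refine (norm_integral_le_of_norm_le (he.const_mul (L * τ)) (ae_of_all _ fun z => ?_)).trans ?_
        · have hP := hasFDerivAt_Psm_comm (t := 2 * τ) (hu.differentiable one_ne_zero) hL
          refine (convex_univ.norm_image_sub_le_of_norm_fderiv_le (𝕜 := ℝ)
            (fun y _ => (hP y).differentiableAt)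
            (fun y _ => by rw [(hP y).fderiv]; exact norm_Psm_le hL y)
            (mem_univ (z - τ • (z + g z))) (mem_univ (z - τ • (z + g' z)))).trans_eq ?_
          rw [sub_sub_sub_cancel_left, ← smul_sub, add_sub_add_left_eq_sub, norm_smul, norm_eq_abs,
            abs_of_nonneg hτ]
          ring
        · rw [integral_const_mul, mul_assoc]
          gcongr
      linarith [_root_.abs_sub_le (∫ z, stepOp g' τ u z ∂tilt R) (∫ z, stepOp g τ u z ∂tilt R)
        (∫ z, u z ∂tilt R)]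
    have h2 := ih (stepOp g' τ u) hc B _ hb hl
    rw [Function.iterate_succ_apply, Finset.sum_range_succ']
    simp only [pow_succ', pow_zero, ← Finset.mul_sum]
    refine (_root_.abs_sub_le _ (∫ z, stepOp g' τ u z ∂tilt R) _).trans ((add_le_add h2 h1).trans ?_)
    exact le_of_eq (by ring)

/-- Two tilts differ on Lipschitz tests by the mean distance of their gradients. -/
theorem abs_tilt_compare {δ' r0' e : ℝ} {R' : E d → ℝ} {g' : E d → E d} (h : Pot d δ r0 R g)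
    (h' : Pot d δ' r0' R' g') (hd : 0 < d) (he : Integrable (fun x => ‖g x - g' x‖) (tilt R))
    (hle : ∫ x, ‖g x - g' x‖ ∂tilt R ≤ e) {u : E d → ℝ} (hu : ContDiff ℝ 1 u) {B L : ℝ}
    (hB : ∀ x, |u x| ≤ B) (hL : ∀ x, ‖fderiv ℝ u x‖ ≤ L) :
    |(∫ z, u z ∂tilt R) - ∫ z, u z ∂tilt R'| ≤ 2 * L * e := by
  have := h.isProb
  have := h'.isProb
  have hL0 : 0 ≤ L := (norm_nonneg _).trans (hL 0)
  have he0 : 0 ≤ e := (integral_nonneg fun x => norm_nonneg _).trans hle
  have hδ' : 1 / 2 ≤ 1 - δ' := by linarith [h'.le_eighth]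
  suffices hs : ∀ τ : ℝ, 0 < τ → τ ≤ 1 →
      |(∫ z, u z ∂tilt R) - ∫ z, u z ∂tilt R'| ≤ L * (8 * √d * √τ + e) / (1 - δ') by
    refine le_trans ?_ (show L * e / (1 - δ') ≤ 2 * L * e by
      rw [div_le_iff₀ (by linarith)]
      nlinarith [mul_le_mul_of_nonneg_left hδ' (mul_nonneg hL0 he0)])
    have hlim : Tendsto (fun τ : ℝ => L * (8 * √d * √τ + e) / (1 - δ')) (𝓝[>] 0)
        (𝓝 (L * e / (1 - δ'))) := by
      have hc : Continuous fun τ : ℝ => L * (8 * √d * √τ + e) / (1 - δ') := by fun_prop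
      simpa using (hc.tendsto 0).mono_left nhdsWithin_le_nhds
    refine ge_of_tendsto hlim ?_
    filter_upwards [Ioc_mem_nhdsGT (zero_lt_one' ℝ)] with τ hτ
    exact hs τ hτ.1 hτ.2
  intro τ hτ hτ1
  set q := 1 - τ * (1 - δ') with hq
  have hq0 : 0 ≤ q := by
    have := h'.pos
    rw [hq]; nlinarith
  have hq1 : q < 1 := by rw [hq]; nlinarith
  set M := (∫ z, ‖z‖ ∂tilt R) + ∫ z, ‖z‖ ∂tilt R'
  have hk : ∀ k : ℕ, |(∫ z, u z ∂tilt R) - ∫ z, u z ∂tilt R'|
      ≤ L * (8 * √d * √τ + e) / (1 - δ') + L * q ^ k * M := fun k => by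
    have hit : ∀ k : ℕ, ContDiff ℝ 1 ((stepOp g' τ)^[k] u) ∧
        (∀ x, |(stepOp g' τ)^[k] u x| ≤ B) ∧
          ∀ x, ‖fderiv ℝ ((stepOp g' τ)^[k] u) x‖ ≤ L * q ^ k := by
      intro k
      induction k with
      | zero => simpa using ⟨hu, hB, hL⟩
      | succ k ih =>
        rw [Function.iterate_succ_apply', pow_succ, ← mul_assoc]
        exact h'.stepOp_spec hτ.le hτ1 ih.1 ih.2.1 ih.2.2
    obtain ⟨hc, hb, hl⟩ := hit k
    set a := (stepOp g' τ)^[k] u
    have h1 := h.abs_iterate_le h' he hle hτ.le hτ1 k u hu B L hB hL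
    have h2 := h'.abs_iterate_le h' (e := 0) (by simp) (by simp) hτ.le hτ1 k u hu B L hB hL
    have hnear : ∀ (δ₀ r₀ : ℝ) (R₀ : E d → ℝ) (g₀ : E d → E d), Pot d δ₀ r₀ R₀ g₀ →
        |(∫ z, a z ∂tilt R₀) - a 0| ≤ L * q ^ k * ∫ z, ‖z‖ ∂tilt R₀ := by
      intro δ₀ r₀ R₀ g₀ h₀
      have := h₀.isProb
      have hi : Integrable a (tilt R₀) := Integrable.of_bound hc.continuous.aestronglyMeasurable B
        (ae_of_all _ fun x => by simpa using hb x)
      calc |(∫ z, a z ∂tilt R₀) - a 0| = |∫ z, (a z - a 0) ∂tilt R₀| := by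
            rw [integral_sub hi (integrable_const _)]; simp
        _ ≤ ∫ z, L * q ^ k * ‖z‖ ∂tilt R₀ := by
            rw [← norm_eq_abs]
            refine norm_integral_le_of_norm_le (h₀.integrable_norm_tilt.const_mul _)
              (ae_of_all _ fun z => ?_)
            simpa using convex_univ.norm_image_sub_le_of_norm_fderiv_le (𝕜 := ℝ)
              (fun y _ => hc.differentiable one_ne_zero y) (fun y _ => hl y) (mem_univ 0)
              (mem_univ z)
        _ = _ := integral_const_mul _ _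
    have n1 := hnear δ r0 R g h
    have n2 := hnear δ' r0' R' g' h'
    have hgeo : (∑ j ∈ Finset.range k, q ^ j) * (τ * (1 - δ')) ≤ 1 := by
      have := geom_sum_mul q k
      rw [show q - 1 = -(τ * (1 - δ')) by rw [hq]; ring] at this
      nlinarith [pow_nonneg hq0 k]
    have hS : ∀ c : ℝ, 0 ≤ c → L * (τ * c) * ∑ j ∈ Finset.range k, q ^ j ≤ L * c / (1 - δ') := by
      intro c hc'
      rw [le_div_iff₀ (by linarith)]
      nlinarith [mul_le_mul_of_nonneg_left hgeo (mul_nonneg hL0 hc')]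
    have s1 := hS (4 * √d * √τ + e) (by positivity)
    have s2 := hS (4 * √d * √τ) (by positivity)
    have hadd : L * (8 * √d * √τ + e) / (1 - δ') =
        L * (4 * √d * √τ + e) / (1 - δ') + L * (4 * √d * √τ) / (1 - δ') := by ring
    rw [show L * (4 * √d * (τ * √τ) + τ * e) = L * (τ * (4 * √d * √τ + e)) by ring] at h1
    rw [show L * (4 * √d * (τ * √τ) + τ * 0) = L * (τ * (4 * √d * √τ)) by ring] at h2
    rw [hadd, mul_add (L * q ^ k)]
    rw [abs_le] at h1 h2 n1 n2 ⊢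
    constructor <;> linarith
  have hlim : Tendsto (fun k : ℕ => L * (8 * √d * √τ + e) / (1 - δ') + L * q ^ k * M) atTop
      (𝓝 (L * (8 * √d * √τ + e) / (1 - δ'))) := by
    simpa using (((tendsto_pow_atTop_nhds_zero_of_lt_one hq0 hq1).const_mul L).mul_const M).const_add
      (L * (8 * √d * √τ + e) / (1 - δ'))
  exact ge_of_tendsto hlim (Eventually.of_forall hk)

lemma abs_cutR_le (h : Pot d δ r0 R g) {ρ : ℝ} (hρ : 0 < ρ) (hr : r0 ≤ δ * ρ) (x : E d) :
    |cutPart ρ R x| ≤ 2 * δ * ρ ^ 2 := by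
  have hp := cutP_pos ρ x
  have hrel := cutP_rel hρ x
  have hh := cutP_mul_le hρ x
  rw [cutPart, abs_mul, abs_of_pos hp]
  refine (mul_le_mul_of_nonneg_left (h.abs_val_le hρ hr x) hp.le).trans ?_
  have h2 : cutP ρ x * ((‖x‖ / ρ) ^ 2 + ‖x‖ / ρ) ≤ 2 := by nlinarith
  nlinarith [mul_le_mul_of_nonneg_left h2 (mul_nonneg h.pos.le (sq_nonneg ρ))]

end Pot

/-! ### The ladder of one oracle -/

/-- The strength of the tilt of the oracle. -/
def unitδ (η : ℝ) : ℝ := var' η / 2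

/-- The gradient of the tilt of the oracle at the origin. -/
def unitr0 (η : ℝ) (y : E d) : ℝ := √(var' η) * (var' η / 2) ^ 4 * ‖y‖

/-- The radius of the cut-off is admissible. -/
def RhoOk (η : ℝ) (ρ : E d → ℝ) (y : E d) : Prop := 1 ≤ ρ y ∧ unitr0 η y ≤ unitδ η * ρ y

/-- The bound of the cut-off gradient. -/
def cutGb (η : ℝ) (ρ : E d → ℝ) (y : E d) : ℝ := 3 * unitδ η * ρ y

section oracle

variable {η r : ℝ} {ρ : E d → ℝ} {V : E d → ℝ} {y : E d}

/-- (a) The cut-off potential of the oracle. -/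
theorem pot_cutPot (hV : InClass d V) (hη : 0 < η) (hη' : η ≤ 1 / 128) (hρ : RhoOk η ρ y) :
    Pot d (9 * unitδ η) (unitr0 η y) (cutPot η ρ V y) (cutGrad η ρ V y) :=
  (pot_unit hV hη (by linarith) y).pot_cut (zero_lt_one.trans_le hρ.1) hρ.2
    (by linarith [var'_le hη])

theorem norm_cutGrad_le (hV : InClass d V) (hη : 0 < η) (hη' : η ≤ 1 / 128) (hρ : RhoOk η ρ y)
    (x : E d) : ‖cutGrad η ρ V y x‖ ≤ cutGb η ρ y :=
  (pot_unit hV hη (by linarith) y).norm_cutG_le (zero_lt_one.trans_le hρ.1) hρ.2 x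

theorem abs_cutPot_le (hV : InClass d V) (hη : 0 < η) (hη' : η ≤ 1 / 128) (hρ : RhoOk η ρ y)
    (x : E d) : |cutPot η ρ V y x| ≤ 2 * unitδ η * ρ y ^ 2 :=
  (pot_unit hV hη (by linarith) y).abs_cutR_le (zero_lt_one.trans_le hρ.1) hρ.2 x

theorem Fld.mono_Gb {δ r' Gb Gb' C : ℝ} {N : ℕ} {h : E d → E d} (hh : Fld d δ r' Gb C N h)
    (hG : Gb ≤ Gb') : Fld d δ r' Gb' C N h :=
  ⟨hh.smooth, hh.lip, fun x => (hh.bdd x).trans hG, hh.symm, hh.tail, hh.tail_one⟩

/-- (b) Every level of the ladder is a field. -/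
theorem fld_ladder {C : ℝ} {N : ℕ}
    (hS : ∀ (σ s δ r0 Gb : ℝ) (R : E d → ℝ) (g : E d → E d), Pot d δ r0 R g → (∀ y, ‖g y‖ ≤ Gb) →
      0 < s → s ≤ σ → σ ≤ 1 →
      Fld d (2 * δ * s ^ 2) (σ / s) (s * Gb) C N fun z => s • score σ R g (s • z))
    (hV : InClass d V) (hη : 0 < η) (hη' : η ≤ 1 / 128) (hρ : RhoOk η ρ y) (hr : 1 ≤ r) (l : ℕ) :
    Fld d (lvlδ (9 * unitδ η) r l) r (cutGb η ρ y) C N (ladder η r ρ V y l) := by
  have hr0 : 0 < r := zero_lt_one.trans_le hr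
  have h := hS (lvlσ r l) (lvlS r l) _ _ _ _ _ (pot_cutPot hV hη hη' hρ)
    (norm_cutGrad_le hV hη hη' hρ) (lvlS_pos hr0 l) (lvlσ_anti hr (Nat.le_succ l))
    (lvlσ_le_one hr l)
  rw [lvlσ_div_lvlS hr0] at h
  refine h.mono_Gb (mul_le_of_le_one_left ?_ (lvlσ_le_one hr (l + 1)))
  exact (norm_nonneg _).trans (norm_cutGrad_le hV hη hη' hρ 0)

lemma measurable_cutOf_param :
    Measurable fun p : ℝ × E d × ℝ × E d => cutOf p.1 p.2.1 p.2.2.1 p.2.2.2 := by
  unfold cutOf cutP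
  fun_prop

/-- The output of the six queries: from the pair, the centre with the last gradient, the answer at
the centre and the answer at the point. -/
def ladderOut (η s : ℝ) (ρ : E d → ℝ)
    (x : (E d × E d) × (E d × E d) × (ℝ × E d) × (ℝ × E d)) : E d :=
  let p := x.2.1.1 + √(var' η) • (s • x.1.2)
  let a := x.2.2.2.1 - (3 / 4) * ‖p‖ ^ 2 - (x.2.2.1.1 - (3 / 4) * ‖x.2.1.1‖ ^ 2)
    - √(var' η) * ⟪x.2.1.2, s • x.1.2⟫
  let b := √(var' η) • (x.2.2.2.2 - (3 / 2 : ℝ) • p - x.2.1.2)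
  s • cutOf (ρ x.1.1) (s • x.1.2) a b

lemma measurable_ladderOut (η s : ℝ) (hρ : Measurable ρ) :
    Measurable (ladderOut (d := d) η s ρ) := by
  unfold ladderOut
  exact (measurable_cutOf_param.comp ((hρ.comp (measurable_fst.comp measurable_fst)).prodMk
    ((by fun_prop : Measurable _).prodMk ((by fun_prop : Measurable _).prodMk
      (by fun_prop))))).const_smul s

lemma unitR_zero (V : E d → ℝ) (η : ℝ) (y : E d) : unitR V η y 0 = 0 := by simp [unitR]

/-- (c) Every level has a six-query estimator. -/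
theorem leafEst_ladder (hd : 0 < d) (hη : 0 < η) (hη' : η ≤ 1 / 128) (hρm : Measurable ρ)
    (hρ : ∀ y, RhoOk η ρ y) (hr : 1 ≤ r) :
    LeafEst (ladder η r ρ) (lvlδ (9 * unitδ η) r) r 0 6
      (fun y => √(d : ℝ) + cutGb η ρ y + 1) := by
  intro ℓ _
  set s := lvlS r ℓ with hs
  refine ⟨Unit, inferInstance, inferInstance, Measure.dirac (), inferInstance,
    fun V p => s • cutGrad η ρ V p.1.1 (s • p.1.2), fun β _ g hg => ?_, fun V hV a => ?_⟩
  · have hy : Measurable fun b => (g b).1.1 := measurable_fst.comp (measurable_fst.comp hg)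
    have hz : Measurable fun b => (g b).1.2 := measurable_snd.comp (measurable_fst.comp hg)
    have hc := Comp.centre (d := d) (η := η) hy
    have hq1 : Measurable fun x : β × E d × E d => x.2.1 := by fun_prop
    have hq2 : Measurable fun x : (β × E d × E d) × (ℝ × E d) =>
        x.1.2.1 + √(var' η) • (s • (g x.1.1).1.2) := by fun_prop
    have hout : Measurable fun x : ((β × E d × E d) × (ℝ × E d)) × (ℝ × E d) =>
        (x.1.1.1, ladderOut η s ρ ((g x.1.1.1).1, x.1.1.2, x.1.2, x.2)) := by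
      have h1 : Measurable fun x : ((β × E d × E d) × (ℝ × E d)) × (ℝ × E d) => x.1.1.1 := by
        fun_prop
      exact h1.prodMk ((measurable_ladderOut η s hρm).comp
        (((measurable_fst.comp hg).comp h1).prodMk (by fun_prop)))
    refine (hc.trans ((Comp.query hq1).trans ((Comp.query hq2).trans (Comp.const hout)))).congr
      fun V _ b => ?_
    simp only [ladderOut, cutGrad, cutG, unitR_zero, sub_zero]
    simp only [unitR, unitG, rest, restGrad, oracle]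
  · have hr0 : 0 < r := zero_lt_one.trans_le hr
    refine ⟨integrable_dirac (by simp), ?_⟩
    rw [integral_dirac]
    have hP := pot_cutPot hV hη hη' (hρ a.1)
    have hG := norm_cutGrad_le hV hη hη' (hρ a.1)
    have hb := hP.norm_score_sub_le hd hG (lvlσ_pos hr0 ℓ).le (lvlσ_le_one hr ℓ) (s • a.2)
    have hGb : 0 ≤ cutGb η ρ a.1 := (norm_nonneg _).trans (hG 0)
    have hmono : lvlσ r ℓ * cutGb η ρ a.1 ≤ cutGb η ρ a.1 :=
      mul_le_of_le_one_left hGb (lvlσ_le_one hr ℓ)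
    have hs0 := (lvlS_pos hr0 ℓ).le
    have hsr : s * r = lvlσ r ℓ := by
      have h := lvlσ_div_lvlS hr0 ℓ
      rw [div_eq_iff (lvlS_pos hr0 ℓ).ne'] at h
      rw [hs, h, mul_comm]
    simp only [ladder, ← hs]
    rw [← smul_sub, norm_smul, norm_eq_abs, abs_of_nonneg hs0, norm_sub_rev]
    refine (mul_le_mul_of_nonneg_left hb hs0).trans ?_
    rw [show lvlδ (9 * unitδ η) r ℓ * r = s * (2 * (9 * unitδ η) * lvlσ r ℓ) by
      rw [← hsr, lvlδ, ← hs]; ring]
    rw [mul_assoc s]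
    refine mul_le_mul_of_nonneg_left (mul_le_mul_of_nonneg_left (by linarith) ?_) hs0
    have := hP.pos
    have := lvlσ_pos hr0 ℓ
    positivity

/-- (f) The oracle against the cut-off tilt. -/
theorem abs_oracleMean_sub_cut_le (hd : 0 < d) (hV : InClass d V) (hη : 0 < η)
    (hη' : η ≤ 1 / 128) (hρ : RhoOk η ρ y) {v : E d → ℝ} (hv : ContDiff ℝ 1 v) {B L : ℝ}
    (hB : ∀ x, |v x| ≤ B) (hL : ∀ x, ‖fderiv ℝ v x‖ ≤ L) :
    |oracleMean V η v y - ∫ z, v (cen V η y 4 + √(var' η) • z) ∂tilt (cutPot η ρ V y)|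
      ≤ L * √(var' η) *
        (4 * (unitδ η + unitr0 η y) * (1 + 2 * d + 4 * unitr0 η y ^ 2) / ρ y) := by
  have hP : Pot d (unitδ η) (unitr0 η y) (unitR V η y) (unitG V η y) :=
    pot_unit hV hη (by linarith) y
  have hP' := pot_cutPot hV hη hη' hρ
  have hρ0 : 0 < ρ y := zero_lt_one.trans_le hρ.1
  have := hP.isProb
  set c := √(var' η)
  have i2 : Integrable (fun x : E d => ‖x‖ ^ 2) (tilt (unitR V η y)) :=
    hP.integrable_tilt (by fun_prop) 1 2 fun x => by
      rw [norm_pow, norm_norm]; nlinarith [norm_nonneg x]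
  set e := 2 * (unitδ η + unitr0 η y) * (1 + 2 * d + 4 * unitr0 η y ^ 2) / ρ y with he
  have hb : ∀ x, ‖unitG V η y x - cutGrad η ρ V y x‖
      ≤ 2 * (unitδ η + unitr0 η y) / ρ y * (1 + ‖x‖ ^ 2) := fun x =>
    (hP.norm_sub_cutG_le hρ0 x).trans_eq (by ring)
  have hI : Integrable (fun x : E d => 2 * (unitδ η + unitr0 η y) / ρ y * (1 + ‖x‖ ^ 2))
      (tilt (unitR V η y)) := ((integrable_const 1).add i2).const_mul _
  have hi : Integrable (fun x => ‖unitG V η y x - cutGrad η ρ V y x‖) (tilt (unitR V η y)) :=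
    hI.mono' ((hP.contg.sub hP'.contg).norm).aestronglyMeasurable
      (ae_of_all _ fun x => by simpa using hb x)
  have hle : ∫ x, ‖unitG V η y x - cutGrad η ρ V y x‖ ∂tilt (unitR V η y) ≤ e := by
    refine (integral_mono hi hI hb).trans ?_
    rw [integral_const_mul, integral_add (integrable_const _) i2, integral_const, probReal_univ,
      one_smul, he, mul_div_right_comm (2 * (unitδ η + unitr0 η y))]
    refine mul_le_mul_of_nonneg_left (by linarith [hP.integral_norm_sq_le]) ?_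
    have := hP.pos
    have := hP.r0_nonneg
    positivity
  have hu : ContDiff ℝ 1 fun z : E d => v (cen V η y 4 + c • z) := hv.comp (by fun_prop)
  have hl : ∀ z, ‖fderiv ℝ (fun z : E d => v (cen V η y 4 + c • z)) z‖ ≤ L * c := fun z => by
    have hd' : HasFDerivAt (fun z : E d => v (cen V η y 4 + c • z))
        ((fderiv ℝ v (cen V η y 4 + c • z)).comp (c • ContinuousLinearMap.id ℝ (E d))) z :=
      (hv.differentiable one_ne_zero _).hasFDerivAt.comp z
        (((hasFDerivAt_id z).const_smul c).const_add _)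
    rw [hd'.fderiv, ContinuousLinearMap.comp_smul, ContinuousLinearMap.comp_id, norm_smul,
      norm_eq_abs, abs_of_nonneg (sqrt_nonneg _), mul_comm L]
    exact mul_le_mul_of_nonneg_left (hL _) (sqrt_nonneg _)
  refine (hP.abs_tilt_compare hP' hd hi hle hu (fun z => hB _) hl).trans_eq ?_
  rw [he]
  ring

end oracle

end Vale.Agent.P347
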