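import Vale.Agent.P347.Est
import Vale.Agent.P347Zero.Core
import Vale.Agent.P347Zero.Score
import Vale.Agent.P347Zero.Cut

/-!
P347: the ladder of smoothed scores of one restricted Gaussian oracle, in standard units per level.
-/

open MeasureTheory ProbabilityTheory Real

namespace Vale.Agent.P347

/-- The smoothing of level `i`. -/
noncomputable def lvlσ (r : ℝ) (i : ℕ) : ℝ := (r ^ i)⁻¹

/-- The unit of level `i`. -/
noncomputable def lvlS (r : ℝ) (i : ℕ) : ℝ := (r ^ (i + 1))⁻¹

/-- The Lipschitz constants of the levels, for a tilt of strength `δ`. -/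
noncomputable def lvlδ (δ r : ℝ) (i : ℕ) : ℝ := 2 * δ * lvlS r i ^ 2

variable {d : ℕ}

/-- The cut-off standardised potential of the oracle at `y`. -/
noncomputable def cutPot (η : ℝ) (ρ : E d → ℝ) (V : E d → ℝ) (y : E d) : E d → ℝ :=
  cutPart (ρ y) (unitR V η y)

/-- Its gradient. -/
noncomputable def cutGrad (η : ℝ) (ρ : E d → ℝ) (V : E d → ℝ) (y : E d) : E d → E d :=
  cutG (ρ y) (unitR V η y) (unitG V η y)

/-- The scores of the cut-off oracle, one for each level. -/
noncomputable def ladder (η r : ℝ) (ρ : E d → ℝ) : Fam d := fun V y i z =>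
  lvlS r i • score (lvlσ r i) (cutPot η ρ V y) (cutGrad η ρ V y) (lvlS r i • z)

/-- The mean of a test at level `i + 1` given the centre `q` at level `i`, through level `i + 2`. -/
noncomputable def midMean (r : ℝ) (R : E d → ℝ) (i : ℕ) (φ : E d → ℝ) (q : E d) : ℝ :=
  let t := lvlσ r i ^ 2 - lvlσ r (i + 2) ^ 2
  let a := (lvlσ r i ^ 2 - lvlσ r (i + 1) ^ 2) / t
  ∫ z, ∫ w, φ (q + (a * √t) • z + √(a * (lvlσ r (i + 1) ^ 2 - lvlσ r (i + 2) ^ 2)) • w) ∂gau (Fin d)
    ∂tilt fun z => upot (lvlσ r (i + 2)) R (q + √t • z)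

end Vale.Agent.P347
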