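import Vale.Agent.P347Zero.LadderDefs
import Vale.Agent.P347Zero.Noise

/-!
P347 (exponent zero, M16): the drift of the tilt of one level, the program standing for the level,
and their syntactic bounds.
-/

open MeasureTheory ProbabilityTheory Real

namespace Vale.Agent.P347

variable {d : ℕ}

/-- The variance between level `i` and level `i + 2`. -/
noncomputable def lvlT (r : ℝ) (i : ℕ) : ℝ := lvlσ r i ^ 2 - lvlσ r (i + 2) ^ 2

/-- The part of it above level `i + 1`. -/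
noncomputable def lvlA (r : ℝ) (i : ℕ) : ℝ := (lvlσ r i ^ 2 - lvlσ r (i + 1) ^ 2) / lvlT r i

/-- The weight of the tilted variable in units of level `i + 1`. -/
noncomputable def lvlC (r : ℝ) (i : ℕ) : ℝ := lvlA r i * √(lvlT r i) / lvlS r (i + 1)

/-- The fresh variance in units of level `i + 1`. -/
noncomputable def lvlV (r : ℝ) (i : ℕ) : ℝ :=
  lvlA r i * (lvlσ r (i + 1) ^ 2 - lvlσ r (i + 2) ^ 2) / lvlS r (i + 1) ^ 2

/-- The scale of level `i + 2` seen from the tilted variable. -/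
noncomputable def lvlW (r : ℝ) (i : ℕ) : ℝ := √(lvlT r i) / lvlS r (i + 2)

/-- The point drawn for level `i + 1`; inputs: the Gaussian variable, then the centre. -/
noncomputable def midMeanProg (r : ℝ) (i : ℕ) (Φ : Prog) : Prog :=
  .add (.smul r (.inp 1)) (.smul (lvlC r i) (.add (.inp 0) Φ))

/-- The program standing for level `i`, from the map of its tilt. -/
noncomputable def midProg (r : ℝ) (i : ℕ) (Φ : Prog) : Prog :=
  .smul r (.bind .zero 1
    (.bind (midMeanProg r i Φ) (lvlV r i - 1) (.call (i + 1) 1 (.inp 0))))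

/-- The point of level `i + 2` seen from the tilt of level `i`. -/
noncomputable def midPoint (r : ℝ) (i : ℕ) : ℕ → Prog
  | 0 => .add (.smul (r ^ 2) (.inp 1)) (.smul (lvlW r i) (.inp 0))
  | _ + 1 => .zero

/-- The drift of the tilt of level `i` from the program standing for level `i + 2`; inputs: the
point, then the centre. -/
noncomputable def midDrift (r : ℝ) (i : ℕ) (P : Prog) : Prog :=
  .smul (lvlW r i) (P.subst (midPoint r i))

/-! ### The constants of a level -/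

section consts

variable {r : ℝ}

lemma lvlσ_shift (r : ℝ) (i n : ℕ) : lvlσ r (i + n) = lvlσ r i * (r ^ n)⁻¹ := by
  simp [lvlσ, pow_add, mul_comm]

lemma lvlS_ratio_one (hr : 0 < r) (i : ℕ) : lvlS r i / lvlS r (i + 1) = r := by
  unfold lvlS; field_simp; ring

lemma lvlS_ratio_two (hr : 0 < r) (i : ℕ) : lvlS r i / lvlS r (i + 2) = r ^ 2 := by
  unfold lvlS; field_simp; ring

lemma lvlT_eq (r : ℝ) (i : ℕ) : lvlT r i = lvlσ r i ^ 2 * (1 - ((r ^ 2)⁻¹) ^ 2) := by
  rw [lvlT, lvlσ_shift r i 2]; ring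

lemma level_facts (hr : 2 ≤ r) (i : ℕ) :
    0 < lvlT r i ∧ lvlT r i ≤ 1 ∧ √(lvlT r i) ≤ lvlσ r i ∧ 0 ≤ lvlA r i ∧ lvlA r i ≤ 1 ∧
      0 ≤ lvlC r i ∧ lvlC r i ≤ r ^ 2 ∧ 2 ≤ lvlV r i ∧ lvlV r i ≤ r ^ 2 ∧
      0 ≤ lvlW r i ∧ lvlW r i ≤ r ^ 3 := by
  have hr0 : 0 < r := by linarith
  have hσ : 0 < lvlσ r i := by unfold lvlσ; positivity
  have hσ1 : lvlσ r i ≤ 1 := inv_le_one_of_one_le₀ (one_le_pow₀ (by linarith))
  set x := (r ^ 2)⁻¹ with hx
  have hx0 : 0 < x := by rw [hx]; positivity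
  have hr2 : 4 ≤ r ^ 2 := by nlinarith
  have hx1 : x ≤ 1 / 4 := by
    rw [hx, one_div]; exact inv_anti₀ (by norm_num) hr2
  have hT : lvlT r i = lvlσ r i ^ 2 * (1 - x ^ 2) := lvlT_eq r i
  have hT0 : 0 < lvlT r i := by rw [hT]; exact mul_pos (by positivity) (by nlinarith)
  have hTσ : lvlT r i ≤ lvlσ r i ^ 2 := by rw [hT]; exact mul_le_of_le_one_right (by positivity) (by nlinarith)
  have hst : √(lvlT r i) ≤ lvlσ r i := by
    rw [← sqrt_sq hσ.le]; exact sqrt_le_sqrt hTσ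
  have hA : lvlA r i = 1 / (1 + x) := by
    rw [lvlA, hT, lvlσ_shift r i 1, pow_one, show (lvlσ r i * r⁻¹) ^ 2 = lvlσ r i ^ 2 * x by
      rw [hx, mul_pow, inv_pow], div_eq_div_iff (mul_pos (by positivity) (by nlinarith)).ne'
      (by linarith)]
    ring
  have hA0 : 0 ≤ lvlA r i := by rw [hA]; positivity
  have hA1 : lvlA r i ≤ 1 := by
    rw [hA, div_le_one (by linarith)]; linarith
  have hV : lvlV r i = lvlA r i * (r ^ 2 - 1) := by
    rw [lvlV, show lvlS r (i + 1) = lvlσ r (i + 2) from rfl, lvlσ_shift r i 1, lvlσ_shift r i 2]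
    field_simp
  refine ⟨hT0, hTσ.trans (pow_le_one₀ hσ.le hσ1), hst, hA0, hA1, ?_, ?_, ?_, ?_, ?_, ?_⟩
  · unfold lvlC lvlS; positivity
  · rw [lvlC, show lvlS r (i + 1) = lvlσ r (i + 2) from rfl, lvlσ_shift r i 2,
      div_le_iff₀ (by positivity), show r ^ 2 * (lvlσ r i * (r ^ 2)⁻¹) = lvlσ r i by field_simp]
    exact (mul_le_of_le_one_left (sqrt_nonneg _) hA1).trans hst
  · rw [hV, hA, one_div_mul_eq_div, le_div_iff₀ (by linarith)]
    nlinarith
  · rw [hV]
    exact (mul_le_of_le_one_left (by linarith) hA1).trans (by linarith)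
  · unfold lvlW lvlS; positivity
  · rw [lvlW, show lvlS r (i + 2) = lvlσ r (i + 3) from rfl, lvlσ_shift r i 3,
      div_le_iff₀ (by positivity), show r ^ 3 * (lvlσ r i * (r ^ 3)⁻¹) = lvlσ r i by field_simp]
    exact hst

lemma lvlS_sq_next (hr : 0 < r) (i : ℕ) : lvlS r (i + 1) ^ 2 * r ^ 2 = lvlS r i ^ 2 := by
  unfold lvlS; field_simp; ring

end consts

/-! ### Programs standing for levels -/

/-- What is kept of the program standing for level `i`; input `0` is the centre. -/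
structure LevelOk (δ : ℕ → ℝ) (r B T : ℝ) (K P : ℕ) (i : ℕ) (F : Prog) : Prop where
  small : F.Small
  wf : F.WF δ r B T
  levelGe : F.LevelGe (i + 1)
  depth : F.depth ≤ K
  nodes : F.nodes ≤ P
  size : F.size δ r ≤ 5 * (δ (i + 1) * r ^ 3)
  mass : F.mass δ r ≤ δ (i + 1) * r ^ 2
  lip : F.lip δ (pushR 1 0) ≤ 2 * (δ (i + 1) * r ^ 3)
  sens : F.SensLe δ B (pushR 1 0)
  noise : F.NoiseLe δ B (pushR 1 0)

lemma levelOk_zero {δ : ℕ → ℝ} {r B T : ℝ} {K P : ℕ} (i : ℕ) (hδ : 0 ≤ δ) (hr : 0 ≤ r)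
    (hP : 1 ≤ P) : LevelOk δ r B T K P i Prog.zero where
  small := trivial
  wf := trivial
  levelGe := trivial
  depth := Nat.zero_le _
  nodes := hP
  size := mul_nonneg (by norm_num) (mul_nonneg (hδ _) (pow_nonneg hr 3))
  mass := mul_nonneg (hδ _) (pow_nonneg hr 2)
  lip := mul_nonneg (by norm_num) (mul_nonneg (hδ _) (pow_nonneg hr 3))
  sens := trivial
  noise := trivial

/-- What is used of the drift of level `i`. -/
structure DriftOk (δ : ℕ → ℝ) (r B T : ℝ) (K P i : ℕ) (D : ℝ) (F : Prog) : Prop where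
  small : F.Small
  wf : F.WF δ r B T
  levelGe : F.LevelGe (i + 3)
  depth : F.depth ≤ K
  nodes : F.nodes ≤ P
  size : F.size δ r ≤ 10 * D * r ^ 9
  lip : F.lip δ (pushR 1 0) ≤ 4 * D * r ^ 9
  lip' : F.lip δ (pushR 0 (pushR 1 0)) ≤ 4 * D * r ^ 9
  sens : F.SensLe δ B (pushR 1 0)
  sens' : F.SensLe δ B (pushR 0 (pushR 1 0))
  noise : F.NoiseLe δ B (pushR 1 0)
  noise' : F.NoiseLe δ B (pushR 0 (pushR 1 0))

lemma midPoint_lip (δ : ℕ → ℝ) (r : ℝ) (i : ℕ) (hw : 0 ≤ lvlW r i) (x y : ℝ) :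
    (fun j => (midPoint r i j).lip δ (pushR x (pushR y 0)))
      = (r ^ 2 * y + lvlW r i * x) • pushR 1 0 := by
  funext j
  cases j with
  | zero => simp [midPoint, Prog.lip, pushR, abs_of_nonneg (sq_nonneg r), abs_of_nonneg hw]
  | succ j => simp [midPoint, Prog.lip, pushR]

theorem driftOk_midDrift {δ : ℕ → ℝ} {r B T D : ℝ} {K P i : ℕ} {F : Prog} (hr : 2 ≤ r)
    (hδ0 : 0 ≤ δ) (hδD : ∀ l, δ l ≤ 2 * D) (hB : 1 ≤ B) (hT0 : 0 < T)
    (h : LevelOk δ r B T K P (i + 2) F) :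
    DriftOk δ r (r ^ 3 * B) T K (7 * P + 1) i D (midDrift r i F) := by
  obtain ⟨-, -, -, -, -, -, -, -, -, hW0, hW⟩ := level_facts hr i
  have hr0 : 0 < r := by linarith
  have hr3 : (1 : ℝ) ≤ r ^ 3 := one_le_pow₀ (by linarith)
  have hr2 : r ^ 2 ≤ r ^ 3 := pow_le_pow_right₀ (by linarith) (by norm_num)
  have hBB : B ≤ r ^ 3 * B := le_mul_of_one_le_left (by linarith) hr3
  have hD : 0 ≤ D := by
    have h0 := hδ0 0
    rw [Pi.zero_apply] at h0
    linarith [hδD 0]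
  have hfz : ∀ j, (midPoint r i j).size δ r = 0 := fun j => by
    cases j <;> simp [midPoint, Prog.size]
  have hfd : ∀ j, (midPoint r i j).depth = 0 := fun j => by
    cases j <;> simp [midPoint, Prog.depth]
  have hfw : ∀ j, (midPoint r i j).WF δ r (r ^ 3 * B) T := fun j => by
    cases j <;> simp [midPoint, Prog.WF]
  have hfl : ∀ j, (midPoint r i j).LevelGe (i + 3) := fun j => by
    cases j <;> simp [midPoint, Prog.LevelGe]
  have hfn : ∀ j v, (midPoint r i j).NoiseLe δ (r ^ 3 * B) v := fun j v => by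
    cases j <;> simp [midPoint, Prog.NoiseLe]
  have hfs : ∀ j v, (midPoint r i j).SensLe δ (r ^ 3 * B) v := fun j v => by
    cases j <;> simp [midPoint, Prog.SensLe]
  have hlip : ∀ x y : ℝ, (midDrift r i F).lip δ (pushR x (pushR y 0))
      = lvlW r i * (r ^ 2 * y + lvlW r i * x) * F.lip δ (pushR 1 0) := fun x y => by
    simp only [midDrift, Prog.lip, Prog.lip_subst, midPoint_lip δ r i hW0, Prog.lip_smul_v,
      abs_of_nonneg hW0, mul_assoc]
  have hz : pushR (0 : ℝ) 0 = 0 := pushR_zero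
  have hsw : ∀ x y : ℝ, 0 ≤ r ^ 2 * y + lvlW r i * x → r ^ 2 * y + lvlW r i * x ≤ r ^ 3 →
      (midDrift r i F).SensLe δ (r ^ 3 * B) (pushR x (pushR y 0)) ∧
        (midDrift r i F).NoiseLe δ (r ^ 3 * B) (pushR x (pushR y 0)) := by
    intro x y hu hu'
    have hle := mul_le_mul_of_nonneg_right hu' (zero_le_one.trans hB)
    refine ⟨?_, ?_⟩
    · show (F.subst (midPoint r i)).SensLe δ _ _
      refine Prog.SensLe.subst ?_ fun j => hfs j _
      rw [midPoint_lip δ r i hW0]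
      exact (Prog.SensLe.smul hu h.sens).mono hδ0 le_rfl hle
        (fun j => mul_nonneg hu (by cases j <;> simp [pushR])) fun j => le_rfl
    · show (F.subst (midPoint r i)).NoiseLe δ _ _
      refine Prog.NoiseLe.subst ?_ fun j => hfn j _
      rw [midPoint_lip δ r i hW0]
      exact (Prog.NoiseLe.smul hu h.noise).mono hδ0 le_rfl hle
        (fun j => mul_nonneg hu (by cases j <;> simp [pushR])) fun j => le_rfl
  have e10 : pushR (1 : ℝ) 0 = pushR 1 (pushR 0 0) := by rw [hz]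
  have hu1 := hsw 1 0 (by simpa using hW0) (by simpa using hW)
  have hu2 := hsw 0 1 (by simpa using sq_nonneg r) (by simpa using hr2)
  have hFl := F.lip_nonneg hδ0 (v := pushR 1 0) (fun j => by cases j <;> simp [pushR])
  have hsz : 5 * (δ (i + 2 + 1) * r ^ 3) ≤ 10 * D * r ^ 3 := by
    nlinarith [mul_le_mul_of_nonneg_right (hδD (i + 2 + 1)) (zero_le_one.trans hr3)]
  have hli : 2 * (δ (i + 2 + 1) * r ^ 3) ≤ 4 * D * r ^ 3 := by
    nlinarith [mul_le_mul_of_nonneg_right (hδD (i + 2 + 1)) (zero_le_one.trans hr3)]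
  have hlu : ∀ x y : ℝ, 0 ≤ r ^ 2 * y + lvlW r i * x → r ^ 2 * y + lvlW r i * x ≤ r ^ 3 →
      lvlW r i * (r ^ 2 * y + lvlW r i * x) * F.lip δ (pushR 1 0) ≤ 4 * D * r ^ 9 := by
    intro x y hu hu'
    rw [show 4 * D * r ^ 9 = r ^ 3 * r ^ 3 * (4 * D * r ^ 3) by ring]
    exact mul_le_mul (mul_le_mul hW hu' hu (pow_nonneg hr0.le 3)) (h.lip.trans hli) hFl
      (by positivity)
  refine ⟨h.small.subst _, ?_, (h.levelGe.mono (Nat.le_refl _)).subst hfl, ?_, ?_, ?_, ?_, ?_,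
    ?_, hu2.1, ?_, hu2.2⟩
  · show (F.subst (midPoint r i)).WF δ r _ T
    refine Prog.WF.subst (by positivity) ?_ hfw hfz
    exact h.wf.mono hδ0 le_rfl hr0.le le_rfl hBB hT0 le_rfl
  · exact (F.depth_subst_le (D := 0) fun j => (hfd j).le).trans h.depth
  · have := F.nodes_subst_le (F := 7) (by norm_num) fun j => (by
      cases j <;> simp [midPoint, Prog.nodes] : (midPoint r i j).nodes ≤ 7)
    simp only [midDrift, Prog.nodes]
    have := h.nodes
    omega
  · simp only [midDrift, Prog.size, Prog.size_subst, funext hfz, abs_of_nonneg hW0]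
    rw [show (fun _ : ℕ => (0 : ℝ)) = 0 from rfl, Prog.lip_zero_v, add_zero]
    refine (mul_le_mul hW (h.size.trans hsz) (F.size_nonneg hδ0 hr0.le)
      (pow_nonneg hr0.le 3)).trans ?_
    rw [show r ^ 3 * (10 * D * r ^ 3) = 10 * D * r ^ 6 by ring]
    exact mul_le_mul_of_nonneg_left (pow_le_pow_right₀ (by linarith) (by norm_num)) (by linarith)
  · rw [e10, hlip]; exact hlu 1 0 (by simpa using hW0) (by simpa using hW)
  · rw [hlip]; exact hlu 0 1 (by simpa using sq_nonneg r) (by simpa using hr2)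
  · rw [e10]; exact hu1.1
  · rw [e10]; exact hu1.2

/-- The program standing for level `i` from the map of its tilt. -/
theorem levelOk_midProg {δ : ℕ → ℝ} {r B T U : ℝ} {K P i : ℕ} {Φ : Prog} (hr : 2 ≤ r)
    (hδ0 : 0 ≤ δ) (hT : 1 ≤ T) (hB : 2 * r ^ 2 ≤ B) (hwf : Φ.WF δ r B T)
    (hlev : Φ.LevelGe (i + 1)) (hdep : Φ.depth ≤ K) (hnod : Φ.nodes ≤ P) (hU : U ≤ 1 / 2)
    (hsize : Φ.size δ r ≤ U) (hlip : Φ.lip δ (pushR 1 0) ≤ U)
    (hlip' : Φ.lip δ (pushR 0 (pushR 1 0)) ≤ U)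
    (hsens : Φ.SensLe δ B (pushR 1 0))
    (hsens' : Φ.SensLe δ B (pushR 0 (pushR 1 0)))
    (hnoise' : Φ.NoiseLe δ B (pushR 0 (pushR 1 0))) :
    LevelOk δ r B T (K + 3) (P + 14) i (midProg r i Φ) := by
  obtain ⟨-, -, -, -, -, hC0, hC, hV, hV', -, -⟩ := level_facts hr i
  have hr0 : 0 < r := by linarith
  have hB0 : 0 ≤ B := le_trans (by positivity) hB
  have hrr : r ≤ r ^ 2 := by nlinarith
  have hsz0 := Φ.size_nonneg hδ0 hr0.le
  have hv0 : 0 ≤ Φ.lip δ (pushR 1 0) := Φ.lip_nonneg hδ0 fun j => by cases j <;> simp [pushR]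
  have hv1 : 0 ≤ Φ.lip δ (pushR 0 (pushR 1 0)) := Φ.lip_nonneg hδ0 fun j => by
    rcases j with _ | _ | j <;> simp [pushR]
  set m := midMeanProg r i Φ with hm
  have hms : m.size δ r = lvlC r i * Φ.size δ r := by
    simp [hm, midMeanProg, Prog.size, abs_of_nonneg hC0]
  have hm0 : m.lip δ (pushR 1 0) = lvlC r i * (1 + Φ.lip δ (pushR 1 0)) := by
    simp [hm, midMeanProg, Prog.lip, pushR, abs_of_nonneg hC0]
  have hm1 : m.lip δ (pushR 0 (pushR 1 0)) = r + lvlC r i * Φ.lip δ (pushR 0 (pushR 1 0)) := by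
    simp [hm, midMeanProg, Prog.lip, pushR, abs_of_nonneg hC0, abs_of_nonneg hr0.le]
  have hm0B : m.lip δ (pushR 1 0) ≤ B := by
    rw [hm0]; nlinarith [mul_le_mul hC (hlip.trans hU) hv0 (sq_nonneg r)]
  have hm1B : m.lip δ (pushR 0 (pushR 1 0)) ≤ B := by
    rw [hm1]; nlinarith [mul_le_mul hC (hlip'.trans hU) hv1 (sq_nonneg r)]
  have hms1 : m.size δ r ≤ r ^ 2 / 2 := by
    rw [hms]; nlinarith [mul_le_mul hC (hsize.trans hU) hsz0 (sq_nonneg r)]
  have hsv : 1 ≤ √(lvlV r i - 1) := one_le_sqrt.2 (by linarith)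
  have hsv' : √(lvlV r i - 1) ≤ r := sqrt_le_iff.2 ⟨hr0.le, by linarith⟩
  have hd1 := hδ0 (i + 1)
  rw [Pi.zero_apply] at hd1
  have hmw : m.WF δ r B T := ⟨trivial, trivial, hwf⟩
  refine ⟨trivial, ?_, ?_, ?_, ?_, ?_, ?_, ?_, ?_, ?_⟩
  · refine ⟨one_pos, trivial, ⟨by linarith, hmw, ⟨inv_le_one_of_one_le₀ hT, le_rfl, trivial, ?_⟩,
      ?_, trivial, ?_, trivial⟩, ?_, trivial, ⟨⟨trivial, trivial, by rw [Real.sqrt_one]; exact hsens⟩, ?_, trivial⟩⟩
    · simpa [Prog.size] using hB0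
    · calc m.size δ r ≤ r ^ 2 / 2 := hms1
        _ ≤ B := by nlinarith
        _ ≤ B * √(lvlV r i - 1) := le_mul_of_one_le_right hB0 hsv
    · simpa [Prog.lip, pushR] using hsv'.trans (hrr.trans (by nlinarith))
    · simpa [Prog.size] using hB0
    · simpa [Prog.lip, pushR, Real.sqrt_one] using hm0B
  · exact ⟨trivial, ⟨⟨trivial, trivial, hlev⟩, Nat.le_refl _, trivial⟩⟩
  · simp only [midProg, midMeanProg, Prog.depth, Nat.zero_max]
    omega
  · simp only [midProg, midMeanProg, Prog.nodes]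
    omega
  · simp only [midProg, Prog.size, Prog.lip, pushR, Real.sqrt_one, add_zero,
      abs_of_nonneg hr0.le, ← hm, hm0]
    rw [show ∀ x a a' b : ℝ, r * (x * a + x * a' + x * b) = (r * x) * (a + a' + b) from
      fun x a a' b => by ring]
    have hin : r + (√(lvlV r i - 1) + m.size δ r) + lvlC r i * (1 + Φ.lip δ (pushR 1 0))
        ≤ 5 * r * r := by
      nlinarith [mul_le_mul hC (show 1 + Φ.lip δ (pushR 1 0) ≤ 2 by linarith) (by linarith)
        (sq_nonneg r)]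
    rw [show 5 * (δ (i + 1) * r ^ 3) = r * δ (i + 1) * (5 * r * r) by ring]
    exact mul_le_mul_of_nonneg_left hin (mul_nonneg hr0.le hd1)
  · simp only [midProg, Prog.mass, abs_of_nonneg hr0.le]
    linarith [show r * (δ (i + 1) * r) = δ (i + 1) * r ^ 2 by ring]
  · simp only [midProg, Prog.lip, abs_of_nonneg hr0.le, ← hm]
    rw [show pushR (0 : ℝ) (pushR 1 0) = pushR 0 (pushR 1 0) from rfl, hm1, pushR, ← mul_assoc]
    have hin : r + lvlC r i * Φ.lip δ (pushR 0 (pushR 1 0)) ≤ 2 * r * r := by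
      nlinarith [mul_le_mul hC (hlip'.trans hU) hv1 (sq_nonneg r)]
    rw [show 2 * (δ (i + 1) * r ^ 3) = r * δ (i + 1) * (2 * r * r) by ring]
    exact mul_le_mul_of_nonneg_left hin (mul_nonneg hr0.le hd1)
  · exact ⟨trivial, ⟨trivial, trivial, hsens'⟩, by simpa [Prog.lip, pushR, ← hm] using hm1B, trivial⟩
  · refine ⟨by simpa [Prog.lip] using hB0, trivial, ?_, ⟨trivial, trivial, hnoise'⟩, ?_, trivial⟩
    · exact hm1B.trans (le_mul_of_one_le_right hB0 hsv)
    · simpa [Prog.lip, pushR] using hB0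

end Vale.Agent.P347
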