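import Vale.Agent.P347Zero.Ladder
import Vale.Agent.P347Zero.LevelProg
import Vale.Agent.P347Zero.Tilt
import Vale.Agent.P347.Quad

/-!
P347 (exponent zero, M16): the map from each level and, from it, the program standing for the
level, by iterating the map of a tilt over the levels.
-/

open MeasureTheory ProbabilityTheory Real Filter
open scoped RealInnerProductSpace

namespace Vale.Agent.P347

/-- The map of a tilt whose score is a program up to an error: its bounds and its law. -/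
def TiltMapStmt : Prop :=
  ∀ (α : ℝ), 0 < α → ∀ M : ℕ, ∃ Ee M2 : ℕ, ∀ γ : ℝ, 0 < γ → ∃ N₀ : ℕ,
    ∀ N, N₀ ≤ N → ∀ (A : ℕ) (T Cb : ℝ), 1 ≤ T → 0 ≤ Cb → ∃ (K : ℕ) (C T' : ℝ), 1 ≤ T' ∧
    ∀ᶠ d : ℕ in atTop,
    ∀ (Nr : ℕ) (εr : ℝ) (_ : Rule Nr εr), εr ≤ ((d : ℝ) ^ M2)⁻¹ →
    ∀ (δ0 δ : ℕ → ℝ) (r B : ℝ) (P : Prog),
    0 ≤ δ0 → δ0 ≤ δ → δ ≤ 1 → (d : ℝ) ^ γ ≤ r → r ≤ B → Real.log d ≤ B → B ≤ d →
    P.Small → P.WF δ r B T → P.depth ≤ A → P.SensLe δ B (pushR 1 0) →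
    P.NoiseLe δ B (pushR 1 0) →
    (P.lip δ (pushR 1 0) + P.size δ r) * B ^ Ee ≤ (d : ℝ) ^ (-α) →
    ∃ Φ : Prog, Φ.Small ∧ Φ.WF δ r (C * B ^ Ee) T' ∧ Φ.depth ≤ K ∧
      Φ.nodes ≤ K * (P.nodes + Nr + 1) ^ K ∧ (∀ ℓ₀, P.LevelGe ℓ₀ → Φ.LevelGe ℓ₀) ∧
      Φ.size δ r ≤ C * B ^ Ee * (P.lip δ (pushR 1 0) + P.size δ r) ∧
      Φ.lip δ (pushR 1 0) ≤ C * B ^ Ee * (P.lip δ (pushR 1 0) + P.size δ r) ∧
      Φ.SensLe δ (C * B ^ Ee) (pushR 1 0) ∧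
      (∀ (v : ℕ → ℝ) (B' : ℝ), (∀ i, 0 ≤ v i) → 0 ≤ B' → P.SensLe δ B' (pushR 0 v) →
        Φ.SensLe δ (C * B ^ Ee * B') (pushR 0 v) ∧
          Φ.lip δ (pushR 0 v) ≤ C * B ^ Ee * (P.lip δ (pushR 0 v)
            + B' * (P.lip δ (pushR 1 0) + P.size δ r)) ∧
          (P.NoiseLe δ B' (pushR 0 v) → Φ.NoiseLe δ (C * B ^ Ee * B') (pushR 0 v))) ∧
      ∀ (h : ℕ → E d → E d) (Gb : ℝ), (∀ ℓ, Fld d (δ0 ℓ) r Gb Cb N (h ℓ)) → ∀ env : Env d,
        ∀ (R : E d → ℝ) (g : E d → E d) (δg r1 ζ G : ℝ), Pot d δg r1 R g →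
          (∀ x, ‖g x - P.sem h (push x env)‖ ≤ ζ) → (∀ x, ‖g x‖ ≤ G) →
          ∀ v : E d → ℝ, ContDiff ℝ 1 v → (∃ K', ∀ x, |v x| ≤ K') →
            (∀ x, ‖fderiv ℝ v x‖ ≤ 1) →
            |(∫ ξ, v (ξ + Φ.sem h (push ξ env)) ∂gau (Fin d)) - ∫ x, v x ∂tilt R|
              ≤ C * (ζ + (1 + G) * ((d : ℝ) ^ M)⁻¹)

variable {d : ℕ}

/-! ### Tests with vector values -/

/-- Two laws close on scalar Lipschitz tests are close on vector ones. -/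
theorem norm_integral_sub_le_of_tests {u φ : E d → E d} {ν : Measure (E d)}
    [IsProbabilityMeasure ν] (hu : ContDiff ℝ 1 u) {K L e : ℝ} (hK : ∀ x, ‖u x‖ ≤ K)
    (hL0 : 0 < L) (hL : ∀ x, ‖fderiv ℝ u x‖ ≤ L) (hφ : Continuous φ)
    (hT : ∀ v : E d → ℝ, ContDiff ℝ 1 v → (∃ K', ∀ x, |v x| ≤ K') →
      (∀ x, ‖fderiv ℝ v x‖ ≤ 1) → |(∫ ξ, v (ξ + φ ξ) ∂gau (Fin d)) - ∫ x, v x ∂ν| ≤ e) :
    ‖(∫ ξ, u (ξ + φ ξ) ∂gau (Fin d)) - ∫ x, u x ∂ν‖ ≤ L * e := by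
  have he : 0 ≤ e := by
    simpa using hT (fun _ => 0) contDiff_const ⟨0, fun x => by simp⟩ (fun x => by simp)
  set w := (∫ ξ, u (ξ + φ ξ) ∂gau (Fin d)) - ∫ x, u x ∂ν with hw
  rcases eq_or_ne w 0 with h0 | h0
  · rw [h0, norm_zero]; exact mul_nonneg hL0.le he
  set a := ‖w‖⁻¹ • w with ha
  have ha1 : ‖a‖ = 1 := norm_smul_inv_norm h0
  have hsm : ContDiff ℝ 1 fun x => L⁻¹ * ⟪a, u x⟫ := contDiff_const.mul (contDiff_const.inner ℝ hu)
  have hbd : ∀ x, |L⁻¹ * ⟪a, u x⟫| ≤ L⁻¹ * K := fun x => by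
    rw [abs_mul, abs_of_pos (inv_pos.2 hL0)]
    refine mul_le_mul_of_nonneg_left ((abs_real_inner_le_norm _ _).trans ?_) (inv_pos.2 hL0).le
    rw [ha1, one_mul]; exact hK x
  have hfd : ∀ x, ‖fderiv ℝ (fun x => L⁻¹ * ⟪a, u x⟫) x‖ ≤ 1 := fun x => by
    have h1 : HasFDerivAt (fun x => L⁻¹ * ⟪a, u x⟫)
        (L⁻¹ • (innerSL ℝ a).comp (fderiv ℝ u x)) x :=
      (((innerSL ℝ a).hasFDerivAt).comp x
        ((hu.differentiable one_ne_zero x).hasFDerivAt)).const_mul L⁻¹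
    rw [h1.fderiv, norm_smul, norm_eq_abs, abs_of_pos (inv_pos.2 hL0), inv_mul_le_iff₀ hL0, mul_one]
    refine (ContinuousLinearMap.opNorm_comp_le _ _).trans ?_
    rw [innerSL_apply_norm, ha1, one_mul]
    exact hL x
  have hi1 : Integrable (fun ξ => u (ξ + φ ξ)) (gau (Fin d)) :=
    Integrable.of_bound (hu.continuous.comp (by fun_prop)).aestronglyMeasurable K
      (ae_of_all _ fun x => hK _)
  have hi2 : Integrable u ν :=
    Integrable.of_bound hu.continuous.aestronglyMeasurable K (ae_of_all _ hK)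
  have h := hT _ hsm ⟨_, hbd⟩ hfd
  rw [integral_const_mul, integral_const_mul, integral_inner hi1, integral_inner hi2, ← mul_sub,
    ← inner_sub_right, ← hw, ha, real_inner_smul_left, real_inner_self_eq_norm_mul_norm,
    ← mul_assoc ‖w‖⁻¹, inv_mul_cancel₀ (norm_ne_zero_iff.2 h0), one_mul,
    abs_of_nonneg (mul_nonneg (inv_pos.2 hL0).le (norm_nonneg _)), inv_mul_le_iff₀ hL0] at h
  exact h

/-! ### One level -/

/-- The variable of a level: the value of the next one, smoothed. -/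
noncomputable def lvlTest (r : ℝ) (i : ℕ) (h' : E d → E d) (q z : E d) : E d :=
  Psm (lvlV r i) h' (r • q + lvlC r i • z)

/-- A level is a mean over the tilt of the level two below. -/
theorem level_eq_integral {R : E d → ℝ} {B G : ℝ} (hR : Continuous R) (hB : ∀ x, |R x| ≤ B)
    {g : E d → E d} (hg : Continuous g) (hG : ∀ x, ‖g x‖ ≤ G) {r : ℝ} (hr : 2 ≤ r) (i : ℕ)
    {h : ℕ → E d → E d}
    (hh : ∀ ℓ z, h ℓ z = lvlS r ℓ • score (lvlσ r ℓ) R g (lvlS r ℓ • z)) (q : E d) :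
    h i q = r • ∫ z, lvlTest r i (h (i + 1)) q z
      ∂tilt fun z => upot (lvlσ r (i + 2)) R (lvlS r i • q + √(lvlT r i) • z) := by
  have hr0 : 0 < r := by linarith
  have h1 := lvlσ_pos hr0 (i + 1)
  have h01 := lvlσ_lt (r := r) (by linarith) i
  have hs : 0 < lvlS r (i + 1) := lvlS_pos hr0 (i + 1)
  rw [hh i q, score_tower_bdd hR hB hg hG h1.le h01.le,
    mid_test hR hB (lvlσ_pos hr0 (i + 2)).le (lvlσ_anti (by linarith) (Nat.le_succ _)) h01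
      (continuous_score hR hB hg hG h1.le) (norm_score_le hR hB hG _)]
  have e : ∀ z : E d, (∫ w, score (lvlσ r (i + 1)) R g (lvlS r i • q
        + (lvlA r i * √(lvlT r i)) • z
        + √(lvlA r i * (lvlσ r (i + 1) ^ 2 - lvlσ r (i + 2) ^ 2)) • w) ∂gau (Fin d))
      = (lvlS r (i + 1))⁻¹ • lvlTest r i (h (i + 1)) q z := fun z => by
    rw [lvlTest, Psm, ← integral_smul]
    refine integral_congr_ae (ae_of_all _ fun w => ?_)
    beta_reduce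
    rw [hh (i + 1), smul_smul, inv_mul_cancel₀ hs.ne', one_smul]
    refine congrArg _ ?_
    rw [smul_add, smul_add, smul_smul, smul_smul, smul_smul, lvlV, sqrt_div' _ (sq_nonneg _),
      sqrt_sq hs.le, mul_div_cancel₀ _ hs.ne', lvlC, mul_div_cancel₀ _ hs.ne']
    congr 3
    linarith [(div_eq_iff hs.ne').1 (lvlS_ratio_one hr0 i)]
  simp only [show (lvlσ r i ^ 2 - lvlσ r (i + 2) ^ 2) = lvlT r i from rfl,
    show (lvlσ r i ^ 2 - lvlσ r (i + 1) ^ 2) / lvlT r i = lvlA r i from rfl, e]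
  rw [integral_smul, smul_smul, ← div_eq_mul_inv, lvlS_ratio_one hr0 i]

/-- The meaning of the program standing for a level. -/
theorem sem_midProg {δ : ℝ} {r rr G Cb : ℝ} {N : ℕ} (hr : 2 ≤ r) (i : ℕ) (Φ : Prog)
    {h : ℕ → E d → E d} (hF : Fld d δ rr G Cb N (h (i + 1))) (env : Env d) :
    (midProg r i Φ).sem h env
      = r • ∫ ξ, lvlTest r i (h (i + 1)) (env 0) (ξ + Φ.sem h (push ξ env)) ∂gau (Fin d) := by
  obtain ⟨-, -, -, -, -, -, -, hV, -, -, -⟩ := level_facts hr i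
  simp only [midProg, Prog.sem, Real.sqrt_one, one_smul, zero_add]
  congr 1
  refine integral_congr_ae (ae_of_all _ fun ξ => ?_)
  have he := congrFun (Psm_add (u := h (i + 1)) (a := lvlV r i - 1) (b := 1) (by linarith)
    zero_le_one hF.smooth.continuous.measurable hF.bdd)
    ((midMeanProg r i Φ).sem h (push ξ env))
  rw [sub_add_cancel] at he
  exact he

/-- The error of the program standing for a level, from the error of the map of its tilt. -/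
theorem norm_sem_midProg_sub_le {R : E d → ℝ} {g : E d → E d} {δR r0 r G B Cb e : ℝ} {N i : ℕ}
    (hP : Pot d δR r0 R g) (hG : ∀ x, ‖g x‖ ≤ G) (hB : ∀ x, |R x| ≤ B) (hr : 2 ≤ r)
    {h : ℕ → E d → E d} (hh : ∀ ℓ z, h ℓ z = lvlS r ℓ • score (lvlσ r ℓ) R g (lvlS r ℓ • z))
    (hF : ∀ ℓ, Fld d (lvlδ δR r ℓ) r G Cb N (h ℓ)) (Φ : Prog) (env : Env d)
    (hT : ∀ v : E d → ℝ, ContDiff ℝ 1 v → (∃ K', ∀ x, |v x| ≤ K') →
      (∀ x, ‖fderiv ℝ v x‖ ≤ 1) →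
      |(∫ ξ, v (ξ + Φ.sem h (push ξ env)) ∂gau (Fin d))
        - ∫ z, v z ∂tilt (fun z => upot (lvlσ r (i + 2)) R
            (lvlS r i • env 0 + √(lvlT r i) • z))| ≤ e) :
    ‖(midProg r i Φ).sem h env - h i (env 0)‖ ≤ 2 * δR * r * e := by
  have hR : Continuous R := (fun x => (hP.hasGrad x).continuousAt : ∀ x, ContinuousAt R x)
    |> continuous_iff_continuousAt.2
  obtain ⟨-, -, -, -, -, hC0, hC, -, -, -, -⟩ := level_facts hr i
  have hr0 : 0 < r := by linarith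
  rw [sem_midProg hr i Φ (hF (i + 1)) env, level_eq_integral hR hB hP.smooth.continuous hG hr i hh,
    ← smul_sub, norm_smul, norm_eq_abs, abs_of_pos hr0]
  have : IsProbabilityMeasure (tilt fun z => upot (lvlσ r (i + 2)) R
      (lvlS r i • env 0 + √(lvlT r i) • z)) :=
    isProb_tilt_upot hR hB (lvlσ_pos hr0 _).le _ _
  have hu : ContDiff ℝ 1 (lvlTest r i (h (i + 1)) (env 0)) :=
    ((hF (i + 1)).contDiff_Psm _).comp (by fun_prop)
  have hL : ∀ z, ‖fderiv ℝ (lvlTest r i (h (i + 1)) (env 0)) z‖ ≤ 2 * δR := fun z => by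
    refine le_trans ?_ (show lvlδ δR r (i + 1) * lvlC r i ≤ 2 * δR from ?_)
    · have h1 : HasFDerivAt (lvlTest r i (h (i + 1)) (env 0))
          ((fderiv ℝ (Psm (lvlV r i) (h (i + 1))) (r • env 0 + lvlC r i • z)).comp
            (lvlC r i • ContinuousLinearMap.id ℝ (E d))) z :=
        (((hF (i + 1)).contDiff_Psm _).differentiable one_ne_zero _).hasFDerivAt.comp z
          (((hasFDerivAt_id z).const_smul (lvlC r i)).const_add _)
      rw [h1.fderiv]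
      refine (ContinuousLinearMap.opNorm_comp_le _ _).trans ?_
      refine mul_le_mul ((hF (i + 1)).norm_fderiv_Psm_le _ _) ?_ (norm_nonneg _)
        (hF (i + 1)).delta_nonneg
      rw [norm_smul, norm_eq_abs, abs_of_nonneg hC0]
      exact mul_le_of_le_one_right hC0 ContinuousLinearMap.norm_id_le
    · have hp := hP.pos
      have hs2 : lvlS r (i + 1) ^ 2 * r ^ 2 ≤ 1 := by
        rw [lvlS_sq_next hr0, lvlS_eq]
        exact pow_le_one₀ (lvlσ_pos hr0 _).le (lvlσ_le_one (by linarith) _)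
      calc lvlδ δR r (i + 1) * lvlC r i ≤ lvlδ δR r (i + 1) * r ^ 2 :=
            mul_le_mul_of_nonneg_left hC (hF (i + 1)).delta_nonneg
        _ = 2 * δR * (lvlS r (i + 1) ^ 2 * r ^ 2) := by rw [lvlδ]; ring
        _ ≤ 2 * δR := mul_le_of_le_one_right (by positivity) hs2
  refine (mul_le_mul_of_nonneg_left (norm_integral_sub_le_of_tests hu
    (fun z => norm_Psm_le (fun y => (hF (i + 1)).bdd y) _) (by linarith [hP.pos]) hL
    (Prog.contDiff_sem_push hF Φ env).continuous hT) hr0.le).trans_eq (by ring)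

/-- The drift program follows the score of the tilt of a level. -/
theorem norm_drift_sub_le {R : E d → ℝ} {g : E d → E d} {r Y : ℝ} {i : ℕ} (hr : 2 ≤ r) {P : Prog}
    {h : ℕ → E d → E d} (hh : ∀ ℓ z, h ℓ z = lvlS r ℓ • score (lvlσ r ℓ) R g (lvlS r ℓ • z))
    (hY : ∀ env : Env d, ‖P.sem h env - h (i + 2) (env 0)‖ ≤ Y) (env : Env d) (x : E d) :
    ‖√(lvlT r i) • score (lvlσ r (i + 2)) R g (lvlS r i • env 0 + √(lvlT r i) • x)
      - (midDrift r i P).sem h (push x env)‖ ≤ r ^ 3 * Y := by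
  obtain ⟨-, -, -, -, -, -, -, -, -, hW0, hW⟩ := level_facts hr i
  have hr0 : 0 < r := by linarith
  have hs := lvlS_pos hr0 (i + 2)
  set env' : Env d := fun j => (midPoint r i j).sem h (push x env) with henv
  have he0 : env' 0 = r ^ 2 • env 0 + lvlW r i • x := by simp [henv, midPoint, Prog.sem, push]
  have heq : √(lvlT r i) • score (lvlσ r (i + 2)) R g (lvlS r i • env 0 + √(lvlT r i) • x)
      = lvlW r i • h (i + 2) (env' 0) := by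
    rw [hh, he0, smul_smul, smul_add, smul_smul, smul_smul, lvlW,
      ← lvlS_ratio_two hr0 i, mul_div_cancel₀ _ hs.ne', mul_div_cancel₀ _ hs.ne',
      div_mul_cancel₀ _ hs.ne']
  simp only [midDrift, Prog.sem, Prog.sem_subst]
  rw [heq, ← smul_sub, norm_smul, norm_eq_abs, abs_of_nonneg hW0, norm_sub_rev]
  exact mul_le_mul hW (hY env') (norm_nonneg _) (pow_nonneg hr0.le 3)

/-! ### Parameters -/

/-- The scales and the weights of the levels. -/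
structure LvlPar (d : ℕ) (α γ δR c r : ℝ) (δ : ℕ → ℝ) : Prop where
  pos : 0 < δR
  one_le : 1 ≤ c
  small : c * δR ≤ (d : ℝ) ^ (-α)
  r_eq : r = (d : ℝ) ^ γ
  lower : ∀ l, c * lvlδ δR r l ≤ δ l
  upper : ∀ l, δ l ≤ 2 * (c * δR)

/-- The error left after `j` rounds. -/
noncomputable def lvlErr (α : ℝ) (M d j : ℕ) : ℝ :=
  (d : ℝ) ^ (-(α * j / 2)) + ((d : ℝ) ^ M)⁻¹

/-- Programs standing for all levels after `j` rounds. -/
def LvlGood (α : ℝ) (M j : ℕ) : Prop :=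
  ∃ (e M2 : ℕ) (γ₀ : ℝ), 0 < γ₀ ∧
    ∀ γ : ℝ, 0 < γ → γ ≤ γ₀ → ∃ N₀ : ℕ, ∀ N, N₀ ≤ N → ∀ Cb : ℝ, 0 ≤ Cb →
    ∃ (K : ℕ) (C T : ℝ), 1 ≤ C ∧ 1 ≤ T ∧
    ∀ᶠ d : ℕ in atTop, ∀ (Nr : ℕ) (εr : ℝ) (_ : Rule Nr εr), εr ≤ ((d : ℝ) ^ M2)⁻¹ →
    ∀ (δR c r : ℝ) (δ : ℕ → ℝ), LvlPar d α γ δR c r δ → ∀ i : ℕ,
    ∃ P : Prog, LevelOk δ r (C * r ^ e) T K (K * (Nr + 1) ^ K) i P ∧
      ∀ (R : E d → ℝ) (g : E d → E d) (r0 G B : ℝ), Pot d δR r0 R g → (∀ x, ‖g x‖ ≤ G) →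
        (∀ x, |R x| ≤ B) → ∀ h : ℕ → E d → E d,
        (∀ ℓ z, h ℓ z = lvlS r ℓ • score (lvlσ r ℓ) R g (lvlS r ℓ • z)) →
        (∀ ℓ, Fld d (lvlδ δR r ℓ) r G Cb N (h ℓ)) → ∀ env : Env d,
          ‖P.sem h env - h i (env 0)‖ ≤ C * (1 + G) * lvlErr α M d j

/-- Maps of the tilts of all levels from the programs of round `j`. -/
def MapGood (α : ℝ) (M j : ℕ) : Prop :=
  ∃ (e M2 : ℕ) (γ₀ : ℝ), 0 < γ₀ ∧
    ∀ γ : ℝ, 0 < γ → γ ≤ γ₀ → ∃ N₀ : ℕ, ∀ N, N₀ ≤ N → ∀ Cb : ℝ, 0 ≤ Cb →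
    ∃ (K : ℕ) (C T : ℝ), 1 ≤ C ∧ 1 ≤ T ∧
    ∀ᶠ d : ℕ in atTop, ∀ (Nr : ℕ) (εr : ℝ) (_ : Rule Nr εr), εr ≤ ((d : ℝ) ^ M2)⁻¹ →
    ∀ (δR c r : ℝ) (δ : ℕ → ℝ), LvlPar d α γ δR c r δ → ∀ i : ℕ,
    ∃ Φ : Prog, Φ.Small ∧ Φ.WF δ r (C * r ^ e) T ∧ Φ.LevelGe (i + 1) ∧ Φ.depth ≤ K ∧
      Φ.nodes ≤ K * (Nr + 1) ^ K ∧ Φ.size δ r ≤ C * r ^ e * (c * δR) ∧
      Φ.lip δ (pushR 1 0) ≤ C * r ^ e * (c * δR) ∧
      Φ.lip δ (pushR 0 (pushR 1 0)) ≤ C * r ^ e * (c * δR) ∧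
      LevelOk δ r (C * r ^ e) T K (K * (Nr + 1) ^ K) i (midProg r i Φ) ∧
      ∀ (R : E d → ℝ) (g : E d → E d) (r0 G B : ℝ), Pot d δR r0 R g → (∀ x, ‖g x‖ ≤ G) →
        (∀ x, |R x| ≤ B) → ∀ h : ℕ → E d → E d,
        (∀ ℓ z, h ℓ z = lvlS r ℓ • score (lvlσ r ℓ) R g (lvlS r ℓ • z)) →
        (∀ ℓ, Fld d (lvlδ δR r ℓ) r G Cb N (h ℓ)) → ∀ env : Env d,
          (∀ v : E d → ℝ, ContDiff ℝ 1 v → (∃ K', ∀ x, |v x| ≤ K') →
            (∀ x, ‖fderiv ℝ v x‖ ≤ 1) →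
            |(∫ ξ, v (ξ + Φ.sem h (push ξ env)) ∂gau (Fin d))
              - ∫ z, v z ∂tilt (fun z => upot (lvlσ r (i + 2)) R
                  (lvlS r i • env 0 + √(lvlT r i) • z))|
              ≤ C * (1 + G) * (r ^ 3 * lvlErr α M d j)) ∧
          ‖(midProg r i Φ).sem h env - h i (env 0)‖ ≤ C * (1 + G) * lvlErr α M d (j + 1)

theorem lvlGood_zero (α : ℝ) (M : ℕ) : LvlGood α M 0 := by
  refine ⟨0, 0, 1, one_pos, fun γ _ _ => ⟨0, fun N _ Cb _ => ⟨1, 1, 1, le_rfl, le_rfl,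
    (eventually_ge_atTop 1).mono fun d hd Nr εr _ _ δR c r δ hp i => ⟨Prog.zero, ?_, ?_⟩⟩⟩⟩
  · have hr : 0 ≤ r := by rw [hp.r_eq]; positivity
    refine levelOk_zero i (fun l => ?_) hr (by simp)
    refine le_trans ?_ (hp.lower l)
    have := hp.pos; have := zero_le_one.trans hp.one_le
    rw [lvlδ, Pi.zero_apply]; positivity
  · intro R g r0 G B _ hG _ h _ hF env
    have hG0 : 0 ≤ G := (norm_nonneg _).trans (hG 0)
    simp only [Prog.sem, zero_sub, norm_neg, one_mul]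
    calc ‖h i (env 0)‖ ≤ G := (hF i).bdd _
      _ ≤ (1 + G) * 1 := by linarith
      _ ≤ (1 + G) * lvlErr α M d 0 := by
          refine mul_le_mul_of_nonneg_left ?_ (by linarith)
          simp [lvlErr]

/-- Powers of `d` absorb every constant. -/
lemma eventually_const_le_rpow {x : ℝ} (hx : 0 < x) (C : ℝ) :
    ∀ᶠ d : ℕ in atTop, C ≤ (d : ℝ) ^ x :=
  ((tendsto_rpow_atTop hx).comp tendsto_natCast_atTop_atTop).eventually (eventually_ge_atTop C)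

lemma mul_pow_rpow_le {d : ℕ} (hd : 1 ≤ d) {γ a C x : ℝ} {n : ℕ} (hC0 : 0 ≤ C) (hγn : γ * n ≤ a)
    (hC : C ≤ (d : ℝ) ^ x) : C * ((d : ℝ) ^ γ) ^ n ≤ (d : ℝ) ^ (x + a) := by
  have h1 : (1 : ℝ) ≤ d := by exact_mod_cast hd
  rw [← rpow_natCast ((d : ℝ) ^ γ) n, ← rpow_mul (by positivity), rpow_add (by linarith)]
  exact mul_le_mul hC (rpow_le_rpow_of_exponent_le h1 hγn) (by positivity) (hC0.trans hC)

lemma round_nodes {Pn Nr K K' Φn : ℕ} (hP : Pn ≤ 7 * (K * (Nr + 1) ^ K) + 1)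
    (hΦ : Φn ≤ K' * (Pn + Nr + 1) ^ K') {Kn : ℕ}
    (hKn : K' * (7 * K + 2) ^ K' + (K + 1) * K' + 14 ≤ Kn) :
    Φn + 14 ≤ Kn * (Nr + 1) ^ Kn := by
  have h2 : (Nr + 1) ^ K ≤ (Nr + 1) ^ (K + 1) := Nat.pow_le_pow_right (by omega) (by omega)
  have h3 : Nr + 1 ≤ (Nr + 1) ^ (K + 1) := Nat.le_self_pow (by omega) _
  have hle : Pn + Nr + 1 ≤ (7 * K + 2) * (Nr + 1) ^ (K + 1) := by
    have := Nat.mul_le_mul_left (7 * K) h2
    have h4 : 7 * (K * (Nr + 1) ^ K) = 7 * K * (Nr + 1) ^ K := (Nat.mul_assoc _ _ _).symm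
    rw [Nat.add_mul]
    omega
  have h1 : Φn ≤ K' * (7 * K + 2) ^ K' * (Nr + 1) ^ Kn := by
    refine hΦ.trans ((Nat.mul_le_mul_left _ (Nat.pow_le_pow_left hle K')).trans ?_)
    rw [mul_pow, ← pow_mul, ← mul_assoc]
    exact Nat.mul_le_mul_left _ (Nat.pow_le_pow_right (by omega) (by omega))
  have h5 := Nat.mul_le_mul_right ((Nr + 1) ^ Kn)
    (show K' * (7 * K + 2) ^ K' + 14 ≤ Kn by omega)
  have h6 : 1 ≤ (Nr + 1) ^ Kn := Nat.one_le_pow _ _ (by omega)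
  rw [Nat.add_mul] at h5
  omega

/-- The bounds of a program standing for a level, from the bounds of the map of its tilt. -/
lemma round_prog {δ : ℕ → ℝ} {r B B' D C₀ C₁ T T₀ : ℝ} {Ee K K' Pn i : ℕ} {P Φ : Prog}
    (hr : 2 ≤ r) (hδ0 : 0 ≤ δ) (hD : 0 ≤ D) (hB1 : 1 ≤ B) (hC : C₀ ≤ C₁) (hC₁ : 0 ≤ C₁)
    (hT₀ : 1 ≤ T₀)
    (hdr : DriftOk δ r B T K Pn i D P) (hwf : Φ.WF δ r (C₀ * B ^ Ee) T₀) (hdep : Φ.depth ≤ K')
    (hlev : ∀ l, P.LevelGe l → Φ.LevelGe l)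
    (hsz : Φ.size δ r ≤ C₀ * B ^ Ee * (P.lip δ (pushR 1 0) + P.size δ r))
    (hlp : Φ.lip δ (pushR 1 0) ≤ C₀ * B ^ Ee * (P.lip δ (pushR 1 0) + P.size δ r))
    (hsn : Φ.SensLe δ (C₀ * B ^ Ee) (pushR 1 0))
    (hsn' : Φ.SensLe δ (C₀ * B ^ Ee * B) (pushR 0 (pushR 1 0)))
    (hlp' : Φ.lip δ (pushR 0 (pushR 1 0)) ≤ C₀ * B ^ Ee * (P.lip δ (pushR 0 (pushR 1 0))
      + B * (P.lip δ (pushR 1 0) + P.size δ r)))
    (hno' : Φ.NoiseLe δ (C₀ * B ^ Ee * B) (pushR 0 (pushR 1 0)))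
    (hBU : 18 * C₁ * B ^ (Ee + 1) * r ^ 9 ≤ B') (hB2 : 2 * r ^ 2 ≤ B') (hU : B' * D ≤ 1 / 2) :
    Φ.WF δ r B' T₀ ∧ Φ.LevelGe (i + 1) ∧ Φ.size δ r ≤ B' * D ∧ Φ.lip δ (pushR 1 0) ≤ B' * D ∧
      Φ.lip δ (pushR 0 (pushR 1 0)) ≤ B' * D ∧
      LevelOk δ r B' T₀ (K' + 3) (Φ.nodes + 14) i (midProg r i Φ) := by
  have hr0 : 0 < r := by linarith
  have hB0 : 0 ≤ B := by linarith
  have hr9 : (1 : ℝ) ≤ r ^ 9 := one_le_pow₀ (by linarith)
  have hx : C₁ * B ^ Ee ≤ C₁ * B ^ (Ee + 1) :=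
    mul_le_mul_of_nonneg_left (pow_le_pow_right₀ hB1 (Nat.le_succ Ee)) hC₁
  have hy : 0 ≤ C₁ * B ^ (Ee + 1) := mul_nonneg hC₁ (pow_nonneg hB0 _)
  have h18 : C₁ * B ^ (Ee + 1) ≤ B' := by
    refine le_trans ?_ hBU
    calc C₁ * B ^ (Ee + 1) ≤ (18 * r ^ 9) * (C₁ * B ^ (Ee + 1)) :=
          le_mul_of_one_le_left hy (one_le_mul_of_one_le_of_one_le (by norm_num) hr9)
      _ = _ := by ring
  have hBE : C₀ * B ^ Ee ≤ C₁ * B ^ Ee := mul_le_mul_of_nonneg_right hC (pow_nonneg hB0 _)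
  have hBone : C₀ * B ^ Ee ≤ B' := hBE.trans (hx.trans h18)
  have hBtwo : C₀ * B ^ Ee * B ≤ B' := by
    refine ((mul_le_mul_of_nonneg_right hBE hB0).trans_eq ?_).trans h18
    ring
  have hp1 : 0 ≤ P.lip δ (pushR 1 0) :=
    P.lip_nonneg hδ0 (pushR_nonneg zero_le_one fun _ => le_rfl)
  have hp2 : 0 ≤ P.lip δ (pushR 0 (pushR 1 0)) :=
    P.lip_nonneg hδ0 (pushR_nonneg le_rfl (pushR_nonneg zero_le_one fun _ => le_rfl))
  have hls0 := add_nonneg hp1 (P.size_nonneg hδ0 hr0.le)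
  have hls : P.lip δ (pushR 1 0) + P.size δ r ≤ 14 * D * r ^ 9 := by linarith [hdr.lip, hdr.size]
  have hin : P.lip δ (pushR 0 (pushR 1 0)) + B * (P.lip δ (pushR 1 0) + P.size δ r)
      ≤ 18 * D * r ^ 9 * B := by
    have a1 := mul_le_mul_of_nonneg_left hls hB0
    have a2 := mul_le_mul_of_nonneg_left hB1 (show 0 ≤ 4 * D * r ^ 9 by positivity)
    linarith [hdr.lip']
  have hu18 : C₁ * B ^ Ee * (18 * D * r ^ 9 * B) ≤ B' * D := by
    rw [show C₁ * B ^ Ee * (18 * D * r ^ 9 * B) = 18 * C₁ * B ^ (Ee + 1) * r ^ 9 * D by ring]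
    exact mul_le_mul_of_nonneg_right hBU hD
  have hu14 : C₀ * B ^ Ee * (P.lip δ (pushR 1 0) + P.size δ r) ≤ B' * D := by
    refine (mul_le_mul hBE hls hls0 (by positivity)).trans (le_trans ?_ hu18)
    refine mul_le_mul_of_nonneg_left ?_ (by positivity)
    have := mul_le_mul_of_nonneg_left hB1 (show 0 ≤ 18 * D * r ^ 9 by positivity)
    linarith [show 0 ≤ D * r ^ 9 by positivity]
  have hl18 : Φ.lip δ (pushR 0 (pushR 1 0)) ≤ B' * D :=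
    hlp'.trans ((mul_le_mul hBE hin (add_nonneg hp2 (mul_nonneg hB0 hls0)) (by positivity)).trans
      hu18)
  have hwf' : Φ.WF δ r B' T₀ := hwf.mono hδ0 le_rfl hr0.le le_rfl hBone (by linarith) le_rfl
  have hlevi : Φ.LevelGe (i + 1) := (hlev _ hdr.levelGe).mono (by omega)
  refine ⟨hwf', hlevi, hsz.trans hu14, hlp.trans hu14, hl18, ?_⟩
  exact levelOk_midProg hr hδ0 hT₀ hB2 hwf' hlevi hdep le_rfl hU (hsz.trans hu14)
    (hlp.trans hu14) hl18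
    (hsn.mono hδ0 le_rfl hBone (pushR_nonneg zero_le_one fun _ => le_rfl) fun _ => le_rfl)
    (hsn'.mono hδ0 le_rfl hBtwo
      (pushR_nonneg le_rfl (pushR_nonneg zero_le_one fun _ => le_rfl)) fun _ => le_rfl)
    (hno'.mono hδ0 le_rfl hBtwo
      (pushR_nonneg le_rfl (pushR_nonneg zero_le_one fun _ => le_rfl)) fun _ => le_rfl)

/-- The errors of one round. -/
lemma round_err {d M : ℕ} {α C₀ C C' G X δR D r : ℝ} {j : ℕ} (hd : (1 : ℝ) ≤ d) (hα : 0 < α)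
    (hC : 0 ≤ C) (hC' : max C₀ 1 * (C + 1) * 2 ≤ C') (hG : 0 ≤ G) (hr : 1 ≤ r) (hδR : 0 ≤ δR)
    (hδD : δR ≤ D) (hD : D * r ^ 4 ≤ (d : ℝ) ^ (-(α / 2))) (hX : X = lvlErr α M d j) :
    C₀ * (r ^ 3 * (C * (1 + G) * X) + (1 + G) * ((d : ℝ) ^ M)⁻¹) ≤ C' * (1 + G) * (r ^ 3 * X) ∧
      2 * δR * r * (C₀ * (r ^ 3 * (C * (1 + G) * X) + (1 + G) * ((d : ℝ) ^ M)⁻¹))
        ≤ C' * (1 + G) * lvlErr α M d (j + 1) := by
  have hd0 : (0 : ℝ) < d := by linarith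
  have hX0 : ((d : ℝ) ^ M)⁻¹ ≤ X := hX ▸ le_add_of_nonneg_left (rpow_nonneg hd0.le _)
  have hXn : 0 ≤ X := le_trans (by positivity) hX0
  have hr3 : 1 ≤ r ^ 3 := one_le_pow₀ hr
  have h1 : r ^ 3 * (C * (1 + G) * X) + (1 + G) * ((d : ℝ) ^ M)⁻¹
      ≤ (C + 1) * (1 + G) * (r ^ 3 * X) := by
    have := mul_le_mul_of_nonneg_left (hX0.trans (le_mul_of_one_le_left hXn hr3))
      (show 0 ≤ 1 + G by linarith)
    linarith
  have h2 : C₀ * (r ^ 3 * (C * (1 + G) * X) + (1 + G) * ((d : ℝ) ^ M)⁻¹)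
      ≤ max C₀ 1 * (C + 1) * (1 + G) * (r ^ 3 * X) := by
    refine (mul_le_mul (le_max_left C₀ 1) h1 (by positivity) (by positivity)).trans_eq (by ring)
  have hC1 : 0 ≤ max C₀ 1 * (C + 1) := by positivity
  refine ⟨h2.trans (by gcongr; linarith), ?_⟩
  have hgain : δR * r ^ 4 * X ≤ lvlErr α M d (j + 1) := by
    refine (mul_le_mul_of_nonneg_right ((mul_le_mul_of_nonneg_right hδD
      (by positivity)).trans hD) hXn).trans ?_
    rw [hX, lvlErr, lvlErr, mul_add, ← rpow_add hd0]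
    refine add_le_add (le_of_eq (by congr 1; push_cast; ring)) ?_
    exact mul_le_of_le_one_left (by positivity) (rpow_le_one_of_one_le_of_nonpos hd (by linarith))
  refine (mul_le_mul_of_nonneg_left h2 (by positivity)).trans ?_
  calc 2 * δR * r * (max C₀ 1 * (C + 1) * (1 + G) * (r ^ 3 * X))
      = max C₀ 1 * (C + 1) * 2 * (1 + G) * (δR * r ^ 4 * X) := by ring
    _ ≤ _ := mul_le_mul (mul_le_mul_of_nonneg_right hC' (by linarith)) hgain (by positivity)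
        (mul_nonneg (by linarith) (by linarith))

/-- One round. -/
theorem mapGood_of_lvlGood (hT : TiltMapStmt) {α : ℝ} (hα : 0 < α) {M j : ℕ}
    (hj : LvlGood α M j) : MapGood α M j := by
  obtain ⟨e, M2, γ₀, hγ₀, hj⟩ := hj
  obtain ⟨Ee, M2', hT⟩ := hT (α / 2) (by positivity) M
  set n₀ := (e + 3) * (Ee + 1) + 9 with hn₀
  refine ⟨n₀, max M2 M2', min γ₀ (min (1 / 2) (α / 4) / n₀), by positivity, fun γ hγ hγ' => ?_⟩
  obtain ⟨N₁, hT⟩ := hT γ hγ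
  obtain ⟨N₀, hj⟩ := hj γ hγ (hγ'.trans (min_le_left _ _))
  refine ⟨max N₀ N₁, fun N hN Cb hCb => ?_⟩
  obtain ⟨K, C, T, hC, hT1, hj⟩ := hj N ((le_max_left _ _).trans hN) Cb hCb
  obtain ⟨K', C₀, T₀, hT₀, hT⟩ := hT N ((le_max_right _ _).trans hN) K T Cb hT1 hCb
  set C₁ := max C₀ 1 with hC₁
  set C' := 18 * C₁ * C ^ (Ee + 1) + 2 * C₁ * (C + 1) with hC'
  set Kn := K' * (7 * K + 2) ^ K' + (K + 1) * K' + K' + 14 with hKn
  have hC₁1 : 1 ≤ C₁ := le_max_right _ _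
  have hCE : 1 ≤ C ^ (Ee + 1) := one_le_pow₀ hC
  have hC'18 : 18 * C₁ * C ^ (Ee + 1) ≤ C' := le_add_of_nonneg_right (by positivity)
  have hC'1 : 18 ≤ C' := le_trans (by nlinarith) hC'18
  refine ⟨Kn, C', T₀, by linarith, hT₀, ?_⟩
  have hn : γ * n₀ ≤ min (1 / 2) (α / 4) := by
    rw [← le_div_iff₀ (by positivity)]; exact hγ'.trans (min_le_right _ _)
  have hlog : ∀ᶠ d : ℕ in atTop, Real.log d ≤ (d : ℝ) ^ γ := by
    have h := tendsto_natCast_atTop_atTop.eventually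
      ((isLittleO_log_rpow_atTop hγ).bound one_pos)
    filter_upwards [h] with d hd
    rw [norm_eq_abs, norm_eq_abs, one_mul, abs_of_nonneg (rpow_nonneg (Nat.cast_nonneg d) γ)] at hd
    exact (le_abs_self _).trans hd
  filter_upwards [hj, hT, hlog, eventually_ge_atTop 1,
    eventually_const_le_rpow hγ 2, eventually_const_le_rpow (by positivity : (0 : ℝ) < α / 4)
      (max (2 * C') (14 * C ^ Ee)),
    eventually_const_le_rpow (by norm_num : (0 : ℝ) < 1 / 2) C,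
    eventually_const_le_rpow hα 32] with d hj hT hlog hd1 hr2 hbig hCd hd32
  intro Nr εr Rl hεr δR c r δ hp i
  have hd : (1 : ℝ) ≤ d := by exact_mod_cast hd1
  have hd0 : (0 : ℝ) < d := by linarith
  have hεr1 : ∀ m, m ≤ max M2 M2' → εr ≤ ((d : ℝ) ^ m)⁻¹ := fun m hm =>
    hεr.trans (inv_anti₀ (by positivity) (pow_le_pow_right₀ hd hm))
  obtain ⟨P, hPok, hPsem⟩ := hj Nr εr Rl (hεr1 _ (le_max_left _ _)) δR c r δ hp (i + 2)
  -- scales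
  have hr : 2 ≤ r := hp.r_eq ▸ hr2
  have hr0 : 0 < r := by linarith
  set D := c * δR with hDdef
  have hD : 0 < D := mul_pos (zero_lt_one.trans_le hp.one_le) hp.pos
  have hδR : δR ≤ D := le_mul_of_one_le_left hp.pos.le hp.one_le
  have hl0 : 0 ≤ lvlδ δR r := fun l => by
    rw [Pi.zero_apply, lvlδ]; have := hp.pos; positivity
  have hlδ : lvlδ δR r ≤ δ := fun l =>
    (le_mul_of_one_le_left (hl0 l) hp.one_le).trans (hp.lower l)
  have hδ0 : 0 ≤ δ := hl0.trans hlδ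
  have hD32 : D ≤ 1 / 32 := by
    refine hp.small.trans ?_
    rw [rpow_neg hd0.le, one_div]; exact inv_anti₀ (by norm_num) hd32
  have hδ1 : δ ≤ 1 := fun l => (hp.upper l).trans (by rw [Pi.one_apply]; linarith)
  -- the drift
  set B := C * r ^ (e + 3) with hBdef
  have hB1 : 1 ≤ B := one_le_mul_of_one_le_of_one_le hC (one_le_pow₀ (by linarith))
  have hrB : r ≤ B := (le_self_pow₀ (by linarith) (by omega : e + 3 ≠ 0)).trans
    (le_mul_of_one_le_left (by positivity) hC)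
  have hBd : B ≤ d := by
    rw [hBdef, hp.r_eq]
    refine (mul_pow_rpow_le hd1 (by linarith) ?_ hCd (a := 1 / 2)).trans_eq (by norm_num)
    refine le_trans ?_ (hn.trans (min_le_left _ _))
    refine mul_le_mul_of_nonneg_left (Nat.cast_le.2 ?_) hγ.le
    rw [hn₀]; nlinarith
  have hdr := driftOk_midDrift (i := i) hr hδ0 hp.upper
    (one_le_mul_of_one_le_of_one_le hC (one_le_pow₀ (by linarith))) (by linarith) hPok
  rw [show r ^ 3 * (C * r ^ e) = B by rw [hBdef]; ring] at hdr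
  set P' := midDrift r i P with hP'
  have hls : P'.lip δ (pushR 1 0) + P'.size δ r ≤ 14 * D * r ^ 9 := by
    linarith [hdr.lip, hdr.size]
  have hls0 : 0 ≤ P'.lip δ (pushR 1 0) + P'.size δ r :=
    add_nonneg (P'.lip_nonneg hδ0 (pushR_nonneg zero_le_one fun _ => le_rfl))
      (P'.size_nonneg hδ0 hr0.le)
  have hDs : D ≤ (d : ℝ) ^ (-α) := hp.small
  have habs : ∀ (Cx : ℝ) (n : ℕ), 0 ≤ Cx → n ≤ n₀ → Cx ≤ (d : ℝ) ^ (α / 4) →
      Cx * r ^ n * D ≤ (d : ℝ) ^ (-(α / 2)) := fun Cx n hx hnn hCx => by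
    refine (mul_le_mul (mul_pow_rpow_le hd1 hx (a := α / 4) ?_ hCx |> (hp.r_eq ▸ ·)) hDs hD.le
      (by positivity)).trans_eq ?_
    · exact le_trans (mul_le_mul_of_nonneg_left (Nat.cast_le.2 hnn) hγ.le)
        (hn.trans (min_le_right _ _))
    · rw [← rpow_add hd0]; congr 1; ring
  have hsmallP : (P'.lip δ (pushR 1 0) + P'.size δ r) * B ^ Ee ≤ (d : ℝ) ^ (-(α / 2)) := by
    refine (mul_le_mul_of_nonneg_right hls (by positivity)).trans ?_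
    rw [hBdef, mul_pow, ← pow_mul,
      show 14 * D * r ^ 9 * (C ^ Ee * r ^ ((e + 3) * Ee))
        = 14 * C ^ Ee * r ^ ((e + 3) * Ee + 9) * D by rw [pow_add]; ring]
    exact habs _ _ (by positivity) (by rw [hn₀]; nlinarith) ((le_max_right _ _).trans hbig)
  obtain ⟨Φ, hsm, hwf, hdep, hnod, hlev, hsz, hlp, hsn, hclause, hsem⟩ :=
    hT Nr εr Rl (hεr1 _ (le_max_right _ _)) (lvlδ δR r) δ r B P' hl0 hlδ hδ1 hp.r_eq.ge hrB
      (hlog.trans (hp.r_eq.ge.trans hrB)) hBd hdr.small hdr.wf hdr.depth hdr.sens hdr.noise hsmallP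
  obtain ⟨hsn', hlp', hno'⟩ := hclause (pushR 1 0) B (pushR_nonneg zero_le_one fun _ => le_rfl)
    (by linarith) hdr.sens'
  replace hno' := hno' hdr.noise'
  -- the bounds
  set B' := C' * r ^ n₀ with hB'def
  have hBU : 18 * C₁ * B ^ (Ee + 1) * r ^ 9 ≤ B' := by
    rw [hB'def, hBdef, mul_pow, ← pow_mul, hn₀, pow_add r, ← mul_assoc C', ← mul_assoc _ (C ^ _)]
    exact mul_le_mul_of_nonneg_right (mul_le_mul_of_nonneg_right hC'18 (by positivity)) (by positivity)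
  have hB2 : 2 * r ^ 2 ≤ B' := by
    rw [hB'def]
    exact mul_le_mul (by linarith) (pow_le_pow_right₀ (by linarith) (by omega)) (by positivity)
      (by linarith)
  have hU : B' * D ≤ 1 / 2 := by
    have h := habs (2 * C') n₀ (by linarith) le_rfl ((le_max_left _ _).trans hbig)
    have h1 : (d : ℝ) ^ (-(α / 2)) ≤ 1 := rpow_le_one_of_one_le_of_nonpos hd (by linarith)
    rw [hB'def]; linarith
  obtain ⟨hwf', hlevi, hs1, hs2, hs3, hL⟩ := round_prog (C₁ := C₁) hr hδ0 hD.le hB1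
    (le_max_left _ _) (by linarith) hT₀ hdr hwf hdep hlev hsz hlp hsn hsn' hlp' hno' hBU hB2 hU
  have hnod' : Φ.nodes + 14 ≤ Kn * (Nr + 1) ^ Kn := round_nodes hdr.nodes hnod (by omega)
  refine ⟨Φ, hsm, hwf', hlevi, hdep.trans (by omega), by omega, hs1, hs2, hs3,
    ⟨hL.small, hL.wf, hL.levelGe, hL.depth.trans (by omega), hL.nodes.trans hnod', hL.size,
      hL.mass, hL.lip, hL.sens, hL.noise⟩, ?_⟩
  -- the meaning
  intro R g r0 G Bd hPot hG hBd h hh hF env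
  have hR' : Continuous R := continuous_iff_continuousAt.2 fun x => (hPot.hasGrad x).continuousAt
  obtain ⟨hT0', hT1', -⟩ := level_facts hr i
  have hG0 : 0 ≤ G := (norm_nonneg _).trans (hG 0)
  obtain ⟨r1, hPot'⟩ := pot_upot hPot (lvlσ_pos hr0 (i + 2)).le (lvlσ_le_one (by linarith) _)
    (hδR.trans hD32) hT0' hT1' (lvlS r i • env 0)
  have hx : ∀ z : E d,
      ‖√(lvlT r i) • score (lvlσ r (i + 2)) R g (lvlS r i • env 0 + √(lvlT r i) • z)‖ ≤ G := fun z => by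
    rw [norm_smul, norm_eq_abs, abs_of_nonneg (sqrt_nonneg _)]
    exact (mul_le_mul (sqrt_le_one.2 hT1') (norm_score_le hR' hBd hG _ _) (norm_nonneg _)
      zero_le_one).trans_eq (one_mul G)
  have htv := fun v hv hvb hv1 => hsem h G hF env _ _ _ _ (r ^ 3 * (C * (1 + G) * lvlErr α M d j)) G
    hPot' (norm_drift_sub_le hr hh (fun env' => hPsem R g r0 G Bd hPot hG hBd h hh hF env') env)
    hx v hv hvb hv1
  obtain ⟨he1, he2⟩ := round_err (C₀ := C₀) (C := C) (C' := C') (G := G) (D := D) (r := r)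
    (M := M) (j := j) hd hα (by linarith) (by
      rw [← hC₁, hC']
      linarith [show 0 ≤ 18 * C₁ * C ^ (Ee + 1) by positivity])
    hG0 (by linarith) hp.pos.le hδR (by
      have := habs 1 4 zero_le_one (by omega) (one_le_rpow hd (by positivity))
      linarith [show D * r ^ 4 = 1 * r ^ 4 * D by ring]) rfl
  exact ⟨fun v hv hvb hv1 => (htv v hv hvb hv1).trans he1,
    (norm_sem_midProg_sub_le hPot hG hBd hr hh hF Φ env htv).trans he2⟩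

theorem lvlGood_succ {α : ℝ} {M j : ℕ} (hj : MapGood α M j) : LvlGood α M (j + 1) := by
  obtain ⟨e, M2, γ₀, hγ₀, hj⟩ := hj
  refine ⟨e, M2, γ₀, hγ₀, fun γ h1 h2 => ?_⟩
  obtain ⟨N₀, hj⟩ := hj γ h1 h2
  refine ⟨N₀, fun N hN Cb hCb => ?_⟩
  obtain ⟨K, C, T, hC, hT, hj⟩ := hj N hN Cb hCb
  refine ⟨K, C, T, hC, hT, hj.mono fun d hd Nr εr Rl hε δR c r δ hp i => ?_⟩
  obtain ⟨Φ, -, -, -, -, -, -, -, -, hok, hsem⟩ := hd Nr εr Rl hε δR c r δ hp i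
  exact ⟨_, hok, fun R g r0 G B h1 h2 h3 h hh hF env => (hsem R g r0 G B h1 h2 h3 h hh hF env).2⟩

theorem lvlGood_all (hT : TiltMapStmt) {α : ℝ} (hα : 0 < α) (M : ℕ) : ∀ j, LvlGood α M j
  | 0 => lvlGood_zero α M
  | j + 1 => lvlGood_succ (mapGood_of_lvlGood hT hα (lvlGood_all hT hα M j))

/-- The map from level `i` and, from it, the program standing for level `i`, for every weights of
the levels above `i + 1` between `c` times the Lipschitz constants and twice their inflated top. -/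
theorem exists_levelMap (hTilt : TiltMapStmt) (α : ℝ) (hα : 0 < α) (M k : ℕ) :
    ∃ (e M2 : ℕ) (γ₀ : ℝ), 0 < γ₀ ∧
    ∀ γ : ℝ, 0 < γ → γ ≤ γ₀ → ∃ N₀ : ℕ, ∀ N, N₀ ≤ N → ∀ Cb : ℝ, 0 ≤ Cb →
    ∃ (K : ℕ) (C T : ℝ), 1 ≤ C ∧ 1 ≤ T ∧
    ∀ᶠ d : ℕ in atTop, ∀ (Nr : ℕ) (εr : ℝ) (_ : Rule Nr εr), εr ≤ ((d : ℝ) ^ M2)⁻¹ →
    ∀ (δR c r : ℝ), 0 < δR → 1 ≤ c → c * δR ≤ (d : ℝ) ^ (-α) → r = (d : ℝ) ^ γ → ∀ i : ℕ,
    ∀ δ' : ℕ → ℝ, (∀ l, c * lvlδ δR r l ≤ δ' l) → (∀ l, δ' l ≤ 2 * (c * δR)) →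
      δ' (i + 1) ≤ c * lvlδ δR r (i + 1) →
    ∃ Φ P : Prog,
      Φ.Small ∧ Φ.WF δ' r (C * r ^ e) T ∧ Φ.LevelGe (i + 1) ∧ Φ.depth ≤ K ∧
      Φ.nodes ≤ K * (Nr + 1) ^ K ∧ Φ.size δ' r ≤ C * r ^ e * (c * δR) ∧
      Φ.lip (lvlδ δR r) (pushR 1 (pushR 1 0)) ≤ C * r ^ e * δR ∧
      P.Small ∧ P.WF δ' r (C * r ^ e) T ∧ P.LevelGe (i + 1) ∧ P.depth ≤ K ∧
      P.nodes ≤ K * (Nr + 1) ^ K ∧
      P.size δ' r ≤ C * (c * lvlδ δR r i * r) ∧
      P.mass δ' r ≤ C * (c * lvlδ δR r i) ∧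
      ∀ (R : E d → ℝ) (g : E d → E d) (r0 G B : ℝ), Pot d δR r0 R g → (∀ x, ‖g x‖ ≤ G) →
        (∀ x, |R x| ≤ B) → ∀ h : ℕ → E d → E d,
        (∀ ℓ z, h ℓ z = lvlS r ℓ • score (lvlσ r ℓ) R g (lvlS r ℓ • z)) →
        (∀ ℓ, Fld d (lvlδ δR r ℓ) r G Cb N (h ℓ)) → ∀ env : Env d,
          (∀ v : E d → ℝ, ContDiff ℝ 1 v → (∃ K', ∀ x, |v x| ≤ K') →
            (∀ x, ‖fderiv ℝ v x‖ ≤ 1) →
            |(∫ ξ, v (ξ + Φ.sem h (push ξ env)) ∂gau (Fin d))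
              - ∫ z, v z ∂tilt (fun z => upot (lvlσ r (i + 2)) R
                  (lvlS r i • env 0 + √(lvlσ r i ^ 2 - lvlσ r (i + 2) ^ 2) • z))|
              ≤ C * (1 + G) * ((d : ℝ) ^ (-(α * k / 2)) + ((d : ℝ) ^ M)⁻¹)) ∧
          ‖P.sem h env - h i (env 0)‖
            ≤ C * (1 + G) * ((d : ℝ) ^ (-(α * k / 2)) + ((d : ℝ) ^ M)⁻¹) := by
  obtain ⟨e, M2, γ₀, hγ₀, hk⟩ :=
    mapGood_of_lvlGood hTilt hα (lvlGood_all hTilt hα (M + 1) (k + 1))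
  refine ⟨e, M2, min γ₀ (min 1 (α / 2) / 3), by positivity, fun γ hγ hγ' => ?_⟩
  obtain ⟨N₀, hk⟩ := hk γ hγ (hγ'.trans (min_le_left _ _))
  have hγ3 : γ * 3 ≤ min 1 (α / 2) := by
    rw [← le_div_iff₀ (by norm_num)]; exact hγ'.trans (min_le_right _ _)
  refine ⟨N₀, fun N hN Cb hCb => ?_⟩
  obtain ⟨K, C, T, hC, hT, hk⟩ := hk N hN Cb hCb
  refine ⟨K, 5 * C, T, by linarith, hT, ?_⟩
  filter_upwards [hk, eventually_ge_atTop 1, eventually_const_le_rpow hγ 2] with d hk hd1 hr2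
  intro Nr εr Rl hε δR c r hδR hc hsmall hreq i δ' hlow hup heq
  obtain ⟨Φ, hsm, hwf, hlev, hdep, hnod, hsz, hl0, hl1, hok, hsem⟩ :=
    hk Nr εr Rl hε δR c r δ' ⟨hδR, hc, hsmall, hreq, hlow, hup⟩ i
  have hd : (1 : ℝ) ≤ d := by exact_mod_cast hd1
  have hr : 2 ≤ r := hreq ▸ hr2
  have hr0 : 0 < r := by linarith
  have hC5 : C * r ^ e ≤ 5 * C * r ^ e := by nlinarith [show 0 ≤ C * r ^ e by positivity]
  have hl00 : 0 ≤ lvlδ δR r := fun l => by rw [Pi.zero_apply, lvlδ]; positivity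
  have hδ0 : 0 ≤ δ' := fun l => (mul_nonneg (by linarith) (hl00 l)).trans (hlow l)
  have hnext : δ' (i + 1) * r ^ 2 ≤ c * lvlδ δR r i := by
    refine (mul_le_mul_of_nonneg_right heq (sq_nonneg r)).trans_eq ?_
    rw [lvlδ, lvlδ, ← lvlS_sq_next hr0 i]; ring
  have hwf' : ∀ {F : Prog}, F.WF δ' r (C * r ^ e) T → F.WF δ' r (5 * C * r ^ e) T := fun h =>
    h.mono hδ0 le_rfl hr0.le le_rfl hC5 (by linarith) le_rfl
  refine ⟨Φ, midProg r i Φ, hsm, hwf' hwf, hlev, hdep, hnod,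
    hsz.trans (mul_le_mul_of_nonneg_right hC5 (by positivity)), ?_, hok.small, hwf' hok.wf,
    hok.levelGe, hok.depth, hok.nodes, ?_, ?_, ?_⟩
  · have hv : ∀ l, 0 ≤ pushR (1 : ℝ) (pushR 1 0) l :=
      pushR_nonneg zero_le_one (pushR_nonneg zero_le_one fun _ => le_rfl)
    have h := (Prog.lip_scale hl00 hc hsm hv).trans
      (Φ.lip_mono (smul_nonneg (by linarith) hl00) hlow hv fun _ => le_rfl)
    have hadd : Φ.lip δ' (pushR 1 (pushR 1 0))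
        = Φ.lip δ' (pushR 1 0) + Φ.lip δ' (pushR 0 (pushR 1 0)) := by
      rw [← Prog.lip_add_v, ← pushR_add, add_zero, zero_add]
    refine le_of_mul_le_mul_left ?_ (zero_lt_one.trans_le hc)
    nlinarith [show 0 ≤ C * r ^ e * (c * δR) by positivity]
  · calc (midProg r i Φ).size δ' r ≤ 5 * (δ' (i + 1) * r ^ 3) := hok.size
      _ = 5 * (δ' (i + 1) * r ^ 2) * r := by ring
      _ ≤ 5 * (c * lvlδ δR r i) * r := by gcongr
      _ ≤ 5 * C * (c * lvlδ δR r i * r) := by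
          have := hl00 i
          rw [Pi.zero_apply] at this
          nlinarith [show 0 ≤ c * lvlδ δR r i * r by positivity]
  · refine hok.mass.trans (hnext.trans (le_mul_of_one_le_left ?_ (by linarith)))
    have := hl00 i
    rw [Pi.zero_apply] at this
    positivity
  intro R g r0 G B hPot hG hB h hh hF env
  have hG0 : 0 ≤ G := (norm_nonneg _).trans (hG 0)
  obtain ⟨htv, hP⟩ := hsem R g r0 G B hPot hG hB h hh hF env
  have hM : ∀ x : ℝ, x ≤ 1 → (d : ℝ) ^ x * ((d : ℝ) ^ (M + 1))⁻¹ ≤ ((d : ℝ) ^ M)⁻¹ := fun x hx => by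
    refine (mul_le_mul_of_nonneg_right (rpow_le_rpow_of_exponent_le hd hx)
      (by positivity)).trans_eq ?_
    rw [rpow_one, pow_succ]; field_simp
  refine ⟨fun v hv hvb hv1 => (htv v hv hvb hv1).trans ?_, hP.trans ?_⟩
  · refine mul_le_mul (by nlinarith) ?_ (by rw [lvlErr]; positivity) (by positivity)
    have e3 : r ^ 3 = (d : ℝ) ^ (γ * 3) := by
      rw [hreq, ← rpow_natCast ((d : ℝ) ^ γ) 3, ← rpow_mul (by positivity)]; norm_num
    rw [lvlErr, e3, mul_add, ← rpow_add (by linarith)]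
    refine add_le_add (rpow_le_rpow_of_exponent_le hd ?_) (hM _ (hγ3.trans (min_le_left _ _)))
    push_cast
    linarith [hγ3.trans (min_le_right (1 : ℝ) (α / 2))]
  · refine mul_le_mul (by nlinarith) ?_ (by rw [lvlErr]; positivity) (by positivity)
    rw [lvlErr]
    refine add_le_add (rpow_le_rpow_of_exponent_le hd ?_) (by simpa using hM 0 zero_le_one)
    push_cast
    nlinarith

end Vale.Agent.P347
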