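import Vale.Agent.P347Zero.LProg

/-!
P347, v5 module M1 (algebra): monotonicity and linearity of the bounds of a program, renaming,
lifting and substitution of inputs.
-/

open MeasureTheory ProbabilityTheory Real

namespace Vale.Agent.P347

/-! ### Environments and bounds -/

section push

variable {d : ℕ}

theorem push_comp_up (a : E d) (env : Env d) (f : ℕ → ℕ) :
    (push a env ∘ fun i => Nat.rec (motive := fun _ => ℕ) 0 (fun n _ => f n + 1) i) = push a (env ∘ f) := by
  funext i; cases i <;> rfl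

theorem pushR_comp_up (a : ℝ) (v : ℕ → ℝ) (f : ℕ → ℕ) :
    (pushR a v ∘ fun i => Nat.rec (motive := fun _ => ℕ) 0 (fun n _ => f n + 1) i) = pushR a (v ∘ f) := by
  funext i; cases i <;> rfl

theorem pushR_add (a b : ℝ) (v w : ℕ → ℝ) : pushR (a + b) (v + w) = pushR a v + pushR b w := by
  funext i; cases i <;> rfl

theorem pushR_smul (c a : ℝ) (v : ℕ → ℝ) : pushR (c * a) (c • v) = c • pushR a v := by
  funext i; cases i <;> rfl

theorem pushR_zero : pushR 0 0 = 0 := by
  funext i; cases i <;> rfl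

theorem pushR_nonneg {a : ℝ} {v : ℕ → ℝ} (ha : 0 ≤ a) (hv : ∀ i, 0 ≤ v i) :
    ∀ i, 0 ≤ pushR a v i
  | 0 => ha
  | i + 1 => hv i

theorem pushR_mono {a b : ℝ} {v w : ℕ → ℝ} (ha : a ≤ b) (hv : ∀ i, v i ≤ w i) :
    ∀ i, pushR a v i ≤ pushR b w i
  | 0 => ha
  | i + 1 => hv i

/-- The shift of the inputs at or above `c`. -/
def shiftUp (c i : ℕ) : ℕ := if i < c then i else i + 1

theorem shiftUp_succ (c : ℕ) :
    shiftUp (c + 1) = fun i => Nat.rec (motive := fun _ => ℕ) 0 (fun n _ => shiftUp c n + 1) i := by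
  funext i
  cases i with
  | zero => simp [shiftUp]
  | succ j => simp only [shiftUp, Nat.succ_lt_succ_iff]; split_ifs <;> rfl

theorem push_comp_shiftUp (a : E d) (env : Env d) (c : ℕ) :
    push a env ∘ shiftUp (c + 1) = push a (env ∘ shiftUp c) := by
  rw [shiftUp_succ, push_comp_up]

theorem pushR_comp_shiftUp (a : ℝ) (v : ℕ → ℝ) (c : ℕ) :
    pushR a v ∘ shiftUp (c + 1) = pushR a (v ∘ shiftUp c) := by
  rw [shiftUp_succ, pushR_comp_up]

theorem push_comp_shiftUp_zero (a : E d) (env : Env d) : push a env ∘ shiftUp 0 = env := by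
  funext i; rfl

theorem pushR_comp_shiftUp_zero (a : ℝ) (v : ℕ → ℝ) : pushR a v ∘ shiftUp 0 = v := by
  funext i; rfl

end push

/-! ### Bounds of programs -/

namespace Prog

variable {δ δ' : ℕ → ℝ} {r r' B B' T T' : ℝ} {v w : ℕ → ℝ}

theorem lip_add_v (δ : ℕ → ℝ) (p : Prog) :
    ∀ v w : ℕ → ℝ, p.lip δ (v + w) = p.lip δ v + p.lip δ w := by
  induction p with
  | inp i => intro v w; rfl
  | zero => intro v w; simp [Prog.lip]
  | add p q hp hq => intro v w; simp only [Prog.lip, hp, hq]; ring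
  | smul c p hp => intro v w; simp only [Prog.lip, hp]; ring
  | call ℓ τ p hp => intro v w; simp only [Prog.lip, hp]; ring
  | bind p Δ b hp hb => intro v w; simp only [Prog.lip, hp, pushR_add, hb]

theorem lip_smul_v (δ : ℕ → ℝ) (p : Prog) :
    ∀ (c : ℝ) (v : ℕ → ℝ), p.lip δ (c • v) = c * p.lip δ v := by
  induction p with
  | inp i => intro c v; rfl
  | zero => intro c v; simp [Prog.lip]
  | add p q hp hq => intro c v; simp only [Prog.lip, hp, hq]; ring
  | smul a p hp => intro c v; simp only [Prog.lip, hp]; ring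
  | call ℓ τ p hp => intro c v; simp only [Prog.lip, hp]; ring
  | bind p Δ b hp hb => intro c v; simp only [Prog.lip, hp, pushR_smul, hb]

theorem lip_zero_v (δ : ℕ → ℝ) (p : Prog) : p.lip δ 0 = 0 := by
  have h := p.lip_smul_v δ 0 0
  rwa [zero_smul, zero_mul] at h

theorem lip_nonneg (hδ : 0 ≤ δ) (p : Prog) :
    ∀ {v : ℕ → ℝ}, (∀ i, 0 ≤ v i) → 0 ≤ p.lip δ v := by
  induction p with
  | inp i => intro v hv; exact hv i
  | zero => intro v _; exact le_rfl
  | add p q hp hq => intro v hv; exact add_nonneg (hp hv) (hq hv)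
  | smul c p hp => intro v hv; exact mul_nonneg (abs_nonneg c) (hp hv)
  | call ℓ τ p hp => intro v hv; exact mul_nonneg (hδ ℓ) (hp hv)
  | bind p Δ b hp hb => intro v hv; exact hb (pushR_nonneg (hp hv) hv)

theorem lip_mono (h0 : 0 ≤ δ) (hδ : δ ≤ δ') (p : Prog) :
    ∀ {v w : ℕ → ℝ}, (∀ i, 0 ≤ v i) → (∀ i, v i ≤ w i) → p.lip δ v ≤ p.lip δ' w := by
  induction p with
  | inp i => intro v w _ h; exact h i
  | zero => intro v w _ _; exact le_rfl
  | add p q hp hq => intro v w hv h; exact add_le_add (hp hv h) (hq hv h)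
  | smul c p hp => intro v w hv h; exact mul_le_mul_of_nonneg_left (hp hv h) (abs_nonneg c)
  | call ℓ τ p hp =>
    intro v w hv h
    exact mul_le_mul (hδ ℓ) (hp hv h) (p.lip_nonneg h0 hv) ((h0 ℓ).trans (hδ ℓ))
  | bind p Δ b hp hb =>
    intro v w hv h
    exact hb (pushR_nonneg (p.lip_nonneg h0 hv) hv) (pushR_mono (hp hv h) h)

theorem size_nonneg (hδ : 0 ≤ δ) (hr : 0 ≤ r) (p : Prog) : 0 ≤ p.size δ r := by
  induction p with
  | inp i => exact le_rfl
  | zero => exact le_rfl
  | add p q hp hq => exact add_nonneg hp hq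
  | smul c p hp => exact mul_nonneg (abs_nonneg c) hp
  | call ℓ τ p hp => exact mul_nonneg (hδ ℓ) (add_nonneg hr hp)
  | bind p Δ b hp hb =>
    exact add_nonneg hb
      (b.lip_nonneg hδ (pushR_nonneg (add_nonneg (Real.sqrt_nonneg Δ) hp) fun _ => le_rfl))

theorem size_mono (h0 : 0 ≤ δ) (hδ : δ ≤ δ') (hr0 : 0 ≤ r) (hr : r ≤ r') (p : Prog) :
    p.size δ r ≤ p.size δ' r' := by
  induction p with
  | inp i => exact le_rfl
  | zero => exact le_rfl
  | add p q hp hq => exact add_le_add hp hq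
  | smul c p hp => exact mul_le_mul_of_nonneg_left hp (abs_nonneg c)
  | call ℓ τ p hp =>
    exact mul_le_mul (hδ ℓ) (add_le_add hr hp) (add_nonneg hr0 (p.size_nonneg h0 hr0)) ((h0 ℓ).trans (hδ ℓ))
  | bind p Δ b hp hb =>
    refine add_le_add hb (b.lip_mono h0 hδ ?_ ?_)
    · exact pushR_nonneg (add_nonneg (Real.sqrt_nonneg Δ) (p.size_nonneg h0 hr0)) fun _ => le_rfl
    · exact pushR_mono (add_le_add le_rfl hp) fun _ => le_rfl

/-- Every term of the Lipschitz bound of a small program passes through a call. -/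
theorem lip_scale {δ : ℕ → ℝ} {c : ℝ} (h0 : 0 ≤ δ) (h1 : 1 ≤ c) {p : Prog} (hp : p.Small)
    {v : ℕ → ℝ} (hv : ∀ i, 0 ≤ v i) : c * p.lip δ v ≤ p.lip (c • δ) v := by
  have h2 : δ ≤ c • δ := fun l => le_mul_of_one_le_left (h0 l) h1
  induction p generalizing v with
  | inp i => exact hp.elim
  | zero => simp [Prog.lip]
  | add p q ihp ihq =>
    simp only [Prog.lip, mul_add]
    exact add_le_add (ihp hp.1 hv) (ihq hp.2 hv)
  | smul a p ih =>
    simp only [Prog.lip, mul_left_comm c |a|]
    exact mul_le_mul_of_nonneg_left (ih hp hv) (abs_nonneg a)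
  | call ℓ τ p ih =>
    simp only [Prog.lip, Pi.smul_apply, smul_eq_mul, mul_assoc]
    exact mul_le_mul_of_nonneg_left
      (mul_le_mul_of_nonneg_left (p.lip_mono h0 h2 hv fun _ => le_rfl) (h0 ℓ))
      (zero_le_one.trans h1)
  | bind p Δ b ihp ihb =>
    refine (ihb hp (pushR_nonneg (p.lip_nonneg h0 hv) hv)).trans ?_
    exact b.lip_mono (h0.trans h2) le_rfl (pushR_nonneg (p.lip_nonneg h0 hv) hv)
      (pushR_mono (p.lip_mono h0 h2 hv fun _ => le_rfl) fun _ => le_rfl)

/-- The sampling noise passes through a call, provided bodies read inputs only inside calls. -/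
theorem size_scale {δ δ₁ : ℕ → ℝ} {c r r₁ B T : ℝ} (h0 : 0 ≤ δ) (h1 : 1 ≤ c) (hr : 0 ≤ r)
    (p : Prog) (hp : p.WF δ₁ r₁ B T) : c * p.size δ r ≤ p.size (c • δ) r := by
  have h2 : δ ≤ c • δ := fun l => le_mul_of_one_le_left (h0 l) h1
  induction p with
  | inp i => simp [Prog.size]
  | zero => simp [Prog.size]
  | add p q ihp ihq =>
    simp only [Prog.size, mul_add]
    exact add_le_add (ihp hp.1) (ihq hp.2)
  | smul a p ih =>
    simp only [Prog.size, mul_left_comm c |a|]
    exact mul_le_mul_of_nonneg_left (ih hp) (abs_nonneg a)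
  | call ℓ τ p ih =>
    simp only [Prog.size, Pi.smul_apply, smul_eq_mul, mul_assoc]
    exact mul_le_mul_of_nonneg_left
      (mul_le_mul_of_nonneg_left (add_le_add le_rfl (p.size_mono h0 h2 hr le_rfl)) (h0 ℓ))
      (zero_le_one.trans h1)
  | bind p Δ b ihp ihb =>
    obtain ⟨-, -, hb, -, hs, -⟩ := hp
    simp only [Prog.size, mul_add]
    have ha : 0 ≤ √Δ + p.size δ r := add_nonneg (Real.sqrt_nonneg Δ) (p.size_nonneg h0 hr)
    refine add_le_add (ihb hb) ((lip_scale h0 h1 hs (pushR_nonneg ha fun _ => le_rfl)).trans ?_)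
    exact b.lip_mono (h0.trans h2) le_rfl (pushR_nonneg ha fun _ => le_rfl)
      (pushR_mono (add_le_add le_rfl (p.size_mono h0 h2 hr le_rfl)) fun _ => le_rfl)

theorem SensLe.mono (h0 : 0 ≤ δ') (hδ : δ' ≤ δ) (hB : B ≤ B') {p : Prog} :
    ∀ {v w : ℕ → ℝ}, p.SensLe δ B v → (∀ i, 0 ≤ w i) → (∀ i, w i ≤ v i) →
      p.SensLe δ' B' w := by
  induction p with
  | inp i => intros; trivial
  | zero => intros; trivial
  | add p q hp hq => intro v w h hw h'; exact ⟨hp h.1 hw h', hq h.2 hw h'⟩
  | smul c p hp => intro v w h hw h'; exact hp (v := v) h hw h'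
  | call ℓ τ p hp =>
    intro v w h hw h'
    exact ⟨((p.lip_mono h0 hδ hw h').trans h.1).trans hB, hp h.2 hw h'⟩
  | bind p Δ b hp hb =>
    intro v w h hw h'
    exact ⟨hp h.1 hw h', hb h.2 (pushR_nonneg (p.lip_nonneg h0 hw) hw)
      (pushR_mono (p.lip_mono h0 hδ hw h') h')⟩

theorem SensLe.smul {c : ℝ} (hc : 0 ≤ c) {p : Prog} :
    ∀ {v : ℕ → ℝ}, p.SensLe δ B v → p.SensLe δ (c * B) (c • v) := by
  induction p with
  | inp i => intros; trivial
  | zero => intros; trivial
  | add p q hp hq => intro v h; exact ⟨hp h.1, hq h.2⟩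
  | smul a p hp => intro v h; exact hp (v := v) h
  | call ℓ τ p hp =>
    intro v h
    exact ⟨by rw [lip_smul_v]; exact mul_le_mul_of_nonneg_left h.1 hc, hp h.2⟩
  | bind p Δ b hp hb =>
    intro v h
    refine ⟨hp h.1, ?_⟩
    rw [lip_smul_v, pushR_smul]
    exact hb h.2

theorem sensLe_zero (hB : 0 ≤ B) (p : Prog) : p.SensLe δ B 0 := by
  induction p with
  | inp i => trivial
  | zero => trivial
  | add p q hp hq => exact ⟨hp, hq⟩
  | smul a p hp => exact hp
  | call ℓ τ p hp => exact ⟨(lip_zero_v δ p).le.trans hB, hp⟩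
  | bind p Δ b hp hb =>
    refine ⟨hp, ?_⟩
    rw [lip_zero_v, pushR_zero]
    exact hb

theorem WF.mono (h0 : 0 ≤ δ') (hδ : δ' ≤ δ) (hr0 : 0 ≤ r') (hr : r' ≤ r)
    (hB : B ≤ B') (hT0 : 0 < T) (hT : T ≤ T') {p : Prog} : p.WF δ r B T → p.WF δ' r' B' T' := by
  induction p with
  | inp i => intros; trivial
  | zero => intros; trivial
  | add p q hp hq => intro h; exact ⟨hp h.1, hq h.2⟩
  | smul a p hp => exact fun h => hp h
  | call ℓ τ p hp =>
    intro h
    exact ⟨(inv_anti₀ hT0 hT).trans h.1, h.2.1, hp h.2.2.1,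
      ((p.size_mono h0 hδ hr0 hr).trans h.2.2.2).trans hB⟩
  | bind p Δ b hp hb =>
    intro ⟨hΔ, h1, h2, h3, h4, h5⟩
    exact ⟨hΔ, hp h1, hb h2, ((p.size_mono h0 hδ hr0 hr).trans h3).trans
      (mul_le_mul_of_nonneg_right hB (Real.sqrt_nonneg Δ)), h4,
      h5.mono h0 hδ hB (pushR_nonneg (Real.sqrt_nonneg Δ) fun _ => le_rfl) fun _ => le_rfl⟩

/-! ### Renaming -/

variable {d : ℕ} {h : ℕ → E d → E d}

theorem sem_ren (p : Prog) :
    ∀ (f : ℕ → ℕ) (env : Env d), (p.ren f).sem h env = p.sem h (env ∘ f) := by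
  induction p with
  | inp i => intros; rfl
  | zero => intros; rfl
  | add p q hp hq => intro f env; simp only [Prog.ren, Prog.sem, hp, hq]
  | smul c p hp => intro f env; simp only [Prog.ren, Prog.sem, hp]
  | call ℓ τ p hp => intro f env; simp only [Prog.ren, Prog.sem, hp]
  | bind p Δ b hp hb =>
    intro f env
    simp only [Prog.ren, Prog.sem, hp, hb, push_comp_up]

theorem lip_ren (δ : ℕ → ℝ) (p : Prog) :
    ∀ (f : ℕ → ℕ) (v : ℕ → ℝ), (p.ren f).lip δ v = p.lip δ (v ∘ f) := by
  induction p with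
  | inp i => intros; rfl
  | zero => intros; rfl
  | add p q hp hq => intro f v; simp only [Prog.ren, Prog.lip, hp, hq]
  | smul c p hp => intro f v; simp only [Prog.ren, Prog.lip, hp]
  | call ℓ τ p hp => intro f v; simp only [Prog.ren, Prog.lip, hp]
  | bind p Δ b hp hb => intro f v; simp only [Prog.ren, Prog.lip, hp, hb, pushR_comp_up]

theorem size_ren (δ : ℕ → ℝ) (r : ℝ) (p : Prog) : ∀ f : ℕ → ℕ, (p.ren f).size δ r = p.size δ r := by
  induction p with
  | inp i => intros; rfl
  | zero => intros; rfl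
  | add p q hp hq => intro f; simp only [Prog.ren, Prog.size, hp, hq]
  | smul c p hp => intro f; simp only [Prog.ren, Prog.size, hp]
  | call ℓ τ p hp => intro f; simp only [Prog.ren, Prog.size, hp]
  | bind p Δ b hp hb =>
    intro f
    simp only [Prog.ren, Prog.size, hp, hb, lip_ren, pushR_comp_up, Pi.zero_comp]

theorem small_ren (p : Prog) : ∀ f : ℕ → ℕ, (p.ren f).Small ↔ p.Small := by
  induction p with
  | inp i => intros; rfl
  | zero => intros; rfl
  | add p q hp hq => intro f; simp only [Prog.ren, Prog.Small, hp, hq]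
  | smul c p hp => intro f; simp only [Prog.ren, Prog.Small, hp]
  | call ℓ τ p hp => intros; rfl
  | bind p Δ b hp hb => intro f; simp only [Prog.ren, Prog.Small, hb]

theorem sensLe_ren (δ : ℕ → ℝ) (B : ℝ) (p : Prog) :
    ∀ (f : ℕ → ℕ) (v : ℕ → ℝ), (p.ren f).SensLe δ B v ↔ p.SensLe δ B (v ∘ f) := by
  induction p with
  | inp i => intros; rfl
  | zero => intros; rfl
  | add p q hp hq => intro f v; simp only [Prog.ren, Prog.SensLe, hp, hq]
  | smul c p hp => intro f v; simp only [Prog.ren, Prog.SensLe, hp]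
  | call ℓ τ p hp => intro f v; simp only [Prog.ren, Prog.SensLe, hp, lip_ren]
  | bind p Δ b hp hb =>
    intro f v
    simp only [Prog.ren, Prog.SensLe, hp, hb, lip_ren, pushR_comp_up]

theorem wf_ren (δ : ℕ → ℝ) (r B T : ℝ) (p : Prog) : ∀ f : ℕ → ℕ, (p.ren f).WF δ r B T ↔ p.WF δ r B T := by
  induction p with
  | inp i => intros; rfl
  | zero => intros; rfl
  | add p q hp hq => intro f; simp only [Prog.ren, Prog.WF, hp, hq]
  | smul c p hp => intro f; simp only [Prog.ren, Prog.WF, hp]
  | call ℓ τ p hp => intro f; simp only [Prog.ren, Prog.WF, hp, size_ren]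
  | bind p Δ b hp hb =>
    intro f
    simp only [Prog.ren, Prog.WF, hp, hb, size_ren, small_ren, sensLe_ren, pushR_comp_up,
      Pi.zero_comp]

theorem depth_ren (p : Prog) : ∀ f : ℕ → ℕ, (p.ren f).depth = p.depth := by
  induction p with
  | inp i => intros; rfl
  | zero => intros; rfl
  | add p q hp hq => intro f; simp only [Prog.ren, Prog.depth, hp, hq]
  | smul c p hp => intro f; simp only [Prog.ren, Prog.depth, hp]
  | call ℓ τ p hp => intro f; simp only [Prog.ren, Prog.depth, hp]
  | bind p Δ b hp hb => intro f; simp only [Prog.ren, Prog.depth, hp, hb]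

theorem nodes_ren (p : Prog) : ∀ f : ℕ → ℕ, (p.ren f).nodes = p.nodes := by
  induction p with
  | inp i => intros; rfl
  | zero => intros; rfl
  | add p q hp hq => intro f; simp only [Prog.ren, Prog.nodes, hp, hq]
  | smul c p hp => intro f; simp only [Prog.ren, Prog.nodes, hp]
  | call ℓ τ p hp => intro f; simp only [Prog.ren, Prog.nodes, hp]
  | bind p Δ b hp hb => intro f; simp only [Prog.ren, Prog.nodes, hp, hb]

/-! ### Lifting -/

theorem lift_eq_ren (p : Prog) : ∀ c, p.lift c = p.ren (shiftUp c) := by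
  induction p with
  | inp i => intro c; simp only [Prog.lift, Prog.ren, shiftUp]; split_ifs <;> rfl
  | zero => intros; rfl
  | add p q hp hq => intro c; simp only [Prog.lift, Prog.ren, hp, hq]
  | smul a p hp => intro c; simp only [Prog.lift, Prog.ren, hp]
  | call ℓ τ p hp => intro c; simp only [Prog.lift, Prog.ren, hp]
  | bind p Δ b hp hb => intro c; simp only [Prog.lift, Prog.ren, hp, hb, shiftUp_succ]

theorem sem_lift (p : Prog) (c : ℕ) (env : Env d) :
    (p.lift c).sem h env = p.sem h (env ∘ shiftUp c) := by rw [lift_eq_ren, sem_ren]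

theorem lip_lift (p : Prog) (c : ℕ) (δ : ℕ → ℝ) (v : ℕ → ℝ) :
    (p.lift c).lip δ v = p.lip δ (v ∘ shiftUp c) := by rw [lift_eq_ren, lip_ren]

theorem size_lift (p : Prog) (c : ℕ) (δ : ℕ → ℝ) (r : ℝ) : (p.lift c).size δ r = p.size δ r := by
  rw [lift_eq_ren, size_ren]

theorem sensLe_lift (p : Prog) (c : ℕ) (δ : ℕ → ℝ) (B : ℝ) (v : ℕ → ℝ) :
    (p.lift c).SensLe δ B v ↔ p.SensLe δ B (v ∘ shiftUp c) := by rw [lift_eq_ren, sensLe_ren]

theorem wf_lift (p : Prog) (c : ℕ) (δ : ℕ → ℝ) (r B T : ℝ) : (p.lift c).WF δ r B T ↔ p.WF δ r B T := by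
  rw [lift_eq_ren, wf_ren]

theorem depth_lift (p : Prog) (c : ℕ) : (p.lift c).depth = p.depth := by
  rw [lift_eq_ren, depth_ren]

theorem nodes_lift (p : Prog) (c : ℕ) : (p.lift c).nodes = p.nodes := by
  rw [lift_eq_ren, nodes_ren]

/-! ### Substitution -/

theorem sem_subst (p : Prog) : ∀ (f : ℕ → Prog) (env : Env d),
    (p.subst f).sem h env = p.sem h fun i => (f i).sem h env := by
  induction p with
  | inp i => intros; rfl
  | zero => intros; rfl
  | add p q hp hq => intro f env; simp only [Prog.subst, Prog.sem, hp, hq]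
  | smul c p hp => intro f env; simp only [Prog.subst, Prog.sem, hp]
  | call ℓ τ p hp => intro f env; simp only [Prog.subst, Prog.sem, hp]
  | bind p Δ b hp hb =>
    intro f env
    simp only [Prog.subst, Prog.sem, hp, hb]
    refine integral_congr_ae (.of_forall fun w => ?_)
    refine congrArg (b.sem h) (funext fun i => ?_)
    cases i with
    | zero => rfl
    | succ j => exact sem_ren _ _ _

theorem up_lip (δ : ℕ → ℝ) (f : ℕ → Prog) (a : ℝ) (v : ℕ → ℝ) :
    (fun i => (Nat.casesOn i (.inp 0) fun j => (f j).ren Nat.succ : Prog).lip δ (pushR a v))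
      = pushR a fun j => (f j).lip δ v := by
  funext i
  cases i with
  | zero => rfl
  | succ j => exact lip_ren δ _ _ _

theorem lip_subst (δ : ℕ → ℝ) (p : Prog) : ∀ (f : ℕ → Prog) (v : ℕ → ℝ),
    (p.subst f).lip δ v = p.lip δ fun i => (f i).lip δ v := by
  induction p with
  | inp i => intros; rfl
  | zero => intros; rfl
  | add p q hp hq => intro f v; simp only [Prog.subst, Prog.lip, hp, hq]
  | smul c p hp => intro f v; simp only [Prog.subst, Prog.lip, hp]
  | call ℓ τ p hp => intro f v; simp only [Prog.subst, Prog.lip, hp]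
  | bind p Δ b hp hb => intro f v; simp only [Prog.subst, Prog.lip, hp, hb, up_lip]

/-- The noise of a substituted program. -/
theorem size_subst (δ : ℕ → ℝ) (r : ℝ) (p : Prog) : ∀ f : ℕ → Prog,
    (p.subst f).size δ r = p.size δ r + p.lip δ fun i => (f i).size δ r := by
  induction p with
  | inp i => intro f; simp [Prog.subst, Prog.size, Prog.lip]
  | zero => intro f; simp [Prog.subst, Prog.size, Prog.lip]
  | add p q hp hq => intro f; simp only [Prog.subst, Prog.size, Prog.lip, hp, hq]; ring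
  | smul c p hp => intro f; simp only [Prog.subst, Prog.size, Prog.lip, hp]; ring
  | call ℓ τ p hp => intro f; simp only [Prog.subst, Prog.size, Prog.lip, hp]; ring
  | bind p Δ b hp hb =>
    intro f
    simp only [Prog.subst, Prog.size, Prog.lip, hp, hb, lip_subst, up_lip]
    set s : ℕ → ℝ := fun i => (f i).size δ r with hs
    have e1 : (fun i => (Nat.casesOn i (.inp 0) fun j => (f j).ren Nat.succ : Prog).size δ r)
        = pushR 0 s := by
      funext i
      cases i with
      | zero => rfl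
      | succ j => exact size_ren δ r _ _
    have e2 : (fun j => (f j).lip δ (0 : ℕ → ℝ)) = 0 := funext fun j => lip_zero_v δ _
    rw [e1, e2, add_assoc, ← lip_add_v, add_assoc, ← lip_add_v, ← pushR_add, ← pushR_add]
    congr 2
    rw [zero_add, add_zero, zero_add, ← add_assoc]

theorem Small.subst {p : Prog} : ∀ (f : ℕ → Prog), p.Small → (p.subst f).Small := by
  induction p with
  | inp i => intro f h; exact h.elim
  | zero => intros; trivial
  | add p q hp hq => intro f h; exact ⟨hp f h.1, hq f h.2⟩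
  | smul c p hp => intro f h; exact hp f h
  | call ℓ τ p hp => intros; trivial
  | bind p Δ b hp hb => intro f h; exact hb _ h

theorem SensLe.subst {p : Prog} : ∀ {f : ℕ → Prog} {v : ℕ → ℝ},
    p.SensLe δ B (fun i => (f i).lip δ v) → (∀ i, (f i).SensLe δ B v) →
      (p.subst f).SensLe δ B v := by
  induction p with
  | inp i => intro f v _ hf; exact hf i
  | zero => intros; trivial
  | add p q hp hq => intro f v h hf; exact ⟨hp h.1 hf, hq h.2 hf⟩
  | smul c p hp => intro f v h hf; exact hp h hf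
  | call ℓ τ p hp =>
    intro f v h hf
    exact ⟨by rw [lip_subst]; exact h.1, hp h.2 hf⟩
  | bind p Δ b hp hb =>
    intro f v h hf
    refine ⟨hp h.1 hf, hb ?_ fun i => ?_⟩
    · rw [lip_subst, up_lip]; exact h.2
    · cases i with
      | zero => trivial
      | succ j => exact (sensLe_ren δ B _ _ _).2 (hf j)

/-- Substituting programs without sampling noise keeps a program well formed. -/
theorem WF.subst (hB : 0 ≤ B) {p : Prog} : ∀ {f : ℕ → Prog}, p.WF δ r B T →
    (∀ i, (f i).WF δ r B T) → (∀ i, (f i).size δ r = 0) → (p.subst f).WF δ r B T := by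
  induction p with
  | inp i => intro f _ hf _; exact hf i
  | zero => intros; trivial
  | add p q hp hq => intro f h hf h0; exact ⟨hp h.1 hf h0, hq h.2 hf h0⟩
  | smul c p hp => intro f h hf h0; exact hp h hf h0
  | call ℓ τ p hp =>
    intro f h hf h0
    refine ⟨h.1, h.2.1, hp h.2.2.1 hf h0, ?_⟩
    rw [size_subst, funext h0]
    exact le_of_eq_of_le (by rw [show (fun _ : ℕ => (0 : ℝ)) = 0 from rfl, lip_zero_v, add_zero])
      h.2.2.2
  | bind p Δ b hp hb =>
    intro f ⟨hΔ, h1, h2, h3, h4, h5⟩ hf h0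
    refine ⟨hΔ, hp h1 hf h0, hb h2 (fun i => ?_) (fun i => ?_), ?_, h4.subst _, ?_⟩
    · cases i with
      | zero => trivial
      | succ j => exact (wf_ren δ r B T _ _).2 (hf j)
    · cases i with
      | zero => rfl
      | succ j => exact (size_ren δ r _ _).trans (h0 j)
    · rw [size_subst, funext h0]
      exact le_of_eq_of_le (by rw [show (fun _ : ℕ => (0 : ℝ)) = 0 from rfl, lip_zero_v, add_zero]) h3
    · refine SensLe.subst ?_ fun i => ?_
      · rw [up_lip, show (fun j => (f j).lip δ (0 : ℕ → ℝ)) = 0 from funext fun j => lip_zero_v δ _]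
        exact h5
      · cases i with
        | zero => trivial
        | succ j => exact (sensLe_ren δ B _ _ _).2 (sensLe_zero hB _)

theorem LevelGe.mono {l l' : ℕ} (hl : l' ≤ l) {p : Prog} : p.LevelGe l → p.LevelGe l' := by
  induction p with
  | inp i => intros; trivial
  | zero => intros; trivial
  | add p q hp hq => intro h; exact ⟨hp h.1, hq h.2⟩
  | smul c p hp => exact fun h => hp h
  | call ℓ τ p hp => intro h; exact ⟨hl.trans h.1, hp h.2⟩
  | bind p Δ b hp hb => intro h; exact ⟨hp h.1, hb h.2⟩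

theorem levelGe_ren (l : ℕ) (p : Prog) : ∀ f : ℕ → ℕ, (p.ren f).LevelGe l ↔ p.LevelGe l := by
  induction p with
  | inp i => intros; rfl
  | zero => intros; rfl
  | add p q hp hq => intro f; simp only [Prog.ren, Prog.LevelGe, hp, hq]
  | smul c p hp => intro f; simp only [Prog.ren, Prog.LevelGe, hp]
  | call ℓ τ p hp => intro f; simp only [Prog.ren, Prog.LevelGe, hp]
  | bind p Δ b hp hb => intro f; simp only [Prog.ren, Prog.LevelGe, hp, hb]

theorem levelGe_lift (p : Prog) (c l : ℕ) : (p.lift c).LevelGe l ↔ p.LevelGe l := by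
  rw [lift_eq_ren, levelGe_ren]

theorem LevelGe.subst {l : ℕ} {p : Prog} : ∀ {f : ℕ → Prog}, p.LevelGe l →
    (∀ i, (f i).LevelGe l) → (p.subst f).LevelGe l := by
  induction p with
  | inp i => intro f _ hf; exact hf i
  | zero => intros; trivial
  | add p q hp hq => intro f h hf; exact ⟨hp h.1 hf, hq h.2 hf⟩
  | smul c p hp => intro f h hf; exact hp h hf
  | call ℓ τ p hp => intro f h hf; exact ⟨h.1, hp h.2 hf⟩
  | bind p Δ b hp hb =>
    intro f h hf
    refine ⟨hp h.1 hf, hb h.2 fun i => ?_⟩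
    cases i with
    | zero => trivial
    | succ j => exact (levelGe_ren l _ _).2 (hf j)

end Prog

/-! ### Programs of linear maps -/

namespace LProg

variable {δ δ' : ℕ → ℝ} {r r' B B' T T' : ℝ} {d : ℕ} {h : ℕ → E d → E d}

theorem norm'_nonneg (hδ : 0 ≤ δ) (L : LProg) : 0 ≤ L.norm' δ := by
  induction L with
  | id => exact zero_le_one
  | zero => exact le_rfl
  | add L M hL hM => exact add_nonneg hL hM
  | smul c L hL => exact mul_nonneg (abs_nonneg c) hL
  | hess ℓ τ q L hL => exact mul_nonneg (hδ ℓ) hL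
  | bind p Δ L hL => exact hL

theorem norm'_mono (h0 : 0 ≤ δ) (hδ : δ ≤ δ') (L : LProg) : L.norm' δ ≤ L.norm' δ' := by
  induction L with
  | id => exact le_rfl
  | zero => exact le_rfl
  | add L M hL hM => exact add_le_add hL hM
  | smul c L hL => exact mul_le_mul_of_nonneg_left hL (abs_nonneg c)
  | hess ℓ τ q L hL => exact mul_le_mul (hδ ℓ) hL (L.norm'_nonneg h0) ((h0 ℓ).trans (hδ ℓ))
  | bind p Δ L hL => exact hL

theorem SensLe.mono (h0 : 0 ≤ δ') (hδ : δ' ≤ δ) (hB : B ≤ B') {L : LProg} :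
    ∀ {v w : ℕ → ℝ}, L.SensLe δ B v → (∀ i, 0 ≤ w i) → (∀ i, w i ≤ v i) →
      L.SensLe δ' B' w := by
  induction L with
  | id => intros; trivial
  | zero => intros; trivial
  | add L M hL hM => intro v w h hw h'; exact ⟨hL h.1 hw h', hM h.2 hw h'⟩
  | smul c L hL => intro v w h hw h'; exact hL (v := v) h hw h'
  | hess ℓ τ q L hL =>
    intro v w h hw h'
    exact ⟨((q.lip_mono h0 hδ hw h').trans h.1).trans hB, h.2.1.mono h0 hδ hB hw h',
      hL h.2.2 hw h'⟩
  | bind p Δ L hL =>
    intro v w h hw h'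
    exact ⟨h.1.mono h0 hδ hB hw h', hL h.2 (pushR_nonneg (p.lip_nonneg h0 hw) hw)
      (pushR_mono (p.lip_mono h0 hδ hw h') h')⟩

theorem WF.mono (h0 : 0 ≤ δ') (hδ : δ' ≤ δ) (hr0 : 0 ≤ r') (hr : r' ≤ r)
    (hB : B ≤ B') (hT0 : 0 < T) (hT : T ≤ T') {L : LProg} : L.WF δ r B T → L.WF δ' r' B' T' := by
  induction L with
  | id => intros; trivial
  | zero => intros; trivial
  | add L M hL hM => intro h; exact ⟨hL h.1, hM h.2⟩
  | smul c L hL => exact fun h => hL h
  | hess ℓ τ q L hL =>
    intro ⟨h1, h2, h3, h4, h5⟩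
    exact ⟨(inv_anti₀ hT0 hT).trans h1, h2, h3.mono h0 hδ hr0 hr hB hT0 hT,
      ((q.size_mono h0 hδ hr0 hr).trans h4).trans hB, hL h5⟩
  | bind p Δ L hL =>
    intro ⟨hΔ, h1, h2, h3, h4⟩
    exact ⟨hΔ, h1.mono h0 hδ hr0 hr hB hT0 hT, hL h2, ((p.size_mono h0 hδ hr0 hr).trans h3).trans
      (mul_le_mul_of_nonneg_right hB (Real.sqrt_nonneg Δ)),
      h4.mono h0 hδ hB (pushR_nonneg (Real.sqrt_nonneg Δ) fun _ => le_rfl) fun _ => le_rfl⟩

theorem app_lift (L : LProg) : ∀ (c : ℕ) (env : Env d) (x : E d),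
    (L.lift c).app h env x = L.app h (env ∘ shiftUp c) x := by
  induction L with
  | id => intros; rfl
  | zero => intros; rfl
  | add L M hL hM => intro c env x; simp only [LProg.lift, LProg.app, hL, hM]
  | smul a L hL => intro c env x; simp only [LProg.lift, LProg.app, hL]
  | hess ℓ τ q L hL => intro c env x; simp only [LProg.lift, LProg.app, hL, Prog.sem_lift]
  | bind p Δ L hL =>
    intro c env x
    simp only [LProg.lift, LProg.app, hL, Prog.sem_lift, push_comp_shiftUp]

theorem app_lift_push (L : LProg) (a : E d) (env : Env d) (x : E d) :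
    (L.lift 0).app h (push a env) x = L.app h env x := by
  rw [app_lift, push_comp_shiftUp_zero]

theorem norm'_lift (δ : ℕ → ℝ) (L : LProg) : ∀ c : ℕ, (L.lift c).norm' δ = L.norm' δ := by
  induction L with
  | id => intros; rfl
  | zero => intros; rfl
  | add L M hL hM => intro c; simp only [LProg.lift, LProg.norm', hL, hM]
  | smul a L hL => intro c; simp only [LProg.lift, LProg.norm', hL]
  | hess ℓ τ q L hL => intro c; simp only [LProg.lift, LProg.norm', hL]
  | bind p Δ L hL => intro c; simp only [LProg.lift, LProg.norm', hL]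

theorem sensLe_lift (δ : ℕ → ℝ) (B : ℝ) (L : LProg) : ∀ (c : ℕ) (v : ℕ → ℝ),
    (L.lift c).SensLe δ B v ↔ L.SensLe δ B (v ∘ shiftUp c) := by
  induction L with
  | id => intros; rfl
  | zero => intros; rfl
  | add L M hL hM => intro c v; simp only [LProg.lift, LProg.SensLe, hL, hM]
  | smul a L hL => intro c v; simp only [LProg.lift, LProg.SensLe, hL]
  | hess ℓ τ q L hL =>
    intro c v
    simp only [LProg.lift, LProg.SensLe, hL, Prog.lip_lift, Prog.sensLe_lift]
  | bind p Δ L hL =>
    intro c v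
    simp only [LProg.lift, LProg.SensLe, hL, Prog.lip_lift, Prog.sensLe_lift, pushR_comp_shiftUp]

theorem wf_lift (δ : ℕ → ℝ) (r B T : ℝ) (L : LProg) : ∀ c : ℕ, (L.lift c).WF δ r B T ↔ L.WF δ r B T := by
  induction L with
  | id => intros; rfl
  | zero => intros; rfl
  | add L M hL hM => intro c; simp only [LProg.lift, LProg.WF, hL, hM]
  | smul a L hL => intro c; simp only [LProg.lift, LProg.WF, hL]
  | hess ℓ τ q L hL =>
    intro c
    simp only [LProg.lift, LProg.WF, hL, Prog.wf_lift, Prog.size_lift]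
  | bind p Δ L hL =>
    intro c
    simp only [LProg.lift, LProg.WF, hL, Prog.wf_lift, Prog.size_lift, sensLe_lift,
      pushR_comp_shiftUp, Pi.zero_comp]

theorem levelGe_lift (l : ℕ) (L : LProg) : ∀ c : ℕ, (L.lift c).LevelGe l ↔ L.LevelGe l := by
  induction L with
  | id => intros; rfl
  | zero => intros; rfl
  | add L M hL hM => intro c; simp only [LProg.lift, LProg.LevelGe, hL, hM]
  | smul a L hL => intro c; simp only [LProg.lift, LProg.LevelGe, hL]
  | hess ℓ τ q L hL => intro c; simp only [LProg.lift, LProg.LevelGe, hL, Prog.levelGe_lift]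
  | bind p Δ L hL => intro c; simp only [LProg.lift, LProg.LevelGe, hL, Prog.levelGe_lift]

theorem depth_lift (L : LProg) : ∀ c : ℕ, (L.lift c).depth = L.depth := by
  induction L with
  | id => intros; rfl
  | zero => intros; rfl
  | add L M hL hM => intro c; simp only [LProg.lift, LProg.depth, hL, hM]
  | smul a L hL => intro c; simp only [LProg.lift, LProg.depth, hL]
  | hess ℓ τ q L hL => intro c; simp only [LProg.lift, LProg.depth, hL, Prog.depth_lift]
  | bind p Δ L hL => intro c; simp only [LProg.lift, LProg.depth, hL, Prog.depth_lift]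

theorem nodes_lift (L : LProg) : ∀ c : ℕ, (L.lift c).nodes = L.nodes := by
  induction L with
  | id => intros; rfl
  | zero => intros; rfl
  | add L M hL hM => intro c; simp only [LProg.lift, LProg.nodes, hL, hM]
  | smul a L hL => intro c; simp only [LProg.lift, LProg.nodes, hL]
  | hess ℓ τ q L hL => intro c; simp only [LProg.lift, LProg.nodes, hL, Prog.nodes_lift]
  | bind p Δ L hL => intro c; simp only [LProg.lift, LProg.nodes, hL, Prog.nodes_lift]

end LProg

end Vale.Agent.P347
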