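import Vale.Agent.P347Zero.Smp
import Vale.Agent.P347Zero.ProgBasic
import Vale.Agent.P347Zero.Core

/-!
P347: combinators of samplers for the recursion on programs: a sampled point followed by any
target, an affine image of a sampler, and the conversion of crude estimators.
-/

open MeasureTheory ProbabilityTheory Real
open scoped RealInnerProductSpace

namespace Vale.Agent.P347

variable {d q q₁ q₂ : ℕ} {α : Type} [MeasurableSpace α]

/-- A sampler for any target run at a point drawn by a sampler. -/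
theorem SmpT.seq {m₁ : (E d → ℝ) → α → E d} {e₁ : α → ℝ}
    {T₂ : (E d → ℝ) → α × E d → (E d → ℝ) → ℝ} {e₂ : α × E d → ℝ} {L b : α → ℝ}
    (h₁ : Smp d q₁ m₁ e₁) (h₂ : SmpT d q₂ T₂ e₂)
    (hT : ∀ V, InClass d V → ∀ a v, IsTest v →
      ContDiff ℝ 1 (fun x => T₂ V (a, x) v) ∧ (∃ K, ∀ x, |T₂ V (a, x) v| ≤ K) ∧
        ∀ x, ‖fderiv ℝ (fun x => T₂ V (a, x) v) x‖ ≤ L a)
    (hb : ∀ a x, e₂ (a, x) ≤ b a) :
    SmpT d (q₁ + q₂) (fun V a v => ∫ w, T₂ V (a, m₁ V a + w) v ∂gau (Fin d))
      fun a => L a * e₁ a + b a := by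
  obtain ⟨S₁, _, _, l₁, _, F₁, hF₁, herr₁⟩ := h₁
  obtain ⟨S₂, _, _, l₂, _, F₂, hF₂, herr₂⟩ := h₂
  refine ⟨S₁ × S₂, inferInstance, inferInstance, l₁.prod l₂, inferInstance,
    fun V p => F₂ V ((p.1, F₁ V (p.1, p.2.1)), p.2.2), fun β _ g hg => ?_,
    fun V hV a v hv hb' hl => ?_⟩
  · have k1 := hF₁ β (fun x => ((g x).1, (g x).2.1))
      ((measurable_fst.comp hg).prodMk (measurable_fst.comp (measurable_snd.comp hg)))
    have k2 := hF₂ (β × E d) (fun y => (((g y.1).1, y.2), (g y.1).2.2))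
      ((((measurable_fst.comp hg).comp measurable_fst).prodMk measurable_snd).prodMk
        ((measurable_snd.comp (measurable_snd.comp hg)).comp measurable_fst))
    exact k1.trans (k2.trans (Comp.const
      (f := fun z : (β × E d) × E d => (z.1.1, z.2)) (by fun_prop)))
  · obtain ⟨K, hK⟩ := hb'
    have hX₁ := measurable_of_frame hF₁ hV.1 a
    have hF₂m : Measurable (F₂ V) := measurable_snd.comp ((hF₂ _ id measurable_id).1 V hV.1)
    obtain ⟨hG, ⟨K', hK'⟩, hGl⟩ := hT V hV a v ⟨hv, ⟨K, hK⟩, hl⟩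
    have h1 := lip_test_prod (herr₁ V hV a) hG hK' hGl
    have hint : Integrable (fun p : S₁ × S₂ => v (F₂ V ((a, F₁ V (a, p.1)), p.2)))
        (l₁.prod l₂) :=
      Integrable.of_bound (hv.continuous.measurable.comp (hF₂m.comp
        ((measurable_const.prodMk (hX₁.comp measurable_fst)).prodMk measurable_snd))
        ).aestronglyMeasurable K (ae_of_all _ fun p => hK _)
    have h2 : |(∫ p, v (F₂ V ((a, F₁ V (a, p.1)), p.2)) ∂l₁.prod l₂)
        - ∫ s, T₂ V (a, F₁ V (a, s)) v ∂l₁| ≤ b a := by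
      rw [integral_prod _ hint, ← integral_sub hint.integral_prod_left
        (integrable_comp_bdd hG.continuous hK' hX₁)]
      refine abs_integral_le fun s => ?_
      exact (herr₂ V hV (a, F₁ V (a, s)) v hv ⟨K, hK⟩ hl).trans (hb a (F₁ V (a, s)))
    show |(∫ p, v (F₂ V ((a, F₁ V (a, p.1)), p.2)) ∂l₁.prod l₂) - _| ≤ _
    linarith [abs_sub_le (∫ p, v (F₂ V ((a, F₁ V (a, p.1)), p.2)) ∂l₁.prod l₂)
      (∫ s, T₂ V (a, F₁ V (a, s)) v ∂l₁) (∫ w, T₂ V (a, m₁ V a + w) v ∂gau (Fin d))]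

/-- An affine image of a sampler. -/
theorem Smp.affine {m : (E d → ℝ) → α → E d} {e : α → ℝ} (h : Smp d q m e) (c : ℝ) {f : α → E d}
    (hf : Measurable f) :
    SmpT d q (fun V a v => ∫ w, v (c • (m V a + w) + f a) ∂gau (Fin d)) fun a => |c| * e a := by
  obtain ⟨S, _, _, law, _, F, hF, herr⟩ := h
  refine ⟨S, inferInstance, inferInstance, law, inferInstance,
    fun V p => c • F V p + f p.1, fun β _ g hg => ?_, fun V hV a v hv hb hl => ?_⟩
  · exact (hF β g hg).trans (Comp.const (f := fun z : β × E d => (z.1, c • z.2 + f (g z.1).1))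
      (measurable_fst.prodMk ((measurable_snd.const_smul c).add
        (hf.comp (measurable_fst.comp (hg.comp measurable_fst))))))
  · obtain ⟨K, hK⟩ := hb
    have hd : ∀ x, HasFDerivAt (fun x => v (c • x + f a))
        ((fderiv ℝ v (c • x + f a)).comp (c • ContinuousLinearMap.id ℝ (E d))) x := fun x =>
      ((hv.differentiable one_ne_zero) _).hasFDerivAt.comp x
        (((hasFDerivAt_id x).const_smul c).add_const (f a))
    have hcd : ContDiff ℝ 1 fun x => v (c • x + f a) :=
      hv.comp ((contDiff_id.const_smul c).add contDiff_const)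
    refine lip_test_prod (herr V hV a) hcd (fun x => hK _) fun x => ?_
    rw [(hd x).fderiv, ContinuousLinearMap.comp_smul, ContinuousLinearMap.comp_id, norm_smul,
      Real.norm_eq_abs]
    exact mul_le_of_le_one_right (abs_nonneg _) (hl _)

/-- A crude estimator gives a crude sampler. -/
theorem Est.smp {m : (E d → ℝ) → α → E d} {e : α → ℝ} (h : Est d q m e) (c : ℝ) :
    Smp d q (fun V a => c • m V a) fun a => |c| * e a := by
  obtain ⟨S, _, _, law, _, F, hF, hi⟩ := h
  exact Smp.of_estimate S law F hF (fun V hV a => (hi V hV a).1) (fun V hV a => (hi V hV a).2) c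

/-- The average of a Lipschitz function of a parameter and a Gaussian variable. -/
theorem contDiff_avg {X : Type*} [NormedAddCommGroup X] [NormedSpace ℝ X] [FiniteDimensional ℝ X]
    {F : X × E d → ℝ} (hF : ContDiff ℝ 1 F) {K K' : ℝ} (hK0 : 0 ≤ K)
    (hK : ∀ w x x', |F (x, w) - F (x', w)| ≤ K * ‖x - x'‖)
    (hK' : ∀ x w w', |F (x, w) - F (x, w')| ≤ K' * ‖w - w'‖) :
    ContDiff ℝ 1 (fun y => ∫ w, F (y, w) ∂gau (Fin d)) ∧
      ∀ x, ‖fderiv ℝ (fun y => ∫ w, F (y, w) ∂gau (Fin d)) x‖ ≤ K := by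
  refine ⟨contDiff_integral_gau hF (fun w x x' => by rw [Real.norm_eq_abs]; exact hK w x x')
    (fun x w w' => by rw [Real.norm_eq_abs]; exact hK' x w w'), fun x => ?_⟩
  refine norm_fderiv_le_of_lip' ℝ hK0 (Filter.Eventually.of_forall fun y => ?_)
  have hi : ∀ z, Integrable (fun w => F (z, w)) (gau (Fin d)) := fun z =>
    integrable_gau_of_lip (K := K') fun w w' => by rw [Real.norm_eq_abs]; exact hK' z w w'
  exact norm_integral_gau_sub_le (hi y) (hi x)
    fun w => by rw [Real.norm_eq_abs]; exact hK w y x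

end Vale.Agent.P347
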