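import Vale.Agent.P347Zero.RealDefs
import Vale.Agent.P347Zero.EstProg
import Vale.Agent.P347Zero.RealComb
import Vale.Agent.P347Zero.ProgRen

/-!
P347 module M18: samplers of all levels from programs standing for the levels, by descending
induction on the level. Leaves above a level `p` are counted with the inflation `lift x p δ`, which
pays for their worse accuracy.
-/

open MeasureTheory ProbabilityTheory Real Filter

namespace Vale.Agent.P347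

/-- The gain of one level. -/
noncomputable def lvlGain (κ r : ℝ) : ℝ := (√(√κ))⁻¹ + r⁻¹

/-- Lipschitz constants inflated by `x⁻¹` per level above the level `p`. -/
noncomputable def liftδ (x : ℝ) (p : ℕ) (δ : ℕ → ℝ) : ℕ → ℝ := fun ℓ => δ ℓ * x⁻¹ ^ (ℓ - p)

namespace LevelSmpAux

variable {d : ℕ}

theorem liftδ_eq {x : ℝ} {p ℓ : ℕ} (δ : ℕ → ℝ) (h : ℓ ≤ p) : liftδ x p δ ℓ = δ ℓ := by
  simp [liftδ, Nat.sub_eq_zero_of_le h]

theorem le_liftδ {x : ℝ} {δ : ℕ → ℝ} (hδ : ∀ ℓ, 0 ≤ δ ℓ) (hx0 : 0 < x) (hx1 : x ≤ 1) (p ℓ : ℕ) :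
    δ ℓ ≤ liftδ x p δ ℓ :=
  le_mul_of_one_le_right (hδ ℓ) (one_le_pow₀ (one_le_inv_iff₀.2 ⟨hx0, hx1⟩))

theorem liftδ_le {x r : ℝ} {δ : ℕ → ℝ} (hδ : ∀ ℓ, 0 ≤ δ ℓ) (hx0 : 0 < x) (hx : x⁻¹ ≤ r)
    (hdec : ∀ ℓ, δ (ℓ + 1) * r ≤ δ ℓ) (p ℓ : ℕ) : liftδ x p δ ℓ ≤ δ (min ℓ p) := by
  rcases le_total ℓ p with h | h
  · rw [liftδ_eq δ h, min_eq_left h]
  · have hr : 0 ≤ r := (inv_nonneg.2 hx0.le).trans hx
    have key : ∀ t, δ (p + t) * r ^ t ≤ δ p := by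
      intro t
      induction t with
      | zero => simp
      | succ t ih =>
        refine le_trans ?_ ih
        rw [pow_succ, ← mul_assoc, mul_right_comm, ← add_assoc]
        exact mul_le_mul_of_nonneg_right (hdec (p + t)) (pow_nonneg hr t)
    rw [min_eq_right h]
    refine le_trans ?_ (key (ℓ - p))
    rw [Nat.add_sub_cancel' h]
    exact mul_le_mul_of_nonneg_left (pow_le_pow_left₀ (inv_nonneg.2 hx0.le) hx _) (hδ ℓ)

theorem fld_mono {δ δ' r Gb C : ℝ} {N : ℕ} {h : E d → E d} (hh : Fld d δ r Gb C N h)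
    (h0 : 0 ≤ δ) (hδ : δ ≤ δ') (hr : 0 ≤ r) (hC : 0 ≤ C) : Fld d δ' r Gb C N h where
  smooth := hh.smooth
  lip x := (hh.lip x).trans hδ
  bdd := hh.bdd
  symm := hh.symm
  tail m c ρ hρ hc q τ hτ := (hh.tail m c ρ hρ hc q τ hτ).trans <| pow_le_pow_left₀
    (mul_nonneg (Finset.sum_nonneg fun _ _ => abs_nonneg _) (by positivity)) (by gcongr) 2
  tail_one m c ρ hρ hc q τ hτ := (hh.tail_one m c ρ hρ hc q τ hτ).trans <| pow_le_pow_left₀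
    (mul_nonneg (add_nonneg zero_le_one (Finset.sum_nonneg fun _ _ => abs_nonneg _))
      (by positivity)) (by gcongr) 2

theorem leafEst_mono {H : Fam d} {δ δ' : ℕ → ℝ} {r : ℝ} {ℓ₀ ℓ₁ q : ℕ} {Λ : E d → ℝ}
    (h : LeafEst H δ r ℓ₀ q Λ) (hl : ℓ₀ ≤ ℓ₁) (hδ : ∀ ℓ, δ ℓ ≤ δ' ℓ) (hr : 0 ≤ r)
    (hΛ : ∀ y, 0 ≤ Λ y) : LeafEst H δ' r ℓ₁ q Λ := fun ℓ hℓ =>
  (h ℓ (hl.trans hℓ)).mono le_rfl fun _ =>
    mul_le_mul_of_nonneg_right (mul_le_mul_of_nonneg_right (hδ ℓ) hr) (hΛ _)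

/-- Samplers of single levels, each at its own accuracy, are samplers of all levels from `ℓ₀` at
the accuracy of `p`, once the levels above `p` are inflated. -/
theorem leafSmp_of_levels {H : Fam d} {δ : ℕ → ℝ} {r c u u' x C A : ℝ} {J ℓ₀ p q : ℕ}
    {Λ e : E d → ℝ} (hδ : ∀ ℓ, 0 ≤ δ ℓ) (hr : 0 ≤ r) (hc : 0 ≤ c) (hx0 : 0 < x) (hx1 : x ≤ 1)
    (hC : 0 ≤ C) (hA : 0 ≤ A) (hΛ : ∀ y, 0 ≤ Λ y) (hu : u ≤ u')
    (h : ∀ ℓ, ℓ₀ ≤ ℓ → ∀ lam : ℝ, 0 ≤ lam → lam * (c * δ ℓ * r) ≤ u' →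
      Smp d q (fun V (a : E d × E d) => lam • H V a.1 ℓ a.2)
        fun a => lam * (c * δ ℓ * r) * (C * (A + x ^ ((J - ℓ) / 2)) * Λ a.1) + e a.1) :
    LeafSmp H (liftδ x p δ) r c u ℓ₀ q
      (fun y => (C * A + C * x ^ ((J - p) / 2)) * Λ y) e := by
  intro ℓ hℓ lam hlam hu1
  have hle := le_liftδ hδ hx0 hx1 p ℓ
  refine (h ℓ hℓ lam hlam (le_trans ?_ (hu1.trans hu))).mono le_rfl fun a => add_le_add ?_ le_rfl
  · gcongr
  have key : δ ℓ * x ^ ((J - ℓ) / 2) ≤ liftδ x p δ ℓ * x ^ ((J - p) / 2) := by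
    rw [liftδ, mul_assoc, inv_pow, ← div_eq_inv_mul]
    refine mul_le_mul_of_nonneg_left ?_ (hδ ℓ)
    rw [le_div_iff₀ (pow_pos hx0 _), ← pow_add]
    exact pow_le_pow_of_le_one hx0.le hx1 (by omega)
  calc lam * (c * δ ℓ * r) * (C * (A + x ^ ((J - ℓ) / 2)) * Λ a.1)
      = lam * c * r * C * Λ a.1 * (δ ℓ * A + δ ℓ * x ^ ((J - ℓ) / 2)) := by ring
    _ ≤ lam * c * r * C * Λ a.1 * (liftδ x p δ ℓ * A + liftδ x p δ ℓ * x ^ ((J - p) / 2)) :=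
        mul_le_mul_of_nonneg_left (add_le_add (mul_le_mul_of_nonneg_right hle hA) key)
          (mul_nonneg (by positivity) (hΛ _))
    _ = _ := by ring

theorem test_shift {v : E d → ℝ} (hv : IsTest v) (a b : E d) :
    |(∫ w, v (a + w) ∂gau (Fin d)) - ∫ w, v (b + w) ∂gau (Fin d)| ≤ ‖a - b‖ := by
  obtain ⟨hc, ⟨K, hK⟩, hl⟩ := hv
  rw [← integral_sub (integrable_comp_bdd hc.continuous hK (by fun_prop))
    (integrable_comp_bdd hc.continuous hK (by fun_prop))]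
  refine abs_integral_le fun w => ?_
  have := convex_univ.norm_image_sub_le_of_norm_fderiv_le (𝕜 := ℝ)
    (fun y _ => hc.differentiable one_ne_zero y) (fun y _ => hl y) (Set.mem_univ (b + w))
    (Set.mem_univ (a + w))
  simpa [Real.norm_eq_abs] using this

theorem accR_nonneg (κ : ℝ) (n j : ℕ) : 0 ≤ accR κ n j := by unfold accR; positivity

/-- What the induction assumes on the data in dimension `d`. -/
structure Data (αe γ : ℝ) (N m eB A J : ℕ) (T Cb C0 : ℝ) (H : Fam d) (δ : ℕ → ℝ) (r D : ℝ)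
    (P qe : ℕ) (Λ Gb ζ : E d → ℝ) : Prop where
  pos : ∀ ℓ, 0 < δ ℓ
  small : ∀ ℓ, ((d : ℝ) ^ αe) ^ m * δ ℓ ≤ 1
  decay : ∀ ℓ, δ (ℓ + 1) * r ≤ δ ℓ
  req : r = (d : ℝ) ^ γ
  fld : ∀ V, InClass d V → ∀ y ℓ, Fld d (δ ℓ) r (Gb y) Cb N (H V y ℓ)
  sqrt_le : ∀ y, √(d : ℝ) ≤ Λ y
  zeta : ∀ y, 0 ≤ ζ y
  D_nonneg : 0 ≤ D
  D_ge : ∀ i, i < J → 1 ≤ D * (δ i * r)
  leaf : LeafEst H δ r 0 qe Λ
  prog : ∀ i, i < J → ∀ j, j ≤ m → ∃ F : Prog,
    F.WF ((((d : ℝ) ^ αe) ^ j) • liftδ (lvlGain ((d : ℝ) ^ αe) r) (i + 2) δ) r (C0 * r ^ eB) T ∧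
    F.LevelGe (i + 1) ∧ F.depth ≤ A ∧ F.nodes ≤ P ∧
    F.size ((((d : ℝ) ^ αe) ^ j) • liftδ (lvlGain ((d : ℝ) ^ αe) r) (i + 2) δ) r
      ≤ C0 * (((d : ℝ) ^ αe) ^ j * δ i * r) ∧
    F.mass ((((d : ℝ) ^ αe) ^ j) • liftδ (lvlGain ((d : ℝ) ^ αe) r) (i + 2) δ) r
      ≤ C0 * (((d : ℝ) ^ αe) ^ j * δ i) ∧
    ∀ V, InClass d V → ∀ (y : E d) (env : Env d),
      ‖F.sem (H V y) env - H V y i (env 0)‖ ≤ ζ y

/-- What the induction proves at distance `k` from the top. -/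
def Claim (αe γ : ℝ) (M N M2 m n eB A J : ℕ) (T Cb C0 : ℝ) (k : ℕ) : Prop :=
  ∀ U : ℝ, 1 ≤ U → ∃ (K : ℕ) (C : ℝ), 1 ≤ C ∧ ∀ᶠ d : ℕ in atTop,
    ∀ (Nr : ℕ) (εr : ℝ) (_ : Rule Nr εr), εr ≤ ((d : ℝ) ^ M2)⁻¹ →
    ∀ (H : Fam d) (δ : ℕ → ℝ) (r D : ℝ) (P qe : ℕ) (Λ Gb ζ : E d → ℝ),
    Data αe γ N m eB A J T Cb C0 H δ r D P qe Λ Gb ζ →
    ∀ i, J ≤ i + k → ∀ j, j ≤ m → ∀ lam : ℝ, 0 ≤ lam →
      lam * (((d : ℝ) ^ αe) ^ j * δ i * r) ≤ U * (√((d : ℝ) ^ αe))⁻¹ →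
      Smp d (K * (P + Nr + 1) ^ K * (qe + 1)) (fun V (a : E d × E d) => lam • H V a.1 i a.2)
        fun a => lam * (((d : ℝ) ^ αe) ^ j * δ i * r)
            * (C * (accR ((d : ℝ) ^ αe) n j
              + lvlGain ((d : ℝ) ^ αe) r ^ ((J - i) / 2)) * Λ a.1)
          + C * ((P + Nr + 1 : ℕ) : ℝ) ^ K * (D * ζ a.1 + ((d : ℝ) ^ M)⁻¹)

theorem eventually_large {αe γ : ℝ} (hαe : 0 < αe) (hγ : 0 < γ) :
    ∀ᶠ d : ℕ in atTop, 16 ≤ (d : ℝ) ^ αe ∧ 2 ≤ (d : ℝ) ^ γ ∧ 1 ≤ (d : ℝ) := by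
  have h : ∀ {a : ℝ}, 0 < a → Tendsto (fun d : ℕ => (d : ℝ) ^ a) atTop atTop := fun ha =>
    (tendsto_rpow_atTop ha).comp tendsto_natCast_atTop_atTop
  filter_upwards [(h hαe).eventually_ge_atTop 16, (h hγ).eventually_ge_atTop 2,
    eventually_ge_atTop 1] with d h1 h2 h3
  exact ⟨h1, h2, Nat.one_le_cast.2 h3⟩

theorem gain_facts {κ r : ℝ} (hκ : 16 ≤ κ) (hr : 2 ≤ r) :
    0 < lvlGain κ r ∧ lvlGain κ r ≤ 1 ∧ (lvlGain κ r)⁻¹ ≤ r ∧ (√κ)⁻¹ ≤ 1 := by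
  have h4 : 4 ≤ √κ := Real.le_sqrt_of_sq_le (by linarith)
  have h2 : 2 ≤ √(√κ) := Real.le_sqrt_of_sq_le (by linarith)
  have a : (√(√κ))⁻¹ ≤ 2⁻¹ := inv_anti₀ (by norm_num) h2
  have b : r⁻¹ ≤ 2⁻¹ := inv_anti₀ (by norm_num) hr
  have hb : 0 < r⁻¹ := by positivity
  have hle : r⁻¹ ≤ lvlGain κ r := le_add_of_nonneg_left (by positivity)
  refine ⟨hb.trans_le hle, ?_, ?_, inv_le_one_of_one_le₀ (by linarith)⟩
  · unfold lvlGain; linarith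
  · simpa using inv_anti₀ hb hle

theorem claim_zero {αe γ : ℝ} (hαe : 0 < αe) (hγ : 0 < γ) (M N M2 m n eB A J : ℕ) (T Cb C0 : ℝ) :
    Claim αe γ M N M2 m n eB A J T Cb C0 0 := by
  intro U _
  refine ⟨1, 1, le_rfl, (eventually_large hαe hγ).mono fun d hd => ?_⟩
  intro Nr εr _ _ H δ r D P qe Λ Gb ζ hD i hi j _ lam hlam _
  have hr : 0 ≤ r := by rw [hD.req]; positivity
  have hΛ : ∀ y, 0 ≤ Λ y := fun y => (Real.sqrt_nonneg _).trans (hD.sqrt_le y)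
  refine (Est.smp (hD.leaf i (Nat.zero_le i)) lam).mono ?_ fun a => ?_
  · rw [one_mul, pow_one]
    exact (Nat.le_succ qe).trans (Nat.le_mul_of_pos_left _ (Nat.succ_pos _))
  · rw [show (J - i) / 2 = 0 by omega, pow_zero, abs_of_nonneg hlam, one_mul]
    have hp := (hD.pos i).le
    have hdM : (0 : ℝ) ≤ D * ζ a.1 + ((d : ℝ) ^ M)⁻¹ :=
      add_nonneg (mul_nonneg hD.D_nonneg (hD.zeta _)) (by positivity)
    refine (le_add_of_nonneg_right (show (0 : ℝ) ≤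
      1 * ((P + Nr + 1 : ℕ) : ℝ) ^ 1 * (D * ζ a.1 + ((d : ℝ) ^ M)⁻¹) by positivity)).trans
      (add_le_add ?_ le_rfl)
    have h1 : δ i * r * Λ a.1 ≤ ((d : ℝ) ^ αe) ^ j * δ i * r *
        ((accR ((d : ℝ) ^ αe) n j + 1) * Λ a.1) := by
      have e1 : (1 : ℝ) ≤ ((d : ℝ) ^ αe) ^ j := one_le_pow₀ (by linarith [hd.1])
      have e2 : (1 : ℝ) ≤ accR ((d : ℝ) ^ αe) n j + 1 :=
        le_add_of_nonneg_left (accR_nonneg _ _ _)
      calc δ i * r * Λ a.1 = 1 * δ i * r * (1 * Λ a.1) := by ring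
        _ ≤ _ := by
          have := hΛ a.1
          gcongr
    rw [mul_assoc lam]
    exact mul_le_mul_of_nonneg_left h1 hlam

/-- The error bookkeeping of one step. -/
theorem err_le {κ r acc y z L lam S S' sz ms U C0 Cf Cm C' n N' Z dM ζ : ℝ} {Kf Km K' K : ℕ}
    (hC' : 1 ≤ C') (hC0 : 1 ≤ C0) (hU : 1 ≤ U) (hUm : U ≤ Cm) (hCf : 1 ≤ Cf) (hCfm : Cf ≤ Cm)
    (hacc : 0 ≤ acc) (hy : 0 ≤ y) (hz : 0 ≤ z) (hyz : y * lvlGain κ r ≤ z)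
    (hr : 1 ≤ r) (hS : 0 ≤ lam * S) (hL : 0 ≤ L)
    (hsize' : lam * sz ≤ lam * (C0 * S)) (hmass' : lam * ms ≤ lam * (C0 * S'))
    (eS : S' = S * r⁻¹) (hZ1 : dM ≤ Z) (hdM0 : 0 ≤ dM) (hlamZ : lam * ζ ≤ U * Z)
    (hK1 : Kf ≤ Km) (hN1 : 1 ≤ N') (hn : n ≤ N') (hn0 : 0 ≤ n) (hK : Km + K' ≤ K) :
    Cf * (lam * sz) * ((1 + C') * acc + C' * y * (√(√κ))⁻¹) * L
        + Cf * (lam * ms) * (C' * acc + C' * y) * L
        + Cf * n ^ Kf * (C' * N' ^ K' * Z + dM) + lam * ζ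
      ≤ lam * S * ((Cm * C0 * (1 + 2 * C') + (Cm * (C' + 1) + U) + C') * (acc + z) * L)
        + (Cm * C0 * (1 + 2 * C') + (Cm * (C' + 1) + U) + C') * N' ^ K * Z := by
  have hCm : 0 ≤ Cm := by linarith
  have hC'0 : 0 ≤ C' := by linarith
  have hC00 : 0 ≤ C0 := by linarith
  have hCf0 : 0 ≤ Cf := by linarith
  have hU0 : 0 ≤ U := by linarith
  have hr0 : 0 ≤ r⁻¹ := inv_nonneg.2 (by linarith)
  have hZ0 : 0 ≤ Z := hdM0.trans hZ1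
  have hN0 : 0 ≤ N' := by linarith
  subst eS
  have hbr : (1 + C') * acc + C' * y * (√(√κ))⁻¹ + r⁻¹ * (C' * acc + C' * y)
      ≤ (1 + 2 * C') * (acc + z) := by
    have h1 : r⁻¹ * (C' * acc) ≤ C' * acc :=
      mul_le_of_le_one_left (mul_nonneg hC'0 hacc) (inv_le_one_of_one_le₀ hr)
    have h2 : C' * y * (√(√κ))⁻¹ + r⁻¹ * (C' * y) = C' * (y * lvlGain κ r) := by
      rw [lvlGain]; ring
    have h3 := mul_le_mul_of_nonneg_left hyz hC'0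
    have h4 : 0 ≤ (1 + C') * z := mul_nonneg (by linarith) hz
    linarith
  have t1 : Cf * (lam * sz) * ((1 + C') * acc + C' * y * (√(√κ))⁻¹) * L
      + Cf * (lam * ms) * (C' * acc + C' * y) * L
      ≤ Cm * C0 * (lam * S) * ((1 + 2 * C') * (acc + z)) * L :=
    calc _ ≤ Cf * (lam * (C0 * S)) * ((1 + C') * acc + C' * y * (√(√κ))⁻¹) * L
          + Cf * (lam * (C0 * (S * r⁻¹))) * (C' * acc + C' * y) * L := by gcongr
      _ = Cf * C0 * (lam * S) *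
            ((1 + C') * acc + C' * y * (√(√κ))⁻¹ + r⁻¹ * (C' * acc + C' * y)) * L := by ring
      _ ≤ _ := by gcongr
  have t2 : Cf * n ^ Kf * (C' * N' ^ K' * Z + dM) + lam * ζ
      ≤ (Cm * (C' + 1) + U) * N' ^ K * Z := by
    have h1 : n ^ Kf ≤ N' ^ Km :=
      (pow_le_pow_left₀ hn0 hn _).trans (pow_le_pow_right₀ hN1 hK1)
    have h2 : dM ≤ N' ^ K' * Z := hZ1.trans (le_mul_of_one_le_left hZ0 (one_le_pow₀ hN1))
    have h3 : N' ^ Km * N' ^ K' ≤ N' ^ K := by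
      rw [← pow_add]; exact pow_le_pow_right₀ hN1 hK
    have h4 : (1 : ℝ) ≤ N' ^ K := one_le_pow₀ hN1
    calc _ ≤ Cm * N' ^ Km * (C' * N' ^ K' * Z + N' ^ K' * Z) + U * (1 * Z) := by
          rw [one_mul]; gcongr
      _ = Cm * (C' + 1) * (N' ^ Km * N' ^ K' * Z) + U * (1 * Z) := by ring
      _ ≤ Cm * (C' + 1) * (N' ^ K * Z) + U * (N' ^ K * Z) := by gcongr
      _ = _ := by ring
  have g1 : Cm * C0 * (1 + 2 * C') ≤ Cm * C0 * (1 + 2 * C') + (Cm * (C' + 1) + U) + C' := by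
    nlinarith [mul_nonneg hCm hC'0]
  have g2 : Cm * (C' + 1) + U ≤ Cm * C0 * (1 + 2 * C') + (Cm * (C' + 1) + U) + C' := by
    nlinarith [mul_nonneg (mul_nonneg hCm hC00) hC'0, mul_nonneg hCm hC00]
  have u1 : 0 ≤ lam * S * ((acc + z) * L) := mul_nonneg hS (mul_nonneg (add_nonneg hacc hz) hL)
  have u2 : 0 ≤ N' ^ K * Z := mul_nonneg (pow_nonneg hN0 _) hZ0
  linarith [mul_le_mul_of_nonneg_right g1 u1, mul_le_mul_of_nonneg_right g2 u2]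

theorem claim_succ {αe γ : ℝ} (hαe : 0 < αe) (hγ : 0 < γ) (M N n m eB A J M2 : ℕ) (T Cb C0 : ℝ)
    (hT : 1 ≤ T) (hCb : 0 ≤ Cb) (hC0 : 1 ≤ C0)
    (hR : ∀ j, j ≤ m → ∀ Cu : ℝ, 1 ≤ Cu → ∃ (K : ℕ) (C : ℝ), 1 ≤ C ∧
      ∀ᶠ d : ℕ in atTop, ∀ (Nr : ℕ) (εr : ℝ) (_ : Rule Nr εr), εr ≤ ((d : ℝ) ^ M2)⁻¹ →
      ∀ (H : Fam d) (δ : ℕ → ℝ) (r : ℝ) (ℓ₀ qe ql : ℕ) (Λ Gb : E d → ℝ) (a b : ℝ) (e : E d → ℝ),
      (∀ ℓ, 0 < δ ℓ) → (∀ ℓ, ((d : ℝ) ^ αe) ^ j * δ ℓ ≤ 1) → r = (d : ℝ) ^ γ →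
      (∀ V, InClass d V → ∀ y ℓ, Fld d (δ ℓ) r (Gb y) Cb N (H V y ℓ)) →
      (∀ y, √(d : ℝ) ≤ Λ y) → 0 ≤ a → 0 ≤ b → (∀ y, 0 ≤ e y) →
      LeafEst H δ r ℓ₀ qe Λ →
      (∀ j', j' ≤ j → LeafSmp H δ r (((d : ℝ) ^ αe) ^ j') (C * (√((d : ℝ) ^ αe))⁻¹) ℓ₀ ql
        (fun y => (a * accR ((d : ℝ) ^ αe) n j' + b) * Λ y) e) →
      ∀ (F : Prog), F.WF ((((d : ℝ) ^ αe) ^ j) • δ) r (Cu * r ^ eB) T → F.LevelGe ℓ₀ →
      F.depth ≤ A → ∀ lam : ℝ, 0 ≤ lam →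
      lam * F.size ((((d : ℝ) ^ αe) ^ j) • δ) r ≤ Cu * (√((d : ℝ) ^ αe))⁻¹ →
      ∀ (β : Type) [MeasurableSpace β] (y : β → E d) (env : β → Env d),
        Measurable y → (∀ i, Measurable fun z => env z i) →
        Smp d (K * (F.nodes + Nr + 1) ^ K * (qe + ql + 1))
          (fun V z => lam • F.sem (H V (y z)) (env z))
          fun z => C * (lam * F.size ((((d : ℝ) ^ αe) ^ j) • δ) r)
              * ((1 + a) * accR ((d : ℝ) ^ αe) n j + b * (√(√((d : ℝ) ^ αe)))⁻¹) * Λ (y z)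
            + C * (lam * F.mass ((((d : ℝ) ^ αe) ^ j) • δ) r)
              * (a * accR ((d : ℝ) ^ αe) n j + b) * Λ (y z)
            + C * ((F.nodes + Nr + 1 : ℕ) : ℝ) ^ K * (e (y z) + ((d : ℝ) ^ M)⁻¹))
    (k : ℕ) (ih : Claim αe γ M N M2 m n eB A J T Cb C0 k) :
    Claim αe γ M N M2 m n eB A J T Cb C0 (k + 1) := by
  intro U hU
  have hCu : 1 ≤ C0 * U := one_le_mul_of_one_le_of_one_le hC0 hU
  choose! Kf Cf hC1 hev using fun j (hj : j ≤ m) => hR j hj (C0 * U) hCu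
  set Km := (Finset.range (m + 1)).sup Kf with hKm
  set Cm := U + ∑ j ∈ Finset.range (m + 1), |Cf j| with hCm
  have hmem : ∀ j, j ≤ m → j ∈ Finset.range (m + 1) := fun j hj => by simp; omega
  have hKle : ∀ j, j ≤ m → Kf j ≤ Km := fun j hj => Finset.le_sup (f := Kf) (hmem j hj)
  have hCle : ∀ j, j ≤ m → Cf j ≤ Cm := fun j hj => by
    have := Finset.single_le_sum (f := fun j => |Cf j|) (fun i _ => abs_nonneg _) (hmem j hj)
    linarith [le_abs_self (Cf j)]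
  have hUm : U ≤ Cm := le_add_of_nonneg_right (Finset.sum_nonneg fun _ _ => abs_nonneg _)
  obtain ⟨K', C', hC'1, hev'⟩ := ih Cm (hU.trans hUm)
  have hCge : C' ≤ Cm * C0 * (1 + 2 * C') + (Cm * (C' + 1) + U) + C' := by
    have : 0 ≤ Cm := by linarith
    have : 0 ≤ C0 := by linarith
    have : 0 ≤ C' := by linarith
    have : 0 ≤ U := by linarith
    exact le_add_of_nonneg_left (by positivity)
  refine ⟨Km * (K' + 1) + (Km + K'), Cm * C0 * (1 + 2 * C') + (Cm * (C' + 1) + U) + C',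
    hC'1.trans hCge, ?_⟩
  filter_upwards [hev', eventually_large hαe hγ,
    (Finset.eventually_all (Finset.range (m + 1))).2 fun j hj =>
      hev j (by simp at hj; omega)] with d hd' ⟨hκ, hd2, hd1⟩ hdj
  intro Nr εr Rl hε H δ r D P qe Λ Gb ζ hD i hi j hj lam hlam hu
  set κ := (d : ℝ) ^ αe with hκdef
  have hr2 : 2 ≤ r := hD.req ▸ hd2
  obtain ⟨hx0, hx1, hxr, hw1⟩ := gain_facts hκ hr2
  set x := lvlGain κ r with hx
  have hδ : ∀ ℓ, 0 ≤ δ ℓ := fun ℓ => (hD.pos ℓ).le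
  have hκ0 : 0 ≤ κ := by linarith
  have hr0 : 0 ≤ r := by linarith
  have hΛ : ∀ y, 0 ≤ Λ y := fun y => (Real.sqrt_nonneg _).trans (hD.sqrt_le y)
  have hN1 : (1 : ℝ) ≤ ((P + Nr + 1 : ℕ) : ℝ) := by simp; positivity
  have hdM : ∀ y, (0 : ℝ) ≤ D * ζ y + ((d : ℝ) ^ M)⁻¹ := fun y =>
    add_nonneg (mul_nonneg hD.D_nonneg (hD.zeta _)) (by positivity)
  have hC'0 : 0 ≤ C' := by linarith
  by_cases hik : J ≤ i + k
  · refine (hd' Nr εr Rl hε H δ r D P qe Λ Gb ζ hD i hik j hj lam hlam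
      (hu.trans (mul_le_mul_of_nonneg_right hUm (by positivity)))).mono ?_ fun a => ?_
    · gcongr
      · omega
      · omega
      · omega
    · have := hΛ a.1
      have := hdM a.1
      have := accR_nonneg κ n j
      have hp := hδ i
      gcongr
      omega
  · have hiJ : i < J := by omega
    obtain ⟨F, hWF, hGe, hdep, hnod, hsize, hmass, hsem⟩ := hD.prog i hiJ j hj
    set δ' := liftδ x (i + 2) δ with hδ'
    have hle : ∀ ℓ, δ ℓ ≤ δ' ℓ := le_liftδ hδ hx0 hx1 (i + 2)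
    set e' : E d → ℝ := fun y =>
      C' * ((P + Nr + 1 : ℕ) : ℝ) ^ K' * (D * ζ y + ((d : ℝ) ^ M)⁻¹) with he'
    have hleaves : ∀ j', j' ≤ j → LeafSmp H δ' r (κ ^ j') (Cf j * (√κ)⁻¹) (i + 1)
        (K' * (P + Nr + 1) ^ K' * (qe + 1))
        (fun y => (C' * accR κ n j' + C' * x ^ ((J - (i + 2)) / 2)) * Λ y) e' := fun j' hj' =>
      leafSmp_of_levels hδ hr0 (pow_nonneg hκ0 j') hx0 hx1 hC'0 (accR_nonneg _ _ _) hΛ
        (mul_le_mul_of_nonneg_right (hCle j hj) (by positivity))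
        fun ℓ hℓ lam' hl' hu' => hd' Nr εr Rl hε H δ r D P qe Λ Gb ζ hD ℓ (by omega) j'
          (hj'.trans hj) lam' hl' hu'
    have hB : C0 * r ^ eB ≤ C0 * U * r ^ eB :=
      mul_le_mul_of_nonneg_right (le_mul_of_one_le_right (by linarith) hU) (by positivity)
    have h0' : (0 : ℕ → ℝ) ≤ κ ^ j • δ' := fun ℓ =>
      mul_nonneg (pow_nonneg hκ0 j) ((hδ ℓ).trans (hle ℓ))
    have hS : 0 ≤ lam * (κ ^ j * δ i * r) := by have := hδ i; positivity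
    have hsz : lam * F.size (κ ^ j • δ') r ≤ C0 * U * (√κ)⁻¹ :=
      calc lam * F.size (κ ^ j • δ') r ≤ C0 * (lam * (κ ^ j * δ i * r)) := by
            rw [mul_left_comm]
            exact mul_le_mul_of_nonneg_left hsize hlam
        _ ≤ _ := by
          rw [mul_assoc C0]
          exact mul_le_mul_of_nonneg_left hu (by linarith)
    have hreal := hdj j (hmem j hj) Nr εr Rl hε H δ' r (i + 1) qe
      (K' * (P + Nr + 1) ^ K' * (qe + 1)) Λ Gb C' (C' * x ^ ((J - (i + 2)) / 2)) e'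
      (fun ℓ => (hD.pos ℓ).trans_le (hle ℓ))
      (fun ℓ => le_trans (mul_le_mul (pow_le_pow_right₀ (by linarith) hj)
        (liftδ_le hδ hx0 hxr hD.decay (i + 2) ℓ) ((hδ ℓ).trans (hle ℓ)) (pow_nonneg hκ0 m))
        (hD.small _))
      hD.req (fun V hV y ℓ => fld_mono (hD.fld V hV y ℓ) (hδ ℓ) (hle ℓ) hr0 hCb)
      hD.sqrt_le hC'0 (mul_nonneg hC'0 (pow_nonneg hx0.le _))
      (fun y => mul_nonneg (by positivity) (hdM y))
      (leafEst_mono hD.leaf (Nat.zero_le _) hle hr0 hΛ) hleaves F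
      (hWF.mono h0' le_rfl hr0 le_rfl hB (by linarith) le_rfl) hGe hdep lam hlam hsz
      (E d × E d) (fun a => a.1) (fun a _ => a.2) measurable_fst (fun _ => measurable_snd)
    refine SmpT.weaken (η := fun a : E d × E d => lam * ζ a.1) hreal ?_ (fun V hV a v hv => ?_)
      fun a => ?_
    · calc Kf j * (F.nodes + Nr + 1) ^ Kf j * (qe + K' * (P + Nr + 1) ^ K' * (qe + 1) + 1)
          ≤ Km * (P + Nr + 1) ^ Km * ((K' + 1) * (P + Nr + 1) ^ K' * (qe + 1)) := by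
            refine Nat.mul_le_mul (Nat.mul_le_mul (hKle j hj) ?_) ?_
            · exact (Nat.pow_le_pow_left (by omega) _).trans
                (Nat.pow_le_pow_right (by omega) (hKle j hj))
            · have : 1 ≤ (P + Nr + 1) ^ K' := Nat.one_le_pow _ _ (by omega)
              nlinarith
        _ = Km * (K' + 1) * (P + Nr + 1) ^ (Km + K') * (qe + 1) := by ring
        _ ≤ _ := Nat.mul_le_mul_right _ (Nat.mul_le_mul (Nat.le_add_right _ _)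
            (Nat.pow_le_pow_right (by omega) (Nat.le_add_left _ _)))
    · refine (test_shift hv _ _).trans ?_
      rw [← smul_sub, norm_smul, Real.norm_eq_abs, abs_of_nonneg hlam]
      exact mul_le_mul_of_nonneg_left (hsem V hV a.1 _) hlam
    · simp only [he']
      have hlamD : lam ≤ U * D := by
        have h1 : lam * (δ i * r) ≤ U := by
          refine le_trans ?_ (hu.trans (mul_le_of_le_one_right (by linarith) hw1))
          rw [mul_assoc (κ ^ j)]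
          exact mul_le_mul_of_nonneg_left (le_mul_of_one_le_left (mul_nonneg (hδ i) hr0)
            (one_le_pow₀ (by linarith))) hlam
        calc lam ≤ lam * (D * (δ i * r)) := le_mul_of_one_le_right hlam (hD.D_ge i hiJ)
          _ = lam * (δ i * r) * D := by ring
          _ ≤ U * D := mul_le_mul_of_nonneg_right h1 hD.D_nonneg
      exact err_le hC'1 hC0 hU hUm (hC1 j hj) (hCle j hj) (accR_nonneg _ _ _)
        (pow_nonneg hx0.le _) (pow_nonneg hx0.le _)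
        (by rw [← pow_succ]; exact pow_le_pow_of_le_one hx0.le hx1 (by omega))
        (by linarith) hS (hΛ a.1) (hsize' := mul_le_mul_of_nonneg_left hsize hlam)
        (hmass' := mul_le_mul_of_nonneg_left hmass hlam) (eS := by rw [mul_inv_cancel_right₀ (by linarith : r ≠ 0)])
        (hZ1 := le_add_of_nonneg_left (mul_nonneg hD.D_nonneg (hD.zeta _)))
        (hdM0 := by positivity) (hlamZ := (mul_le_mul_of_nonneg_right hlamD (hD.zeta _)).trans (by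
          rw [mul_assoc]
          exact mul_le_mul_of_nonneg_left (le_add_of_nonneg_right (by positivity)) (by linarith)))
        (hK1 := hKle j hj) (hN1 := hN1) (hn := by exact_mod_cast (by omega :
          F.nodes + Nr + 1 ≤ P + Nr + 1)) (hn0 := by positivity) (hK := Nat.le_add_left _ _)

end LevelSmpAux

open LevelSmpAux

/-- Samplers of all levels from programs standing for the levels. At level `ℓ` the accuracy gains
the factor `lvlGain` once every two levels below `J`; seen from a level `p`, the levels above it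
are inflated. -/
theorem leafSmp_levels (αe : ℝ) (hαe : 0 < αe) (M n m : ℕ)
    (hG : ∀ j, j ≤ m → RealGood αe M n j) (eB : ℕ) :
    ∃ (M2 : ℕ) (γ₀ : ℝ), 0 < γ₀ ∧ ∀ γ : ℝ, 0 < γ → γ ≤ γ₀ → ∃ N₀ : ℕ, ∀ N, N₀ ≤ N →
    ∀ (J A : ℕ) (T Cb C0 : ℝ), 1 ≤ T → 0 ≤ Cb → 1 ≤ C0 → ∃ (K : ℕ) (C : ℝ), 1 ≤ C ∧
    ∀ᶠ d : ℕ in atTop, ∀ (Nr : ℕ) (εr : ℝ) (_ : Rule Nr εr), εr ≤ ((d : ℝ) ^ M2)⁻¹ →
    ∀ (H : Fam d) (δ : ℕ → ℝ) (r D : ℝ) (P qe : ℕ) (Λ Gb ζ : E d → ℝ),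
    (∀ ℓ, 0 < δ ℓ) → (∀ ℓ, ((d : ℝ) ^ αe) ^ m * δ ℓ ≤ 1) → (∀ ℓ, δ (ℓ + 1) * r ≤ δ ℓ) →
    r = (d : ℝ) ^ γ →
    (∀ V, InClass d V → ∀ y ℓ, Fld d (δ ℓ) r (Gb y) Cb N (H V y ℓ)) →
    (∀ y, √(d : ℝ) ≤ Λ y) → (∀ y, 0 ≤ ζ y) → 0 ≤ D → (∀ i, i < J → 1 ≤ D * (δ i * r)) →
    LeafEst H δ r 0 qe Λ →
    (∀ i, i < J → ∀ j, j ≤ m → ∃ F : Prog,
      F.WF ((((d : ℝ) ^ αe) ^ j) • liftδ (lvlGain ((d : ℝ) ^ αe) r) (i + 2) δ) r
        (C0 * r ^ eB) T ∧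
      F.LevelGe (i + 1) ∧ F.depth ≤ A ∧ F.nodes ≤ P ∧
      F.size ((((d : ℝ) ^ αe) ^ j) • liftδ (lvlGain ((d : ℝ) ^ αe) r) (i + 2) δ) r
        ≤ C0 * (((d : ℝ) ^ αe) ^ j * δ i * r) ∧
      F.mass ((((d : ℝ) ^ αe) ^ j) • liftδ (lvlGain ((d : ℝ) ^ αe) r) (i + 2) δ) r
        ≤ C0 * (((d : ℝ) ^ αe) ^ j * δ i) ∧
      ∀ V, InClass d V → ∀ (y : E d) (env : Env d),
        ‖F.sem (H V y) env - H V y i (env 0)‖ ≤ ζ y) →
    ∀ p i, ∀ j, j ≤ m →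
      LeafSmp H (liftδ (lvlGain ((d : ℝ) ^ αe) r) p δ) r (((d : ℝ) ^ αe) ^ j)
        (C0 * (√((d : ℝ) ^ αe))⁻¹) i (K * (P + Nr + 1) ^ K * (qe + 1))
        (fun y => (C * accR ((d : ℝ) ^ αe) n j
          + C * lvlGain ((d : ℝ) ^ αe) r ^ ((J - p) / 2)) * Λ y)
        fun y => C * ((P + Nr + 1 : ℕ) : ℝ) ^ K * (D * ζ y + ((d : ℝ) ^ M)⁻¹) := by
  choose! M2f γf hγf hRf using fun j (hj : j ≤ m) => hG j hj eB
  set M2 := (Finset.range (m + 1)).sup M2f with hM2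
  have hne : (Finset.range (m + 1)).Nonempty := by simp
  refine ⟨M2, (Finset.range (m + 1)).inf' hne γf, (Finset.lt_inf'_iff hne).2
    (fun j hj => hγf j (by simp at hj; omega)), fun γ hγ hγ0 => ?_⟩
  choose! N0f hNf using fun j (hj : j ≤ m) =>
    hRf j hj γ hγ (hγ0.trans (Finset.inf'_le γf (by simp; omega)))
  refine ⟨(Finset.range (m + 1)).sup N0f, fun N hN J A T Cb C0 hT hCb hC0 => ?_⟩
  have hR : ∀ j, j ≤ m → ∀ Cu : ℝ, 1 ≤ Cu → _ := fun j hj Cu hCu =>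
    hNf j hj N ((Finset.le_sup (f := N0f) (by simp; omega)).trans hN) A T Cb Cu hT hCb hCu
  have hclaim : ∀ k, Claim αe γ M N M2 m n eB A J T Cb C0 k := by
    intro k
    induction k with
    | zero => exact claim_zero hαe hγ M N M2 m n eB A J T Cb C0
    | succ k ih =>
      refine claim_succ hαe hγ M N n m eB A J M2 T Cb C0 hT hCb hC0 (fun j hj Cu hCu => ?_) k ih
      obtain ⟨K, C, hC, hev⟩ := hR j hj Cu hCu
      refine ⟨K, C, hC, ?_⟩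
      filter_upwards [hev, eventually_ge_atTop 1] with d hd hd1
      intro Nr εr Rl hε
      exact hd Nr εr Rl (hε.trans (inv_anti₀ (pow_pos (Nat.cast_pos.2 hd1) _)
        (pow_le_pow_right₀ (Nat.one_le_cast.2 hd1)
          (Finset.le_sup (f := M2f) (by simp; omega)))))
  obtain ⟨K, C, hC, hev⟩ := hclaim J C0 hC0
  refine ⟨K, C, hC, ?_⟩
  filter_upwards [hev, eventually_large hαe hγ] with d hd ⟨hκ, hd2, _⟩
  intro Nr εr Rl hε H δ r D P qe Λ Gb ζ hpos hsmall hdec hr hfld hΛ hζ hD0 hD hleaf hprog p i j hj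
  obtain ⟨hx0, hx1, -, -⟩ := gain_facts hκ (hr ▸ hd2)
  have hr0 : 0 ≤ r := by rw [hr]; positivity
  exact leafSmp_of_levels (fun ℓ => (hpos ℓ).le) hr0 (by positivity) hx0 hx1 (by linarith)
    (accR_nonneg _ _ _) (fun y => (Real.sqrt_nonneg _).trans (hΛ y)) le_rfl
    fun ℓ _ lam hl hu => hd Nr εr Rl hε H δ r D P qe Λ Gb ζ
      ⟨hpos, hsmall, hdec, hr, hfld, hΛ, hζ, hD0, hD, hleaf, hprog⟩ ℓ (Nat.le_add_left J ℓ) j hj
      lam hl hu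

end Vale.Agent.P347
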