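import Vale.Agent.P347Zero.LevelMap
import Vale.Agent.P347Zero.LevelSmp

/-!
P347 (exponent zero, M16): the lifted weights of the samplers are weights for the level maps.
-/

namespace Vale.Agent.P347

/-- Lifted weights fit the hypotheses of the level maps. -/
theorem levelMap_weights {c δR x r : ℝ} (i : ℕ) (hδR : 0 ≤ δR) (hc : 0 ≤ c) (hr : 1 ≤ r)
    (hx0 : 0 < x) (hx1 : x ≤ 1) (hx : x⁻¹ ≤ r) :
    (∀ l, c * lvlδ δR r l ≤ (c • liftδ x (i + 2) (lvlδ δR r)) l) ∧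
      (∀ l, (c • liftδ x (i + 2) (lvlδ δR r)) l ≤ 2 * (c * δR)) ∧
      (c • liftδ x (i + 2) (lvlδ δR r)) (i + 1) ≤ c * lvlδ δR r (i + 1) := by
  have hr0 : 0 < r := zero_lt_one.trans_le hr
  have h0 : ∀ l, 0 ≤ lvlδ δR r l := fun l => mul_nonneg (by linarith) (sq_nonneg _)
  have hdec : ∀ l, lvlδ δR r (l + 1) * r ≤ lvlδ δR r l := fun l => by
    rw [lvlδ, lvlδ, ← lvlS_sq_next hr0 l, mul_assoc]
    refine mul_le_mul_of_nonneg_left (mul_le_mul_of_nonneg_left ?_ (sq_nonneg _)) (by linarith)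
    exact le_self_pow₀ hr (by norm_num)
  refine ⟨fun l => mul_le_mul_of_nonneg_left (LevelSmpAux.le_liftδ h0 hx0 hx1 _ l) hc, fun l => ?_,
    le_of_eq ?_⟩
  · refine (mul_le_mul_of_nonneg_left ((LevelSmpAux.liftδ_le h0 hx0 hx hdec _ l).trans ?_) hc).trans_eq
      (show c * (2 * δR) = 2 * (c * δR) by ring)
    rw [lvlδ, lvlS_eq]
    exact mul_le_of_le_one_right (by linarith)
      (pow_le_one₀ (lvlσ_pos hr0 _).le (lvlσ_le_one hr _))
  · rw [Pi.smul_apply, smul_eq_mul, LevelSmpAux.liftδ_eq _ (Nat.le_succ _)]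

end Vale.Agent.P347
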