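import Vale.Agent.P347Zero.LSem
import Vale.Agent.P347Zero.Mehler
import Vale.Agent.P347Zero.PhiDefs

/-!
P347 (v5, PhiSem, part 1): the maps named by words as compositions of derivatives and adjoints,
programs along affine families of inputs, orthogonal blocks of a Gaussian vector, the error of an
inexact Mehler form, and the variation of a word in its environment.
-/

open MeasureTheory ProbabilityTheory Real Finset WithLp
open scoped RealInnerProductSpace

namespace Vale.Agent.P347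

variable {d : ℕ} {h : ℕ → E d → E d} {δ : ℕ → ℝ} {r Gb C : ℝ} {N : ℕ}

/-! ### Maps named by words -/

theorem LProg.clm_id (hh : ∀ ℓ, Fld d (δ ℓ) r Gb C N (h ℓ)) (env : Env d) :
    LProg.id.clm hh env = ContinuousLinearMap.id ℝ (E d) := rfl

theorem LProg.clm_zero (hh : ∀ ℓ, Fld d (δ ℓ) r Gb C N (h ℓ)) (env : Env d) :
    LProg.zero.clm hh env = 0 := rfl

theorem LProg.clm_add (hh : ∀ ℓ, Fld d (δ ℓ) r Gb C N (h ℓ)) (L M : LProg) (env : Env d) :
    (LProg.add L M).clm hh env = L.clm hh env + M.clm hh env := rfl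

theorem LProg.clm_smul (hh : ∀ ℓ, Fld d (δ ℓ) r Gb C N (h ℓ)) (c : ℝ) (L : LProg) (env : Env d) :
    (LProg.smul c L).clm hh env = c • L.clm hh env := rfl

theorem LProg.clm_sumFin (hh : ∀ ℓ, Fld d (δ ℓ) r Gb C N (h ℓ)) (env : Env d) : ∀ {n : ℕ}
    (f : Fin n → LProg), (LProg.sumFin f).clm hh env = ∑ k, (f k).clm hh env := by
  intro n
  induction n with
  | zero => intro f; rw [Fin.sum_univ_zero]; rfl
  | succ n ih => intro f; rw [Fin.sum_univ_succ, ← ih]; rfl

theorem Prog.sem_sumFin (g : ℕ → E d → E d) (env : Env d) : ∀ {n : ℕ} (f : Fin n → Prog),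
    (Prog.sumFin f).sem g env = ∑ k, (f k).sem g env := by
  intro n
  induction n with
  | zero => intro f; rw [Fin.sum_univ_zero]; rfl
  | succ n ih => intro f; rw [Fin.sum_univ_succ, ← ih]; rfl

theorem Prog.clm_fwd (hh : ∀ ℓ, Fld d (δ ℓ) r Gb C N (h ℓ)) (p : Prog) (i : ℕ) (L : LProg)
    (env : Env d) :
    (p.fwd i L).clm hh env = ((p.fwd i .id).clm hh env).comp (L.clm hh env) :=
  ContinuousLinearMap.ext fun x => p.app_fwd h i L env x

theorem Prog.clm_adj (hh : ∀ ℓ, Fld d (δ ℓ) r Gb C N (h ℓ)) (p : Prog) (i : ℕ) (L : LProg)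
    (env : Env d) :
    (p.adj i L).clm hh env = ((p.fwd i .id).clm hh env).adjoint.comp (L.clm hh env) :=
  ContinuousLinearMap.ext fun x => ext_inner_left ℝ fun v => by
    rw [ContinuousLinearMap.comp_apply, ContinuousLinearMap.adjoint_inner_right, LProg.clm_apply,
      LProg.clm_apply, LProg.clm_apply, p.inner_adj hh L env i v x]

/-! ### Programs along affine families of inputs -/

/-- A program along an affine family of inputs is tame. -/
theorem Prog.tame_sem_affine (hh : ∀ ℓ, Fld d (δ ℓ) r Gb C N (h ℓ)) (p : Prog) {X : Type}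
    [NormedAddCommGroup X] [NormedSpace ℝ X] [FiniteDimensional ℝ X] {F : X → Env d}
    (T : ℕ → X →L[ℝ] E d) (hF : ∀ x i, F x i = F 0 i + T i x) :
    Tame fun x => p.sem h (F x) := by
  have hd : ∀ i, ContDiff ℝ 1 fun x => F x i := fun i => by
    rw [show (fun x => F x i) = fun x => F 0 i + T i x from funext fun x => hF x i]
    exact contDiff_const.add (T i).contDiff
  have hL : ∀ x x' i, ‖F x i - F x' i‖ ≤ ‖T i‖ * ‖x - x'‖ := fun x x' i => by
    rw [hF x i, hF x' i, add_sub_add_left_eq_sub, ← map_sub]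
    exact (T i).le_opNorm _
  exact tame_of_lip (Prog.contDiff_sem hh p hd (fun i => norm_nonneg _) hL)
    fun x => Prog.norm_fderiv_sem_le hh p (fun i => norm_nonneg _) hL x

/-! ### Orthogonal blocks of a Gaussian vector -/

section blocks

variable {ι : Type*} [Fintype ι]

/-- Two orthogonal coordinate maps send a standard Gaussian vector to two independent ones. -/
theorem gau_map_pair (A B : EuclideanSpace ℝ ι →L[ℝ] E d) (hA : ∀ a, A (A.adjoint a) = a)
    (hB : ∀ b, B (B.adjoint b) = b) (hAB : ∀ b, A (B.adjoint b) = 0) :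
    (gau ι).map (fun x => (A x, B x)) = (gau (Fin d)).prod (gau (Fin d)) := by
  have hBA : ∀ a, B (A.adjoint a) = 0 := fun a => ext_inner_right ℝ fun b => by
    rw [← ContinuousLinearMap.adjoint_inner_right, ContinuousLinearMap.adjoint_inner_left, hAB,
      inner_zero_right, inner_zero_left]
  let L : EuclideanSpace ℝ ι →L[ℝ] EuclideanSpace ℝ (Fin d ⊕ Fin d) :=
    LinearMap.toContinuousLinearMap
      { toFun := fun x => toLp 2 (Sum.elim (fun i => A x i) fun i => B x i)
        map_add' := fun x y => by ext (i | i) <;> simp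
        map_smul' := fun c x => by ext (i | i) <;> simp }
  have hn : ∀ x, ‖L x‖ ^ 2 = ‖A x‖ ^ 2 + ‖B x‖ ^ 2 := fun x => by
    simp only [EuclideanSpace.real_norm_sq_eq, Fintype.sum_sum_type]
    rfl
  have hy : ∀ a b, ‖A.adjoint a + B.adjoint b‖ ^ 2 = ‖a‖ ^ 2 + ‖b‖ ^ 2 := fun a b => by
    rw [← real_inner_self_eq_norm_sq, ← real_inner_self_eq_norm_sq, ← real_inner_self_eq_norm_sq,
      inner_add_left, ContinuousLinearMap.adjoint_inner_left, ContinuousLinearMap.adjoint_inner_left,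
      map_add, map_add, hA, hB, hAB, hBA, add_zero, zero_add]
  have hL : ∀ x, ‖L x‖ ≤ ‖x‖ := fun x => by
    refine le_of_pow_le_pow_left₀ two_ne_zero (norm_nonneg _) ?_
    rw [hn]
    have h1 : ⟪A.adjoint (A x) + B.adjoint (B x), x⟫ = ‖A x‖ ^ 2 + ‖B x‖ ^ 2 := by
      rw [inner_add_left, ContinuousLinearMap.adjoint_inner_left,
        ContinuousLinearMap.adjoint_inner_left, real_inner_self_eq_norm_sq,
        real_inner_self_eq_norm_sq]
    have h2 := real_inner_le_norm (A.adjoint (A x) + B.adjoint (B x)) x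
    rw [h1, ← hy (A x) (B x)] at h2
    rw [← hy (A x) (B x)]
    nlinarith [norm_nonneg x, norm_nonneg (A.adjoint (A x) + B.adjoint (B x)),
      sq_nonneg (‖x‖ - ‖A.adjoint (A x) + B.adjoint (B x)‖)]
  have hJ : ∀ z : EuclideanSpace ℝ (Fin d ⊕ Fin d),
      L (A.adjoint (toLp 2 fun i => z (Sum.inl i)) + B.adjoint (toLp 2 fun i => z (Sum.inr i))) = z ∧
      ‖A.adjoint (toLp 2 fun i => z (Sum.inl i)) + B.adjoint (toLp 2 fun i => z (Sum.inr i))‖
        ≤ ‖z‖ := by
    intro z
    refine ⟨?_, le_of_pow_le_pow_left₀ two_ne_zero (norm_nonneg _) (le_of_eq ?_)⟩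
    · ext (i | i)
      · change A _ i = _
        rw [map_add, hA, hAB, add_zero]
      · change B _ i = _
        rw [map_add, hB, hBA, zero_add]
    · rw [hy]
      simp [EuclideanSpace.real_norm_sq_eq, Fintype.sum_sum_type]
  have h1 := gau_map L hL _ hJ
  rw [← gau_split (ι := Fin d) (κ := Fin d),
    show gau (Fin d ⊕ Fin d) = (gau ι).map L from h1.symm,
    Measure.map_map (by fun_prop) L.continuous.measurable]
  rfl

/-- A function of two orthogonal blocks integrates as a function of two Gaussian vectors. -/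
theorem integral_blocks {F : Type*} [NormedAddCommGroup F] [NormedSpace ℝ F]
    [SecondCountableTopology F] (A B : EuclideanSpace ℝ ι →L[ℝ] E d)
    (hA : ∀ a, A (A.adjoint a) = a) (hB : ∀ b, B (B.adjoint b) = b)
    (hAB : ∀ b, A (B.adjoint b) = 0) {f : E d → E d → F}
    (hf : Continuous fun p : E d × E d => f p.1 p.2)
    (hi : Integrable (fun x => f (A x) (B x)) (gau ι)) :
    ∫ x, f (A x) (B x) ∂gau ι = ∫ a, ∫ b, f a b ∂gau (Fin d) ∂gau (Fin d) := by
  have hm := gau_map_pair A B hA hB hAB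
  have hae : AEStronglyMeasurable (fun p : E d × E d => f p.1 p.2)
      ((gau ι).map fun x => (A x, B x)) := hf.aestronglyMeasurable
  have hip : Integrable (fun p : E d × E d => f p.1 p.2) ((gau (Fin d)).prod (gau (Fin d))) := by
    rw [← hm, integrable_map_measure hae (by fun_prop)]
    exact hi
  rw [← integral_prod _ hip, ← hm, integral_map (by fun_prop) hae]

/-- A function of one block integrates as a function of one Gaussian vector. -/
theorem integral_block {F : Type*} [NormedAddCommGroup F] [NormedSpace ℝ F]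
    [SecondCountableTopology F] (A : EuclideanSpace ℝ ι →L[ℝ] E d)
    (hA : ∀ a, A (A.adjoint a) = a) {f : E d → F} (hf : Continuous f) :
    ∫ x, f (A x) ∂gau ι = ∫ a, f a ∂gau (Fin d) := by
  have hn : ∀ a, ‖A.adjoint a‖ = ‖a‖ := fun a => by
    refine (pow_left_inj₀ (norm_nonneg _) (norm_nonneg _) two_ne_zero).1 ?_
    rw [← real_inner_self_eq_norm_sq, ← real_inner_self_eq_norm_sq,
      ContinuousLinearMap.adjoint_inner_left, hA]
  have hle : ∀ x, ‖A x‖ ≤ ‖x‖ := fun x => by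
    rcases eq_or_lt_of_le (norm_nonneg (A x)) with h0 | h0
    · rw [← h0]; exact norm_nonneg x
    · have h1 : ‖A x‖ ^ 2 ≤ ‖A x‖ * ‖x‖ := by
        rw [← real_inner_self_eq_norm_sq, ← ContinuousLinearMap.adjoint_inner_left]
        exact (real_inner_le_norm _ _).trans (le_of_eq (by rw [hn]))
      nlinarith
  have hm : (gau ι).map A = gau (Fin d) :=
    gau_map A hle A.adjoint fun a => ⟨hA a, (hn a).le⟩
  rw [← hm, integral_map A.continuous.aemeasurable hf.aestronglyMeasurable]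

end blocks

/-! ### The error of an inexact Mehler form -/

/-- If `f y u` is `M y u` up to `e` in quadratic mean over `u`, the Mehler form built from `f` is
the Mehler form of `M` up to `e / √(1 - ρ²)` in quadratic mean. -/
theorem l2_mehler_sub_le {ι : Type*} [Fintype ι] (P : EuclideanSpace ℝ ι →L[ℝ] E d)
    (hP : ∀ a, P (P.adjoint a) = a) {M : EuclideanSpace ℝ ι → E d →L[ℝ] E d} (hMc : Continuous M)
    {Km : ℝ} (hMb : ∀ y, ‖M y‖ ≤ Km) {f : EuclideanSpace ℝ ι → E d → E d}
    (hf : Tame fun p : EuclideanSpace ℝ ι × E d => f p.1 p.2) {ρ e : ℝ} (hρ : ρ ^ 2 < 1)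
    (he : ∀ y, ∫ u, ‖f y u - M y u‖ ^ 2 ∂gau (Fin d) ≤ e ^ 2) :
    ∫ z, ‖(√(1 - ρ ^ 2))⁻¹ • ∫ v, f (Quad.mix ρ (z, v)) (P (√(1 - ρ ^ 2) • z - ρ • v)) ∂gau ι
        - psi P ρ M z‖ ^ 2 ∂gau ι ≤ (e / √(1 - ρ ^ 2)) ^ 2 := by
  set s := √(1 - ρ ^ 2) with hs
  have hs0 : 0 < s := Real.sqrt_pos.2 (by linarith)
  have hcs : ρ ^ 2 + s ^ 2 = 1 := by rw [hs, Real.sq_sqrt (by linarith)]; ring
  have hKm : 0 ≤ Km := (norm_nonneg _).trans (hMb 0)
  obtain ⟨hfc, K, n, hK, hfb, -⟩ := id hf
  have hfc' : Continuous fun p : EuclideanSpace ℝ ι × E d => f p.1 p.2 := hfc.continuous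
  set D : EuclideanSpace ℝ ι × EuclideanSpace ℝ ι → E d :=
    fun q => f q.1 (P q.2) - M q.1 (P q.2) with hD
  have hDc : Continuous D :=
    (hfc'.comp (continuous_fst.prodMk (P.continuous.comp continuous_snd))).sub
      ((hMc.comp continuous_fst).clm_apply (P.continuous.comp continuous_snd))
  set K' := (K + Km) * (1 + ‖P‖) ^ (n + 1) with hK'
  have hP1 : ∀ t : EuclideanSpace ℝ ι, 1 + ‖P t‖ ≤ (1 + ‖P‖) * (1 + ‖t‖) := fun t => by
    have := P.le_opNorm t
    nlinarith [norm_nonneg P, norm_nonneg t, norm_nonneg (P t)]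
  have hDb : ∀ q, ‖D q‖ ≤ K' * ((1 + ‖q.1‖) ^ (n + 1) * (1 + ‖q.2‖) ^ (n + 1)) := by
    intro q
    have h1 := hfb (q.1, P q.2)
    have h2 := ((M q.1).le_opNorm (P q.2)).trans
      (mul_le_mul_of_nonneg_right (hMb q.1) (norm_nonneg _))
    have h3 : (1 + ‖(q.1, P q.2)‖) ≤ (1 + ‖q.1‖) * (1 + ‖P q.2‖) := by
      rw [Prod.norm_mk]
      rcases max_cases ‖q.1‖ ‖P q.2‖ with ⟨hm, -⟩ | ⟨hm, -⟩ <;> rw [hm] <;>
        nlinarith [norm_nonneg q.1, norm_nonneg (P q.2)]
    have h4 : ‖P q.2‖ ≤ (1 + ‖q.1‖) * (1 + ‖P q.2‖) := by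
      nlinarith [norm_nonneg q.1, norm_nonneg (P q.2)]
    have h5 : 1 ≤ (1 + ‖q.1‖) * (1 + ‖P q.2‖) := by
      nlinarith [norm_nonneg q.1, norm_nonneg (P q.2)]
    calc ‖D q‖ ≤ K * (1 + ‖(q.1, P q.2)‖) ^ n + Km * ‖P q.2‖ :=
          (norm_sub_le _ _).trans (add_le_add h1 h2)
      _ ≤ K * ((1 + ‖q.1‖) * (1 + ‖P q.2‖)) ^ (n + 1) +
            Km * ((1 + ‖q.1‖) * (1 + ‖P q.2‖)) ^ (n + 1) := by
          gcongr
          · exact (pow_le_pow_left₀ (by positivity) h3 n).trans
              (pow_le_pow_right₀ h5 (Nat.le_succ n))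
          · exact h4.trans (le_self_pow₀ h5 (Nat.succ_ne_zero n))
      _ ≤ K * ((1 + ‖q.1‖) * ((1 + ‖P‖) * (1 + ‖q.2‖))) ^ (n + 1) +
            Km * ((1 + ‖q.1‖) * ((1 + ‖P‖) * (1 + ‖q.2‖))) ^ (n + 1) := by
          gcongr <;> exact hP1 _
      _ = _ := by rw [hK', mul_pow, mul_pow]; ring
  have hK'0 : 0 ≤ K' := by positivity
  set g : EuclideanSpace ℝ ι × EuclideanSpace ℝ ι → ℝ := fun q => ‖D q‖ ^ 2 with hg
  have hgc : Continuous g := hDc.norm.pow 2
  have hgi : Integrable g ((gau ι).prod (gau ι)) :=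
    integrable_of_polyLe2 (K := K' ^ 2) (m := 2 * (n + 1)) (n := 2 * (n + 1))
      hgc.aestronglyMeasurable fun q => by
        rw [Real.norm_eq_abs, abs_of_nonneg (sq_nonneg _), mul_comm 2 (n + 1), pow_mul, pow_mul,
          ← mul_pow, ← mul_pow]
        exact pow_le_pow_left₀ (norm_nonneg _) (hDb q) 2
  have hrot : ρ ^ 2 + (-s) ^ 2 = 1 := by linear_combination hcs
  set R : EuclideanSpace ℝ ι × EuclideanSpace ℝ ι → EuclideanSpace ℝ ι × EuclideanSpace ℝ ι :=
    fun p => (ρ • p.1 + s • p.2, s • p.1 - ρ • p.2) with hR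
  have hRm : ((gau ι).prod (gau ι)).map R = (gau ι).prod (gau ι) := by
    have e : R = (fun p => (p.1, (-1 : ℝ) • p.2)) ∘
        fun p => (ρ • p.1 + s • p.2, -s • p.1 + ρ • p.2) := by
      funext p
      simp only [hR, Function.comp_apply, Prod.mk.injEq, true_and]
      module
    have hneg : (gau ι).map (fun t => (-1 : ℝ) • t) = gau ι := by
      have := stdGaussian_map (LinearIsometryEquiv.neg ℝ (E := EuclideanSpace ℝ ι))
      simpa [neg_one_smul] using this
    rw [e, ← Measure.map_map (by fun_prop) (by fun_prop), gau_rotate hcs]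
    refine ((Measure.map_prod_map _ _ measurable_id (by fun_prop)).symm.trans ?_)
    rw [Measure.map_id, hneg]
  have hgR : Integrable (fun p => g (R p)) ((gau ι).prod (gau ι)) := by
    rw [← hRm] at hgi
    exact hgi.comp_measurable (by fun_prop)
  have hpsi : ∀ z, (√(1 - ρ ^ 2))⁻¹ • ∫ v, f (Quad.mix ρ (z, v)) (P (s • z - ρ • v)) ∂gau ι
      - psi P ρ M z = s⁻¹ • ∫ v, D (R (z, v)) ∂gau ι ∧
      ‖∫ v, D (R (z, v)) ∂gau ι‖ ^ 2 ≤ ∫ v, g (R (z, v)) ∂gau ι := by
    intro z
    set Kz := K' * (((1 + |ρ|) * (1 + |s|)) ^ (n + 1) * ((1 + |s|) * (1 + |ρ|)) ^ (n + 1) *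
      (1 + ‖z‖) ^ (2 * (n + 1))) with hKz
    have hDR : ∀ v, ‖D (R (z, v))‖ ≤ Kz * (1 + ‖v‖) ^ (2 * (n + 1)) := fun v => by
      refine (hDb _).trans ?_
      simp only [hR]
      calc K' * ((1 + ‖ρ • z + s • v‖) ^ (n + 1) * (1 + ‖s • z - ρ • v‖) ^ (n + 1))
          ≤ K' * ((((1 + |ρ|) * (1 + |s|)) ^ (n + 1) * ((1 + ‖z‖) ^ (n + 1) * (1 + ‖v‖) ^ (n + 1))) *
              (((1 + |s|) * (1 + |ρ|)) ^ (n + 1) * ((1 + ‖z‖) ^ (n + 1) * (1 + ‖v‖) ^ (n + 1)))) := by
            gcongr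
            · exact pw_comb ρ s z v (n + 1)
            · have := pw_comb s (-ρ) z v (n + 1)
              rwa [abs_neg, neg_smul, ← sub_eq_add_neg] at this
        _ = _ := by rw [hKz]; ring
    have hDi : Integrable (fun v => D (R (z, v))) (gau ι) :=
      integrable_of_polyLe (hDc.comp (by fun_prop)).aestronglyMeasurable hDR
    have hMi : Integrable (fun v => M (Quad.mix ρ (z, v)) (P (s • z - ρ • v))) (gau ι) :=
      integrable_psi_integrand ⟨hMc, Km, 0, hKm, PolyLe.of_bound hMb⟩ ρ s z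
    have hfi : Integrable (fun v => f (Quad.mix ρ (z, v)) (P (s • z - ρ • v))) (gau ι) := by
      refine (hDi.add hMi).congr (ae_of_all _ fun v => ?_)
      simp [hD, hR, Quad.mix, ← hs]
    refine ⟨?_, ?_⟩
    · rw [psi, ← hs, ← smul_sub, ← integral_sub hfi hMi]
      rfl
    · have hsq : Integrable (fun v => ‖D (R (z, v))‖ ^ 2) (gau ι) :=
        integrable_of_polyLe (K := Kz ^ 2) (n := (2 * (n + 1)) * 2)
          ((hDc.comp (by fun_prop)).norm.pow 2).aestronglyMeasurable fun v => by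
            rw [Real.norm_eq_abs, abs_of_nonneg (sq_nonneg _), pow_mul, ← mul_pow]
            exact pow_le_pow_left₀ (norm_nonneg _) (hDR v) 2
      have h1 := norm_integral_le_integral_norm (μ := gau ι) (f := fun v => D (R (z, v)))
      set m := ∫ v, ‖D (R (z, v))‖ ∂gau ι with hm
      have h2 : m ^ 2 ≤ ∫ v, ‖D (R (z, v))‖ ^ 2 ∂gau ι := by
        have h3 : 0 ≤ ∫ v, (‖D (R (z, v))‖ - m) ^ 2 ∂gau ι :=
          integral_nonneg fun v => sq_nonneg _
        have e : (fun v => (‖D (R (z, v))‖ - m) ^ 2) =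
            fun v => (‖D (R (z, v))‖ ^ 2 - 2 * m * ‖D (R (z, v))‖) + m ^ 2 := by
          funext v; ring
        rw [e, integral_add (f := fun v => ‖D (R (z, v))‖ ^ 2 - 2 * m * ‖D (R (z, v))‖)
          (hsq.sub (hDi.norm.const_mul _)) (integrable_const _),
          integral_sub hsq (hDi.norm.const_mul _), integral_const_mul, integral_const,
          probReal_univ, one_smul, ← hm] at h3
        nlinarith
      exact (pow_le_pow_left₀ (norm_nonneg _) h1 2).trans h2
  have hint : Integrable (fun z => ∫ v, g (R (z, v)) ∂gau ι) (gau ι) := hgR.integral_prod_left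
  calc ∫ z, ‖(√(1 - ρ ^ 2))⁻¹ • ∫ v, f (Quad.mix ρ (z, v)) (P (s • z - ρ • v)) ∂gau ι
        - psi P ρ M z‖ ^ 2 ∂gau ι
      ≤ ∫ z, s⁻¹ ^ 2 * ∫ v, g (R (z, v)) ∂gau ι ∂gau ι := by
        refine integral_mono_of_nonneg (ae_of_all _ fun z => sq_nonneg _) (hint.const_mul _)
          (ae_of_all _ fun z => ?_)
        simp only
        rw [(hpsi z).1, norm_smul, mul_pow, Real.norm_eq_abs, sq_abs]
        exact mul_le_mul_of_nonneg_left (hpsi z).2 (sq_nonneg _)
    _ = s⁻¹ ^ 2 * ∫ q, g q ∂(gau ι).prod (gau ι) := by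
        rw [integral_const_mul, ← integral_prod _ hgR]
        conv_rhs => rw [← hRm]
        rw [integral_map (by fun_prop) hgc.aestronglyMeasurable]
    _ ≤ s⁻¹ ^ 2 * e ^ 2 := by
        refine mul_le_mul_of_nonneg_left ?_ (sq_nonneg _)
        rw [integral_prod _ hgi]
        refine (integral_mono_of_nonneg (ae_of_all _ fun y => integral_nonneg fun t => sq_nonneg _)
          (integrable_const (e ^ 2)) (ae_of_all _ fun y => ?_)).trans (le_of_eq (by simp))
        simp only [hg, hD]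
        rw [integral_block P hP (f := fun u => ‖f y u - M y u‖ ^ 2)
          (((hfc'.comp (continuous_const.prodMk continuous_id)).sub (M y).continuous).norm.pow 2)]
        exact he y
    _ = _ := by rw [← mul_pow, inv_mul_eq_div]

/-! ### Words along their environment -/

theorem Fld.norm_fderiv_Psm_sub_le {f : E d → E d} {δ₀ τ : ℝ} (hf : Fld d δ₀ r Gb C N f)
    (hτ : 0 < τ) (x y : E d) :
    ‖fderiv ℝ (Psm τ f) x - fderiv ℝ (Psm τ f) y‖ ≤ δ₀ / √τ * ‖x - y‖ := by
  rw [fderiv_Psm_comm (hf.smooth.differentiable one_ne_zero) hf.lip,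
    fderiv_Psm_comm (hf.smooth.differentiable one_ne_zero) hf.lip]
  exact Convex.norm_image_sub_le_of_norm_fderiv_le (𝕜 := ℝ)
    (fun z _ => differentiable_Psm hτ (measurable_fderiv ℝ f) hf.lip z)
    (fun z _ => _root_.Vale.Agent.P347.norm_fderiv_Psm_le hτ (measurable_fderiv ℝ f) hf.lip z)
    convex_univ (Set.mem_univ y) (Set.mem_univ x)

/-- A word moves by at most `norm' · depth · √T · B'` when its inputs move by `v`. -/
theorem LProg.norm_app_sub_le (hh : ∀ ℓ, Fld d (δ ℓ) r Gb C N (h ℓ)) {r' B B' T : ℝ} (hT : 0 < T)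
    (hB' : 0 ≤ B') (L : LProg) : L.WF δ r' B T → ∀ (v : ℕ → ℝ), L.SensLe δ B' v →
      ∀ (env env' : Env d), (∀ i, ‖env i - env' i‖ ≤ v i) → ∀ a : E d,
        ‖L.app h env a - L.app h env' a‖ ≤ L.norm' δ * L.depth * √T * B' * ‖a‖ := by
  have hδ := Prog.delta_nonneg_of_fld hh
  induction L with
  | id => intro _ v _ env env' _ a; simp [LProg.app, LProg.depth]
  | zero => intro _ v _ env env' _ a; simp [LProg.app, LProg.norm']
  | add L M hL hM =>
    intro hw v hs env env' he a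
    simp only [LProg.app, LProg.norm', LProg.depth, add_sub_add_comm]
    have h1 := L.norm'_nonneg hδ
    have h2 := M.norm'_nonneg hδ
    calc _ ≤ L.norm' δ * L.depth * √T * B' * ‖a‖ + M.norm' δ * M.depth * √T * B' * ‖a‖ :=
          (norm_add_le _ _).trans
            (add_le_add (hL hw.1 v hs.1 env env' he a) (hM hw.2 v hs.2 env env' he a))
      _ ≤ L.norm' δ * (max L.depth M.depth : ℕ) * √T * B' * ‖a‖ +
            M.norm' δ * (max L.depth M.depth : ℕ) * √T * B' * ‖a‖ := by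
          gcongr <;> simp
      _ = _ := by ring
  | smul c L hL =>
    intro hw v hs env env' he a
    simp only [LProg.app, LProg.norm', LProg.depth, ← smul_sub, norm_smul, Real.norm_eq_abs]
    calc |c| * ‖L.app h env a - L.app h env' a‖
        ≤ |c| * (L.norm' δ * L.depth * √T * B' * ‖a‖) :=
          mul_le_mul_of_nonneg_left (hL hw v hs env env' he a) (abs_nonneg c)
      _ = _ := by ring
  | hess ℓ τ q L hL =>
    intro hw v hs env env' he a
    obtain ⟨hτ, -, -, -, hwL⟩ := hw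
    obtain ⟨hs1, -, hs3⟩ := hs
    simp only [LProg.app, LProg.norm', LProg.depth]
    have hτ0 : 0 < τ := (inv_pos.2 hT).trans_le hτ
    have hsq : 1 / √τ ≤ √T := by
      rw [div_le_iff₀ (Real.sqrt_pos.2 hτ0), ← Real.sqrt_mul hT.le, Real.one_le_sqrt]
      calc (1 : ℝ) = T * T⁻¹ := (mul_inv_cancel₀ hT.ne').symm
        _ ≤ T * τ := mul_le_mul_of_nonneg_left hτ hT.le
    have hn := L.norm'_nonneg hδ
    have hq : ‖q.sem h env - q.sem h env'‖ ≤ B' :=
      (Prog.norm_sem_sub_le hh hδ q env env' he).trans hs1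
    set P1 := fderiv ℝ (Psm τ (h ℓ)) (q.sem h env)
    set P2 := fderiv ℝ (Psm τ (h ℓ)) (q.sem h env')
    have hP : ‖P1 - P2‖ ≤ δ ℓ * √T * B' := by
      refine ((hh ℓ).norm_fderiv_Psm_sub_le hτ0 _ _).trans ?_
      rw [div_eq_mul_one_div]
      gcongr
      · exact mul_nonneg (hδ ℓ) (Real.sqrt_nonneg _)
      · exact hδ ℓ
    have e : P1 (L.app h env a) - P2 (L.app h env' a) =
        (P1 - P2) (L.app h env a) + P2 (L.app h env a - L.app h env' a) := by
      simp only [sub_apply, map_sub]; abel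
    calc ‖P1 (L.app h env a) - P2 (L.app h env' a)‖
        ≤ δ ℓ * √T * B' * (L.norm' δ * ‖a‖) + δ ℓ * (L.norm' δ * L.depth * √T * B' * ‖a‖) := by
          rw [e]
          exact (norm_add_le _ _).trans (add_le_add
            ((ContinuousLinearMap.le_opNorm _ _).trans (mul_le_mul hP (L.norm_app_le hh hδ env a)
              (norm_nonneg _) (mul_nonneg (mul_nonneg (hδ ℓ) (Real.sqrt_nonneg _)) hB')))
            ((ContinuousLinearMap.le_opNorm _ _).trans (mul_le_mul ((hh ℓ).norm_fderiv_Psm_le τ _)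
              (hL hwL v hs3 env env' he a) (norm_nonneg _) (hδ ℓ))))
      _ = δ ℓ * L.norm' δ * ((L.depth + 1 : ℕ) : ℝ) * √T * B' * ‖a‖ := by push_cast; ring
      _ ≤ δ ℓ * L.norm' δ * ((max q.depth L.depth + 1 : ℕ) : ℝ) * √T * B' * ‖a‖ := by
          gcongr
          · exact mul_nonneg (hδ ℓ) hn
          · exact le_max_right _ _
  | bind p Δ L hL =>
    intro hw v hs env env' he a
    simp only [LProg.app, LProg.norm', LProg.depth]
    have hn := L.norm'_nonneg hδ
    refine (norm_integral_gau_sub_le (L.integrable_bind hh _ _ _ _) (L.integrable_bind hh _ _ _ _)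
      (C := L.norm' δ * L.depth * √T * B' * ‖a‖) fun w => hL hw.2.2.1 _ hs.2 _ _ (fun i => ?_) a).trans ?_
    · rcases i with _ | i
      · simp only [push, pushR, add_sub_add_right_eq_sub]
        exact Prog.norm_sem_sub_le hh hδ p env env' he
      · exact he i
    · gcongr
      omega

end Vale.Agent.P347
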