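import Vale.Agent.P347Zero.LSem
import Vale.Agent.P347Zero.ConvWord
import Vale.Agent.P347Zero.PhiDefs

/-!
P347, v5: syntactic facts used for the bounds of the Picard programs: small words, additivity and
scaling of the sensitivity, noise-admissible substitutions, depth and node counts, finite sums.
-/

open Real Finset

namespace Vale.Agent.P347

variable {δ δ' : ℕ → ℝ} {r B B' T : ℝ}

theorem unitV_zero : unitV 0 = pushR 1 0 := by
  funext i; cases i <;> simp [unitV, pushR]

theorem unitV_one : unitV 1 = pushR 0 (pushR 1 0) := by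
  funext i
  rcases i with _ | _ | i <;> simp [unitV, pushR]

theorem smul_pushR_zero (t a : ℝ) : t • pushR a 0 = pushR (t * a) 0 := by
  rw [← pushR_smul, smul_zero]

theorem smul_pushR_pair (t a b : ℝ) : t • pushR a (pushR b 0) = pushR (t * a) (pushR (t * b) 0) := by
  rw [← smul_pushR_zero, ← pushR_smul]

/-! ### Sensitivity -/

namespace Prog

theorem SensLe.add {p : Prog} : ∀ {v w : ℕ → ℝ}, p.SensLe δ B v → p.SensLe δ B' w →
    p.SensLe δ (B + B') (v + w) := by
  induction p with
  | inp i => intros; trivial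
  | zero => intros; trivial
  | add p q hp hq => intro v w h h'; exact ⟨hp h.1 h'.1, hq h.2 h'.2⟩
  | smul c p hp => intro v w h h'; exact hp (v := v) (w := w) h h'
  | call ℓ τ p hp =>
    intro v w h h'
    exact ⟨by rw [lip_add_v]; exact add_le_add h.1 h'.1, hp h.2 h'.2⟩
  | bind p Δ b hp hb =>
    intro v w h h'
    refine ⟨hp h.1 h'.1, ?_⟩
    rw [lip_add_v, pushR_add]
    exact hb h.2 h'.2

/-- The Lipschitz bound of a small program is its sensitivity times its size. -/
theorem lip_le_of_sensLe (hδ : 0 ≤ δ) (hr : 1 ≤ r) (hB : 0 ≤ B) {p : Prog} :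
    ∀ {v : ℕ → ℝ}, p.Small → p.SensLe δ B v → p.lip δ v ≤ B * p.size δ r := by
  induction p with
  | inp i => intro v h _; exact h.elim
  | zero => intro v _ _; simp [Prog.lip, Prog.size]
  | add p q hp hq =>
    intro v h hs
    simp only [Prog.lip, Prog.size, mul_add]
    exact add_le_add (hp h.1 hs.1) (hq h.2 hs.2)
  | smul c p hp =>
    intro v h hs
    simp only [Prog.lip, Prog.size, mul_left_comm B]
    exact mul_le_mul_of_nonneg_left (hp h hs) (abs_nonneg c)
  | call ℓ τ p hp =>
    intro v _ hs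
    simp only [Prog.lip, Prog.size]
    have h1 : (1 : ℝ) ≤ r + p.size δ r := by
      linarith [p.size_nonneg hδ (zero_le_one.trans hr)]
    calc δ ℓ * p.lip δ v ≤ δ ℓ * (B * 1) := by
          rw [mul_one]; exact mul_le_mul_of_nonneg_left hs.1 (hδ ℓ)
      _ ≤ δ ℓ * (B * (r + p.size δ r)) :=
          mul_le_mul_of_nonneg_left (mul_le_mul_of_nonneg_left h1 hB) (hδ ℓ)
      _ = B * (δ ℓ * (r + p.size δ r)) := by ring
  | bind p Δ b hp hb =>
    intro v h hs
    refine (hb h hs.2).trans (mul_le_mul_of_nonneg_left ?_ hB)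
    exact le_add_of_nonneg_right (b.lip_nonneg hδ (pushR_nonneg
      (add_nonneg (Real.sqrt_nonneg Δ) (p.size_nonneg hδ (zero_le_one.trans hr))) fun _ => le_rfl))

/-- When the inputs carry noise `v`, every sampled mean moves by at most `B` times the smoothing
it is sampled at, and every call point by at most `B`. -/
def NoiseLe (δ : ℕ → ℝ) (B : ℝ) : Prog → (ℕ → ℝ) → Prop
  | .inp _, _ => True
  | .zero, _ => True
  | .add p q, v => p.NoiseLe δ B v ∧ q.NoiseLe δ B v
  | .smul _ p, v => p.NoiseLe δ B v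
  | .call _ _ p, v => p.lip δ v ≤ B ∧ p.NoiseLe δ B v
  | .bind p Δ b, v => p.lip δ v ≤ B * √Δ ∧ p.NoiseLe δ B v ∧ b.NoiseLe δ B (pushR 0 v)

theorem NoiseLe.mono (h0 : 0 ≤ δ') (hδ : δ' ≤ δ) (hB : B ≤ B') {p : Prog} :
    ∀ {v w : ℕ → ℝ}, p.NoiseLe δ B v → (∀ i, 0 ≤ w i) → (∀ i, w i ≤ v i) →
      p.NoiseLe δ' B' w := by
  induction p with
  | inp i => intros; trivial
  | zero => intros; trivial
  | add p q hp hq => intro v w h hw h'; exact ⟨hp h.1 hw h', hq h.2 hw h'⟩
  | smul c p hp => intro v w h hw h'; exact hp (v := v) h hw h'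
  | call ℓ τ p hp =>
    intro v w h hw h'
    exact ⟨((p.lip_mono h0 hδ hw h').trans h.1).trans hB, hp h.2 hw h'⟩
  | bind p Δ b hp hb =>
    intro v w h hw h'
    exact ⟨((p.lip_mono h0 hδ hw h').trans h.1).trans
        (mul_le_mul_of_nonneg_right hB (Real.sqrt_nonneg Δ)), hp h.2.1 hw h',
      hb h.2.2 (pushR_nonneg le_rfl hw) (pushR_mono le_rfl h')⟩

theorem up_size (δ : ℕ → ℝ) (r : ℝ) (f : ℕ → Prog) :
    (fun i => (Nat.casesOn i (.inp 0) fun j => (f j).ren Nat.succ : Prog).size δ r)
      = pushR 0 fun j => (f j).size δ r := by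
  funext i
  cases i with
  | zero => rfl
  | succ j => exact size_ren δ r _ _

/-- A substituted program is well formed when the noise of the substitution is admissible. -/
theorem WF.subst_noise (hδ : 0 ≤ δ) (hr : 0 ≤ r) (hB : 0 ≤ B) (hB' : 0 ≤ B') {p : Prog} :
    ∀ {f : ℕ → Prog}, p.WF δ r B T → (∀ i, (f i).WF δ r (B + B') T) →
      p.NoiseLe δ B' (fun i => (f i).size δ r) → (p.subst f).WF δ r (B + B') T := by
  induction p with
  | inp i => intro f _ hf _; exact hf i
  | zero => intros; trivial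
  | add p q hp hq => intro f h hf hn; exact ⟨hp h.1 hf hn.1, hq h.2 hf hn.2⟩
  | smul c p hp => intro f h hf hn; exact hp h hf hn
  | call ℓ τ p hp =>
    intro f h hf hn
    exact ⟨h.1, h.2.1, hp h.2.2.1 hf hn.2, by
      rw [size_subst]; exact add_le_add h.2.2.2 hn.1⟩
  | bind p Δ b hp hb =>
    intro f ⟨hΔ, h1, h2, h3, h4, h5⟩ hf hn
    refine ⟨hΔ, hp h1 hf hn.2.1, hb h2 (fun i => ?_) ?_, ?_, h4.subst _, ?_⟩
    · cases i with
      | zero => trivial
      | succ j => exact (wf_ren δ r _ T _ _).2 (hf j)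
    · rw [up_size]; exact hn.2.2
    · rw [size_subst, add_mul]; exact add_le_add h3 hn.1
    · refine SensLe.subst ?_ fun i => ?_
      · rw [up_lip, show (fun j => (f j).lip δ (0 : ℕ → ℝ)) = 0 from funext fun j => lip_zero_v δ _]
        exact h5.mono hδ le_rfl (by linarith) (pushR_nonneg (Real.sqrt_nonneg Δ) fun _ => le_rfl)
          fun _ => le_rfl
      · cases i with
        | zero => trivial
        | succ j => exact (sensLe_ren δ _ _ _ _).2 (sensLe_zero (add_nonneg hB hB') _)

/-! ### Depth and nodes -/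

theorem one_le_nodes (p : Prog) : 1 ≤ p.nodes := by
  induction p <;> simp only [Prog.nodes] <;> omega

theorem depth_subst_le (p : Prog) : ∀ {f : ℕ → Prog} {D : ℕ}, (∀ i, (f i).depth ≤ D) →
    (p.subst f).depth ≤ p.depth + D := by
  induction p with
  | inp i => intro f D h; exact (h i).trans (Nat.le_add_left D _)
  | zero => intros; exact Nat.zero_le _
  | add p q hp hq =>
    intro f D h
    have := hp h; have := hq h
    simp only [Prog.subst, Prog.depth]; omega
  | smul c p hp => intro f D h; exact hp h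
  | call ℓ τ p hp =>
    intro f D h
    have := hp h
    simp only [Prog.subst, Prog.depth]; omega
  | bind p Δ b hp hb =>
    intro f D h
    have := hp h
    have := hb (f := fun i => Nat.rec (motive := fun _ => Prog) (.inp 0) (fun n _ => (f n).ren Nat.succ) i) (D := D) fun i => by
      cases i with
      | zero => exact Nat.zero_le _
      | succ j => exact (depth_ren _ _).trans_le (h j)
    simp only [Prog.subst, Prog.depth]; omega

theorem nodes_subst_le (p : Prog) : ∀ {f : ℕ → Prog} {F : ℕ}, 1 ≤ F → (∀ i, (f i).nodes ≤ F) →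
    (p.subst f).nodes ≤ p.nodes * F := by
  induction p with
  | inp i => intro f F _ h; exact (h i).trans_eq (Nat.one_mul F).symm
  | zero => intro f F hF _; exact hF.trans_eq (Nat.one_mul F).symm
  | add p q hp hq =>
    intro f F hF h
    have := hp hF h; have := hq hF h
    simp only [Prog.subst, Prog.nodes, Nat.add_mul]; omega
  | smul c p hp =>
    intro f F hF h
    have := hp hF h
    simp only [Prog.subst, Prog.nodes, Nat.add_mul]; omega
  | call ℓ τ p hp =>
    intro f F hF h
    have := hp hF h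
    simp only [Prog.subst, Prog.nodes, Nat.add_mul]; omega
  | bind p Δ b hp hb =>
    intro f F hF h
    have := hp hF h
    have := hb (f := fun i => Nat.rec (motive := fun _ => Prog) (.inp 0) (fun n _ => (f n).ren Nat.succ) i) hF fun i => by
      cases i with
      | zero => exact hF
      | succ j => exact (nodes_ren _ _).trans_le (h j)
    simp only [Prog.subst, Prog.nodes, Nat.add_mul]; omega

end Prog

/-! ### Small words -/

namespace Prog

theorem small_fwd (p : Prog) : ∀ (i : ℕ) (L : LProg), p.Small ∨ L.Small → (p.fwd i L).Small := by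
  induction p with
  | inp j =>
    intro i L h
    rcases h with h | h
    · exact h.elim
    · by_cases hij : i = j <;> simp [Prog.fwd, hij, h, LProg.Small]
  | zero => intros; trivial
  | add p q hp hq =>
    intro i L h
    exact ⟨hp i L (h.imp (fun a => a.1) fun a => a), hq i L (h.imp (fun a => a.2) fun a => a)⟩
  | smul c p hp => intro i L h; exact hp i L h
  | call ℓ τ p hp => intros; trivial
  | bind p Δ b hp hb =>
    intro i L h
    exact ⟨hb _ _ (h.imp (fun a => a) fun a => (LProg.small_lift L 0).2 a),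
      hb _ _ (h.imp (fun a => a) fun a => (LProg.small_lift _ 0).2 (hp i L (Or.inr a)))⟩

theorem depth_fwd_le (p : Prog) : ∀ (i : ℕ) (L : LProg),
    (p.fwd i L).depth ≤ 3 ^ p.depth + L.depth := by
  induction p with
  | inp j => intro i L; by_cases hij : i = j <;> simp [Prog.fwd, hij, LProg.depth]
  | zero => intro i L; exact Nat.zero_le _
  | add p q hp hq =>
    intro i L
    have := hp i L; have := hq i L
    have := Nat.pow_le_pow_right (show 1 ≤ 3 by omega) (le_max_left p.depth q.depth)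
    have := Nat.pow_le_pow_right (show 1 ≤ 3 by omega) (le_max_right p.depth q.depth)
    simp only [Prog.fwd, LProg.depth, Prog.depth]; omega
  | smul c p hp => intro i L; exact hp i L
  | call ℓ τ p hp =>
    intro i L
    have := hp i L
    have := (Nat.lt_pow_self (n := p.depth) (show 1 < 3 by omega)).le
    have := Nat.one_le_pow p.depth 3 (by omega)
    simp only [Prog.fwd, LProg.depth, Prog.depth, pow_succ]; omega
  | bind p Δ b hp hb =>
    intro i L
    have := hb (i + 1) (L.lift 0); have := hb 0 ((p.fwd i L).lift 0); have := hp i L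
    have := L.depth_lift 0; have := (p.fwd i L).depth_lift 0
    have := Nat.pow_le_pow_right (show 1 ≤ 3 by omega) (le_max_left p.depth b.depth)
    have := Nat.pow_le_pow_right (show 1 ≤ 3 by omega) (le_max_right p.depth b.depth)
    have := (Nat.lt_pow_self (n := p.depth) (show 1 < 3 by omega)).le
    have := Nat.one_le_pow (max p.depth b.depth) 3 (by omega)
    simp only [Prog.fwd, LProg.depth, Prog.depth, pow_succ]; omega

theorem depth_adj_le (p : Prog) : ∀ (i : ℕ) (L : LProg),
    (p.adj i L).depth ≤ 3 ^ p.depth + L.depth := by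
  induction p with
  | inp j => intro i L; by_cases hij : i = j <;> simp [Prog.adj, hij, LProg.depth]
  | zero => intro i L; exact Nat.zero_le _
  | add p q hp hq =>
    intro i L
    have := hp i L; have := hq i L
    have := Nat.pow_le_pow_right (show 1 ≤ 3 by omega) (le_max_left p.depth q.depth)
    have := Nat.pow_le_pow_right (show 1 ≤ 3 by omega) (le_max_right p.depth q.depth)
    simp only [Prog.adj, LProg.depth, Prog.depth]; omega
  | smul c p hp => intro i L; exact hp i L
  | call ℓ τ p hp =>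
    intro i L
    have := hp i (.hess ℓ τ p L)
    have := (Nat.lt_pow_self (n := p.depth) (show 1 < 3 by omega)).le
    have := Nat.one_le_pow p.depth 3 (by omega)
    simp only [Prog.adj, Prog.depth, pow_succ]
    have := hp i (.hess ℓ τ p L)
    simp only [LProg.depth] at this
    omega
  | bind p Δ b hp hb =>
    intro i L
    have := hb (i + 1) (L.lift 0); have := hb 0 (L.lift 0)
    have h2 := hp i (.bind p Δ (b.adj 0 (L.lift 0)))
    simp only [LProg.depth] at h2
    have := L.depth_lift 0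
    have := Nat.pow_le_pow_right (show 1 ≤ 3 by omega) (le_max_left p.depth b.depth)
    have := Nat.pow_le_pow_right (show 1 ≤ 3 by omega) (le_max_right p.depth b.depth)
    have := (Nat.lt_pow_self (n := p.depth) (show 1 < 3 by omega)).le
    have := Nat.one_le_pow (max p.depth b.depth) 3 (by omega)
    simp only [Prog.adj, LProg.depth, Prog.depth, pow_succ]; omega

end Prog

/-- A sum of few powers is a slightly higher power. -/
theorem add_le_pow {S a b x y : ℕ} (hS : 2 ≤ S) (hx : x ≤ S ^ a) (hy : y ≤ S ^ b) :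
    x + y ≤ S ^ (max a b + 1) := by
  have h1 := hx.trans (Nat.pow_le_pow_right (show 1 ≤ S by omega) (le_max_left a b))
  have h2 := hy.trans (Nat.pow_le_pow_right (show 1 ≤ S by omega) (le_max_right a b))
  calc x + y ≤ 2 * S ^ max a b := by omega
    _ ≤ S * S ^ max a b := Nat.mul_le_mul_right _ hS
    _ = S ^ (max a b + 1) := by rw [pow_succ, Nat.mul_comm]

theorem pow_combine {n E : ℕ} (hn : 3 ≤ n) (hE : 1 ≤ E) :
    2 * n + 3 + 2 * (2 * n) ^ E + (2 * n) ^ E * (2 * n) ^ E ≤ (2 * n) ^ (E * 3) := by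
  set X := (2 * n) ^ E
  have hX : 2 * n ≤ X := le_self_pow₀ (show 1 ≤ 2 * n by omega) (by omega)
  have e : (2 * n) ^ (E * 3) = X * X * X := by
    rw [pow_mul]; ring
  rw [e]
  have h6 : 6 ≤ X := by omega
  nlinarith [Nat.mul_le_mul h6 h6, Nat.mul_le_mul (Nat.mul_le_mul h6 h6) h6]

namespace Prog

theorem nodes_mono_pow {m n D D' : ℕ} (hm : 1 ≤ n) (h : n ≤ m) (hD : D ≤ D') :
    (2 * n) ^ (3 ^ D) ≤ (2 * m) ^ (3 ^ D') :=
  (Nat.pow_le_pow_left (by omega) _).trans
    (Nat.pow_le_pow_right (by omega) (Nat.pow_le_pow_right (by omega) hD))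

theorem nodes_fwd_le (p : Prog) : ∀ (i : ℕ) (L : LProg),
    (p.fwd i L).nodes ≤ (2 * p.nodes) ^ (3 ^ p.depth) * L.nodes := by
  induction p with
  | inp j =>
    intro i L
    have := L.nodes_pos
    by_cases hij : i = j <;> simp [Prog.fwd, hij, LProg.nodes, Prog.nodes, Prog.depth] <;> omega
  | zero =>
    intro i L
    have := L.nodes_pos
    simp [Prog.fwd, LProg.nodes, Prog.nodes, Prog.depth]; omega
  | add p q hp hq =>
    intro i L
    have := L.nodes_pos; have := p.one_le_nodes; have := q.one_le_nodes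
    have h1 := hp i L; have h2 := hq i L
    simp only [Prog.fwd, LProg.nodes, Prog.nodes, Prog.depth]
    obtain ⟨e, he⟩ : ∃ e, e + 1 = 3 ^ max p.depth q.depth :=
      ⟨3 ^ max p.depth q.depth - 1, Nat.sub_add_cancel (Nat.one_le_pow _ 3 (by omega))⟩
    rw [← he]
    have key : ∀ {x : Prog}, x.depth ≤ max p.depth q.depth → x.nodes ≤ p.nodes + q.nodes + 1 →
        (2 * x.nodes) ^ (3 ^ x.depth) ≤ (2 * x.nodes) * (2 * (p.nodes + q.nodes + 1)) ^ e := by
      intro x hx hx'
      have := x.one_le_nodes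
      refine (Nat.pow_le_pow_right (by omega)
        (show 3 ^ x.depth ≤ e + 1 by rw [he]; exact Nat.pow_le_pow_right (by omega) hx)).trans ?_
      rw [pow_succ']
      exact Nat.mul_le_mul_left _ (Nat.pow_le_pow_left (by omega) _)
    have k1 := h1.trans (Nat.mul_le_mul_right _ (key (x := p) (le_max_left _ _) (by omega)))
    have k2 := h2.trans (Nat.mul_le_mul_right _ (key (x := q) (le_max_right _ _) (by omega)))
    have hY : 1 ≤ (2 * (p.nodes + q.nodes + 1)) ^ e := Nat.one_le_pow _ _ (by omega)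
    rw [pow_succ']
    nlinarith [Nat.mul_le_mul hY (show 1 ≤ L.nodes by omega)]
  | smul c p hp =>
    intro i L
    have := L.nodes_pos; have := p.one_le_nodes
    have h1 := hp i L
    simp only [Prog.fwd, LProg.nodes, Prog.nodes, Prog.depth]
    obtain ⟨e, he⟩ : ∃ e, e + 1 = 3 ^ p.depth :=
      ⟨3 ^ p.depth - 1, Nat.sub_add_cancel (Nat.one_le_pow _ 3 (by omega))⟩
    rw [← he, pow_succ'] at h1 ⊢
    have hY : (2 * p.nodes) ^ e ≤ (2 * (p.nodes + 1)) ^ e := Nat.pow_le_pow_left (by omega) _
    have hY1 : 1 ≤ (2 * p.nodes) ^ e := Nat.one_le_pow _ _ (by omega)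
    nlinarith [Nat.mul_le_mul hY (le_refl L.nodes), Nat.mul_le_mul hY1 (show 1 ≤ L.nodes by omega)]
  | call ℓ τ p hp =>
    intro i L
    have hL := L.nodes_pos; have := p.one_le_nodes
    have h1 := (hp i L).trans (Nat.mul_le_mul_right _
      (nodes_mono_pow (m := p.nodes + 1) (D := p.depth) (by omega) (by omega) le_rfl))
    simp only [Prog.fwd, LProg.nodes, Prog.nodes, Prog.depth, pow_succ]
    set X := (2 * (p.nodes + 1)) ^ (3 ^ p.depth) with hX
    have hX2 : 2 * (p.nodes + 1) ≤ X :=
      le_self_pow₀ (show 1 ≤ 2 * (p.nodes + 1) by omega) (by positivity)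
    rw [pow_mul, ← hX]
    have e3 : X ^ 3 = X * X * X := by ring
    rw [e3]
    have h4 : 4 ≤ X := by omega
    nlinarith [Nat.mul_le_mul (Nat.mul_le_mul h4 h4) hL, Nat.mul_le_mul h4 hL]
  | bind p Δ b hp hb =>
    intro i L
    have hL := L.nodes_pos; have := p.one_le_nodes; have := b.one_le_nodes
    have hbn := nodes_mono_pow (m := p.nodes + b.nodes + 1) (n := b.nodes) (D := b.depth)
      (by omega) (by omega) (le_max_right p.depth b.depth)
    have hpn := nodes_mono_pow (m := p.nodes + b.nodes + 1) (n := p.nodes) (D := p.depth)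
      (by omega) (by omega) (le_max_left p.depth b.depth)
    have h1 := (hb (i + 1) (L.lift 0)).trans (Nat.mul_le_mul_right _ hbn)
    have h2 := (hb 0 ((p.fwd i L).lift 0)).trans (Nat.mul_le_mul hbn (Nat.le_of_eq
      (LProg.nodes_lift _ 0)))
    have h3 := (hp i L).trans (Nat.mul_le_mul_right _ hpn)
    rw [L.nodes_lift 0] at h1
    simp only [Prog.fwd, LProg.nodes, Prog.nodes, Prog.depth, pow_succ]
    have key := Nat.mul_le_mul_right L.nodes (pow_combine (n := p.nodes + b.nodes + 1)
      (E := 3 ^ max p.depth b.depth) (by omega) (Nat.one_le_pow _ 3 (by omega)))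
    have h2' := h2.trans (Nat.mul_le_mul_left _ h3)
    rw [← Nat.mul_assoc] at h2'
    simp only [Nat.add_mul] at key
    nlinarith [Nat.mul_le_mul (show 1 ≤ 2 * (p.nodes + b.nodes + 1) by omega) hL,
      Nat.mul_le_mul_left (2 * (p.nodes + b.nodes + 1) + 3) hL]

theorem nodes_adj_le (p : Prog) : ∀ (i : ℕ) (L : LProg),
    (p.adj i L).nodes ≤ (2 * p.nodes) ^ (3 ^ p.depth) * L.nodes := by
  induction p with
  | inp j =>
    intro i L
    have := L.nodes_pos
    by_cases hij : i = j <;> simp [Prog.adj, hij, LProg.nodes, Prog.nodes, Prog.depth] <;> omega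
  | zero =>
    intro i L
    have := L.nodes_pos
    simp [Prog.adj, LProg.nodes, Prog.nodes, Prog.depth]; omega
  | add p q hp hq =>
    intro i L
    have := L.nodes_pos; have := p.one_le_nodes; have := q.one_le_nodes
    have h1 := hp i L; have h2 := hq i L
    simp only [Prog.adj, LProg.nodes, Prog.nodes, Prog.depth]
    obtain ⟨e, he⟩ : ∃ e, e + 1 = 3 ^ max p.depth q.depth :=
      ⟨3 ^ max p.depth q.depth - 1, Nat.sub_add_cancel (Nat.one_le_pow _ 3 (by omega))⟩
    rw [← he]
    have key : ∀ {x : Prog}, x.depth ≤ max p.depth q.depth → x.nodes ≤ p.nodes + q.nodes + 1 →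
        (2 * x.nodes) ^ (3 ^ x.depth) ≤ (2 * x.nodes) * (2 * (p.nodes + q.nodes + 1)) ^ e := by
      intro x hx hx'
      have := x.one_le_nodes
      refine (Nat.pow_le_pow_right (by omega)
        (show 3 ^ x.depth ≤ e + 1 by rw [he]; exact Nat.pow_le_pow_right (by omega) hx)).trans ?_
      rw [pow_succ']
      exact Nat.mul_le_mul_left _ (Nat.pow_le_pow_left (by omega) _)
    have k1 := h1.trans (Nat.mul_le_mul_right _ (key (x := p) (le_max_left _ _) (by omega)))
    have k2 := h2.trans (Nat.mul_le_mul_right _ (key (x := q) (le_max_right _ _) (by omega)))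
    have hY : 1 ≤ (2 * (p.nodes + q.nodes + 1)) ^ e := Nat.one_le_pow _ _ (by omega)
    rw [pow_succ']
    nlinarith [Nat.mul_le_mul hY (show 1 ≤ L.nodes by omega)]
  | smul c p hp =>
    intro i L
    have := L.nodes_pos; have := p.one_le_nodes
    have h1 := hp i L
    simp only [Prog.adj, LProg.nodes, Prog.nodes, Prog.depth]
    obtain ⟨e, he⟩ : ∃ e, e + 1 = 3 ^ p.depth :=
      ⟨3 ^ p.depth - 1, Nat.sub_add_cancel (Nat.one_le_pow _ 3 (by omega))⟩
    rw [← he, pow_succ'] at h1 ⊢
    have hY : (2 * p.nodes) ^ e ≤ (2 * (p.nodes + 1)) ^ e := Nat.pow_le_pow_left (by omega) _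
    have hY1 : 1 ≤ (2 * p.nodes) ^ e := Nat.one_le_pow _ _ (by omega)
    nlinarith [Nat.mul_le_mul hY (le_refl L.nodes), Nat.mul_le_mul hY1 (show 1 ≤ L.nodes by omega)]
  | call ℓ τ p hp =>
    intro i L
    have hL := L.nodes_pos; have := p.one_le_nodes
    have h1 := (hp i (.hess ℓ τ p L)).trans (Nat.mul_le_mul_right _
      (nodes_mono_pow (m := p.nodes + 1) (D := p.depth) (by omega) (by omega) le_rfl))
    simp only [LProg.nodes] at h1
    simp only [Prog.adj, Prog.nodes, Prog.depth, pow_succ]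
    set X := (2 * (p.nodes + 1)) ^ (3 ^ p.depth) with hX
    have hX2 : 2 * (p.nodes + 1) ≤ X :=
      le_self_pow₀ (show 1 ≤ 2 * (p.nodes + 1) by omega) (by positivity)
    rw [pow_mul, ← hX]
    have e3 : X ^ 3 = X * X * X := by ring
    rw [e3]
    have h4 : 4 ≤ X := by omega
    have h5 : p.nodes + L.nodes + 1 ≤ X * L.nodes := by
      nlinarith [Nat.mul_le_mul hX2 (le_refl L.nodes)]
    have h6 := h1.trans (Nat.mul_le_mul_left X h5)
    rw [← Nat.mul_assoc] at h6
    refine h6.trans (Nat.mul_le_mul_right _ ?_)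
    exact Nat.le_mul_of_pos_right _ (by omega)
  | bind p Δ b hp hb =>
    intro i L
    have hL := L.nodes_pos; have := p.one_le_nodes; have := b.one_le_nodes
    have hbn := nodes_mono_pow (m := p.nodes + b.nodes + 1) (n := b.nodes) (D := b.depth)
      (by omega) (by omega) (le_max_right p.depth b.depth)
    have hpn := nodes_mono_pow (m := p.nodes + b.nodes + 1) (n := p.nodes) (D := p.depth)
      (by omega) (by omega) (le_max_left p.depth b.depth)
    have h1 := (hb (i + 1) (L.lift 0)).trans (Nat.mul_le_mul_right _ hbn)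
    have h3 := (hb 0 (L.lift 0)).trans (Nat.mul_le_mul_right _ hbn)
    have h2 := (hp i (.bind p Δ (b.adj 0 (L.lift 0)))).trans (Nat.mul_le_mul_right _ hpn)
    rw [L.nodes_lift 0] at h1 h3
    simp only [LProg.nodes] at h2
    simp only [Prog.adj, LProg.nodes, Prog.nodes, Prog.depth, pow_succ]
    set n := p.nodes + b.nodes + 1 with hn
    set X := (2 * n) ^ (3 ^ max p.depth b.depth) with hX
    have hX2 : 2 * n ≤ X := le_self_pow₀ (show 1 ≤ 2 * n by omega) (by positivity)
    rw [pow_mul, ← hX]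
    have e3 : X ^ 3 = X * X * X := by ring
    rw [e3]
    have h6 : 6 ≤ X := by omega
    have h7 : p.nodes + (b.adj 0 (L.lift 0)).nodes + 1 ≤ 2 * (X * L.nodes) := by
      nlinarith [Nat.mul_le_mul hX2 hL]
    have h8 := h2.trans (Nat.mul_le_mul_left X h7)
    have h9 : p.nodes + 2 ≤ X * L.nodes :=
      le_trans (by omega) (Nat.le_mul_of_pos_right X (by omega))
    have h10 : X * L.nodes ≤ X * X * L.nodes :=
      Nat.mul_le_mul_right _ (Nat.le_mul_of_pos_right X (by omega))
    have h11 : 4 * (X * X * L.nodes) ≤ X * X * X * L.nodes := by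
      rw [← Nat.mul_assoc]
      exact Nat.mul_le_mul_right _ (by
        rw [Nat.mul_comm (X * X) X]; exact Nat.mul_le_mul_right _ (by omega))
    have e4 : X * (2 * (X * L.nodes)) = 2 * (X * X * L.nodes) := by ring
    omega

/-! ### Finite sums -/

theorem size_sumFin (δ : ℕ → ℝ) (r : ℝ) : ∀ {n : ℕ} (f : Fin n → Prog),
    (Prog.sumFin f).size δ r = ∑ k, (f k).size δ r
  | 0, _ => rfl
  | n + 1, f => by
    rw [Fin.sum_univ_succ, ← size_sumFin δ r (fun k => f k.succ)]; rfl

theorem small_sumFin : ∀ {n : ℕ} {f : Fin n → Prog}, (∀ k, (f k).Small) → (Prog.sumFin f).Small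
  | 0, _, _ => trivial
  | n + 1, _, h => ⟨h 0, small_sumFin fun k => h k.succ⟩

theorem wf_sumFin : ∀ {n : ℕ} {f : Fin n → Prog}, (∀ k, (f k).WF δ r B T) →
    (Prog.sumFin f).WF δ r B T
  | 0, _, _ => trivial
  | n + 1, _, h => ⟨h 0, wf_sumFin fun k => h k.succ⟩

theorem sensLe_sumFin {v : ℕ → ℝ} : ∀ {n : ℕ} {f : Fin n → Prog}, (∀ k, (f k).SensLe δ B v) →
    (Prog.sumFin f).SensLe δ B v
  | 0, _, _ => trivial
  | n + 1, _, h => ⟨h 0, sensLe_sumFin fun k => h k.succ⟩

theorem levelGe_sumFin {l : ℕ} : ∀ {n : ℕ} {f : Fin n → Prog}, (∀ k, (f k).LevelGe l) →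
    (Prog.sumFin f).LevelGe l
  | 0, _, _ => trivial
  | n + 1, _, h => ⟨h 0, levelGe_sumFin fun k => h k.succ⟩

theorem depth_sumFin {D : ℕ} : ∀ {n : ℕ} {f : Fin n → Prog}, (∀ k, (f k).depth ≤ D) →
    (Prog.sumFin f).depth ≤ D
  | 0, _, _ => Nat.zero_le _
  | n + 1, _, h => max_le (h 0) (depth_sumFin fun k => h k.succ)

theorem nodes_sumFin {F : ℕ} : ∀ {n : ℕ} {f : Fin n → Prog}, (∀ k, (f k).nodes ≤ F) →
    (Prog.sumFin f).nodes ≤ n * (F + 1) + 1
  | 0, _, _ => by simp [Prog.sumFin, Prog.nodes]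
  | n + 1, f, h => by
    have h0 := h 0
    have h1 := nodes_sumFin fun k => h k.succ
    simp only [Prog.sumFin, Prog.nodes, Nat.add_mul]; omega

end Prog

namespace LProg

theorem norm'_sumFin (δ : ℕ → ℝ) : ∀ {n : ℕ} (f : Fin n → LProg),
    (LProg.sumFin f).norm' δ = ∑ k, (f k).norm' δ
  | 0, _ => rfl
  | n + 1, f => by
    rw [Fin.sum_univ_succ, ← norm'_sumFin δ (fun k => f k.succ)]; rfl

theorem small_sumFin : ∀ {n : ℕ} {f : Fin n → LProg}, (∀ k, (f k).Small) → (LProg.sumFin f).Small
  | 0, _, _ => trivial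
  | n + 1, _, h => ⟨h 0, small_sumFin fun k => h k.succ⟩

theorem wf_sumFin : ∀ {n : ℕ} {f : Fin n → LProg}, (∀ k, (f k).WF δ r B T) →
    (LProg.sumFin f).WF δ r B T
  | 0, _, _ => trivial
  | n + 1, _, h => ⟨h 0, wf_sumFin fun k => h k.succ⟩

theorem sensLe_sumFin {v : ℕ → ℝ} : ∀ {n : ℕ} {f : Fin n → LProg}, (∀ k, (f k).SensLe δ B v) →
    (LProg.sumFin f).SensLe δ B v
  | 0, _, _ => trivial
  | n + 1, _, h => ⟨h 0, sensLe_sumFin fun k => h k.succ⟩

theorem levelGe_sumFin {l : ℕ} : ∀ {n : ℕ} {f : Fin n → LProg}, (∀ k, (f k).LevelGe l) →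
    (LProg.sumFin f).LevelGe l
  | 0, _, _ => trivial
  | n + 1, _, h => ⟨h 0, levelGe_sumFin fun k => h k.succ⟩

theorem depth_sumFin {D : ℕ} : ∀ {n : ℕ} {f : Fin n → LProg}, (∀ k, (f k).depth ≤ D) →
    (LProg.sumFin f).depth ≤ D
  | 0, _, _ => Nat.zero_le _
  | n + 1, _, h => max_le (h 0) (depth_sumFin fun k => h k.succ)

theorem nodes_sumFin {F : ℕ} : ∀ {n : ℕ} {f : Fin n → LProg}, (∀ k, (f k).nodes ≤ F) →
    (LProg.sumFin f).nodes ≤ n * (F + 1) + 1
  | 0, _, _ => by simp [LProg.sumFin, LProg.nodes]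
  | n + 1, f, h => by
    have h0 := h 0
    have h1 := nodes_sumFin fun k => h k.succ
    simp only [LProg.sumFin, LProg.nodes, Nat.add_mul]; omega

end LProg

end Vale.Agent.P347
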