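import Vale.Agent.P347Zero.PhiSyn

/-!
P347, v5: syntactic bounds of the words in the Picard programs of one binder.
-/

open Real Finset

namespace Vale.Agent.P347

/-- The syntactic part of a conversion of programs of linear maps into programs, at exponent `e`. -/
def ConvSyn (e : ℕ) (δ : ℕ → ℝ) (r : ℝ) (Kc : ℕ → ℝ → ℕ) (Cc Tc : ℕ → ℝ → ℝ)
    (conv : LProg → Prog) : Prop :=
  ∀ (A : ℕ) (T B : ℝ) (W : LProg), 1 ≤ T → 1 ≤ B → r ≤ B → W.Small → W.WF δ r B T →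
    W.depth ≤ A →
    1 ≤ Tc A T ∧ (conv W).Small ∧ (∀ l, W.LevelGe l → (conv W).LevelGe l) ∧
      (conv W).WF δ r (Cc A T * B ^ e) (Tc A T) ∧ (conv W).depth ≤ Kc A T ∧
      (conv W).nodes ≤ Kc A T * W.nodes ^ Kc A T ∧
      (conv W).size δ r ≤ Cc A T * B ^ e * W.norm' δ ∧
      ∀ (v : ℕ → ℝ) (a B' : ℝ), (∀ i, 0 ≤ v i) → 0 ≤ a → 0 ≤ B' → W.SensLe δ B' v →
        (conv W).SensLe δ (Cc A T * B ^ e * (a + B')) (pushR a v)

/-- The hypotheses on the nodes and weights of a Picard iteration. -/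
structure PicardRule (R ρ₀ ρ₁ : ℝ) {n : ℕ} (ρ w : Fin n → ℝ) : Prop where
  node : ∀ k, 0 ≤ ρ k ∧ ρ k < 1
  weight : ∀ k, 0 ≤ w k
  sum_le : ∑ k, w k ≤ R
  kernel : ∑ k, w k * ρ k / cpl (ρ₀ * ρ k) ≤ R
  node₀ : 0 ≤ ρ₀ ∧ ρ₀ < 1
  node₁ : 0 ≤ ρ₁ ∧ ρ₁ < 1

theorem cpl_pos {ρ : ℝ} (h0 : 0 ≤ ρ) (h1 : ρ < 1) : 0 < cpl ρ :=
  Real.sqrt_pos.2 (by nlinarith)

theorem cpl_le_one (ρ : ℝ) : cpl ρ ≤ 1 :=
  Real.sqrt_le_one.2 (by nlinarith [sq_nonneg ρ])

/-- The unit motion of the two innermost inputs of a debias program. -/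
noncomputable def e1 (Δ : ℝ) : ℕ → ℝ := pushR 1 (pushR (√Δ) 0)

theorem e1_nonneg (Δ : ℝ) : ∀ i, 0 ≤ e1 Δ i :=
  pushR_nonneg zero_le_one (pushR_nonneg (Real.sqrt_nonneg Δ) fun _ => le_rfl)

theorem pair_le_e1 {a b Δ : ℝ} (ha : a ≤ 1) (hb : b ≤ √Δ) :
    ∀ i, pushR a (pushR b 0) i ≤ e1 Δ i := pushR_mono ha (pushR_mono hb fun _ => le_rfl)

theorem unit_shift (a : ℝ) :
    (pushR a 0 ∘ fun i : ℕ => (Nat.casesOn i 0 fun j => j + 3 : ℕ)) = pushR a 0 := by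
  funext i; cases i <;> rfl

namespace Binder

variable {D : Binder} {δ : ℕ → ℝ} {r B T X R : ℝ}

/-- The size of the binder, weighted. -/
noncomputable def U (D : Binder) (δ : ℕ → ℝ) (r : ℝ) : ℝ :=
  |D.lam| * (Prog.bind D.p D.Δ D.b).size δ r

/-- The standing hypotheses on a binder. -/
structure Ok (D : Binder) (δ : ℕ → ℝ) (r B T : ℝ) : Prop where
  delta : 0 ≤ δ
  r_one : 1 ≤ r
  B_one : 1 ≤ B
  r_le : r ≤ B
  T_one : 1 ≤ T
  wf : (Prog.bind D.p D.Δ D.b).WF δ r B T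
  sigma : 1 / 2 ≤ D.σ

namespace Ok

variable (h : D.Ok δ r B T)
include h

theorem U_nonneg : 0 ≤ D.U δ r :=
  mul_nonneg (abs_nonneg _) (Prog.size_nonneg h.delta (zero_le_one.trans h.r_one) _)

theorem body_small : D.b.Small := h.wf.2.2.2.2.1

theorem G_small : D.G.Small := (Prog.small_ren _ _).2 h.body_small

theorem G_sensLe {a b : ℝ} (hb0 : 0 ≤ b) (hb : b ≤ √D.Δ) :
    D.G.SensLe δ B (pushR a (pushR b 0)) := by
  show (D.b.ren Nat.succ).SensLe δ B _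
  rw [Prog.sensLe_ren]
  exact h.wf.2.2.2.2.2.mono h.delta le_rfl le_rfl (pushR_nonneg hb0 fun _ => le_rfl)
    (pushR_mono hb fun _ => le_rfl)

theorem body_lip : |D.lam| * D.b.lip δ (pushR (√D.Δ) 0) ≤ D.U δ r := by
  refine mul_le_mul_of_nonneg_left ?_ (abs_nonneg _)
  have hr := zero_le_one.trans h.r_one
  refine le_trans (D.b.lip_mono h.delta le_rfl (pushR_nonneg (Real.sqrt_nonneg _) fun _ => le_rfl)
    (pushR_mono (le_add_of_nonneg_right (D.p.size_nonneg h.delta hr)) fun _ => le_rfl)) ?_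
  exact le_add_of_nonneg_left (D.b.size_nonneg h.delta hr)

theorem G_lip : D.G.lip δ (pushR 0 (pushR (√D.Δ) 0)) ≤ D.U δ r := by
  show |D.lam| * (D.b.ren Nat.succ).lip δ _ ≤ _
  rw [Prog.lip_ren]
  exact h.body_lip

theorem var_pos {ρ : ℝ} (h0 : 0 ≤ ρ) (h1 : ρ < 1) : 0 < D.Δ * (1 - ρ ^ 2) :=
  mul_pos h.wf.1 (by nlinarith)

omit h in
theorem copyMean_lip (a b ρ : ℝ) :
    (D.copyMean ρ).lip δ (pushR a (pushR b 0)) = |ρ| * b := by
  show |1 - ρ| * (D.p.ren (· + 2)).lip δ _ + |ρ| * b = _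
  rw [Prog.lip_ren, show (pushR a (pushR b 0) ∘ (· + 2)) = (0 : ℕ → ℝ) from rfl, Prog.lip_zero_v,
    mul_zero, zero_add]

omit h in
theorem copyMean_sensLe {B' : ℝ} (hB : 0 ≤ B') (a b ρ : ℝ) :
    (D.copyMean ρ).SensLe δ B' (pushR a (pushR b 0)) := by
  refine ⟨?_, trivial⟩
  show (D.p.ren (· + 2)).SensLe δ B' _
  rw [Prog.sensLe_ren]
  exact Prog.sensLe_zero hB D.p

theorem copyMean_wf {B' T' : ℝ} (hB : B ≤ B') (hT : T ≤ T') (ρ : ℝ) :
    (D.copyMean ρ).WF δ r B' T' := by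
  refine ⟨?_, trivial⟩
  show (D.p.ren (· + 2)).WF δ r B' T'
  rw [Prog.wf_ren]
  exact h.wf.2.1.mono h.delta le_rfl (zero_le_one.trans h.r_one) le_rfl hB
    (zero_lt_one.trans_le h.T_one) hT

theorem copyMean_size {ρ : ℝ} (h0 : 0 ≤ ρ) (h1 : ρ < 1) :
    (D.copyMean ρ).size δ r ≤ B * √(D.Δ * (1 - ρ ^ 2)) := by
  show |1 - ρ| * (D.p.ren (· + 2)).size δ r + |ρ| * 0 ≤ _
  rw [Prog.size_ren, mul_zero, add_zero, abs_of_nonneg (by linarith : 0 ≤ 1 - ρ),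
    Real.sqrt_mul h.wf.1.le]
  have hs : 1 - ρ ≤ √(1 - ρ ^ 2) := Real.le_sqrt_of_sq_le (by nlinarith)
  calc (1 - ρ) * D.p.size δ r ≤ √(1 - ρ ^ 2) * (B * √D.Δ) :=
        mul_le_mul hs h.wf.2.2.2.1 (D.p.size_nonneg h.delta (zero_le_one.trans h.r_one))
          (Real.sqrt_nonneg _)
    _ = B * (√D.Δ * √(1 - ρ ^ 2)) := by ring

/-- The noise of a copy, in units of the sampled point. -/
theorem copyMean_arg {ρ : ℝ} (h0 : 0 ≤ ρ) (h1 : ρ < 1) :
    0 ≤ √(D.Δ * (1 - ρ ^ 2)) + (D.copyMean ρ).size δ r ∧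
      √(D.Δ * (1 - ρ ^ 2)) + (D.copyMean ρ).size δ r ≤ (1 + B) * √D.Δ := by
  have hs : √(D.Δ * (1 - ρ ^ 2)) ≤ √D.Δ :=
    Real.sqrt_le_sqrt (mul_le_of_le_one_right h.wf.1.le (by nlinarith [sq_nonneg ρ]))
  refine ⟨add_nonneg (Real.sqrt_nonneg _)
    ((D.copyMean ρ).size_nonneg h.delta (zero_le_one.trans h.r_one)), ?_⟩
  have := (h.copyMean_size h0 h1).trans
    (mul_le_mul_of_nonneg_left hs (zero_le_one.trans h.B_one))
  linarith

/-! ### The words -/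

variable {n : ℕ} {ρ w : Fin n → ℝ} {Φ : Prog}

theorem shifted_body_wf (hB : B ≤ X) :
    (Prog.smul D.lam (D.b.ren fun i => Nat.casesOn i 0 fun j => j + 3)).WF δ r X T := by
  show (D.b.ren fun i => Nat.casesOn i 0 fun j => j + 3).WF δ r X T
  rw [Prog.wf_ren]
  exact h.wf.2.2.1.mono h.delta le_rfl (zero_le_one.trans h.r_one) le_rfl hB
    (zero_lt_one.trans_le h.T_one) le_rfl

theorem shifted_body_sensLe (hB : B ≤ X) {a b c : ℝ} (ha : 0 ≤ a) (ha' : a ≤ √D.Δ) :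
    (Prog.smul D.lam (D.b.ren fun i => Nat.casesOn i 0 fun j => j + 3)).SensLe δ X
      (pushR a (pushR b (pushR c 0))) := by
  show (D.b.ren fun i => Nat.casesOn i 0 fun j => j + 3).SensLe δ X _
  rw [Prog.sensLe_ren]
  refine h.wf.2.2.2.2.2.mono h.delta le_rfl hB (fun i => ?_) fun i => ?_
  · cases i with
    | zero => exact ha
    | succ j => exact le_rfl
  · cases i with
    | zero => exact ha'
    | succ j => exact le_rfl

theorem shifted_body_norm (L : LProg) :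
    ((Prog.smul D.lam (D.b.ren fun i => Nat.casesOn i 0 fun j => j + 3)).fwd 0
      (.smul (√D.Δ) (L.lift 0))).norm' δ ≤ D.U δ r * L.norm' δ := by
  refine (Prog.norm'_fwd_le h.delta _ _ _).trans ?_
  show |D.lam| * (D.b.ren fun i => Nat.casesOn i 0 fun j => j + 3).lip δ (unitV 0)
      * (|√D.Δ| * (L.lift 0).norm' δ) ≤ _
  rw [Prog.lip_ren, LProg.norm'_lift, abs_of_nonneg (Real.sqrt_nonneg D.Δ), unitV_zero, unit_shift]
  calc |D.lam| * D.b.lip δ (pushR 1 0) * (√D.Δ * L.norm' δ)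
      = |D.lam| * (√D.Δ * D.b.lip δ (pushR 1 0)) * L.norm' δ := by ring
    _ ≤ D.U δ r * L.norm' δ := by
        refine mul_le_mul_of_nonneg_right ?_ (LProg.norm'_nonneg h.delta L)
        rw [← Prog.lip_smul_v, smul_pushR_zero, mul_one]
        exact h.body_lip

theorem difW_wf (hB : B ≤ X) (hw : Φ.WF δ r X T) (hρ : ∀ k, 0 ≤ ρ k ∧ ρ k < 1) {L : LProg}
    (hL : L.WF δ r X T) : (D.difW Φ ρ w L).WF δ r X T := by
  have hX : 0 ≤ X := (zero_le_one.trans h.B_one).trans hB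
  refine ⟨Prog.wf_fwd hX Φ _ _ hw hL, LProg.wf_sumFin fun k => ?_⟩
  refine ⟨h.var_pos (hρ k).1 (hρ k).2, h.copyMean_wf hB le_rfl _,
    Prog.wf_fwd hX _ _ _ (h.shifted_body_wf hB) ((LProg.wf_lift δ r X T L 0).2 hL),
    (h.copyMean_size (hρ k).1 (hρ k).2).trans
      (mul_le_mul_of_nonneg_right hB (Real.sqrt_nonneg _)),
    Prog.sensLe_fwd _ _ _ _ ?_ (L.sensLe_lift_push hX _)⟩
  show (D.b.ren fun i => Nat.casesOn i 0 fun j => j + 3).SensLe δ X _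
  rw [Prog.sensLe_ren, unit_shift]
  exact h.wf.2.2.2.2.2.mono h.delta le_rfl hB (pushR_nonneg (Real.sqrt_nonneg _) fun _ => le_rfl)
    (pushR_mono (Real.sqrt_le_sqrt (mul_le_of_le_one_right h.wf.1.le
      (by nlinarith [sq_nonneg (ρ k)]))) fun _ => le_rfl)

theorem difW_sensLe (hB : B ≤ X) (hs : Φ.SensLe δ X (e1 D.Δ)) (hρ : ∀ k, 0 ≤ ρ k ∧ ρ k < 1)
    {L : LProg} (hL : L.SensLe δ X (e1 D.Δ)) : (D.difW Φ ρ w L).SensLe δ X (e1 D.Δ) := by
  have hX : 0 ≤ X := (zero_le_one.trans h.B_one).trans hB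
  refine ⟨Φ.sensLe_fwd _ _ _ hs hL, LProg.sensLe_sumFin fun k => ⟨copyMean_sensLe hX _ _ _, ?_⟩⟩
  refine Prog.sensLe_fwd _ _ _ _ ?_ ((LProg.sensLe_lift δ X L 0 _).2 ?_)
  · rw [e1, copyMean_lip, abs_of_nonneg (hρ k).1]
    exact h.shifted_body_sensLe hB (mul_nonneg (hρ k).1 (Real.sqrt_nonneg _))
      (mul_le_of_le_one_left (Real.sqrt_nonneg _) (hρ k).2.le)
  · rw [pushR_comp_shiftUp_zero]
    exact hL

theorem difW_norm {Z : ℝ} (hZ : Φ.lip δ (e1 D.Δ) ≤ Z) (hw : ∀ k, 0 ≤ w k) (hR : ∑ k, w k ≤ R)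
    (L : LProg) : (D.difW Φ ρ w L).norm' δ ≤ (Z + R * D.U δ r) * L.norm' δ := by
  have hn := LProg.norm'_nonneg h.delta L
  rw [add_mul]
  refine add_le_add ?_ ?_
  · refine (Φ.norm'_fwd_le h.delta _ _).trans ?_
    show Φ.lip δ (unitV 1) * (|√D.Δ| * L.norm' δ) ≤ _
    rw [abs_of_nonneg (Real.sqrt_nonneg D.Δ), ← mul_assoc, mul_comm _ (√D.Δ),
      ← Prog.lip_smul_v, unitV_one, smul_pushR_pair, mul_zero, mul_one]
    exact mul_le_mul_of_nonneg_right ((Φ.lip_mono h.delta le_rfl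
      (pushR_nonneg le_rfl (pushR_nonneg (Real.sqrt_nonneg _) fun _ => le_rfl))
      (pair_le_e1 zero_le_one le_rfl)).trans hZ) hn
  · simp only [LProg.norm', LProg.norm'_sumFin, abs_neg, abs_one, one_mul]
    calc ∑ k, |w k| * _ ≤ ∑ k, w k * (D.U δ r * L.norm' δ) := sum_le_sum fun k _ => by
          rw [abs_of_nonneg (hw k)]
          exact mul_le_mul_of_nonneg_left (h.shifted_body_norm L) (hw k)
      _ ≤ R * D.U δ r * L.norm' δ := by
          rw [← sum_mul, mul_assoc]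
          exact mul_le_mul_of_nonneg_right hR (mul_nonneg h.U_nonneg hn)

theorem wordT_norm {Z : ℝ} (hZ : Φ.lip δ (e1 D.Δ) ≤ Z) (hR1 : 1 ≤ R) (hw : ∀ k, 0 ≤ w k)
    (hR : ∑ k, w k ≤ R) (L : LProg) :
    (D.wordT Φ ρ w L).norm' δ ≤ 2 * R * (D.U δ r + Z) ^ 2 * L.norm' δ := by
  have hn := LProg.norm'_nonneg h.delta L
  have hU := h.U_nonneg
  have hZ0 : 0 ≤ Z := (Φ.lip_nonneg h.delta (e1_nonneg _)).trans hZ
  have h0 : Φ.lip δ (unitV 0) ≤ Z := by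
    rw [unitV_zero]
    exact (Φ.lip_mono h.delta le_rfl (pushR_nonneg zero_le_one fun _ => le_rfl)
      (pushR_mono le_rfl (pushR_nonneg (Real.sqrt_nonneg _) fun _ => le_rfl))).trans hZ
  have ha : (Φ.adj 0 L).norm' δ ≤ Z * L.norm' δ :=
    (Φ.norm'_adj_le h.delta _ _).trans (mul_le_mul_of_nonneg_right h0 hn)
  have hb : (Φ.fwd 0 (Φ.adj 0 L)).norm' δ ≤ Z * (Z * L.norm' δ) :=
    (Φ.norm'_fwd_le h.delta _ _).trans (mul_le_mul h0 ha (LProg.norm'_nonneg h.delta _) hZ0)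
  have hc : (LProg.smul (√D.Δ) ((Prog.add D.G Φ).adj 1 L)).norm' δ
      ≤ (D.U δ r + Z) * L.norm' δ := by
    show |√D.Δ| * ((Prog.add D.G Φ).adj 1 L).norm' δ ≤ _
    rw [abs_of_nonneg (Real.sqrt_nonneg D.Δ)]
    refine (mul_le_mul_of_nonneg_left ((Prog.add D.G Φ).norm'_adj_le h.delta 1 L)
      (Real.sqrt_nonneg _)).trans ?_
    rw [← mul_assoc, ← Prog.lip_smul_v, unitV_one, smul_pushR_pair, mul_zero, mul_one]
    exact mul_le_mul_of_nonneg_right (add_le_add h.G_lip ((Φ.lip_mono h.delta le_rfl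
      (pushR_nonneg le_rfl (pushR_nonneg (Real.sqrt_nonneg _) fun _ => le_rfl))
      (pair_le_e1 zero_le_one le_rfl)).trans hZ)) hn
  have hd := (h.difW_norm (ρ := ρ) hZ hw hR (.smul (√D.Δ) ((Prog.add D.G Φ).adj 1 L))).trans
    (mul_le_mul_of_nonneg_left hc (add_nonneg hZ0 (mul_nonneg (by linarith) hU)))
  refine (add_le_add hd hb).trans ?_
  have k1 : Z + R * D.U δ r ≤ R * (D.U δ r + Z) := by nlinarith
  have k2 : (Z + R * D.U δ r) * (D.U δ r + Z) ≤ R * (D.U δ r + Z) ^ 2 := by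
    rw [pow_two, ← mul_assoc]; exact mul_le_mul_of_nonneg_right k1 (by linarith)
  have k3 : Z * Z ≤ R * (D.U δ r + Z) ^ 2 :=
    le_trans (by nlinarith) (le_mul_of_one_le_left (sq_nonneg _) hR1)
  calc (Z + R * D.U δ r) * ((D.U δ r + Z) * L.norm' δ) + Z * (Z * L.norm' δ)
      = ((Z + R * D.U δ r) * (D.U δ r + Z) + Z * Z) * L.norm' δ := by ring
    _ ≤ 2 * R * (D.U δ r + Z) ^ 2 * L.norm' δ :=
        mul_le_mul_of_nonneg_right (by linarith) hn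

theorem crossT_norm {Z : ℝ} (hZ : Φ.lip δ (e1 D.Δ) ≤ Z) (hσ : Z ≤ D.σ) :
    ∀ i, (D.crossT Φ i).norm' δ ≤ 1
  | 0 => le_rfl
  | i + 1 => by
    have hσ0 : 0 < D.σ := by linarith [h.sigma]
    have h0 : Φ.lip δ (unitV 0) ≤ D.σ := by
      rw [unitV_zero]
      exact ((Φ.lip_mono h.delta le_rfl (pushR_nonneg zero_le_one fun _ => le_rfl)
        (pushR_mono le_rfl (pushR_nonneg (Real.sqrt_nonneg _) fun _ => le_rfl))).trans hZ).trans hσ
    refine (Φ.norm'_adj_le h.delta _ _).trans ?_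
    show Φ.lip δ (unitV 0) * (|-D.σ⁻¹| * (D.crossT Φ i).norm' δ) ≤ 1
    rw [abs_neg, abs_of_pos (inv_pos.2 hσ0)]
    calc Φ.lip δ (unitV 0) * (D.σ⁻¹ * (D.crossT Φ i).norm' δ)
        ≤ D.σ * (D.σ⁻¹ * 1) := mul_le_mul h0
          (mul_le_mul_of_nonneg_left (crossT_norm hZ hσ i) (inv_pos.2 hσ0).le)
          (mul_nonneg (inv_pos.2 hσ0).le (LProg.norm'_nonneg h.delta _)) hσ0.le
      _ = 1 := by rw [mul_one, mul_inv_cancel₀ hσ0.ne']

theorem crossT_wf (hX : 0 ≤ X) (hw : Φ.WF δ r X T) : ∀ i, (D.crossT Φ i).WF δ r X T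
  | 0 => trivial
  | i + 1 => Prog.wf_adj hX Φ _ _ hw (crossT_wf hX hw i)

omit h in
theorem crossT_sensLe {v : ℕ → ℝ} (hs : Φ.SensLe δ X v) : ∀ i, (D.crossT Φ i).SensLe δ X v
  | 0 => trivial
  | i + 1 => Φ.sensLe_adj _ _ _ hs (crossT_sensLe hs i)

theorem sumT_syn (hB : B ≤ X) (hsm : Φ.Small) (hw : Φ.WF δ r X T)
    (hs : Φ.SensLe δ X (e1 D.Δ)) (hρ : ∀ k, 0 ≤ ρ k ∧ ρ k < 1) (q : ℕ) :
    (D.sumT Φ ρ w q).Small ∧ (D.sumT Φ ρ w q).WF δ r X T ∧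
      (D.sumT Φ ρ w q).SensLe δ X (e1 D.Δ) := by
  have hX : 0 ≤ X := (zero_le_one.trans h.B_one).trans hB
  refine ⟨LProg.small_sumFin fun i => ?_, LProg.wf_sumFin fun i => ?_,
    LProg.sensLe_sumFin fun i => ?_⟩
  · have hL : ((Prog.add D.G Φ).adj 1 (D.crossT Φ i)).Small :=
      LProg.small_adj (p := Prog.add D.G Φ) ⟨h.G_small, hsm⟩ 1 _
    refine ⟨⟨Φ.small_fwd _ _ (Or.inl hsm), LProg.small_sumFin fun k => ?_⟩,
      Φ.small_fwd _ _ (Or.inl hsm)⟩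
    exact Prog.small_fwd _ _ _ (Or.inl ((Prog.small_ren _ _).2 h.body_small))
  · have hc := h.crossT_wf hX hw i
    have hG : D.G.WF δ r X T := by
      show (D.b.ren Nat.succ).WF δ r X T
      rw [Prog.wf_ren]
      exact h.wf.2.2.1.mono h.delta le_rfl (zero_le_one.trans h.r_one) le_rfl hB
        (zero_lt_one.trans_le h.T_one) le_rfl
    exact ⟨h.difW_wf hB hw hρ (Prog.wf_adj hX _ _ _ (show (Prog.add D.G Φ).WF δ r X T from ⟨hG, hw⟩) hc),
      Prog.wf_fwd hX Φ _ _ hw (Prog.wf_adj hX Φ _ _ hw hc)⟩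
  · have hc := crossT_sensLe (D := D) hs i
    have hG : (Prog.add D.G Φ).SensLe δ X (e1 D.Δ) :=
      ⟨(h.G_sensLe (Real.sqrt_nonneg _) le_rfl).mono h.delta le_rfl hB (e1_nonneg _) fun _ => le_rfl,
        hs⟩
    exact ⟨h.difW_sensLe hB hs hρ ((Prog.add D.G Φ).sensLe_adj _ _ _ hG hc),
      Φ.sensLe_fwd _ _ _ hs (Φ.sensLe_adj _ _ _ hs hc)⟩

theorem sumT_norm {Z : ℝ} (hZ : Φ.lip δ (e1 D.Δ) ≤ Z) (hσ : Z ≤ D.σ) (hR1 : 1 ≤ R)
    (hw : ∀ k, 0 ≤ w k) (hR : ∑ k, w k ≤ R) (q : ℕ) :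
    (D.sumT Φ ρ w q).norm' δ ≤ q * (2 * R * (D.U δ r + Z) ^ 2) := by
  rw [Binder.sumT, LProg.norm'_sumFin]
  refine (sum_le_sum fun (i : Fin q) _ => (h.wordT_norm (ρ := ρ) hZ hR1 hw hR (D.crossT Φ i)).trans
    (mul_le_of_le_one_right (mul_nonneg (by linarith) (sq_nonneg _))
      (h.crossT_norm hZ hσ i))).trans ?_
  rw [sum_const, card_univ, Fintype.card_fin, nsmul_eq_mul]

theorem sumT_levelGe {l : ℕ} (hl : (Prog.bind D.p D.Δ D.b).LevelGe l) (hΦ : Φ.LevelGe l) (q : ℕ) :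
    (D.sumT Φ ρ w q).LevelGe l := by
  have hc : ∀ i, (D.crossT Φ i).LevelGe l := fun i => by
    induction i with
    | zero => trivial
    | succ i ih => exact Φ.levelGe_adj _ _ hΦ ih
  have hG : (Prog.add D.G Φ).LevelGe l := ⟨(Prog.levelGe_ren l _ _).2 hl.2, hΦ⟩
  refine LProg.levelGe_sumFin fun i => ?_
  have ha : ((Prog.add D.G Φ).adj 1 (D.crossT Φ i)).LevelGe l :=
    (Prog.add D.G Φ).levelGe_adj _ _ hG (hc i)
  refine ⟨⟨Φ.levelGe_fwd _ _ hΦ ha, LProg.levelGe_sumFin fun k => ⟨⟨?_, trivial⟩, ?_⟩⟩,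
    Φ.levelGe_fwd _ _ hΦ (Φ.levelGe_adj _ _ hΦ (hc i))⟩
  · exact (Prog.levelGe_ren l _ _).2 hl.1
  · exact Prog.levelGe_fwd _ _ _ ((Prog.levelGe_ren l _ _).2 hl.2)
      ((LProg.levelGe_lift l _ 0).2 ha)

end Ok

/-- A depth bound for the words. -/
def wordDepth (q a : ℕ) : ℕ := (q + 3) * 3 ^ a + 1

theorem sumT_depth {n : ℕ} {ρ w : Fin n → ℝ} {Φ : Prog} {a : ℕ}
    (hb : (Prog.bind D.p D.Δ D.b).depth ≤ a) (hΦ : Φ.depth ≤ a) (q : ℕ) :
    (D.sumT Φ ρ w q).depth ≤ wordDepth q a := by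
  simp only [Prog.depth] at hb
  have hp : D.p.depth ≤ a := by omega
  have hbd : D.b.depth ≤ a := by omega
  have h3 : ∀ {x : ℕ}, x ≤ a → 3 ^ x ≤ 3 ^ a := fun hx => Nat.pow_le_pow_right (by omega) hx
  have hc : ∀ i, (D.crossT Φ i).depth ≤ i * 3 ^ a := fun i => by
    induction i with
    | zero => simp [Binder.crossT, LProg.depth]
    | succ i ih =>
      refine (Φ.depth_adj_le _ _).trans ?_
      simp only [LProg.depth]
      have := h3 hΦ
      rw [Nat.succ_mul]; omega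
  refine LProg.depth_sumFin fun i => ?_
  have hi : (D.crossT Φ i).depth ≤ q * 3 ^ a :=
    (hc i).trans (Nat.mul_le_mul_right _ i.isLt.le)
  have hG : (Prog.add D.G Φ).depth ≤ a := by
    simp only [Prog.depth, Binder.G, Prog.depth_ren]; omega
  have ha : ((Prog.add D.G Φ).adj 1 (D.crossT Φ i)).depth ≤ (q + 1) * 3 ^ a := by
    refine ((Prog.add D.G Φ).depth_adj_le _ _).trans ?_
    have := h3 hG
    rw [Nat.succ_mul]; omega
  have hL : (LProg.smul (√D.Δ) ((Prog.add D.G Φ).adj 1 (D.crossT Φ i))).depth ≤ (q + 1) * 3 ^ a := ha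
  have e3 : wordDepth q a = q * 3 ^ a + 3 * 3 ^ a + 1 := by rw [wordDepth]; ring
  have eq1 : (q + 1) * 3 ^ a = q * 3 ^ a + 3 ^ a := by ring
  rw [e3]
  refine max_le (max_le ?_ ?_) ?_
  · refine (Φ.depth_fwd_le _ _).trans ?_
    have := h3 hΦ
    simp only [LProg.depth]; omega
  · show (LProg.sumFin _).depth ≤ _
    refine LProg.depth_sumFin fun k => ?_
    show max (D.copyMean (ρ k)).depth _ + 1 ≤ _
    have h1 : (D.copyMean (ρ k)).depth ≤ a := by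
      simp only [Binder.copyMean, Prog.depth, Prog.depth_ren]; omega
    have h2 := Prog.depth_fwd_le
      (Prog.smul D.lam (D.b.ren fun i => Nat.casesOn i 0 fun j => j + 3)) 0
      (.smul (√D.Δ) ((LProg.smul (√D.Δ) ((Prog.add D.G Φ).adj 1 (D.crossT Φ i))).lift 0))
    simp only [Prog.depth, Prog.depth_ren, LProg.depth, LProg.depth_lift] at h2
    have := h3 hbd
    have := (Nat.lt_pow_self (n := a) (show 1 < 3 by omega)).le
    simp only [Prog.depth, Prog.depth_ren, LProg.depth, LProg.depth_lift] at *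
    omega
  · refine (Φ.depth_fwd_le _ _).trans ?_
    have := h3 hΦ
    have := Φ.depth_adj_le 0 (D.crossT Φ i)
    omega

end Binder

/-- Powers of a base absorb one more unit. -/
theorem succ_le_pow {S a x : ℕ} (hS : 2 ≤ S) (hx : x ≤ S ^ a) : x + 1 ≤ S ^ (a + 1) := by
  have h := add_le_pow hS hx (show 1 ≤ S ^ 0 by simp)
  rwa [Nat.max_zero] at h

theorem mul_le_pow {S a b x y : ℕ} (hx : x ≤ S ^ a) (hy : y ≤ S ^ b) : x * y ≤ S ^ (a + b) := by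
  rw [pow_add]; exact Nat.mul_le_mul hx hy

theorem sum_le_pow {S a m F : ℕ} (b : ℕ) (hS : 2 ≤ S) (hm : m + 1 ≤ S ^ b) (hF : F ≤ S ^ a) :
    m * (F + 1) + 1 ≤ S ^ (b + (a + 1)) := by
  refine le_trans ?_ (mul_le_pow hm (succ_le_pow hS hF))
  rw [Nat.succ_mul]; omega

theorem two_mul_nodes_pow {S a c : ℕ} {p : Prog} (hS : 2 ≤ S) (hd : p.depth ≤ a)
    (hn : p.nodes ≤ S ^ c) : (2 * p.nodes) ^ (3 ^ p.depth) ≤ S ^ ((c + 1) * 3 ^ a) := by
  refine (Nat.pow_le_pow_left (show 2 * p.nodes ≤ S ^ (c + 1) by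
    rw [pow_succ, Nat.mul_comm]; exact Nat.mul_le_mul hn hS) _).trans ?_
  rw [← pow_mul]
  exact Nat.pow_le_pow_right (by omega)
    (Nat.mul_le_mul_left _ (Nat.pow_le_pow_right (by omega) hd))

namespace Binder

variable {D : Binder}

/-- The exponent of the node count of the words. -/
def wordExp (q a c : ℕ) : ℕ := (q + 2) * ((c + 3) * 3 ^ a + 1) + q + 16

theorem sumT_nodes {n : ℕ} {ρ w : Fin n → ℝ} {Φ : Prog} {a c S : ℕ} (hS : 2 ≤ S)
    (hn : n + 1 ≤ S) (hbn : (Prog.bind D.p D.Δ D.b).nodes ≤ S)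
    (hb : (Prog.bind D.p D.Δ D.b).depth ≤ a) (hΦ : Φ.depth ≤ a) (hΦn : Φ.nodes ≤ S ^ c) (q : ℕ) :
    (D.sumT Φ ρ w q).nodes ≤ S ^ wordExp q a c := by
  simp only [Prog.depth] at hb
  simp only [Prog.nodes] at hbn
  have hpn : D.p.nodes ≤ S ^ 1 := by rw [pow_one]; omega
  have hbn' : D.b.nodes ≤ S ^ 1 := by rw [pow_one]; omega
  obtain ⟨ex, hex⟩ : ∃ ex, (c + 3) * 3 ^ a = ex := ⟨_, rfl⟩
  have hpow : ∀ {p : Prog} {c' : ℕ}, p.depth ≤ a → p.nodes ≤ S ^ c' → c' ≤ c + 2 →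
      (2 * p.nodes) ^ (3 ^ p.depth) ≤ S ^ ex := fun hd hp hc =>
    (two_mul_nodes_pow hS hd hp).trans
      (Nat.pow_le_pow_right (by omega) (hex ▸ Nat.mul_le_mul_right _ (by omega)))
  have hΦ' := hpow hΦ hΦn (by omega)
  have hc : ∀ i, (D.crossT Φ i).nodes ≤ S ^ ((ex + 1) * i) := fun i => by
    induction i with
    | zero => simp [Binder.crossT, LProg.nodes]
    | succ i ih =>
      refine (Φ.nodes_adj_le _ _).trans ?_
      simp only [LProg.nodes]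
      refine (mul_le_pow hΦ' (succ_le_pow hS ih)).trans (le_of_eq ?_)
      ring_nf
  have hb' : (Prog.smul D.lam (D.b.ren fun i => Nat.casesOn i 0 fun j => j + 3)).nodes
      ≤ S ^ 2 := by
    simp only [Prog.nodes, Prog.nodes_ren]; exact succ_le_pow hS hbn'
  have hbd' : (Prog.smul D.lam (D.b.ren fun i => Nat.casesOn i 0 fun j => j + 3)).depth ≤ a := by
    simp only [Prog.depth, Prog.depth_ren]; omega
  have hGn : (Prog.add D.G Φ).nodes ≤ S ^ (c + 2) := by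
    simp only [Prog.nodes, Binder.G, Prog.nodes_ren]
    have h2 : D.b.nodes + 1 + 1 ≤ S ^ (c + 1) := by
      refine le_trans (show D.b.nodes + 1 + 1 ≤ S ^ 1 by
        rw [pow_one]; have := D.p.one_le_nodes; omega) (Nat.pow_le_pow_right (by omega) (by omega))
    have h4 := add_le_pow hS hΦn h2
    rw [max_eq_right (by omega : c ≤ c + 1), show c + 1 + 1 = c + 2 from rfl] at h4
    show D.b.nodes + 1 + Φ.nodes + 1 ≤ _
    have e : D.b.nodes + 1 + Φ.nodes + 1 = Φ.nodes + (D.b.nodes + 1 + 1) := by ring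
    omega
  have hGd : (Prog.add D.G Φ).depth ≤ a := by
    simp only [Prog.depth, Binder.G, Prog.depth_ren]; omega
  obtain ⟨m, hm⟩ : ∃ m, (ex + 1) * q = m := ⟨_, rfl⟩
  refine (LProg.nodes_sumFin (F := S ^ (2 * ex + m + 14)) fun i => ?_).trans
    ((sum_le_pow q hS (Nat.lt_two_pow_self.trans_le (Nat.pow_le_pow_left hS q)) le_rfl).trans
      (Nat.pow_le_pow_right (by omega) ?_))
  · have hi : (D.crossT Φ i).nodes ≤ S ^ m :=
      (hc i).trans (Nat.pow_le_pow_right (by omega) (hm ▸ Nat.mul_le_mul_left _ i.isLt.le))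
    set L := LProg.smul (√D.Δ) ((Prog.add D.G Φ).adj 1 (D.crossT Φ i)) with hLdef
    have hL : L.nodes ≤ S ^ (ex + m + 1) :=
      succ_le_pow hS (((Prog.add D.G Φ).nodes_adj_le _ _).trans
        (mul_le_pow (hpow hGd hGn le_rfl) hi))
    have hF : (Φ.fwd 1 (.smul (√D.Δ) L)).nodes ≤ S ^ (2 * ex + m + 2) :=
      ((Φ.nodes_fwd_le _ _).trans (mul_le_pow hΦ' (succ_le_pow hS hL))).trans
        (Nat.pow_le_pow_right (by omega) (by omega))
    have hbody : ∀ k, (LProg.smul (w k) (.bind (D.copyMean (ρ k)) (D.Δ * (1 - ρ k ^ 2))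
        ((Prog.smul D.lam (D.b.ren fun i => Nat.casesOn i 0 fun j => j + 3)).fwd 0
          (.smul (√D.Δ) (L.lift 0))))).nodes ≤ S ^ (2 * ex + m + 6) := fun k => by
      have h1 : ((Prog.smul D.lam (D.b.ren fun i => Nat.casesOn i 0 fun j => j + 3)).fwd 0
          (.smul (√D.Δ) (L.lift 0))).nodes ≤ S ^ (2 * ex + m + 3) := by
        refine ((Prog.nodes_fwd_le _ _ _).trans (mul_le_pow (hpow hbd' hb' (by omega))
          (y := (LProg.smul (√D.Δ) (L.lift 0)).nodes) (b := ex + m + 2) ?_)).trans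
          (Nat.pow_le_pow_right (by omega) (by omega))
        simp only [LProg.nodes, LProg.nodes_lift]
        exact succ_le_pow hS hL
      have h2 : (D.copyMean (ρ k)).nodes ≤ S ^ 3 := by
        simp only [Binder.copyMean, Prog.nodes, Prog.nodes_ren]
        have h8 : 4 ≤ S ^ 2 := le_trans (by norm_num) (Nat.pow_le_pow_left hS 2)
        have h5 := add_le_pow hS hpn h8
        rw [max_eq_right (by omega : 1 ≤ 2)] at h5
        omega
      show (D.copyMean (ρ k)).nodes + _ + 1 + 1 ≤ _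
      refine le_trans (succ_le_pow hS (succ_le_pow hS (add_le_pow hS h2 h1)))
        (Nat.pow_le_pow_right (by omega) (by omega))
    have hS1 : n + 1 ≤ S ^ 1 := by rw [pow_one]; exact hn
    have hsum := (LProg.nodes_sumFin hbody).trans (sum_le_pow 1 hS hS1 le_rfl)
    have hlast : (Φ.fwd 0 (Φ.adj 0 (D.crossT Φ i))).nodes ≤ S ^ (2 * ex + m) :=
      ((Φ.nodes_fwd_le _ _).trans (mul_le_pow hΦ'
        ((Φ.nodes_adj_le _ _).trans (mul_le_pow hΦ' hi)))).trans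
        (Nat.pow_le_pow_right (by omega) (by omega))
    refine le_trans (succ_le_pow hS (add_le_pow hS
      (succ_le_pow hS (add_le_pow hS hF (succ_le_pow hS hsum))) hlast))
      (Nat.pow_le_pow_right (by omega) (by omega))
  · rw [wordExp, hex, show (q + 2) * (ex + 1) = (ex + 1) * q + 2 * ex + 2 by ring, hm]
    omega

end Binder

end Vale.Agent.P347
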