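import Vale.Agent.P347.Defs
import Vale.Agent.P347.Shortcuts

/-!
P347: straight-line programs of calls to smoothed fields indexed by levels, their meaning and their size.

A program is evaluated in an environment of inputs (de Bruijn indices). `bind p Δ b` evaluates `b`
with one more input drawn from the Gaussian law with mean `p` and variance `Δ`; the body never
refers to `p` itself, only to the drawn point.
-/

open MeasureTheory ProbabilityTheory Real

namespace Vale.Agent.P347

/-- Programs of smoothed gradient calls. -/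
inductive Prog : Type
  | inp (i : ℕ)
  | zero
  | add (p q : Prog)
  | smul (c : ℝ) (p : Prog)
  | call (ℓ : ℕ) (τ : ℝ) (p : Prog)
  | bind (p : Prog) (Δ : ℝ) (b : Prog)

/-- Environments of inputs. -/
abbrev Env (d : ℕ) := ℕ → E d

/-- A new input in front of an environment. -/
def push {d : ℕ} (a : E d) (env : Env d) : Env d
  | 0 => a
  | i + 1 => env i

/-- A new bound in front of a vector of bounds. -/
def pushR (a : ℝ) (v : ℕ → ℝ) : ℕ → ℝ
  | 0 => a
  | i + 1 => v i

variable {d : ℕ}

/-- The exact value of a program. -/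
noncomputable def Prog.sem (g : ℕ → E d → E d) : Prog → Env d → E d
  | .inp i, env => env i
  | .zero, _ => 0
  | .add p q, env => p.sem g env + q.sem g env
  | .smul c p, env => c • p.sem g env
  | .call ℓ τ p, env => Psm τ (g ℓ) (p.sem g env)
  | .bind p Δ b, env => ∫ w, b.sem g (push (p.sem g env + √Δ • w) env) ∂gau (Fin d)

/-- A Lipschitz bound when input `i` moves by at most `v i`, for a `δ`-Lipschitz field. -/
noncomputable def Prog.lip (δ : ℕ → ℝ) : Prog → (ℕ → ℝ) → ℝ
  | .inp i, v => v i
  | .zero, _ => 0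
  | .add p q, v => p.lip δ v + q.lip δ v
  | .smul c p, v => |c| * p.lip δ v
  | .call ℓ _ p, v => δ ℓ * p.lip δ v
  | .bind p _ b, v => b.lip δ (pushR (p.lip δ v) v)

/-- The size of the sampling noise of a program, for a field analytic at radius `r`. -/
noncomputable def Prog.size (δ : ℕ → ℝ) (r : ℝ) : Prog → ℝ
  | .inp _ => 0
  | .zero => 0
  | .add p q => p.size δ r + q.size δ r
  | .smul c p => |c| * p.size δ r
  | .call ℓ _ p => δ ℓ * (r + p.size δ r)
  | .bind p Δ b => b.size δ r + b.lip δ (pushR (√Δ + p.size δ r) 0)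

/-- Inputs occur only inside calls. -/
def Prog.Small : Prog → Prop
  | .inp _ => False
  | .zero => True
  | .add p q => p.Small ∧ q.Small
  | .smul _ p => p.Small
  | .call _ _ _ => True
  | .bind _ _ b => b.Small

/-- When the inputs move by at most `v`, every call point moves by at most `B`. -/
def Prog.SensLe (δ : ℕ → ℝ) (B : ℝ) : Prog → (ℕ → ℝ) → Prop
  | .inp _, _ => True
  | .zero, _ => True
  | .add p q, v => p.SensLe δ B v ∧ q.SensLe δ B v
  | .smul _ p, v => p.SensLe δ B v
  | .call _ _ p, v => p.lip δ v ≤ B ∧ p.SensLe δ B v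
  | .bind p _ b, v => p.SensLe δ B v ∧ b.SensLe δ B (pushR (p.lip δ v) v)

/-- Every sampled point has noise at most `B` times the smoothing it is sampled at, every binder
is felt at most `B` by the calls below it, bodies read inputs only inside calls, and smoothings lie
in `[1 / T, 1]`. -/
def Prog.WF (δ : ℕ → ℝ) (r B T : ℝ) : Prog → Prop
  | .inp _ => True
  | .zero => True
  | .add p q => p.WF δ r B T ∧ q.WF δ r B T
  | .smul _ p => p.WF δ r B T
  | .call _ τ p => T⁻¹ ≤ τ ∧ τ ≤ 1 ∧ p.WF δ r B T ∧ p.size δ r ≤ B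
  | .bind p Δ b => 0 < Δ ∧ p.WF δ r B T ∧ b.WF δ r B T ∧ p.size δ r ≤ B * √Δ ∧ b.Small ∧
      b.SensLe δ B (pushR (√Δ) 0)

/-- The nesting depth of a program. -/
def Prog.depth : Prog → ℕ
  | .inp _ => 0
  | .zero => 0
  | .add p q => max p.depth q.depth
  | .smul _ p => p.depth
  | .call _ _ p => p.depth + 1
  | .bind p _ b => max p.depth b.depth + 1

/-- The number of leaves and nodes of a program. -/
def Prog.nodes : Prog → ℕ
  | .inp _ => 1
  | .zero => 1
  | .add p q => p.nodes + q.nodes + 1
  | .smul _ p => p.nodes + 1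
  | .call _ _ p => p.nodes + 1
  | .bind p _ b => p.nodes + b.nodes + 1

/-- The number of inputs a program may read. -/
def Prog.width : Prog → ℕ
  | .inp i => i + 1
  | .zero => 0
  | .add p q => max p.width q.width
  | .smul _ p => p.width
  | .call _ _ p => p.width
  | .bind p _ b => max p.width (b.width - 1)

/-- Replacing the inputs by other inputs. -/
def Prog.ren : Prog → (ℕ → ℕ) → Prog
  | .inp i, f => .inp (f i)
  | .zero, _ => .zero
  | .add p q, f => .add (p.ren f) (q.ren f)
  | .smul c p, f => .smul c (p.ren f)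
  | .call ℓ τ p, f => .call ℓ τ (p.ren f)
  | .bind p Δ b, f => .bind (p.ren f) Δ (b.ren fun i => Nat.casesOn i 0 fun j => f j + 1)

/-- Replacing the inputs by programs. -/
def Prog.subst : Prog → (ℕ → Prog) → Prog
  | .inp i, f => f i
  | .zero, _ => .zero
  | .add p q, f => .add (p.subst f) (q.subst f)
  | .smul c p, f => .smul c (p.subst f)
  | .call ℓ τ p, f => .call ℓ τ (p.subst f)
  | .bind p Δ b, f =>
      .bind (p.subst f) Δ (b.subst fun i => Nat.casesOn i (.inp 0) fun j => (f j).ren Nat.succ)

/-- Every call is to a level at least `ℓ₀`. -/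
def Prog.LevelGe (ℓ₀ : ℕ) : Prog → Prop
  | .inp _ => True
  | .zero => True
  | .add p q => p.LevelGe ℓ₀ ∧ q.LevelGe ℓ₀
  | .smul _ p => p.LevelGe ℓ₀
  | .call ℓ _ p => ℓ₀ ≤ ℓ ∧ p.LevelGe ℓ₀
  | .bind p _ b => p.LevelGe ℓ₀ ∧ b.LevelGe ℓ₀

end Vale.Agent.P347
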