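import Vale.Agent.P347Zero.RealDefs
import Vale.Agent.P347Zero.RealComb
import Vale.Agent.P347Zero.Coef
import Vale.Agent.P347Zero.PhiSyn
import Vale.Agent.P347.Quad

/-!
P347 (exponent zero), M14: the base facts of the recursion over programs.
-/

open MeasureTheory ProbabilityTheory Real
open scoped RealInnerProductSpace

namespace Vale.Agent.P347

variable {d q : ℕ} {α : Type} [MeasurableSpace α]

/-! ### Samplers -/

/-- The sampler of the opposite mean. -/
theorem Smp.neg {m : (E d → ℝ) → α → E d} {e : α → ℝ} (h : Smp d q m e) :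
    Smp d q (fun V a => -m V a) e := by
  have h1 := Smp.add h (Smp.known (d := d) (f := fun _ : α => (0 : E d)) measurable_const)
    (c₁ := -1) (c₂ := 0) (by norm_num)
  exact (h1.congr fun V _ a => by simp).mono le_rfl fun a => by simp

/-- A known shift costs nothing. -/
theorem Smp.shift {m : (E d → ℝ) → α → E d} {e : α → ℝ} (h : Smp d q m e) {f : α → E d}
    (hf : Measurable f) : Smp d q (fun V a => m V a + f a) e := by
  refine smp_iff.2 (SmpT.weaken (η := fun _ => 0) (h.affine 1 hf) le_rfl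
    (fun V _ a v _ => le_of_eq ?_) fun a => by simp)
  simp only [gTarget, one_smul, abs_eq_zero, sub_eq_zero]
  congr 1
  funext w
  rw [add_right_comm]

/-- A sum sampled from samplers of its terms, the variance split in proportion to the sizes. -/
theorem Smp.split {q₁ q₂ : ℕ} {m₁ m₂ : (E d → ℝ) → α → E d} {e₁ e₂ : α → ℝ} {lam s₁ s₂ : ℝ}
    (_hl : 0 ≤ lam) (h1 : 0 < s₁) (h2 : 0 < s₂)
    (hs₁ : Smp d q₁ (fun V a => (lam * √((s₁ + s₂) / s₁)) • m₁ V a) e₁)
    (hs₂ : Smp d q₂ (fun V a => (lam * √((s₁ + s₂) / s₂)) • m₂ V a) e₂) :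
    Smp d (q₁ + q₂) (fun V a => lam • (m₁ V a + m₂ V a))
      fun a => √(s₁ / (s₁ + s₂)) * e₁ a + √(s₂ / (s₁ + s₂)) * e₂ a := by
  have h12 : 0 < s₁ + s₂ := add_pos h1 h2
  have key : ∀ s, 0 < s → √(s / (s₁ + s₂)) * (lam * √((s₁ + s₂) / s)) = lam := fun s hs => by
    rw [mul_left_comm, ← Real.sqrt_mul (by positivity), div_mul_div_cancel₀ h12.ne',
      div_self hs.ne', Real.sqrt_one, mul_one]
  have h := Smp.add hs₁ hs₂ (c₁ := √(s₁ / (s₁ + s₂))) (c₂ := √(s₂ / (s₁ + s₂))) (by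
    rw [Real.sq_sqrt (by positivity), Real.sq_sqrt (by positivity), ← add_div,
      div_self h12.ne'])
  refine (h.congr fun V _ a => ?_).mono le_rfl fun a => ?_
  · simp only [smul_smul, key _ h1, key _ h2, smul_add]
  · simp only [abs_of_nonneg (Real.sqrt_nonneg _), le_refl]

/-! ### Mass, and programs of size zero -/

/-- The mass of a program is at most its size. -/
theorem Prog.mass_le_size {δ : ℕ → ℝ} {r : ℝ} (hδ : 0 ≤ δ) (hr : 0 ≤ r) (p : Prog) :
    0 ≤ p.mass δ r ∧ p.mass δ r ≤ p.size δ r := by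
  induction p with
  | inp i => exact ⟨le_rfl, le_rfl⟩
  | zero => exact ⟨le_rfl, le_rfl⟩
  | add p q hp hq => exact ⟨add_nonneg hp.1 hq.1, add_le_add hp.2 hq.2⟩
  | smul c p hp =>
    exact ⟨mul_nonneg (abs_nonneg c) hp.1, mul_le_mul_of_nonneg_left hp.2 (abs_nonneg c)⟩
  | call ℓ τ p _ =>
    exact ⟨mul_nonneg (hδ ℓ) hr,
      mul_le_mul_of_nonneg_left (le_add_of_nonneg_right (p.size_nonneg hδ hr)) (hδ ℓ)⟩
  | bind p Δ b _ hb =>
    exact ⟨hb.1, hb.2.trans (le_add_of_nonneg_right (b.lip_nonneg hδ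
      (pushR_nonneg (add_nonneg (Real.sqrt_nonneg Δ) (p.size_nonneg hδ hr)) fun _ => le_rfl)))⟩

/-- A small program of size zero is the zero program. -/
theorem Prog.sem_eq_zero_of_size {δ : ℕ → ℝ} {r : ℝ} (hδ : ∀ ℓ, 0 < δ ℓ) (hr : 0 < r) {p : Prog}
    (hp : p.Small) (h0 : p.size δ r = 0) (h : ℕ → E d → E d) :
    ∀ env : Env d, p.sem h env = 0 := by
  induction p with
  | inp i => exact absurd hp id
  | zero => intro env; rfl
  | add p q hp' hq' =>
    intro env
    have h1 := p.size_nonneg (fun ℓ => (hδ ℓ).le) hr.le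
    have h2 := q.size_nonneg (fun ℓ => (hδ ℓ).le) hr.le
    simp only [Prog.size] at h0
    simp only [Prog.sem, hp' hp.1 (by linarith) env, hq' hp.2 (by linarith) env, add_zero]
  | smul c p hp' =>
    intro env
    simp only [Prog.size, mul_eq_zero, abs_eq_zero] at h0
    rcases h0 with hc | hs
    · simp [Prog.sem, hc]
    · simp [Prog.sem, hp' hp hs env]
  | call ℓ τ p _ =>
    have h1 := p.size_nonneg (fun ℓ => (hδ ℓ).le) hr.le
    exact absurd h0 (mul_ne_zero (hδ ℓ).ne' (by linarith))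
  | bind p Δ b _ hb =>
    intro env
    have h1 := b.size_nonneg (fun ℓ => (hδ ℓ).le) hr.le
    have h2 := b.lip_nonneg (fun ℓ => (hδ ℓ).le) (v := pushR (√Δ + p.size δ r) 0)
      (pushR_nonneg (add_nonneg (Real.sqrt_nonneg Δ)
        (p.size_nonneg (fun ℓ => (hδ ℓ).le) hr.le)) fun _ => le_rfl)
    simp only [Prog.size] at h0
    simp only [Prog.sem, hb hp (by linarith), integral_zero]

/-- A program of size zero does not see the fields. -/
theorem Prog.sem_eq_of_size_eq_zero {δ : ℕ → ℝ} {r B T : ℝ} (hδ : ∀ ℓ, 0 < δ ℓ) (hr : 0 < r)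
    {p : Prog} (hp : p.WF δ r B T) (h0 : p.size δ r = 0) (h h' : ℕ → E d → E d) (env : Env d) :
    p.sem h env = p.sem h' env := by
  induction p with
  | inp i => rfl
  | zero => rfl
  | add p q hp' hq' =>
    have h1 := p.size_nonneg (fun ℓ => (hδ ℓ).le) hr.le
    have h2 := q.size_nonneg (fun ℓ => (hδ ℓ).le) hr.le
    simp only [Prog.size] at h0
    simp only [Prog.sem, hp' hp.1 (by linarith), hq' hp.2 (by linarith)]
  | smul c p hp' =>
    simp only [Prog.size, mul_eq_zero, abs_eq_zero] at h0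
    rcases h0 with hc | hs
    · simp [Prog.sem, hc]
    · simp only [Prog.sem, hp' hp hs]
  | call ℓ τ p _ =>
    have h1 := p.size_nonneg (fun ℓ => (hδ ℓ).le) hr.le
    exact absurd h0 (mul_ne_zero (hδ ℓ).ne' (by linarith))
  | bind p Δ b _ _ =>
    obtain ⟨_, _, _, _, hbs, _⟩ := hp
    have hs : (Prog.bind p Δ b).Small := hbs
    rw [sem_eq_zero_of_size hδ hr hs h0, sem_eq_zero_of_size hδ hr hs h0]

/-! ### The body standing for a call -/

/-- The value of the body standing for a call. -/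
theorem callBody_sem (ℓ : ℕ) (τ : ℝ) (p : Prog) (h : ℕ → E d → E d) (env : Env d) (x : E d) :
    ∀ {k : ℕ} (c ρ : Fin k → ℝ), (callBody ℓ τ p c ρ).sem h (push x env)
      = ∑ i, c i • Psm (τ * (1 - ρ i ^ 2)) (h ℓ) ((1 - ρ i) • p.sem h env + ρ i • x) := by
  intro k
  induction k with
  | zero => intro c ρ; simp [callBody, Prog.sem]
  | succ k ih =>
    intro c ρ
    have e : (p.ren Nat.succ).sem h (push x env) = p.sem h env := by
      rw [Prog.sem_ren]; rfl
    rw [callBody, Fin.sum_univ_succ]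
    simp only [Prog.sem, ih, e]
    rfl

/-- The syntactic bounds of the body standing for a call. -/
theorem callBody_props (ℓ : ℕ) (τ : ℝ) (p : Prog) {δ : ℕ → ℝ} {r B T B' T' : ℝ} (h0 : 0 ≤ δ)
    (hr : 1 ≤ r) (hτ0 : 0 ≤ τ) (hτ1 : τ ≤ 1) (hT0 : 0 < T) (hTτ : T⁻¹ ≤ τ)
    (hT' : 2 * T ≤ T') (hw : p.WF δ r B T) (hps : p.size δ r ≤ B) (hBB : 2 * B ≤ B')
    (hB' : 1 ≤ B') :
    ∀ {k : ℕ} (c ρ : Fin k → ℝ), (∀ i, |ρ i| ≤ 1 / 2) →
      (callBody ℓ τ p c ρ).WF δ r B' T' ∧ (callBody ℓ τ p c ρ).Small ∧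
      (callBody ℓ τ p c ρ).SensLe δ B' (pushR √τ 0) ∧
      (callBody ℓ τ p c ρ).depth ≤ p.depth + 1 ∧
      (callBody ℓ τ p c ρ).nodes ≤ 4 * k * (p.nodes + 1) + 1 ∧
      (∀ ℓ₀, (Prog.call ℓ τ p).LevelGe ℓ₀ → (callBody ℓ τ p c ρ).LevelGe ℓ₀) ∧
      (callBody ℓ τ p c ρ).size δ r ≤ (∑ i, |c i|) * (2 * (δ ℓ * (r + p.size δ r))) ∧
      (callBody ℓ τ p c ρ).lip δ (pushR (√τ + p.size δ r) 0)
        ≤ (∑ i, |c i|) * (δ ℓ * (r + p.size δ r)) := by
  have hp0 := p.size_nonneg h0 (zero_le_one.trans hr)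
  have hsτ : √τ ≤ 1 := Real.sqrt_le_one.2 hτ1
  have hB0 : 0 ≤ B' := zero_le_one.trans hB'
  intro k
  induction k with
  | zero =>
    intro c ρ _
    simp [callBody, Prog.WF, Prog.Small, Prog.SensLe, Prog.depth, Prog.nodes, Prog.LevelGe,
      Prog.size, Prog.lip]
  | succ k ih =>
    intro c ρ hρ
    obtain ⟨i1, i2, i3, i4, i5, i6, i7, i8⟩ :=
      ih (fun i => c i.succ) (fun i => ρ i.succ) fun i => hρ i.succ
    have hρ0 : |ρ 0| ≤ 1 / 2 := hρ 0
    have hρ0' := abs_le.1 hρ0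
    have habs : |1 - ρ 0| ≤ 3 / 2 := abs_le.2 ⟨by linarith, by linarith⟩
    have hsq : ρ 0 ^ 2 ≤ 1 / 2 := by nlinarith
    have hτ' : T'⁻¹ ≤ τ * (1 - ρ 0 ^ 2) := by
      refine (inv_anti₀ (by linarith) hT').trans ?_
      rw [mul_inv]
      calc (2 : ℝ)⁻¹ * T⁻¹ ≤ 2⁻¹ * τ := mul_le_mul_of_nonneg_left hTτ (by norm_num)
        _ ≤ _ := by nlinarith
    have hpl : ∀ a : ℝ, (p.ren Nat.succ).lip δ (pushR a 0) = 0 := fun a => by
      rw [Prog.lip_ren]
      exact p.lip_zero_v δ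
    set P : Prog := .add (.smul (1 - ρ 0) (p.ren Nat.succ)) (.smul (ρ 0) (.inp 0)) with hP
    have hPsize : P.size δ r ≤ 3 / 2 * p.size δ r := by
      simp only [hP, Prog.size, Prog.size_ren, mul_zero, add_zero]
      exact mul_le_mul_of_nonneg_right habs hp0
    have hPlip : ∀ a : ℝ, P.lip δ (pushR a 0) = |ρ 0| * a := fun a => by
      simp only [hP, Prog.lip, hpl, mul_zero, zero_add]
      rfl
    rw [callBody, Fin.sum_univ_succ]
    refine ⟨⟨⟨hτ', ?_, ⟨?_, trivial⟩, ?_⟩, i1⟩, ⟨trivial, i2⟩, ⟨⟨?_, ⟨?_, trivial⟩⟩, i3⟩,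
      ?_, ?_, fun ℓ₀ hl => ⟨⟨hl.1, ⟨(Prog.levelGe_ren _ _ _).2 hl.2, trivial⟩⟩, i6 ℓ₀ hl⟩,
      ?_, ?_⟩
    · exact (mul_le_of_le_one_right hτ0 (by nlinarith)).trans hτ1
    · exact (Prog.wf_ren _ _ _ _ _ _).2 (hw.mono h0 le_rfl (zero_le_one.trans hr) le_rfl
        (by linarith) hT0 (by linarith))
    · exact hPsize.trans (by linarith)
    · rw [hPlip]
      nlinarith [Real.sqrt_nonneg τ, abs_nonneg (ρ 0)]
    · exact (Prog.sensLe_ren _ _ _ _ _).2 (Prog.sensLe_zero hB0 p)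
    · simp only [Prog.depth, Prog.depth_ren]
      omega
    · simp only [Prog.nodes, Prog.nodes_ren]
      nlinarith [p.one_le_nodes]
    · simp only [Prog.size, add_mul]
      refine add_le_add (mul_le_mul_of_nonneg_left ?_ (abs_nonneg _)) i7
      show δ ℓ * (r + P.size δ r) ≤ _
      nlinarith [mul_le_mul_of_nonneg_left hPsize (h0 ℓ), mul_nonneg (h0 ℓ) hp0,
        mul_nonneg (h0 ℓ) (zero_le_one.trans hr)]
    · simp only [Prog.lip, add_mul]
      refine add_le_add (mul_le_mul_of_nonneg_left ?_ (abs_nonneg _)) i8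
      show δ ℓ * P.lip δ _ ≤ _
      rw [hPlip]
      refine mul_le_mul_of_nonneg_left ?_ (h0 ℓ)
      nlinarith [Real.sqrt_nonneg τ, abs_nonneg (ρ 0)]

/-- At the sampled point the smoothed call is the correlated mean of the field. -/
theorem psm_eq_ou (f : E d → E d) {τ ρ : ℝ} (hτ : 0 ≤ τ) (m η : E d) :
    Psm (τ * (1 - ρ ^ 2)) f ((1 - ρ) • m + ρ • (m + √τ • η))
      = ou ρ (fun w => f (m + √τ • w)) η := by
  have := Real.sqrt_mul hτ (1 - ρ ^ 2)
  simp only [Psm, ou, this]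
  congr 1
  funext w
  congr 1
  module

/-- The mean of a correlated mean is the mean. -/
theorem integral_ou_eq {ρ : ℝ} (hρ : |ρ| ≤ 1) {f : E d → E d} (hf : Continuous f)
    (hfi : Integrable f (gau (Fin d))) :
    Integrable (fun η => ou ρ f η) (gau (Fin d)) ∧
      ∫ η, ou ρ f η ∂gau (Fin d) = ∫ w, f w ∂gau (Fin d) := by
  have h2 : ρ ^ 2 ≤ 1 := by nlinarith [abs_le.1 hρ]
  have hi := Quad.integrable_comp_mix h2 hfi
  refine ⟨hi.integral_prod_left, ?_⟩
  show ∫ η, (∫ w, f (Quad.mix ρ (η, w)) ∂gau (Fin d)) ∂gau (Fin d) = _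
  rw [← integral_prod _ hi]
  exact integral_comb (c := ρ) (s := √(1 - ρ ^ 2)) (by rw [Real.sq_sqrt (by linarith)]; ring) hf

/-- A call is, exactly, a binder over a body of correlated calls which is close to the value. -/
theorem exists_callBody (N : ℕ) : ∃ (k : ℕ) (c ρ : Fin k → ℝ) (C : ℝ), 1 ≤ C ∧ ∀ (δ : ℕ → ℝ)
    (r B T : ℝ) (ℓ : ℕ) (τ : ℝ) (p : Prog), 0 ≤ δ → 1 ≤ r → 1 ≤ B → 1 ≤ T →
    (Prog.call ℓ τ p).WF δ r B T →
    (callBind ℓ τ p c ρ).WF δ r (C * √T * B) (C * T) ∧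
    (callBind ℓ τ p c ρ).depth ≤ p.depth + 2 ∧
    (callBind ℓ τ p c ρ).nodes ≤ (4 * k + 4) * (p.nodes + 1) ∧
    (∀ ℓ₀, (Prog.call ℓ τ p).LevelGe ℓ₀ → (callBind ℓ τ p c ρ).LevelGe ℓ₀) ∧
    (callBind ℓ τ p c ρ).size δ r ≤ C * (Prog.call ℓ τ p).size δ r ∧
    ∀ (d : ℕ) (h : ℕ → E d → E d) (δ0 : ℕ → ℝ) (Gb Cb : ℝ), 0 ≤ Cb →
      (∀ ℓ', Fld d (δ0 ℓ') r Gb Cb N (h ℓ')) → ∀ env : Env d,
        (callBind ℓ τ p c ρ).sem h env = (Prog.call ℓ τ p).sem h env ∧
        ∫ η, ‖(callBody ℓ τ p c ρ).sem h (push (p.sem h env + √τ • η) env)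
            - h ℓ (p.sem h env + √τ • η)‖ ∂gau (Fin d)
          ≤ C * (δ0 ℓ * r * √d * Cb / r ^ N) := by
  obtain ⟨k, c, ρ, hρ, hc⟩ := exists_coef_zero (N + 1)
  have hsum : ∑ i, c i = 1 := by simpa using hc 0 (Nat.succ_pos N)
  set S : ℝ := ∑ i, |c i| with hS
  have hS0 : 0 ≤ S := Finset.sum_nonneg fun i _ => abs_nonneg _
  refine ⟨k, c, ρ, 3 * S + 2, by linarith, fun δ r B T ℓ τ p h0 hr hB hT hw => ?_⟩
  obtain ⟨hTτ, hτ1, hpw, hps⟩ := hw
  have hT0 : 0 < T := zero_lt_one.trans_le hT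
  have hτ : 0 < τ := (inv_pos.2 hT0).trans_le hTτ
  have hC : 2 ≤ 3 * S + 2 := by linarith
  have hT1 : 1 ≤ √T := Real.one_le_sqrt.2 hT
  have hBB : 2 * B ≤ (3 * S + 2) * √T * B :=
    mul_le_mul_of_nonneg_right (hC.trans (le_mul_of_one_le_right (by linarith) hT1)) (by linarith)
  have hB' : 1 ≤ (3 * S + 2) * √T * B := by linarith
  obtain ⟨g1, g2, g3, g4, g5, g6, g7, g8⟩ := callBody_props ℓ τ p h0 hr hτ.le hτ1 hT0 hTτ
    (mul_le_mul_of_nonneg_right hC hT0.le) hpw hps hBB hB' c ρ hρ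
  have hpτ : p.size δ r ≤ (3 * S + 2) * √T * B * √τ := by
    have h1 : 1 ≤ √T * √τ := by
      rw [← Real.sqrt_mul hT0.le]
      exact Real.one_le_sqrt.2 (by
        calc (1 : ℝ) = T * T⁻¹ := (mul_inv_cancel₀ hT0.ne').symm
          _ ≤ T * τ := mul_le_mul_of_nonneg_left hTτ hT0.le)
    calc p.size δ r ≤ B := hps
      _ ≤ (3 * S + 2) * B := le_mul_of_one_le_left (by linarith) (by linarith)
      _ ≤ (3 * S + 2) * B * (√T * √τ) := le_mul_of_one_le_right (by nlinarith) h1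
      _ = _ := by ring
  refine ⟨⟨hτ, hpw.mono h0 le_rfl (by linarith) le_rfl (by linarith) hT0
      (le_mul_of_one_le_left hT0.le (by linarith)), g1, hpτ, g2, g3⟩, ?_, ?_,
    fun ℓ₀ hl => ⟨hl.2, g6 ℓ₀ hl⟩, ?_, fun d h δ0 Gb Cb hCb hh env => ?_⟩
  · simp only [callBind, Prog.depth]
    omega
  · simp only [callBind, Prog.nodes]
    nlinarith [p.one_le_nodes]
  · simp only [callBind, Prog.size]
    have : 0 ≤ δ ℓ * (r + p.size δ r) :=
      mul_nonneg (h0 ℓ) (add_nonneg (by linarith) (p.size_nonneg h0 (by linarith)))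
    nlinarith
  · set m := p.sem h env
    set f : E d → E d := fun w => h ℓ (m + √τ • w) with hf
    have hfc : Continuous f := (hh ℓ).smooth.continuous.comp (by fun_prop)
    have hfi : Integrable f (gau (Fin d)) := (hh ℓ).integrable_slice m √τ
    have hρ1 : ∀ i, |ρ i| ≤ 1 := fun i => (hρ i).trans (by norm_num)
    have key : ∀ η, (callBody ℓ τ p c ρ).sem h (push (m + √τ • η) env)
        = ∑ i, c i • ou (ρ i) f η := fun η => by
      rw [callBody_sem]
      exact Finset.sum_congr rfl fun i _ => by rw [psm_eq_ou (h ℓ) hτ.le]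
    refine ⟨?_, ?_⟩
    · simp only [callBind, Prog.sem]
      show ∫ η, (callBody ℓ τ p c ρ).sem h (push (m + √τ • η) env) ∂gau (Fin d) = Psm τ (h ℓ) m
      simp only [key]
      have hi : ∀ i, Integrable (fun η => c i • ou (ρ i) f η) (gau (Fin d)) := fun i =>
        (integral_ou_eq (hρ1 i) hfc hfi).1.smul (c i)
      rw [integral_finsetSum _ fun i _ => hi i]
      simp only [integral_smul, (integral_ou_eq (hρ1 _) hfc hfi).2, ← Finset.sum_smul, hsum,
        one_smul]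
      rfl
    · set g : E d → E d := fun η => (callBody ℓ τ p c ρ).sem h (push (m + √τ • η) env)
          - h ℓ (m + √τ • η) with hg
      have hgc : Continuous g := by
        refine Continuous.sub ?_ hfc
        refine (Prog.continuous_sem hh _).comp (continuous_pi fun i => ?_)
        cases i with
        | zero => exact continuous_const.add (continuous_id.const_smul √τ)
        | succ j => exact continuous_const
      have hgb : ∀ η, ‖g η‖ ≤ (S + 1) * Gb := fun η => by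
        have hG : ∀ i, ‖ou (ρ i) f η‖ ≤ Gb := fun i =>
          (norm_integral_le_of_norm_le_const (ae_of_all _ fun w => (hh ℓ).bdd _)).trans_eq (by simp)
        simp only [hg, key]
        refine (norm_sub_le _ _).trans ?_
        rw [add_mul, one_mul, hS, Finset.sum_mul]
        refine add_le_add ((norm_sum_le _ _).trans (Finset.sum_le_sum fun i _ => ?_)) ((hh ℓ).bdd _)
        rw [norm_smul, Real.norm_eq_abs]
        exact mul_le_mul_of_nonneg_left (hG i) (abs_nonneg _)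
      have hsq := (hh ℓ).tail (k + 1) (Fin.snoc c (-1)) (Fin.snoc ρ 1)
        (fun i => by
          induction i using Fin.lastCases with
          | last => simp
          | cast j => simpa [Fin.snoc_castSucc] using abs_le.1 (hρ1 j))
        (fun n hn => by
          rw [Fin.sum_univ_castSucc]
          simp only [Fin.snoc_castSucc, Fin.snoc_last, one_pow, mul_one, hc n (by omega)]
          norm_num)
        m τ ⟨hτ.le, hτ1⟩
      have habs : ∑ i, |(Fin.snoc c (-1) : Fin (k + 1) → ℝ) i| = S + 1 := by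
        rw [Fin.sum_univ_castSucc]
        simp [hS]
      have hsum' : ∀ η, ∑ i, (Fin.snoc c (-1) : Fin (k + 1) → ℝ) i
          • ou ((Fin.snoc ρ 1 : Fin (k + 1) → ℝ) i) f η = g η := fun η => by
        rw [Fin.sum_univ_castSucc]
        simp only [Fin.snoc_castSucc, Fin.snoc_last, neg_smul, one_smul, hg, key, sub_eq_add_neg]
        simp [ou, hf]
      rw [habs] at hsq
      simp only [← hf, hsum'] at hsq
      have hJ := Quad.norm_sq_integral_le (μ := gau (Fin d)) (g := fun η => ‖g η‖)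
        (Integrable.of_bound hgc.norm.aestronglyMeasurable ((S + 1) * Gb)
          (ae_of_all _ fun η => by rw [norm_norm]; exact hgb η))
        (Integrable.of_bound (by fun_prop) (((S + 1) * Gb) ^ 2) (ae_of_all _ fun η => by
          rw [norm_pow, norm_norm, norm_norm]
          exact pow_le_pow_left₀ (norm_nonneg _) (hgb η) 2))
      have hm0 : 0 ≤ ∫ η, ‖g η‖ ∂gau (Fin d) := integral_nonneg fun η => norm_nonneg _
      simp only [Real.norm_eq_abs, abs_of_nonneg hm0, abs_norm] at hJ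
      have hX : 0 ≤ δ0 ℓ * r * √d * Cb / r ^ N := by
        have := (hh ℓ).delta_nonneg
        positivity
      show ∫ η, ‖g η‖ ∂gau (Fin d) ≤ _
      refine (pow_le_pow_iff_left₀ hm0
        (mul_nonneg (by linarith) hX) two_ne_zero).1 ((hJ.trans hsq).trans
          (pow_le_pow_left₀ (mul_nonneg (by linarith) hX)
            (mul_le_mul_of_nonneg_right (by linarith) hX) 2))

end Vale.Agent.P347
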