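import Vale.Agent.P347Zero.Core

/-!
P347: what the recursion over programs proves, and the body that stands for a call in it.
-/

open MeasureTheory ProbabilityTheory Real Filter

namespace Vale.Agent.P347

/-- The programs standing for the value of level `ℓ` at the point drawn around `p` with
variance `τ`: an affine combination of smoothed calls at correlated means. -/
noncomputable def callBody (ℓ : ℕ) (τ : ℝ) (p : Prog) {k : ℕ} (c ρ : Fin k → ℝ) : Prog :=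
  match k with
  | 0 => .zero
  | _ + 1 => .add
      (.smul (c 0) (.call ℓ (τ * (1 - ρ 0 ^ 2))
        (.add (.smul (1 - ρ 0) (p.ren Nat.succ)) (.smul (ρ 0) (.inp 0)))))
      (callBody ℓ τ p (fun i => c i.succ) fun i => ρ i.succ)

/-- A call replaced by a binder: draw the point, then apply the body standing for the value. -/
noncomputable def callBind (ℓ : ℕ) (τ : ℝ) (p : Prog) {k : ℕ} (c ρ : Fin k → ℝ) : Prog :=
  .bind p τ (callBody ℓ τ p c ρ)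

/-- Sampling of programs at compensation depth `n` and inflation level `m`: from crude estimators
of the leaves and samplers of them at every inflation `κ ^ j`, `j ≤ m`, with relative accuracy
`a * accR κ n j + b`, every program whose scaled inflated size is small can be sampled; the
inherited error `b` only survives on its mass or with a gain. -/
def RealGood (α : ℝ) (M n m : ℕ) : Prop :=
  ∀ eB : ℕ, ∃ (M2 : ℕ) (γ₀ : ℝ), 0 < γ₀ ∧ ∀ γ : ℝ, 0 < γ → γ ≤ γ₀ → ∃ N₀ : ℕ, ∀ N, N₀ ≤ N →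
    ∀ (A : ℕ) (T Cb Cu : ℝ), 1 ≤ T → 0 ≤ Cb → 1 ≤ Cu → ∃ (K : ℕ) (C : ℝ), 1 ≤ C ∧
    ∀ᶠ d : ℕ in atTop, ∀ (Nr : ℕ) (εr : ℝ) (_ : Rule Nr εr), εr ≤ ((d : ℝ) ^ M2)⁻¹ →
    ∀ (H : Fam d) (δ : ℕ → ℝ) (r : ℝ) (ℓ₀ qe ql : ℕ) (Λ Gb : E d → ℝ) (a b : ℝ) (e : E d → ℝ),
    (∀ ℓ, 0 < δ ℓ) → (∀ ℓ, ((d : ℝ) ^ α) ^ m * δ ℓ ≤ 1) → r = (d : ℝ) ^ γ →
    (∀ V, InClass d V → ∀ y ℓ, Fld d (δ ℓ) r (Gb y) Cb N (H V y ℓ)) →
    (∀ y, √(d : ℝ) ≤ Λ y) → 0 ≤ a → 0 ≤ b → (∀ y, 0 ≤ e y) →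
    LeafEst H δ r ℓ₀ qe Λ →
    (∀ j, j ≤ m → LeafSmp H δ r (((d : ℝ) ^ α) ^ j) (C * (√((d : ℝ) ^ α))⁻¹) ℓ₀ ql
      (fun y => (a * accR ((d : ℝ) ^ α) n j + b) * Λ y) e) →
    ∀ (F : Prog), F.WF ((((d : ℝ) ^ α) ^ m) • δ) r (Cu * r ^ eB) T → F.LevelGe ℓ₀ → F.depth ≤ A →
    ∀ lam : ℝ, 0 ≤ lam → lam * F.size ((((d : ℝ) ^ α) ^ m) • δ) r ≤ Cu * (√((d : ℝ) ^ α))⁻¹ →
    ∀ (β : Type) [MeasurableSpace β] (y : β → E d) (env : β → Env d),
      Measurable y → (∀ i, Measurable fun z => env z i) →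
      Smp d (K * (F.nodes + Nr + 1) ^ K * (qe + ql + 1))
        (fun V z => lam • F.sem (H V (y z)) (env z))
        fun z => C * (lam * F.size ((((d : ℝ) ^ α) ^ m) • δ) r)
            * ((1 + a) * accR ((d : ℝ) ^ α) n m + b * (√(√((d : ℝ) ^ α)))⁻¹) * Λ (y z)
          + C * (lam * F.mass ((((d : ℝ) ^ α) ^ m) • δ) r)
            * (a * accR ((d : ℝ) ^ α) n m + b) * Λ (y z)
          + C * ((F.nodes + Nr + 1 : ℕ) : ℝ) ^ K * (e (y z) + ((d : ℝ) ^ M)⁻¹)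

end Vale.Agent.P347
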