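import Vale.Agent.P347Zero.RealComb

/-!
P347: one binder of the recursion: sample the point, then its body and the compensation.
-/

open MeasureTheory ProbabilityTheory Real
open scoped RealInnerProductSpace

namespace Vale.Agent.P347

variable {d : ℕ}

/-- The law of one compensated binder, on a test function. -/
noncomputable def debLaw (lam Δ : ℝ) (mb : E d → E d) (Φ : E d → E d → E d) (mp : E d)
    (v : E d → ℝ) : ℝ :=
  ∫ η, ∫ ξ, ∫ w, v (lam • mb (mp + √Δ • η) + (√3)⁻¹ • ξ + Φ (mp + √Δ • η) ξ + √(2 / 3) • w)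
    ∂gau (Fin d) ∂gau (Fin d) ∂gau (Fin d)

/-- The law of the body and the compensation at a given point and layer. -/
noncomputable def debIn (lam : ℝ) (mb Φ ξ : E d) (v : E d → ℝ) : ℝ :=
  ∫ w, v (lam • mb + (√3)⁻¹ • ξ + Φ + √(2 / 3) • w) ∂gau (Fin d)

/-- Body and compensation at a given point and layer. -/
theorem smp_debIn {β : Type} [MeasurableSpace β] {q₂ q₃ : ℕ} {lam : ℝ}
    {mb Φ : (E d → ℝ) → β × E d → E d} {eb ec : β × E d → ℝ}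
    (hsb : Smp d q₂ (fun V a => (√3 * lam) • mb V a) eb)
    (hsc : Smp d q₃ (fun V a => √3 • Φ V a) ec) :
    SmpT d (q₂ + q₃) (fun V z v => debIn lam (mb V z) (Φ V z) z.2 v)
      fun z => (√3)⁻¹ * (eb z + ec z) := by
  have h23 : (√(2 / 3) : ℝ) * (√2)⁻¹ = (√3)⁻¹ := by
    rw [← sqrt_inv, ← sqrt_inv, ← sqrt_mul (by norm_num)]; norm_num
  have h32 : ((√3)⁻¹ : ℝ) * √3 = 1 := inv_mul_cancel₀ (by positivity)
  have hcomb := Smp.add hsb hsc (c₁ := (√2)⁻¹) (c₂ := (√2)⁻¹) (by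
      rw [inv_pow, sq_sqrt (by norm_num : (0 : ℝ) ≤ 2)]; norm_num)
  have haff := hcomb.affine (√(2 / 3)) (f := fun z : β × E d => (√3)⁻¹ • z.2)
    (measurable_snd.const_smul (√3)⁻¹)
  refine SmpT.weaken (η := fun _ => 0) haff le_rfl (fun V _ z v _ => le_of_eq ?_) fun z => ?_
  · have e1 : √(2 / 3) * ((√2)⁻¹ * (√3 * lam)) = lam := by
      rw [← mul_assoc, h23, ← mul_assoc, h32, one_mul]
    have e2 : √(2 / 3) * ((√2)⁻¹ * √3) = 1 := by rw [← mul_assoc, h23, h32]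
    simp only [debIn, smul_add, smul_smul, e1, e2, one_smul]
    rw [abs_eq_zero, sub_eq_zero]
    congr 1
    funext w
    congr 1
    abel
  · rw [abs_of_nonneg (sqrt_nonneg _), abs_of_nonneg (by positivity : (0 : ℝ) ≤ (√2)⁻¹), add_zero,
      ← mul_add, ← mul_assoc, h23]

/-- Regularity of `debIn` along a smooth body and compensation. -/
theorem debIn_facts {lam Lb Lx Lξ : ℝ} {mb : E d → E d} {Φ : E d → E d → E d}
    (hb : ContDiff ℝ 1 mb) (hbl : ∀ x x', ‖mb x - mb x'‖ ≤ Lb * ‖x - x'‖)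
    (hΦ : ContDiff ℝ 1 fun z : E d × E d => Φ z.1 z.2)
    (hx : ∀ ξ x x', ‖Φ x ξ - Φ x' ξ‖ ≤ Lx * ‖x - x'‖)
    (hξ : ∀ x ξ ξ', ‖Φ x ξ - Φ x ξ'‖ ≤ Lξ * ‖ξ - ξ'‖) {v : E d → ℝ} (hv : IsTest v) :
    ContDiff ℝ 1 (fun z : E d × E d => debIn lam (mb z.1) (Φ z.1 z.2) z.2 v) ∧
      (∀ x ξ ξ', |debIn lam (mb x) (Φ x ξ) ξ v - debIn lam (mb x) (Φ x ξ') ξ' v|
        ≤ ((√3)⁻¹ + Lξ) * ‖ξ - ξ'‖) ∧
      ∀ ξ x x', |debIn lam (mb x) (Φ x ξ) ξ v - debIn lam (mb x') (Φ x' ξ) ξ v|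
        ≤ (|lam| * Lb + Lx) * ‖x - x'‖ := by
  obtain ⟨hP, hPl⟩ := contDiff_Psm_test hv.1 hv.2.2 (2 / 3)
  have hT : ∀ a b c, debIn lam a b c v = Psm (2 / 3) v (lam • a + (√3)⁻¹ • c + b) :=
    fun a b c => rfl
  have hl : ∀ z z', |Psm (2 / 3) v z - Psm (2 / 3) v z'| ≤ ‖z - z'‖ := fun z z' => by
    simpa using convex_univ.norm_image_sub_le_of_norm_fderiv_le (𝕜 := ℝ)
      (fun y _ => hP.differentiable one_ne_zero y) (fun y _ => hPl y) (Set.mem_univ z')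
      (Set.mem_univ z)
  refine ⟨?_, fun x ξ ξ' => ?_, fun ξ x x' => ?_⟩
  · simp only [hT]
    exact hP.comp ((((hb.comp contDiff_fst).const_smul lam).add
      (contDiff_snd.const_smul (√3)⁻¹)).add hΦ)
  · rw [hT, hT]
    refine (hl _ _).trans ?_
    rw [show lam • mb x + (√3)⁻¹ • ξ + Φ x ξ - (lam • mb x + (√3)⁻¹ • ξ' + Φ x ξ')
      = (√3)⁻¹ • (ξ - ξ') + (Φ x ξ - Φ x ξ') by module, add_mul]
    refine (norm_add_le _ _).trans (add_le_add (le_of_eq ?_) (hξ x ξ ξ'))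
    rw [norm_smul, Real.norm_eq_abs, abs_of_nonneg (by positivity)]
  · rw [hT, hT]
    refine (hl _ _).trans ?_
    rw [show lam • mb x + (√3)⁻¹ • ξ + Φ x ξ - (lam • mb x' + (√3)⁻¹ • ξ + Φ x' ξ)
      = lam • (mb x - mb x') + (Φ x ξ - Φ x' ξ) by module, add_mul]
    refine (norm_add_le _ _).trans (add_le_add ?_ (hx ξ x x'))
    rw [norm_smul, Real.norm_eq_abs, mul_assoc]
    exact mul_le_mul_of_nonneg_left (hbl x x') (abs_nonneg _)

lemma abs_debIn_le {lam : ℝ} (a b c : E d) {v : E d → ℝ} {K : ℝ} (hK : ∀ x, |v x| ≤ K) :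
    |debIn lam a b c v| ≤ K :=
  abs_integral_le fun _ => hK _

attribute [local irreducible] debIn

/-- `debIn` averaged over the layer. -/
noncomputable def debMid (lam : ℝ) (mb : E d) (Φ : E d → E d) (v : E d → ℝ) : ℝ :=
  ∫ ξ, debIn lam mb (Φ ξ) ξ v ∂gau (Fin d)

/-- The layer, then body and compensation. -/
theorem smp_debMid {β : Type} [MeasurableSpace β] {q₂ q₃ : ℕ} {lam : ℝ}
    {mb : (E d → ℝ) → β → E d} {Φ : (E d → ℝ) → β × E d → E d} {eb : β → ℝ} {ec : β × E d → ℝ}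
    {Lξ bc : β → ℝ}
    (hsb : Smp d q₂ (fun V a => (√3 * lam) • mb V a) eb)
    (hsc : Smp d q₃ (fun V a => √3 • Φ V a) ec)
    (hΦ : ∀ V, InClass d V → ∀ z, ContDiff ℝ 1 (fun ξ => Φ V (z, ξ)) ∧
      ∀ ξ ξ', ‖Φ V (z, ξ) - Φ V (z, ξ')‖ ≤ Lξ z * ‖ξ - ξ'‖)
    (hLξ : ∀ z, 0 ≤ Lξ z) (hec : ∀ z ξ, ec (z, ξ) ≤ bc z) :
    SmpT d (q₂ + q₃) (fun V z v => debMid lam (mb V z) (fun ξ => Φ V (z, ξ)) v)
      fun z => (√3)⁻¹ * (eb z + bc z) := by
  have h3 := smp_debIn (β := β) (mb := fun V p => mb V p.1) (eb := fun p => eb p.1)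
    (hsb.comap (measurable_fst : Measurable (Prod.fst : β × E d → _))) hsc
  have h2 := SmpT.seq (L := fun z => (√3)⁻¹ + Lξ z) (b := fun z => (√3)⁻¹ * (eb z + bc z))
    (Smp.known (d := d) (f := fun _ : β => (0 : E d)) measurable_const) h3
    (fun V hV z v hv => by
      obtain ⟨hC, hξ, -⟩ := debIn_facts (lam := lam) (Lb := 0) (Lx := 0)
        (mb := fun _ : E d => mb V z) (Φ := fun _ ξ => Φ V (z, ξ)) contDiff_const (by simp)
        ((hΦ V hV z).1.comp contDiff_snd) (by simp) (fun _ => (hΦ V hV z).2) hv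
      obtain ⟨K, hK⟩ := hv.2.1
      refine ⟨hC.comp ((contDiff_const (c := (0 : E d))).prodMk contDiff_id),
        ⟨K, fun x => abs_debIn_le _ _ _ hK⟩,
        fun ξ => norm_fderiv_le_of_lip' ℝ (by have := hLξ z; positivity)
          (Filter.Eventually.of_forall fun y => ?_)⟩
      rw [Real.norm_eq_abs]
      exact hξ 0 y ξ)
    fun z ξ => mul_le_mul_of_nonneg_left (add_le_add le_rfl (hec _ _)) (by positivity)
  refine SmpT.weaken (η := fun _ => 0) h2 (by omega) (fun V _ z v _ => ?_) fun z => by simp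
  simp [debMid]

/-- Regularity of `debMid` along a rescaled point. -/
theorem debMid_facts {lam Lb Lx Lξ s : ℝ} (hs : 0 ≤ s) {mb : E d → E d} {Φ : E d → E d → E d}
    (hb : ContDiff ℝ 1 mb) (hbl : ∀ x x', ‖mb x - mb x'‖ ≤ Lb * ‖x - x'‖)
    (hΦ : ContDiff ℝ 1 fun z : E d × E d => Φ z.1 z.2)
    (hx : ∀ ξ x x', ‖Φ x ξ - Φ x' ξ‖ ≤ Lx * ‖x - x'‖)
    (hξ : ∀ x ξ ξ', ‖Φ x ξ - Φ x ξ'‖ ≤ Lξ * ‖ξ - ξ'‖)
    (hL : 0 ≤ |lam| * Lb + Lx) {v : E d → ℝ} (hv : IsTest v) :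
    ContDiff ℝ 1 (fun x => debMid lam (mb (s • x)) (Φ (s • x)) v) ∧
      (∃ K, ∀ x, |debMid lam (mb (s • x)) (Φ (s • x)) v| ≤ K) ∧
      ∀ x, ‖fderiv ℝ (fun x => debMid lam (mb (s • x)) (Φ (s • x)) v) x‖
        ≤ (|lam| * Lb + Lx) * s := by
  obtain ⟨hC, hξ', hx'⟩ := debIn_facts (lam := lam) hb hbl hΦ hx hξ hv
  obtain ⟨K, hK⟩ := hv.2.1
  have hav := contDiff_avg (X := E d)
    (F := fun z : E d × E d => debIn lam (mb (s • z.1)) (Φ (s • z.1) z.2) z.2 v)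
    (hC.comp ((contDiff_fst.const_smul s).prodMk contDiff_snd))
    (K := (|lam| * Lb + Lx) * s) (K' := (√3)⁻¹ + Lξ) (mul_nonneg hL hs)
    (fun w x x' => (hx' w (s • x) (s • x')).trans (le_of_eq (by
      rw [← smul_sub, norm_smul, Real.norm_eq_abs, abs_of_nonneg hs, mul_assoc])))
    fun x w w' => hξ' _ w w'
  exact ⟨hav.1, ⟨K, fun x => abs_integral_le fun ξ => abs_debIn_le _ _ _ hK⟩, hav.2⟩

/-- Sampling of a binder from samplers of its point, of its body and of its compensation. -/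
theorem smp_bind {α : Type} [MeasurableSpace α] {q₁ q₂ q₃ : ℕ} {lam Δ : ℝ} (hΔ : 0 < Δ)
    {mp : (E d → ℝ) → α → E d} {mb : (E d → ℝ) → α × E d → E d}
    {Φ : (E d → ℝ) → (α × E d) × E d → E d} {ep : α → ℝ} {eb : α × E d → ℝ}
    {ec : (α × E d) × E d → ℝ} {Lb Lx Lξ : α → ℝ} {be bc : α → ℝ}
    (hsp : Smp d q₁ (fun V a => (√Δ)⁻¹ • mp V a) ep)
    (hsb : Smp d q₂ (fun V a => (√3 * lam) • mb V a) eb)
    (hsc : Smp d q₃ (fun V a => √3 • Φ V a) ec)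
    (hbd : ∀ V, InClass d V → ∀ a, ContDiff ℝ 1 (fun x => mb V (a, x)) ∧
      ∀ x x', ‖mb V (a, x) - mb V (a, x')‖ ≤ Lb a * ‖x - x'‖)
    (hΦ : ∀ V, InClass d V → ∀ a, ContDiff ℝ 1 (fun z : E d × E d => Φ V ((a, z.1), z.2)) ∧
      (∀ ξ x x', ‖Φ V ((a, x), ξ) - Φ V ((a, x'), ξ)‖ ≤ Lx a * ‖x - x'‖) ∧
        ∀ x ξ ξ', ‖Φ V ((a, x), ξ) - Φ V ((a, x), ξ')‖ ≤ Lξ a * ‖ξ - ξ'‖)
    (hLb : ∀ a, 0 ≤ Lb a) (hLx : ∀ a, 0 ≤ Lx a) (hLξ : ∀ a, 0 ≤ Lξ a)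
    (heb : ∀ a x, eb (a, x) ≤ be a) (hec : ∀ a x ξ, ec ((a, x), ξ) ≤ bc a) :
    SmpT d (q₁ + (q₂ + q₃))
      (fun V a v => debLaw lam Δ (fun x => mb V (a, x)) (fun x ξ => Φ V ((a, x), ξ)) (mp V a) v)
      fun a => (|lam| * Lb a + Lx a) * √Δ * ep a + (√3)⁻¹ * (be a + bc a) := by
  have h2 := smp_debMid (β := α × E d) (Lξ := fun z => Lξ z.1) (bc := fun z => bc z.1) hsb hsc
    (fun V hV z => ⟨(hΦ V hV z.1).1.comp (contDiff_const.prodMk contDiff_id),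
      (hΦ V hV z.1).2.2 z.2⟩) (fun z => hLξ z.1) fun z ξ => hec z.1 z.2 ξ
  have h1 := SmpT.seq (L := fun a => (|lam| * Lb a + Lx a) * √Δ)
    (b := fun a => (√3)⁻¹ * (be a + bc a)) hsp
    (h2.comap (f := fun p : α × E d => (p.1, √Δ • p.2))
      (measurable_fst.prodMk (measurable_snd.const_smul √Δ)))
    (fun V hV a v hv => debMid_facts (lam := lam) (sqrt_nonneg Δ) (hbd V hV a).1 (hbd V hV a).2
      (hΦ V hV a).1 (hΦ V hV a).2.1 (hΦ V hV a).2.2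
      (by have := hLb a; have := hLx a; positivity) hv)
    fun a x => mul_le_mul_of_nonneg_left (add_le_add (heb _ _) le_rfl) (by positivity)
  refine SmpT.weaken (η := fun _ => 0) h1 le_rfl (fun V _ a v _ => le_of_eq ?_)
    fun a => (add_zero _).le
  simp only [debLaw, debMid, debIn]
  rw [abs_eq_zero, sub_eq_zero]
  congr 1
  funext w
  rw [smul_add, smul_smul, mul_inv_cancel₀ (sqrt_pos.2 hΔ).ne', one_smul]

end Vale.Agent.P347
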