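import Vale.Agent.P347Zero.RealBase
import Vale.Agent.P347Zero.RealStep
import Vale.Agent.P347Zero.EstProg

/-!
P347: the structural part of the recursion over programs and the step of one binder.
-/

open MeasureTheory ProbabilityTheory Real
open scoped RealInnerProductSpace

namespace Vale.Agent.P347

variable {d : ℕ}

/-- The zero field. -/
theorem fld_zero (δ r C : ℝ) (N : ℕ) (hδ : 0 ≤ δ) : Fld d δ r 0 C N fun _ => (0 : E d) := by
  refine ⟨contDiff_const, fun x => by simp [hδ], fun x => by simp, fun x a b => by simp, ?_, ?_⟩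
  · intro m c ρ _ _ q τ _
    simp [ou, sq_nonneg]
  · intro m c ρ _ _ q τ _
    simp [ou, chaosOne, sq_nonneg]

/-- Samplers of the programs at size below `thr`, with error read off the size, the mass and the
number of nodes. -/
def ProgSmp (H : Fam d) (δ : ℕ → ℝ) (r : ℝ) (X Y Z : E d → ℝ) (K Nr q : ℕ) (thr : ℝ) (F : Prog) :
    Prop :=
  ∀ lam : ℝ, 0 ≤ lam → lam * F.size δ r ≤ thr →
    ∀ (β : Type) [MeasurableSpace β] (y : β → E d) (env : β → Env d),
      Measurable y → (∀ i, Measurable fun z => env z i) →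
      Smp d (K * (F.nodes * (Nr + 1)) ^ K * q)
        (fun V z => lam • F.sem (H V (y z)) (env z))
        fun z => lam * F.size δ r * X (y z) + lam * F.mass δ r * Y (y z)
          + ((F.nodes * (Nr + 1) : ℕ) : ℝ) ^ K * Z (y z)

section struct

variable {H : Fam d} {δ : ℕ → ℝ} {r B T thr : ℝ} {X Y Z : E d → ℝ} {K Nr q ℓ₀ A : ℕ}

/-- A program without noise is known. -/
theorem progSmp_zero (hδ : ∀ ℓ, 0 < δ ℓ) (hr : 0 < r)
    (hY : ∀ y, 0 ≤ Y y) (hZ : ∀ y, 0 ≤ Z y) {F : Prog} (hF : F.WF δ r B T)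
    (h0 : F.size δ r = 0) : ProgSmp H δ r X Y Z K Nr q thr F := by
  intro lam hl _ β _ y env _ henv
  have hm : Measurable fun z => F.sem (fun _ _ => (0 : E d)) (env z) :=
    (Prog.measurable_sem (r := r) (Gb := 0) (C := 0) (N := 0) (δ := δ)
      (fun ℓ => fld_zero (δ ℓ) r 0 0 (hδ ℓ).le) F).comp (measurable_pi_lambda _ henv)
  refine ((Smp.known (hm.const_smul lam)).congr fun V _ z => ?_).mono (Nat.zero_le _) fun z => ?_
  · show lam • F.sem _ _ = lam • F.sem _ _
    rw [Prog.sem_eq_of_size_eq_zero hδ hr hF h0]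
  · have := (F.mass_le_size (fun ℓ => (hδ ℓ).le) hr.le).1
    have := hY (y z)
    have := hZ (y z)
    rw [h0]
    have : 0 ≤ lam * F.mass δ r * Y (y z) := by positivity
    have : 0 ≤ ((F.nodes * (Nr + 1) : ℕ) : ℝ) ^ K * Z (y z) := by positivity
    linarith

/-- The recursion through sums and multiples. -/
theorem progSmp_struct (hδ : ∀ ℓ, 0 < δ ℓ) (hr : 0 < r) (hK : 1 ≤ K) (hX : ∀ y, 0 ≤ X y)
    (hY : ∀ y, 0 ≤ Y y) (hZ : ∀ y, 0 ≤ Z y)
    (hcall : ∀ ℓ τ p, (Prog.call ℓ τ p).WF δ r B T → (Prog.call ℓ τ p).LevelGe ℓ₀ →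
      (Prog.call ℓ τ p).depth ≤ A → ProgSmp H δ r X Y Z K Nr q thr (.call ℓ τ p))
    (hbind : ∀ p Δ b, (Prog.bind p Δ b).WF δ r B T → (Prog.bind p Δ b).LevelGe ℓ₀ →
      (Prog.bind p Δ b).depth ≤ A → ProgSmp H δ r X Y Z K Nr q thr (.bind p Δ b))
    (F : Prog) : F.WF δ r B T → F.LevelGe ℓ₀ → F.depth ≤ A →
      ProgSmp H δ r X Y Z K Nr q thr F := by
  induction F with
  | inp i => intro hw _ _; exact progSmp_zero hδ hr hY hZ hw rfl
  | zero => intro hw _ _; exact progSmp_zero hδ hr hY hZ hw rfl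
  | call ℓ τ p _ => exact hcall ℓ τ p
  | bind p Δ b _ _ => exact hbind p Δ b
  | smul c p ih =>
    intro hw hl hA lam hlam hs β _ y env hy henv
    simp only [Prog.size, ← mul_assoc] at hs
    have h := ih hw hl hA (lam * |c|) (by positivity) hs β y env hy henv
    have hn : p.nodes * (Nr + 1) ≤ (Prog.smul c p).nodes * (Nr + 1) :=
      Nat.mul_le_mul_right _ (by simp [Prog.nodes])
    have hq : K * (p.nodes * (Nr + 1)) ^ K * q ≤ K * ((Prog.smul c p).nodes * (Nr + 1)) ^ K * q :=
      Nat.mul_le_mul (Nat.mul_le_mul le_rfl (Nat.pow_le_pow_left hn K)) le_rfl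
    have he : ∀ z, lam * |c| * p.size δ r * X (y z) + lam * |c| * p.mass δ r * Y (y z)
        + ((p.nodes * (Nr + 1) : ℕ) : ℝ) ^ K * Z (y z)
        ≤ lam * (Prog.smul c p).size δ r * X (y z) + lam * (Prog.smul c p).mass δ r * Y (y z)
          + (((Prog.smul c p).nodes * (Nr + 1) : ℕ) : ℝ) ^ K * Z (y z) := fun z => by
      simp only [Prog.size, Prog.mass, ← mul_assoc]
      gcongr
      exact hZ _
    rcases le_or_gt 0 c with hc | hc
    · refine (h.congr fun V _ z => ?_).mono hq he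
      simp [Prog.sem, smul_smul, abs_of_nonneg hc]
    · refine (h.neg.congr fun V _ z => ?_).mono hq he
      simp [Prog.sem, smul_smul, abs_of_neg hc]
  | add p p' ih ih' =>
    intro hw hl hA
    simp only [Prog.depth, max_le_iff] at hA
    have hδ' : 0 ≤ δ := fun ℓ => (hδ ℓ).le
    have hs0 := p.size_nonneg hδ' hr.le
    have hs0' := p'.size_nonneg hδ' hr.le
    rcases eq_or_lt_of_le hs0 with h1 | h1
    · intro lam hlam hs β _ y env hy henv
      simp only [Prog.size, ← h1, zero_add] at hs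
      have hm : Measurable fun z => lam • p.sem (fun _ _ => (0 : E d)) (env z) :=
        ((Prog.measurable_sem (r := r) (Gb := 0) (C := 0) (N := 0) (δ := δ)
          (fun ℓ => fld_zero (δ ℓ) r 0 0 (hδ ℓ).le) p).comp
            (measurable_pi_lambda _ henv)).const_smul lam
      refine (((ih' hw.2 hl.2 hA.2 lam hlam hs β y env hy henv).shift hm).congr
        fun V _ z => ?_).mono ?_ fun z => ?_
      · simp only [Prog.sem, smul_add]
        rw [Prog.sem_eq_of_size_eq_zero hδ hr hw.1 h1.symm _ (H V (y z))]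
        abel
      · gcongr; simp [Prog.nodes]; omega
      · simp only [Prog.size, Prog.mass, ← h1, zero_add]
        have := (p.mass_le_size hδ' hr.le).1
        gcongr
        · exact hY _
        · linarith
        · exact hZ _
        · simp [Prog.nodes]; omega
    rcases eq_or_lt_of_le hs0' with h2 | h2
    · intro lam hlam hs β _ y env hy henv
      simp only [Prog.size, ← h2, add_zero] at hs
      have hm : Measurable fun z => lam • p'.sem (fun _ _ => (0 : E d)) (env z) :=
        ((Prog.measurable_sem (r := r) (Gb := 0) (C := 0) (N := 0) (δ := δ)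
          (fun ℓ => fld_zero (δ ℓ) r 0 0 (hδ ℓ).le) p').comp
            (measurable_pi_lambda _ henv)).const_smul lam
      refine (((ih hw.1 hl.1 hA.1 lam hlam hs β y env hy henv).shift hm).congr
        fun V _ z => ?_).mono ?_ fun z => ?_
      · simp only [Prog.sem, smul_add]
        rw [Prog.sem_eq_of_size_eq_zero hδ hr hw.2 h2.symm _ (H V (y z))]
      · gcongr; simp [Prog.nodes]; omega
      · simp only [Prog.size, Prog.mass, ← h2, add_zero]
        have := (p'.mass_le_size hδ' hr.le).1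
        gcongr
        · exact hY _
        · linarith
        · exact hZ _
        · simp [Prog.nodes]; omega
    intro lam hlam hs β _ y env hy henv
    simp only [Prog.size] at hs
    set s := p.size δ r with hsd
    set s' := p'.size δ r with hsd'
    have hS : 0 < s + s' := add_pos h1 h2
    have hle : ∀ a, 0 < a → a ≤ s + s' → lam * √((s + s') / a) * a ≤ thr := fun a ha hal => by
      refine le_trans ?_ hs
      rw [mul_assoc]
      refine mul_le_mul_of_nonneg_left ?_ hlam
      rw [← Real.sqrt_sq ha.le, ← Real.sqrt_mul (by positivity), Real.sqrt_sq ha.le]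
      calc √((s + s') / a * a ^ 2) = √((s + s') * a) := by congr 1; field_simp
        _ ≤ √((s + s') * (s + s')) := by gcongr
        _ = _ := Real.sqrt_mul_self hS.le
    have h := Smp.split hlam h1 h2
      (ih hw.1 hl.1 hA.1 _ (by positivity) (hle s h1 (by linarith)) β y env hy henv)
      (ih' hw.2 hl.2 hA.2 _ (by positivity) (hle s' h2 (by linarith)) β y env hy henv)
    have hn : (p.nodes * (Nr + 1)) ^ K + (p'.nodes * (Nr + 1)) ^ K
        ≤ ((Prog.add p p').nodes * (Nr + 1)) ^ K :=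
      (pow_add_pow_le (Nat.zero_le _) (Nat.zero_le _) (by omega)).trans
        (Nat.pow_le_pow_left (by rw [← add_mul]; exact Nat.mul_le_mul_right _ (by simp [Prog.nodes])) K)
    refine (h.congr fun V _ z => ?_).mono ?_ fun z => ?_
    · simp [Prog.sem]
    · rw [← add_mul, ← Nat.mul_add]
      exact Nat.mul_le_mul (Nat.mul_le_mul le_rfl hn) le_rfl
    · have e1 : ∀ a, 0 < a → √(a / (s + s')) * (lam * √((s + s') / a)) = lam := fun a ha => by
        rw [mul_left_comm, ← Real.sqrt_mul (by positivity)]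
        have : a / (s + s') * ((s + s') / a) = 1 := by field_simp
        rw [this, Real.sqrt_one, mul_one]
      have hc : ∀ a, a ≤ s + s' → 0 < a → √(a / (s + s')) ≤ 1 := fun a hal ha =>
        Real.sqrt_le_one.2 ((div_le_one hS).2 hal)
      have hn' : ((p.nodes * (Nr + 1) : ℕ) : ℝ) ^ K + ((p'.nodes * (Nr + 1) : ℕ) : ℝ) ^ K
          ≤ (((Prog.add p p').nodes * (Nr + 1) : ℕ) : ℝ) ^ K := by exact_mod_cast hn
      generalize hna : ((p.nodes * (Nr + 1) : ℕ) : ℝ) ^ K = na at hn' ⊢
      generalize hnb : ((p'.nodes * (Nr + 1) : ℕ) : ℝ) ^ K = nb at hn' ⊢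
      generalize (((Prog.add p p').nodes * (Nr + 1) : ℕ) : ℝ) ^ K = nc at hn' ⊢
      have hna0 : 0 ≤ na := by rw [← hna]; positivity
      have hnb0 : 0 ≤ nb := by rw [← hnb]; positivity
      simp only [Prog.size, Prog.mass, ← hsd, ← hsd', mul_add, ← mul_assoc, e1 s h1, e1 s' h2]
      have hz := mul_le_mul_of_nonneg_right hn' (hZ (y z))
      have h3 : √(s / (s + s')) * na * Z (y z)
          ≤ na * Z (y z) := by
        rw [mul_assoc]
        exact mul_le_of_le_one_left (by have := hZ (y z); positivity) (hc s (by linarith) h1)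
      have h4 : √(s' / (s + s')) * nb * Z (y z)
          ≤ nb * Z (y z) := by
        rw [mul_assoc]
        exact mul_le_of_le_one_left (by have := hZ (y z); positivity) (hc s' (by linarith) h2)
      linarith

end struct

/-- Two triple averages of bounded continuous functions. -/
theorem abs_triple_sub_le {F G : (E d × E d) × E d → ℝ} (hF : Continuous F) (hG : Continuous G)
    {K : ℝ} (hFK : ∀ u, |F u| ≤ K) (hGK : ∀ u, |G u| ≤ K) {g : E d → ℝ}
    (hg : Integrable g (gau (Fin d))) (h : ∀ η ξ w, |F ((η, ξ), w) - G ((η, ξ), w)| ≤ g η) :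
    |(∫ η, ∫ ξ, ∫ w, F ((η, ξ), w) ∂gau (Fin d) ∂gau (Fin d) ∂gau (Fin d))
      - ∫ η, ∫ ξ, ∫ w, G ((η, ξ), w) ∂gau (Fin d) ∂gau (Fin d) ∂gau (Fin d)|
      ≤ ∫ η, g η ∂gau (Fin d) := by
  have key : ∀ H : (E d × E d) × E d → ℝ, Continuous H → (∀ u, |H u| ≤ K) →
      (∀ η ξ, Integrable (fun w => H ((η, ξ), w)) (gau (Fin d))) ∧
      (∀ η, Integrable (fun ξ => ∫ w, H ((η, ξ), w) ∂gau (Fin d)) (gau (Fin d))) ∧
      Integrable (fun η => ∫ ξ, ∫ w, H ((η, ξ), w) ∂gau (Fin d) ∂gau (Fin d)) (gau (Fin d)) := by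
    intro H hH hK
    have c2 : Continuous fun u : E d × E d => ∫ w, H (u, w) ∂gau (Fin d) :=
      continuous_of_dominated (fun u => (hH.comp (by fun_prop)).aestronglyMeasurable)
        (fun u => ae_of_all _ fun w => (Real.norm_eq_abs _).trans_le (hK _)) (integrable_const K)
        (ae_of_all _ fun w => hH.comp (by fun_prop))
    have c1 : Continuous fun η : E d => ∫ ξ, ∫ w, H ((η, ξ), w) ∂gau (Fin d) ∂gau (Fin d) :=
      continuous_of_dominated (fun η => (c2.comp (by fun_prop)).aestronglyMeasurable)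
        (fun η => ae_of_all _ fun ξ =>
          (Real.norm_eq_abs _).trans_le (abs_integral_le fun w => hK _)) (integrable_const K)
        (ae_of_all _ fun ξ => c2.comp (by fun_prop))
    exact ⟨fun η ξ => Integrable.of_bound (hH.comp (by fun_prop)).aestronglyMeasurable K
        (ae_of_all _ fun w => (Real.norm_eq_abs _).trans_le (hK _)),
      fun η => Integrable.of_bound (c2.comp (by fun_prop)).aestronglyMeasurable K
        (ae_of_all _ fun ξ => (Real.norm_eq_abs _).trans_le (abs_integral_le fun w => hK _)),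
      Integrable.of_bound c1.aestronglyMeasurable K (ae_of_all _ fun η =>
        (Real.norm_eq_abs _).trans_le (abs_integral_le fun ξ => abs_integral_le fun w => hK _))⟩
  obtain ⟨f3, f2, f1⟩ := key F hF hFK
  obtain ⟨g3, g2, g1⟩ := key G hG hGK
  rw [← integral_sub f1 g1]
  refine abs_integral_le_integral_abs.trans (integral_mono_of_nonneg
    (ae_of_all _ fun η => abs_nonneg _) hg (ae_of_all _ fun η => ?_))
  simp only
  rw [← integral_sub (f2 η) (g2 η)]
  refine abs_integral_le fun ξ => ?_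
  rw [← integral_sub (f3 η ξ) (g3 η ξ)]
  exact abs_integral_le fun w => h η ξ w

/-- Replacing the body moves the law of a compensated binder by the mean distance of the bodies. -/
theorem abs_debLaw_sub_le {lam Δ ζ : ℝ} (hlam : 0 ≤ lam) {mb mb' : E d → E d}
    {Φ : E d → E d → E d} {mp : E d} {v : E d → ℝ} (hv : IsTest v) (hmb : Continuous mb)
    (hmb' : Continuous mb') (hΦ : Continuous fun u : E d × E d => Φ u.1 u.2)
    (hint : Integrable (fun w => ‖mb (mp + √Δ • w) - mb' (mp + √Δ • w)‖) (gau (Fin d)))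
    (hnear : ∫ w, ‖mb (mp + √Δ • w) - mb' (mp + √Δ • w)‖ ∂gau (Fin d) ≤ ζ) :
    |debLaw lam Δ mb Φ mp v - debLaw lam Δ mb' Φ mp v| ≤ lam * ζ := by
  obtain ⟨K, hK⟩ := hv.2.1
  have hl : ∀ a c, |v a - v c| ≤ ‖a - c‖ := fun a c => by
    simpa using convex_univ.norm_image_sub_le_of_norm_fderiv_le (𝕜 := ℝ)
      (fun u _ => hv.1.differentiable one_ne_zero u) (fun u _ => hv.2.2 u) (Set.mem_univ c)
      (Set.mem_univ a)
  set P : E d × E d → E d := fun u => (√3)⁻¹ • u.2 + Φ (mp + √Δ • u.1) u.2 with hP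
  have hPc : Continuous P :=
    Continuous.add (f := fun u : E d × E d => (√3)⁻¹ • u.2)
      (g := fun u : E d × E d => Φ (mp + √Δ • u.1) u.2) (by fun_prop)
      (hΦ.comp (by fun_prop : Continuous fun u : E d × E d => (mp + √Δ • u.1, u.2)))
  have h3 : ∀ g : E d → E d, Continuous g → Continuous fun u : (E d × E d) × E d =>
      v (lam • g (mp + √Δ • u.1.1) + P u.1 + √(2 / 3) • u.2) := fun g hg =>
    hv.1.continuous.comp (by fun_prop)
  have e : ∀ g : E d → E d, debLaw lam Δ g Φ mp v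
      = ∫ η, ∫ ξ, ∫ w, v (lam • g (mp + √Δ • η) + P (η, ξ) + √(2 / 3) • w)
        ∂gau (Fin d) ∂gau (Fin d) ∂gau (Fin d) := fun g => by
    simp only [debLaw, hP, add_assoc]
  rw [e mb, e mb']
  refine (abs_triple_sub_le (h3 mb hmb) (h3 mb' hmb') (fun u => hK _) (fun u => hK _)
    (hint.const_mul lam) fun η ξ w => (hl _ _).trans_eq ?_).trans
      ((integral_const_mul lam _).trans_le (mul_le_mul_of_nonneg_left hnear hlam))
  simp only
  rw [add_sub_add_right_eq_sub, add_sub_add_right_eq_sub, ← smul_sub, norm_smul,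
    Real.norm_eq_abs, abs_of_nonneg hlam]

/-- The target of a compensated binder read at the parent's environment. -/
theorem binder_smp {H : Fam d} {δ : ℕ → ℝ} {r Cb : ℝ} {N : ℕ} {Gb : E d → ℝ}
    (hfld : ∀ V, InClass d V → ∀ y ℓ, Fld d (δ ℓ) r (Gb y) Cb N (H V y ℓ))
    {p b Φ : Prog} {Δ lam ζ η : ℝ} (hΔ : 0 < Δ) (hlam : 0 ≤ lam) (hδ : 0 ≤ δ)
    (hdeb : ∀ (h : ℕ → E d → E d) (G : ℝ), (∀ ℓ, Fld d (δ ℓ) r G Cb N (h ℓ)) → ∀ env : Env d,
      ∀ v : E d → ℝ, IsTest v →
        |debLaw lam Δ (fun x => b.sem h (push x env))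
            (fun x ξ => Φ.sem h (push ξ (push x env))) (p.sem h env) v
          - ∫ w, v (lam • (Prog.bind p Δ b).sem h env + w) ∂gau (Fin d)| ≤ η)
    {β : Type} [MeasurableSpace β] {y : β → E d} {env : β → Env d} {qp qb qc : ℕ} {Lb : ℝ}
    (hLb : 0 ≤ Lb)
    {mb : (E d → ℝ) → β × E d → E d} {ep be bc : β → ℝ} {eb : β × E d → ℝ}
    {ec : (β × E d) × E d → ℝ}
    (hsp : Smp d qp (fun V z => (√Δ)⁻¹ • p.sem (H V (y z)) (env z)) ep)
    (hsb : Smp d qb (fun V a => (√3 * lam) • mb V a) eb)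
    (hsc : Smp d qc
      (fun V a => √3 • Φ.sem (H V (y a.1.1)) (push a.2 (push a.1.2 (env a.1.1)))) ec)
    (hmb : ∀ V, InClass d V → ∀ z, ContDiff ℝ 1 (fun x => mb V (z, x)) ∧
      ∀ x x', ‖mb V (z, x) - mb V (z, x')‖ ≤ Lb * ‖x - x'‖)
    (hnear : ∀ V, InClass d V → ∀ z,
      ∫ w, ‖mb V (z, p.sem (H V (y z)) (env z) + √Δ • w)
          - b.sem (H V (y z)) (push (p.sem (H V (y z)) (env z) + √Δ • w) (env z))‖ ∂gau (Fin d)
        ≤ ζ)
    (heb : ∀ z x, eb (z, x) ≤ be z) (hec : ∀ z x ξ, ec ((z, x), ξ) ≤ bc z) :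
    Smp d (qp + (qb + qc)) (fun V z => lam • (Prog.bind p Δ b).sem (H V (y z)) (env z))
      fun z => (lam * Lb * √Δ + Φ.lip δ (pushR 0 (pushR √Δ 0))) * ep z
        + (√3)⁻¹ * (be z + bc z) + (lam * ζ + η) := by
  have hLx : 0 ≤ Φ.lip δ (pushR 0 (pushR 1 0)) :=
    Φ.lip_nonneg hδ (pushR_nonneg le_rfl (pushR_nonneg zero_le_one fun _ => le_rfl))
  have hLξ : 0 ≤ Φ.lip δ (pushR 1 0) :=
    Φ.lip_nonneg hδ (pushR_nonneg zero_le_one fun _ => le_rfl)
  have hreg : ∀ V, InClass d V → ∀ z,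
      ContDiff ℝ 1 (fun u : E d × E d =>
          Φ.sem (H V (y z)) (push u.2 (push u.1 (env z)))) ∧
        (∀ ξ x x', ‖Φ.sem (H V (y z)) (push ξ (push x (env z)))
            - Φ.sem (H V (y z)) (push ξ (push x' (env z)))‖
          ≤ Φ.lip δ (pushR 0 (pushR 1 0)) * ‖x - x'‖) ∧
        ∀ x ξ ξ', ‖Φ.sem (H V (y z)) (push ξ (push x (env z)))
            - Φ.sem (H V (y z)) (push ξ' (push x (env z)))‖
          ≤ Φ.lip δ (pushR 1 0) * ‖ξ - ξ'‖ := fun V hV z => by
    have hh := hfld V hV (y z)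
    refine ⟨Prog.contDiff_sem hh Φ (L := pushR 1 (pushR 1 0)) (fun i => ?_)
      (pushR_nonneg zero_le_one (pushR_nonneg zero_le_one fun _ => le_rfl)) (fun u u' i => ?_),
      fun ξ x x' => Prog.norm_sem_comp_sub_le hh Φ
        (F := fun x => push ξ (push x (env z))) (fun a a' i => ?_) x x',
      fun x ξ ξ' => Prog.norm_sem_comp_sub_le hh Φ
        (F := fun ξ => push ξ (push x (env z))) (fun a a' i => ?_) ξ ξ'⟩
    · rcases i with _ | _ | j
      · exact contDiff_snd
      · exact contDiff_fst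
      · exact contDiff_const
    · rcases i with _ | _ | j
      · simpa [push, pushR] using norm_snd_le (u - u')
      · simpa [push, pushR] using norm_fst_le (u - u')
      · simp [push, pushR]
    · rcases i with _ | _ | j <;> simp [push, pushR]
    · rcases i with _ | _ | j <;> simp [push, pushR]
  have h := smp_bind (α := β) (mp := fun V z => p.sem (H V (y z)) (env z)) (mb := mb)
    (Φ := fun V a => Φ.sem (H V (y a.1.1)) (push a.2 (push a.1.2 (env a.1.1))))
    (Lb := fun _ => Lb) (Lx := fun _ => Φ.lip δ (pushR 0 (pushR 1 0)))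
    (Lξ := fun _ => Φ.lip δ (pushR 1 0)) (be := be) (bc := bc) hΔ hsp hsb hsc hmb hreg
    (fun _ => hLb) (fun _ => hLx) (fun _ => hLξ) heb hec
  have hs : Φ.lip δ (pushR 0 (pushR √Δ 0)) = √Δ * Φ.lip δ (pushR 0 (pushR 1 0)) := by
    rw [← Prog.lip_smul_v, ← pushR_smul, mul_zero, ← pushR_smul, mul_one, smul_zero]
  refine SmpT.weaken (η := fun _ => lam * ζ + η) h le_rfl (fun V hV z v hv => ?_)
    fun z => le_of_eq (by rw [abs_of_nonneg hlam, hs]; ring)
  refine (abs_sub_le _ (debLaw lam Δ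
    (fun x => b.sem (H V (y z)) (push x (env z)))
    (fun x ξ => Φ.sem (H V (y z)) (push ξ (push x (env z))))
    (p.sem (H V (y z)) (env z)) v) _).trans
      (add_le_add ?_ (hdeb _ _ (hfld V hV (y z)) (env z) v hv))
  refine abs_debLaw_sub_le hlam hv (hmb V hV z).1.continuous
    ((Prog.contDiff_sem_push (hfld V hV (y z)) b (env z)).continuous) (hreg V hV z).1.continuous
    ?_ (hnear V hV z)
  refine (integrable_gau_of_lip (K := (Lb + b.lip δ (pushR 1 0)) * √Δ) fun w w' => ?_).norm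
  rw [sub_sub_sub_comm, add_mul, add_mul]
  refine (norm_sub_le _ _).trans (add_le_add (((hmb V hV z).2 _ _).trans_eq ?_)
    ((Prog.norm_sem_push_sub_le (hfld V hV (y z)) b (env z) _ _).trans_eq ?_))
  · rw [add_sub_add_left_eq_sub, ← smul_sub, norm_smul, Real.norm_eq_abs,
      abs_of_nonneg (sqrt_nonneg _), mul_assoc]
  · rw [add_sub_add_left_eq_sub, ← smul_sub, norm_smul, Real.norm_eq_abs,
      abs_of_nonneg (sqrt_nonneg _)]
    ring

end Vale.Agent.P347
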