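import Vale.Agent.P347Zero.StepKernel
import Vale.Agent.P347Zero.Chain
import Vale.Agent.P347Zero.Assembly0
import Vale.Agent.P347Zero.Appell

/-!
P347 (exponent zero): one step from samplers of the maps between neighbouring levels.
-/

open MeasureTheory ProbabilityTheory Real
open scoped RealInnerProductSpace Gradient

namespace Vale.Agent.P347

variable {d : ℕ}

/-- The cut-off radius. -/
noncomputable def stepRho (P0 : ℕ) (y : E d) : ℝ := (d : ℝ) ^ P0 * (1 + ‖y‖) ^ 2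

lemma measurable_stepRho (P0 : ℕ) : Measurable (stepRho (d := d) P0) := by
  unfold stepRho; fun_prop

lemma var'_facts {η : ℝ} (hη : 0 < η) (hη1 : η ≤ 1 / 128) :
    η / 2 ≤ var' η ∧ var' η ≤ η ∧ 0 < var' η ∧ √(var' η) ≤ 1 := by
  have hk : 1 ≤ kap η := by unfold kap; linarith
  have hk2 : kap η ≤ 2 := by unfold kap; linarith
  have h1 : η / 2 ≤ var' η := div_le_div_of_nonneg_left hη.le (by linarith) hk2
  have h2 : var' η ≤ η := div_le_self hη.le hk
  exact ⟨h1, h2, by linarith, sqrt_le_one.2 (by linarith)⟩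

lemma unitr0_le {η : ℝ} (hη : 0 < η) (hη1 : η ≤ 1 / 128) (y : E d) :
    unitr0 η y ≤ unitδ η * ‖y‖ := by
  obtain ⟨-, h2, h3, h4⟩ := var'_facts hη hη1
  refine mul_le_mul_of_nonneg_right ?_ (norm_nonneg y)
  calc √(var' η) * (var' η / 2) ^ 4 ≤ 1 * (var' η / 2) ^ 1 :=
        mul_le_mul h4 (pow_le_pow_of_le_one (by positivity) (by linarith) (by norm_num))
          (by positivity) zero_le_one
    _ = unitδ η := by simp [unitδ]

lemma le_stepRho (hd : 1 ≤ d) (P0 : ℕ) (y : E d) :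
    1 + ‖y‖ ≤ stepRho P0 y :=
  (le_self_pow₀ (by linarith [norm_nonneg y]) two_ne_zero).trans
    (le_mul_of_one_le_left (by positivity) (one_le_pow₀ (by exact_mod_cast hd)))

lemma rhoOk_stepRho {η : ℝ} (hd : 1 ≤ d) (hη : 0 < η) (hη1 : η ≤ 1 / 128) (P0 : ℕ) (y : E d) :
    RhoOk η (stepRho P0) y := by
  have h := le_stepRho hd P0 y
  refine ⟨by linarith [norm_nonneg y], (unitr0_le hη hη1 y).trans ?_⟩
  obtain ⟨-, -, h3, -⟩ := var'_facts hη hη1
  exact mul_le_mul_of_nonneg_left (by linarith [norm_nonneg y]) (by unfold unitδ; linarith)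

/-- Only the square of the constant of a field matters. -/
lemma Fld.abs_C {δ r Gb C : ℝ} {N : ℕ} {h : E d → E d} (hh : Fld d δ r Gb C N h) :
    Fld d δ r Gb |C| N h := by
  have e : ∀ x : ℝ, (x * (δ * r * √(d : ℝ) * |C| / r ^ N)) ^ 2
      = (x * (δ * r * √(d : ℝ) * C / r ^ N)) ^ 2 := fun x => by
    simp only [mul_pow, div_pow, sq_abs]
  exact ⟨hh.smooth, hh.lip, hh.bdd, hh.symm,
    fun m c ρ a b q τ hτ => (hh.tail m c ρ a b q τ hτ).trans (e _).ge,
    fun m c ρ a b q τ hτ => (hh.tail_one m c ρ a b q τ hτ).trans (e _).ge⟩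

/-- The centre is computed beside any sampler. -/
lemma comp_centred {q : ℕ} {η : ℝ} {S : Type} [MeasurableSpace S] {F : (E d → ℝ) → E d × S → E d}
    (h : Comp d q fun V x => (x, F V x)) :
    Comp d (q + 4) fun V (p : E d × S) => cen V η p.1 4 + √(var' η) • F V p := by
  have h4 := Comp.cenIter (d := d) (η := η)
    (pr := fun x : (E d × S) × E d => x.1.1) (by fun_prop) 4
  have hf : Measurable fun x : ((E d × S) × E d) × E d => x.2 + √(var' η) • x.1.2 := by fun_prop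
  refine ((h.trans h4).trans (Comp.const hf)).congr fun V _ p => ?_
  simp

/-- One step from samplers of the maps between neighbouring levels. -/
theorem nonempty_stepAt_of_kernels {J Q P0 N : ℕ} {η r e Cb : ℝ} (hd : 1 ≤ d) (hη : 0 < η)
    (hη1 : η ≤ 1 / 128) (hr : 2 ≤ r)
    (hfld : ∀ V, InClass d V → ∀ y ℓ, Fld d (lvlδ (9 * unitδ η) r ℓ) r (cutGb η (stepRho P0) y) Cb N
      (ladder η r (stepRho P0) V y ℓ))
    (Φ : ℕ → Prog) (b ηΦ : ℕ → E d → ℝ) (hb : ∀ i y, 0 ≤ b i y) (hηΦ : ∀ i y, 0 ≤ ηΦ i y)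
    (hlip : ∀ i, i < J → r * (Φ i).lip (lvlδ (9 * unitδ η) r) (pushR 0 (pushR 1 0)) ≤ 1)
    (hmap : ∀ i, i < J → ∀ V, InClass d V → ∀ y q : E d, ∀ u : E d → ℝ, IsTest u →
      |(∫ ξ, u (ξ + (Φ i).sem (ladder η r (stepRho P0) V y)
            (push ξ (push ((lvlS r i)⁻¹ • q) fun _ => 0))) ∂gau (Fin d))
        - ∫ z, u z ∂tilt (fun z => upot (lvlσ r (i + 2)) (cutPot η (stepRho P0) V y)
            (q + √(lvlσ r i ^ 2 - lvlσ r (i + 2) ^ 2) • z))| ≤ ηΦ i y)
    (hsmp : ∀ i, i < J → Smp d Q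
      (fun V (a : (E d × E d) × E d) => (lvlC r i / √(lvlV r i)) •
        (Φ i).sem (ladder η r (stepRho P0) V a.1.1)
          (push a.2 (push ((lvlS r i)⁻¹ • a.1.2) fun _ => 0))) fun a => b i a.1.1)
    (hbound : ∀ y : E d,
      (2 : ℝ) ^ J * ∑ i ∈ Finset.range J, (lvlσ r (i + 1) * b i y + ηΦ i y)
        + 2 * lvlσ r J * (√(d : ℝ) + lvlσ r J * cutGb η (stepRho P0) y)
        + 4 * (unitδ η + unitr0 η y) * (1 + 2 * d + 4 * unitr0 η y ^ 2) / stepRho P0 y
      ≤ e * (1 + ‖y‖) ^ 2) :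
    Nonempty (StepAt d (J * Q + 4) η e) := by
  set ρ := stepRho (d := d) P0 with hρd
  have hρ : ∀ y, RhoOk η ρ y := rhoOk_stepRho hd hη hη1 P0
  have hr1 : 1 < r := by linarith
  have hσ0 : ∀ i, 0 ≤ lvlσ r i := fun i => (lvlσ_pos (by linarith) i).le
  set R : (E d → ℝ) → E d → E d → ℝ := fun V y => cutPot η ρ V y with hRd
  have hch := smpT_chain (d := d) (q := Q) (α := E d) J
    (fun i V y q v => midStep r i (Φ i) (ladder η r ρ V y) q v)
    (fun i V y q v => midMean r (R V y) i v q)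
    (fun i y => lvlσ r (i + 1) * b i y) ηΦ (fun _ => (0 : E d)) measurable_const
    (fun i hi => smpT_midStep hr hfld (hsmp i hi))
    (fun i hi V hV y v B L hv hB hL =>
      midStep_facts (hfld V hV y) (pot_cutPot hV hη hη1 (hρ y)).contR
        (abs_cutPot_le hV hη hη1 (hρ y)) hr (hlip i hi) (hmap i hi V hV y) hv hB hL)
    (fun i _ V hV y q v w t B hv hw hbv hbw h =>
      midMean_mono (pot_cutPot hV hη hη1 (hρ y)).contR (abs_cutPot_le hV hη hη1 (hρ y)) hr1 i q
        hv hw hbv hbw h)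
    (fun i y => ⟨mul_nonneg (hσ0 _) (hb i y), hηΦ i y⟩)
    (fun V y v => midIter r (R V y) 0 J v 0)
    (fun i V y v => midIter r (R V y) i (J - i) v)
    (fun V y v => by rw [Nat.sub_self, midIter]) (fun V y v => rfl)
    (fun V y v i hi x => by
      rw [show J - i = J - (i + 1) + 1 by omega, midIter])
    (fun V hV y v hv i _ => (continuous_midIter (pot_cutPot hV hη hη1 (hρ y)).contR
      (abs_cutPot_le hV hη hη1 (hρ y)) hr1 hv i _).1)
  obtain ⟨S, _, _, law, _, F, hF, herr⟩ := hch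
  refine nonempty_stepAt_of_comp law (fun V y s => cen V η y 4 + √(var' η) • F V (y, s))
    (comp_centred (hF (E d × S) id measurable_id)) fun V hV v y hv ⟨B, hB⟩ hl => ?_
  obtain ⟨-, -, hv0, hv1⟩ := var'_facts hη hη1
  set u : E d → ℝ := fun z => v (cen V η y 4 + √(var' η) • z) with hud
  have hdu : ∀ x, HasFDerivAt u ((fderiv ℝ v (cen V η y 4 + √(var' η) • x)).comp
      (√(var' η) • ContinuousLinearMap.id ℝ (E d))) x := fun x =>
    ((hv.differentiable one_ne_zero) _).hasFDerivAt.comp x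
      (((hasFDerivAt_id x).const_smul (√(var' η))).const_add (cen V η y 4))
  have hu : IsTest u := by
    refine ⟨hv.comp (contDiff_const.add (contDiff_id.const_smul (√(var' η)))),
      ⟨B, fun x => hB _⟩, fun x => ?_⟩
    rw [(hdu x).fderiv, ContinuousLinearMap.comp_smul, ContinuousLinearMap.comp_id, norm_smul,
      Real.norm_eq_abs, abs_of_nonneg (sqrt_nonneg _)]
    exact mul_le_one₀ hv1 (norm_nonneg _) (hl _)
  have h1 := herr V hV y u hu.1 hu.2.1 hu.2.2
  have h2 := abs_midIter_sub_le hd (pot_cutPot hV hη hη1 (hρ y))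
    (norm_cutGrad_le hV hη hη1 (hρ y)) (abs_cutPot_le hV hη hη1 (hρ y)) hr1 hu J
  have h3 := abs_oracleMean_sub_cut_le hd hV hη hη1 (hρ y) hv hB hl
  have hδ0 : 0 ≤ unitδ η := by unfold unitδ; linarith
  have h4 : 0 ≤ 4 * (unitδ η + unitr0 η y) * (1 + 2 * d + 4 * unitr0 η y ^ 2) / ρ y := by
    have : 0 ≤ unitr0 η y := by unfold unitr0; positivity
    have := (hρ y).1
    positivity
  have h3' := h3.trans (mul_le_of_le_one_left h4 (by rw [one_mul]; exact hv1))
  simp only [hud] at h1 h2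
  refine le_trans ?_ (hbound y)
  have t1 := abs_sub_le (∫ s, v (cen V η y 4 + √(var' η) • F V (y, s)) ∂law)
    (midIter r (R V y) 0 J (fun z => v (cen V η y 4 + √(var' η) • z)) 0)
    (oracleMean V η v y)
  have t2 := abs_sub_le (midIter r (R V y) 0 J (fun z => v (cen V η y 4 + √(var' η) • z)) 0)
    (∫ z, v (cen V η y 4 + √(var' η) • z) ∂tilt (cutPot η ρ V y)) (oracleMean V η v y)
  rw [abs_sub_comm (∫ z, v (cen V η y 4 + √(var' η) • z) ∂tilt (cutPot η ρ V y))] at t2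
  linarith

end Vale.Agent.P347
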