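import Vale.Agent.P347Zero.StepSched

/-!
P347 (exponent zero): one step at one dimension from the maps between levels and their samplers.
-/

open MeasureTheory ProbabilityTheory Real Filter
open scoped Topology

namespace Vale.Agent.P347

/-- The constant of the lifted weights at the next two levels. -/
lemma lift_facts {δ : ℕ → ℝ} {x r κ : ℝ} {m i : ℕ} (hpos : ∀ ℓ, 0 < δ ℓ) (hx0 : 0 < x)
    (hx1 : x ≤ 1) (hxr : x⁻¹ ≤ r) (hdec : ∀ ℓ, δ (ℓ + 1) * r ≤ δ ℓ) (hκ : 0 ≤ κ)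
    (hsmall : ∀ ℓ, κ ^ m * δ ℓ ≤ 1) :
    (∀ ℓ, δ ℓ ≤ liftδ x i δ ℓ) ∧ (∀ ℓ, 0 < liftδ x i δ ℓ) ∧ ∀ ℓ, κ ^ m * liftδ x i δ ℓ ≤ 1 := by
  have hle := LevelSmpAux.le_liftδ (fun ℓ => (hpos ℓ).le) hx0 hx1 i
  exact ⟨hle, fun ℓ => (hpos ℓ).trans_le (hle ℓ), fun ℓ => le_trans (mul_le_mul_of_nonneg_left
    (LevelSmpAux.liftδ_le (fun ℓ => (hpos ℓ).le) hx0 hxr hdec i ℓ) (pow_nonneg hκ m)) (hsmall _)⟩

/-- The sampler of one map between neighbouring levels. -/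
lemma map_sampler {d N m n Mb Kl Kr Ks Nr Dp i p : ℕ} {r κ x Cl Tl Cb Cr Cs : ℝ} {e : ℕ}
    {H : Fam d} {δ : ℕ → ℝ} {Λ Gb ζ : E d → ℝ} {Φ : Prog}
    (hr2 : 2 ≤ r) (hκ : 16 ≤ κ) (hx0 : 0 < x) (hx1 : x ≤ 1) (hxr : x⁻¹ ≤ r)
    (hpos : ∀ ℓ, 0 < δ ℓ) (hdec : ∀ ℓ, δ (ℓ + 1) * r ≤ δ ℓ) (hsmall : ∀ ℓ, κ ^ m * δ ℓ ≤ 1)
    (hCl : 1 ≤ Cl) (hCr : 1 ≤ Cr) (hCs : 1 ≤ Cs) (hCb : 0 ≤ Cb)
    (hfld : ∀ V, InClass d V → ∀ y ℓ, Fld d (δ ℓ) r (Gb y) Cb N (H V y ℓ))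
    (hΛd : ∀ y, √(d : ℝ) ≤ Λ y) (hΛ1 : ∀ y, 1 ≤ Λ y) (hζ0 : ∀ y, 0 ≤ ζ y)
    (hζD : ∀ y, (d : ℝ) ^ Dp * ζ y ≤ 2 * Cl * Λ y * ((d : ℝ) ^ Mb)⁻¹)
    (hleaf : LeafEst H δ r 0 6 Λ)
    (hls : ∀ j, j ≤ m → LeafSmp H (liftδ x (i + 2) δ) r (κ ^ j) (Cr * (√κ)⁻¹) (i + 1)
      (Ks * (Kl * (Nr + 1) ^ Kl + Nr + 1) ^ Ks * (6 + 1))
      (fun y => (Cs * accR κ n j + Cs * x ^ p) * Λ y)
      fun y => Cs * ((Kl * (Nr + 1) ^ Kl + Nr + 1 : ℕ) : ℝ) ^ Ks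
        * ((d : ℝ) ^ Dp * ζ y + ((d : ℝ) ^ Mb)⁻¹))
    (hreal : ∀ (δ : ℕ → ℝ) (ℓ₀ qe ql : ℕ) (a b : ℝ) (e₁ : E d → ℝ),
      (∀ ℓ, 0 < δ ℓ) → (∀ ℓ, κ ^ m * δ ℓ ≤ 1) →
      (∀ V, InClass d V → ∀ y ℓ, Fld d (δ ℓ) r (Gb y) Cb N (H V y ℓ)) →
      (∀ y, √(d : ℝ) ≤ Λ y) → 0 ≤ a → 0 ≤ b → (∀ y, 0 ≤ e₁ y) →
      LeafEst H δ r ℓ₀ qe Λ →
      (∀ j, j ≤ m → LeafSmp H δ r (κ ^ j) (Cr * (√κ)⁻¹) ℓ₀ ql
        (fun y => (a * accR κ n j + b) * Λ y) e₁) →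
      ∀ (F : Prog), F.WF (κ ^ m • δ) r (Cl * r ^ e) Tl → F.LevelGe ℓ₀ → F.depth ≤ Kl →
      ∀ lam : ℝ, 0 ≤ lam → lam * F.size (κ ^ m • δ) r ≤ Cl * (√κ)⁻¹ →
      ∀ (β : Type) [MeasurableSpace β] (y : β → E d) (env : β → Env d),
        Measurable y → (∀ l, Measurable fun z => env z l) →
        Smp d (Kr * (F.nodes + Nr + 1) ^ Kr * (qe + ql + 1))
          (fun V z => lam • F.sem (H V (y z)) (env z))
          fun z => Cr * (lam * F.size (κ ^ m • δ) r)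
              * ((1 + a) * accR κ n m + b * (√(√κ))⁻¹) * Λ (y z)
            + Cr * (lam * F.mass (κ ^ m • δ) r) * (a * accR κ n m + b) * Λ (y z)
            + Cr * ((F.nodes + Nr + 1 : ℕ) : ℝ) ^ Kr * (e₁ (y z) + ((d : ℝ) ^ Mb)⁻¹))
    (hΦw : Φ.WF (κ ^ m • liftδ x (i + 2) δ) r (Cl * r ^ e) Tl) (hΦl : Φ.LevelGe (i + 1))
    (hΦd : Φ.depth ≤ Kl) (hΦn : Φ.nodes ≤ Kl * (Nr + 1) ^ Kl)
    (hsz : r ^ 2 * Φ.size (κ ^ m • liftδ x (i + 2) δ) r ≤ (√κ)⁻¹) :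
    Smp d (7 * Kr * (Ks + 1) * ((Kl + 1) * (Nr + 1) ^ (Kl + 1)) ^ (Kr + Ks))
      (fun V (a : (E d × E d) × E d) => (lvlC r i / √(lvlV r i)) •
        Φ.sem (H V a.1.1) (push a.2 (push ((lvlS r i)⁻¹ • a.1.2) fun _ => 0)))
      fun a => 2 * Cr * (1 + Cs) * (accR κ n m + x ^ p) * Λ a.1.1
        + 4 * Cr * Cs * Cl * (((Kl + 1) * (Nr + 1) ^ (Kl + 1) : ℕ) : ℝ) ^ (Kr + Ks)
          * (Λ a.1.1 * ((d : ℝ) ^ Mb)⁻¹) := by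
  obtain ⟨-, -, -, -, -, hC0, hC2, hV2, -, -, -⟩ := level_facts hr2 i
  have hκ0 : 0 ≤ κ := by linarith
  have hr0 : 0 ≤ r := by linarith
  obtain ⟨hle, hδ'0, hδ'1⟩ := lift_facts (i := i + 2) hpos hx0 hx1 hxr hdec hκ0 hsmall
  set δ' := liftδ x (i + 2) δ with hδ'
  have hlam0 : 0 ≤ lvlC r i / √(lvlV r i) := by positivity
  have hlam2 : lvlC r i / √(lvlV r i) ≤ r ^ 2 :=
    (div_le_self hC0 (one_le_sqrt.2 (by linarith))).trans hC2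
  have hsz' : lvlC r i / √(lvlV r i) * Φ.size (κ ^ m • δ') r ≤ (√κ)⁻¹ :=
    le_trans (mul_le_mul_of_nonneg_right hlam2
      (Φ.size_nonneg (fun ℓ => mul_nonneg (by positivity) (hδ'0 ℓ).le) hr0)) hsz
  have hsκ : (√κ)⁻¹ ≤ 1 := inv_le_one_of_one_le₀ (one_le_sqrt.2 (by linarith))
  have hy : Measurable fun a : (E d × E d) × E d => a.1.1 := by fun_prop
  have henv : ∀ l, Measurable fun a : (E d × E d) × E d =>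
      push a.2 (push ((lvlS r i)⁻¹ • a.1.2) fun _ => 0) l := fun l => by
    match l with
    | 0 => exact measurable_snd
    | 1 => simp only [push]; fun_prop
    | _ + 2 => simp only [push]; fun_prop
  have hD : 0 ≤ (d : ℝ) ^ Dp := by positivity
  have h := hreal δ' (i + 1) 6 _ Cs (Cs * x ^ p) _ hδ'0 hδ'1
    (fun V hV y ℓ => LevelSmpAux.fld_mono (hfld V hV y ℓ) (hpos ℓ).le (hle ℓ) hr0 hCb)
    hΛd (by linarith) (by positivity) (fun y => by have := hζ0 y; positivity)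
    (LevelSmpAux.leafEst_mono hleaf (Nat.zero_le _) hle hr0 fun y => zero_le_one.trans (hΛ1 y))
    hls Φ hΦw hΦl hΦd _ hlam0 (hsz'.trans (le_mul_of_one_le_left (by positivity) hCl)) _ _ _ hy henv
  obtain ⟨hn1, hn2, hQ⟩ := step_count (Kr := Kr) (Ks := Ks) hΦn
  refine h.mono hQ fun a => ?_
  obtain ⟨hMu0, hMu⟩ := Φ.mass_le_size (δ := κ ^ m • δ') (r := r)
    (fun ℓ => mul_nonneg (by positivity) (hδ'0 ℓ).le) hr0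
  have hq1 : 1 ≤ √(√κ) := one_le_sqrt.2 (one_le_sqrt.2 (by linarith))
  have hζa := hζ0 a.1.1
  have h1 := phi_err (Cr := Cr) (C := Cs) (σ := 1) (xp := x ^ p) (τ := x ^ p) (acc := accR κ n m)
    (qi := (√(√κ))⁻¹) (L := Λ a.1.1) (NW := Cr * ((Φ.nodes + Nr + 1 : ℕ) : ℝ) ^ Kr)
    (E := Cs * ((Kl * (Nr + 1) ^ Kl + Nr + 1 : ℕ) : ℝ) ^ Ks
        * ((d : ℝ) ^ Dp * ζ a.1.1 + ((d : ℝ) ^ Mb)⁻¹) + ((d : ℝ) ^ Mb)⁻¹)
    (zero_le_one.trans hCr) (zero_le_one.trans hCs)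
    (mul_nonneg hlam0 (hMu0.trans hMu)) (hsz'.trans hsκ) (mul_nonneg hlam0 hMu0)
    (mul_le_mul_of_nonneg_left hMu hlam0) (LevelSmpAux.accR_nonneg _ _ _) (by positivity)
    (inv_le_one_of_one_le₀ hq1) (by positivity) zero_le_one le_rfl (one_mul _).le
    (zero_le_one.trans (hΛ1 _)) (by positivity) (by positivity)
  rw [one_mul] at h1
  refine h1.trans (add_le_add le_rfl (step_tail (by exact_mod_cast hn1) (Nat.cast_nonneg _)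
    (by exact_mod_cast hn2) (Nat.cast_nonneg _) ?_ (zero_le_one.trans hCr) hCs hCl (by positivity)
    (hΛ1 _) (hζD _) (by positivity)))
  exact_mod_cast le_trans (Nat.le_add_left 1 _) hn2

/-- The bound of the errors of the whole chain. -/
lemma zero_bound {d J e1 P0 Mb M : ℕ} {η r K0 : ℝ} {b : ℕ → E d → ℝ} {ζ Λ : E d → ℝ}
    (hd : 1 ≤ d) (hη : 0 < η) (hη1 : η ≤ 1 / 128) (hr : 1 ≤ r) (hK0 : 0 ≤ K0)
    (hbot : lvlσ r J ≤ ((d : ℝ) ^ Mb)⁻¹)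
    (hΛ : ∀ y, Λ y = 5 * ((d : ℝ) ^ P0 * (1 + ‖y‖) ^ 2))
    (hΛG : ∀ y, √(d : ℝ) + cutGb η (stepRho P0) y + 1 ≤ Λ y ∧ 0 ≤ cutGb η (stepRho P0) y)
    (hlvl : ∀ y, ∀ i ∈ Finset.range J, lvlσ r (i + 1) * b i y + ζ y
      ≤ K0 * (d : ℝ) ^ e1 * (Λ y * ((d : ℝ) ^ Mb)⁻¹))
    (hfin : 5 * ((2 : ℝ) ^ J * J * K0 + 2) * ((d : ℝ) ^ P0 * (d : ℝ) ^ e1) * ((d : ℝ) ^ Mb)⁻¹
      + 28 * d / (d : ℝ) ^ P0 ≤ ((d : ℝ) ^ M)⁻¹) (y : E d) :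
    (2 : ℝ) ^ J * ∑ i ∈ Finset.range J, (lvlσ r (i + 1) * b i y + ζ y)
      + 2 * lvlσ r J * (√(d : ℝ) + lvlσ r J * cutGb η (stepRho P0) y)
      + 4 * (unitδ η + unitr0 η y) * (1 + 2 * d + 4 * unitr0 η y ^ 2) / stepRho P0 y
    ≤ ((d : ℝ) ^ M)⁻¹ * (1 + ‖y‖) ^ 2 := by
  set dM := ((d : ℝ) ^ Mb)⁻¹ with hdM
  set De := (d : ℝ) ^ e1 with hDe
  have hDe1 : 1 ≤ De := one_le_pow₀ (by exact_mod_cast hd)
  obtain ⟨hG1, hG0⟩ := hΛG y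
  have hsum : ∑ i ∈ Finset.range J, (lvlσ r (i + 1) * b i y + ζ y)
      ≤ J * (K0 * De * (Λ y * dM)) :=
    (Finset.sum_le_sum (hlvl y)).trans_eq (by simp)
  have hσ0 : 0 ≤ lvlσ r J := (lvlσ_pos (one_pos.trans_le hr) J).le
  have hb : 2 * lvlσ r J * (√(d : ℝ) + lvlσ r J * cutGb η (stepRho P0) y) ≤ 2 * De * (Λ y * dM) := by
    have h1 : √(d : ℝ) + lvlσ r J * cutGb η (stepRho P0) y ≤ Λ y := by
      linarith [mul_le_of_le_one_left hG0 (lvlσ_le_one hr J)]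
    have h2 : 0 ≤ Λ y := by linarith [sqrt_nonneg (d : ℝ)]
    have h3 : 0 ≤ dM := by rw [hdM]; positivity
    calc _ ≤ 2 * lvlσ r J * Λ y := mul_le_mul_of_nonneg_left h1 (by positivity)
      _ ≤ 2 * dM * Λ y * 1 := by rw [mul_one]; gcongr
      _ ≤ 2 * dM * Λ y * De := mul_le_mul_of_nonneg_left hDe1 (by positivity)
      _ = _ := by ring
  have hc := cut_small (P0 := P0) hd hη hη1 y
  have h0 := mul_le_mul_of_nonneg_left hsum (show (0 : ℝ) ≤ 2 ^ J by positivity)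
  have h4 := mul_le_mul_of_nonneg_right hfin (sq_nonneg (1 + ‖y‖))
  rw [hΛ] at h0 hb
  linarith

/-- Programs standing for the levels, in the shape asked by `leafSmp_levels`. -/
lemma level_prog {d Kl N Nr i : ℕ} {δR c r x η Cl Cl' Tl : ℝ} {e : ℕ} {ρ : E d → ℝ} {ζ : E d → ℝ}
    {Cb : ℝ} {δ : ℕ → ℝ}
    (hη : 0 < η) (hη1 : η ≤ 1 / 128) (hρ : ∀ y, RhoOk η ρ y) (hr : 0 ≤ r) (hc : 0 ≤ c)
    (hpos : ∀ ℓ, 0 < δ ℓ) (hx0 : 0 < x) (hx1 : x ≤ 1) (hδR : δR = 9 * unitδ η) (hC : Cl ≤ Cl')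
    (hTl : 1 ≤ Tl) (hδ : δ = lvlδ δR r)
    (hfld : ∀ V, InClass d V → ∀ y ℓ, Fld d (δ ℓ) r (cutGb η ρ y) Cb N (ladder η r ρ V y ℓ))
    {P : Prog} (hw : P.WF (c • liftδ x (i + 2) δ) r (Cl * r ^ e) Tl) (hl : P.LevelGe (i + 1))
    (hd' : P.depth ≤ Kl) (hn : P.nodes ≤ Kl * (Nr + 1) ^ Kl)
    (hs : P.size (c • liftδ x (i + 2) δ) r ≤ Cl * (c * lvlδ δR r i * r))
    (hm : P.mass (c • liftδ x (i + 2) δ) r ≤ Cl * (c * lvlδ δR r i))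
    (hsem : ∀ (R : E d → ℝ) (g : E d → E d) (r0 G B : ℝ), Pot d δR r0 R g → (∀ x, ‖g x‖ ≤ G) →
      (∀ x, |R x| ≤ B) → ∀ h : ℕ → E d → E d,
      (∀ ℓ z, h ℓ z = lvlS r ℓ • score (lvlσ r ℓ) R g (lvlS r ℓ • z)) →
      (∀ ℓ, Fld d (lvlδ δR r ℓ) r G Cb N (h ℓ)) → ∀ env : Env d,
        ‖P.sem h env - h i (env 0)‖ ≤ Cl * (1 + G) * ζ 0)
    (ζ' : E d → ℝ) (hζ : ∀ y, Cl * (1 + cutGb η ρ y) * ζ 0 ≤ ζ' y) :
    ∃ F : Prog, F.WF (c • liftδ x (i + 2) δ) r (Cl' * r ^ e) Tl ∧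
      F.LevelGe (i + 1) ∧ F.depth ≤ Kl ∧ F.nodes ≤ Kl * (Nr + 1) ^ Kl ∧
      F.size (c • liftδ x (i + 2) δ) r ≤ Cl' * (c * δ i * r) ∧
      F.mass (c • liftδ x (i + 2) δ) r ≤ Cl' * (c * δ i) ∧
      ∀ V, InClass d V → ∀ (y : E d) (env : Env d),
        ‖F.sem (ladder η r ρ V y) env - ladder η r ρ V y i (env 0)‖ ≤ ζ' y := by
  subst hδ hδR
  have h0 : 0 ≤ c • liftδ x (i + 2) (lvlδ (9 * unitδ η) r) := fun ℓ => mul_nonneg hc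
    ((hpos ℓ).le.trans (LevelSmpAux.le_liftδ (fun ℓ => (hpos ℓ).le) hx0 hx1 _ ℓ))
  have := hpos i
  refine ⟨P, Prog.WF.mono h0 le_rfl hr le_rfl (mul_le_mul_of_nonneg_right hC (by positivity))
    (one_pos.trans_le hTl) le_rfl hw, hl, hd', hn,
    hs.trans (mul_le_mul_of_nonneg_right hC (by positivity)),
    hm.trans (mul_le_mul_of_nonneg_right hC (by positivity)), fun V hV y env => ?_⟩
  exact (hsem _ _ _ _ _ (pot_cutPot hV hη hη1 (hρ y)) (norm_cutGrad_le hV hη hη1 (hρ y))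
    (abs_cutPot_le hV hη hη1 (hρ y)) _ (fun _ _ => rfl) (hfld V hV y) env).trans (hζ y)

/-- One step at one dimension. -/
theorem stepAt_dim {d N m n e e1 Mb M' Dp P0 M J' k Kl Kr Ks Nr : ℕ}
    {ε η r κ x Cl Tl Cb Cr Cs CZ : ℝ}
    (hd : 1 ≤ d) (hη : 0 < η) (hη1 : η ≤ 1 / 128) (hr2 : 2 ≤ r) (hκ : 16 ≤ κ)
    (hx : x = lvlGain κ r) (hxgain : x ≤ 2 / r)
    (hsmall : ∀ l, κ ^ m * lvlδ (9 * unitδ η) r l ≤ 1)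
    (hweight : r ^ 2 * (Cl * r ^ e * (κ ^ m * (9 * unitδ η))) ≤ (√κ)⁻¹)
    (hdownR : (2 / r) ^ J' ≤ 2 ^ J' * ((d : ℝ) ^ Mb)⁻¹)
    (hbot : lvlσ r (2 * (J' + 1)) ≤ ((d : ℝ) ^ Mb)⁻¹)
    (hacc : accR κ n m ≤ 2 * ((d : ℝ) ^ Mb)⁻¹) (hP0 : 1 ≤ P0)
    (hM' : M' = Mb + Dp) (hk : (M' : ℝ) ≤ ε / 2 * k / 2)
    (hCl : 1 ≤ Cl) (hTl : 1 ≤ Tl) (hCr : 1 ≤ Cr) (hCs : 1 ≤ Cs) (hCb : 0 ≤ Cb) (hCZ : 0 ≤ CZ)
    (hZ : (((Kl + 1) * (Nr + 1) ^ (Kl + 1) : ℕ) : ℝ) ^ (Kr + Ks) ≤ CZ * (d : ℝ) ^ e1)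
    (hfin : 5 * ((2 : ℝ) ^ (2 * (J' + 1)) * (2 * (J' + 1) : ℕ)
        * ((2 * Cr * (1 + Cs) * (2 + 2 ^ J') + 4 * Cr * Cs * Cl + 2 * Cl) * (CZ + 1)) + 2)
          * ((d : ℝ) ^ P0 * (d : ℝ) ^ e1) * ((d : ℝ) ^ Mb)⁻¹
      + 28 * d / (d : ℝ) ^ P0 ≤ ((d : ℝ) ^ M)⁻¹)
    (hfld : ∀ V, InClass d V → ∀ y ℓ, Fld d (lvlδ (9 * unitδ η) r ℓ) r
      (cutGb η (stepRho P0) y) Cb N (ladder η r (stepRho P0) V y ℓ))
    (hmaps : ∀ j, j ≤ m → ∀ i : ℕ, ∀ δ' : ℕ → ℝ,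
      (∀ l, κ ^ j * lvlδ (9 * unitδ η) r l ≤ δ' l) → (∀ l, δ' l ≤ 2 * (κ ^ j * (9 * unitδ η))) →
      δ' (i + 1) ≤ κ ^ j * lvlδ (9 * unitδ η) r (i + 1) →
      ∃ Φ P : Prog,
      Φ.Small ∧ Φ.WF δ' r (Cl * r ^ e) Tl ∧ Φ.LevelGe (i + 1) ∧ Φ.depth ≤ Kl ∧
      Φ.nodes ≤ Kl * (Nr + 1) ^ Kl ∧ Φ.size δ' r ≤ Cl * r ^ e * (κ ^ j * (9 * unitδ η)) ∧
      Φ.lip (lvlδ (9 * unitδ η) r) (pushR 1 (pushR 1 0)) ≤ Cl * r ^ e * (9 * unitδ η) ∧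
      P.Small ∧ P.WF δ' r (Cl * r ^ e) Tl ∧ P.LevelGe (i + 1) ∧ P.depth ≤ Kl ∧
      P.nodes ≤ Kl * (Nr + 1) ^ Kl ∧
      P.size δ' r ≤ Cl * (κ ^ j * lvlδ (9 * unitδ η) r i * r) ∧
      P.mass δ' r ≤ Cl * (κ ^ j * lvlδ (9 * unitδ η) r i) ∧
      ∀ (R : E d → ℝ) (g : E d → E d) (r0 G B : ℝ), Pot d (9 * unitδ η) r0 R g →
        (∀ x, ‖g x‖ ≤ G) → (∀ x, |R x| ≤ B) → ∀ h : ℕ → E d → E d,
        (∀ ℓ z, h ℓ z = lvlS r ℓ • score (lvlσ r ℓ) R g (lvlS r ℓ • z)) →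
        (∀ ℓ, Fld d (lvlδ (9 * unitδ η) r ℓ) r G Cb N (h ℓ)) → ∀ env : Env d,
          (∀ v : E d → ℝ, ContDiff ℝ 1 v → (∃ K', ∀ x, |v x| ≤ K') →
            (∀ x, ‖fderiv ℝ v x‖ ≤ 1) →
            |(∫ ξ, v (ξ + Φ.sem h (push ξ env)) ∂gau (Fin d))
              - ∫ z, v z ∂tilt (fun z => upot (lvlσ r (i + 2)) R
                  (lvlS r i • env 0 + √(lvlσ r i ^ 2 - lvlσ r (i + 2) ^ 2) • z))|
              ≤ Cl * (1 + G) * ((d : ℝ) ^ (-(ε / 2 * k / 2)) + ((d : ℝ) ^ M')⁻¹)) ∧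
          ‖P.sem h env - h i (env 0)‖
            ≤ Cl * (1 + G) * ((d : ℝ) ^ (-(ε / 2 * k / 2)) + ((d : ℝ) ^ M')⁻¹))
    (hsmp : ∀ (Λ ζ : E d → ℝ), (∀ y, √(d : ℝ) ≤ Λ y) → (∀ y, 0 ≤ ζ y) →
      LeafEst (ladder η r (stepRho P0)) (lvlδ (9 * unitδ η) r) r 0 6 Λ →
      (∀ i, i < 2 * (J' + 1) → ∀ j, j ≤ m → ∃ F : Prog,
        F.WF (κ ^ j • liftδ x (i + 2) (lvlδ (9 * unitδ η) r)) r (max Cl Cr * r ^ e) Tl ∧
        F.LevelGe (i + 1) ∧ F.depth ≤ Kl ∧ F.nodes ≤ Kl * (Nr + 1) ^ Kl ∧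
        F.size (κ ^ j • liftδ x (i + 2) (lvlδ (9 * unitδ η) r)) r
          ≤ max Cl Cr * (κ ^ j * lvlδ (9 * unitδ η) r i * r) ∧
        F.mass (κ ^ j • liftδ x (i + 2) (lvlδ (9 * unitδ η) r)) r
          ≤ max Cl Cr * (κ ^ j * lvlδ (9 * unitδ η) r i) ∧
        ∀ V, InClass d V → ∀ (y : E d) (env : Env d),
          ‖F.sem (ladder η r (stepRho P0) V y) env - ladder η r (stepRho P0) V y i (env 0)‖ ≤ ζ y) →
      ∀ p i, ∀ j, j ≤ m →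
        LeafSmp (ladder η r (stepRho P0)) (liftδ x p (lvlδ (9 * unitδ η) r)) r (κ ^ j)
          (max Cl Cr * (√κ)⁻¹) i (Ks * (Kl * (Nr + 1) ^ Kl + Nr + 1) ^ Ks * (6 + 1))
          (fun y => (Cs * accR κ n j + Cs * x ^ ((2 * (J' + 1) - p) / 2)) * Λ y)
          fun y => Cs * ((Kl * (Nr + 1) ^ Kl + Nr + 1 : ℕ) : ℝ) ^ Ks
            * ((d : ℝ) ^ Dp * ζ y + ((d : ℝ) ^ Mb)⁻¹))
    (hreal : ∀ (δ : ℕ → ℝ) (ℓ₀ qe ql : ℕ) (Λ : E d → ℝ) (a b : ℝ) (e₁ : E d → ℝ),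
      (∀ ℓ, 0 < δ ℓ) → (∀ ℓ, κ ^ m * δ ℓ ≤ 1) →
      (∀ V, InClass d V → ∀ y ℓ, Fld d (δ ℓ) r (cutGb η (stepRho P0) y) Cb N
        (ladder η r (stepRho P0) V y ℓ)) →
      (∀ y, √(d : ℝ) ≤ Λ y) → 0 ≤ a → 0 ≤ b → (∀ y, 0 ≤ e₁ y) →
      LeafEst (ladder η r (stepRho P0)) δ r ℓ₀ qe Λ →
      (∀ j, j ≤ m → LeafSmp (ladder η r (stepRho P0)) δ r (κ ^ j) (Cr * (√κ)⁻¹) ℓ₀ ql
        (fun y => (a * accR κ n j + b) * Λ y) e₁) →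
      ∀ (F : Prog), F.WF (κ ^ m • δ) r (Cl * r ^ e) Tl → F.LevelGe ℓ₀ → F.depth ≤ Kl →
      ∀ lam : ℝ, 0 ≤ lam → lam * F.size (κ ^ m • δ) r ≤ Cl * (√κ)⁻¹ →
      ∀ (β : Type) [MeasurableSpace β] (y : β → E d) (env : β → Env d),
        Measurable y → (∀ l, Measurable fun z => env z l) →
        Smp d (Kr * (F.nodes + Nr + 1) ^ Kr * (qe + ql + 1))
          (fun V z => lam • F.sem (ladder η r (stepRho P0) V (y z)) (env z))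
          fun z => Cr * (lam * F.size (κ ^ m • δ) r)
              * ((1 + a) * accR κ n m + b * (√(√κ))⁻¹) * Λ (y z)
            + Cr * (lam * F.mass (κ ^ m • δ) r) * (a * accR κ n m + b) * Λ (y z)
            + Cr * ((F.nodes + Nr + 1 : ℕ) : ℝ) ^ Kr * (e₁ (y z) + ((d : ℝ) ^ Mb)⁻¹)) :
    Nonempty (StepAt d
      (2 * (J' + 1) * (7 * Kr * (Ks + 1) * ((Kl + 1) * (Nr + 1) ^ (Kl + 1)) ^ (Kr + Ks)) + 4)
      η (((d : ℝ) ^ M)⁻¹)) := by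
  subst hx
  have hd1 : (1 : ℝ) ≤ d := by exact_mod_cast hd
  have hd0 : (0 : ℝ) < d := one_pos.trans_le hd1
  have hr1 : 1 ≤ r := one_le_two.trans hr2
  have hr0 : 0 < r := one_pos.trans_le hr1
  have hκ0 : 0 ≤ κ := by linarith
  obtain ⟨hu, -, -, -⟩ := unitδ_facts hη hη1
  have hδR : 0 < 9 * unitδ η := by linarith
  obtain ⟨hx0, hx1, hxr, hsκ⟩ := LevelSmpAux.gain_facts hκ hr2
  obtain ⟨hpos, -, hdec⟩ := lvlδ_facts hδR hr1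
  have hρ : ∀ y : E d, RhoOk η (stepRho P0) y := rhoOk_stepRho hd hη hη1 P0
  set Λ : E d → ℝ := fun y => 5 * ((d : ℝ) ^ P0 * (1 + ‖y‖) ^ 2) with hΛd
  have hΛ : ∀ y, √(d : ℝ) + cutGb η (stepRho P0) y + 1 ≤ Λ y ∧ 0 ≤ cutGb η (stepRho P0) y :=
    lambda_le hd hP0 hη hη1
  have hΛ1 : ∀ y, 1 ≤ Λ y := fun y => by linarith [sqrt_nonneg (d : ℝ), (hΛ y).1, (hΛ y).2]
  have hΛd' : ∀ y, √(d : ℝ) ≤ Λ y := fun y => by linarith [(hΛ y).1, (hΛ y).2]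
  have hleaf : LeafEst (ladder η r (stepRho P0)) (lvlδ (9 * unitδ η) r) r 0 6 Λ := fun ℓ hℓ =>
    (leafEst_ladder (by omega) hη hη1 (measurable_stepRho P0) hρ hr1 ℓ hℓ).mono le_rfl fun a =>
      mul_le_mul_of_nonneg_left (hΛ a.1).1 (mul_nonneg (hpos ℓ).le hr0.le)
  set ζ : E d → ℝ := fun y => Cl * (1 + cutGb η (stepRho P0) y) * (2 * ((d : ℝ) ^ M')⁻¹) with hζd
  have hζ : ∀ y, Cl * (1 + cutGb η (stepRho P0) y)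
      * ((d : ℝ) ^ (-(ε / 2 * k / 2)) + ((d : ℝ) ^ M')⁻¹) ≤ ζ y := fun y => by
    refine mul_le_mul_of_nonneg_left ?_ (mul_nonneg (by linarith) (by linarith [(hΛ y).2]))
    rw [two_mul ((d : ℝ) ^ M')⁻¹, ← rpow_natCast, ← rpow_neg hd0.le]
    exact add_le_add (rpow_le_rpow_of_exponent_le hd1 (neg_le_neg hk)) le_rfl
  have hζ0 : ∀ y, 0 ≤ ζ y := fun y =>
    mul_nonneg (mul_nonneg (by linarith) (by linarith [(hΛ y).2])) (by positivity)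
  have hζle : ∀ y, ζ y ≤ 2 * Cl * Λ y * ((d : ℝ) ^ M')⁻¹ := fun y => by
    calc ζ y ≤ Cl * Λ y * (2 * ((d : ℝ) ^ M')⁻¹) := by
          refine mul_le_mul_of_nonneg_right (mul_le_mul_of_nonneg_left ?_ (by linarith))
            (by positivity)
          linarith [(hΛ y).1, sqrt_nonneg (d : ℝ)]
      _ = _ := by ring
  have hζD : ∀ y, (d : ℝ) ^ Dp * ζ y ≤ 2 * Cl * Λ y * ((d : ℝ) ^ Mb)⁻¹ := fun y => by
    refine (mul_le_mul_of_nonneg_left (hζle y) (by positivity)).trans (le_of_eq ?_)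
    rw [hM', pow_add, mul_inv]
    field_simp
  have hw := fun j i => levelMap_weights (c := κ ^ j) (δR := 9 * unitδ η) i hδR.le
    (pow_nonneg hκ0 j) hr1 hx0 hx1 hxr
  have hls := hsmp Λ ζ hΛd' hζ0 hleaf fun i _ j hj => by
    obtain ⟨_, P, -, -, -, -, -, -, -, -, hPw, hPl, hPd, hPn, hPs, hPm, hsem⟩ :=
      hmaps j hj i _ (hw j i).1 (hw j i).2.1 (hw j i).2.2
    exact level_prog (ζ := fun _ => (d : ℝ) ^ (-(ε / 2 * k / 2)) + ((d : ℝ) ^ M')⁻¹) hη hη1 hρ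
      hr0.le (pow_nonneg hκ0 j) hpos hx0 hx1 rfl (le_max_left _ _) hTl rfl hfld hPw hPl hPd hPn
      hPs hPm (fun R g r0 G B' hP hG hB' h hh hF env => (hsem R g r0 G B' hP hG hB' h hh hF env).2)
      ζ hζ
  choose Φ P hΦs hΦw hΦl hΦd hΦn hΦsize hΦlip hΦrest using
    fun i => hmaps m le_rfl i _ (hw m i).1 (hw m i).2.1 (hw m i).2.2
  refine nonempty_stepAt_of_kernels (Cb := Cb) (N := N) hd hη hη1 hr2 hfld Φ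
    (fun i y => 2 * Cr * (1 + Cs) * (accR κ n m
        + lvlGain κ r ^ ((2 * (J' + 1) - (i + 2)) / 2)) * Λ y
      + 4 * Cr * Cs * Cl * (((Kl + 1) * (Nr + 1) ^ (Kl + 1) : ℕ) : ℝ) ^ (Kr + Ks)
        * (Λ y * ((d : ℝ) ^ Mb)⁻¹))
    (fun _ => ζ) (fun i y => ?_) (fun _ => hζ0) (fun i _ => ?_) (fun i _ V hV y q u hu' => ?_)
    (fun i _ => ?_) ?_
  · have := hΛ1 y
    have := LevelSmpAux.accR_nonneg κ n m
    positivity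
  · have hv : ∀ l, 0 ≤ pushR (0 : ℝ) (pushR 1 0) l :=
      pushR_nonneg le_rfl (pushR_nonneg zero_le_one fun _ => le_rfl)
    have h1 : (Φ i).lip (lvlδ (9 * unitδ η) r) (pushR 0 (pushR 1 0))
        ≤ Cl * r ^ e * (9 * unitδ η) := by
      refine ((Φ i).lip_mono (fun ℓ => (hpos ℓ).le) le_rfl hv (fun l => ?_)).trans (hΦlip i)
      cases l with
      | zero => exact zero_le_one
      | succ l => exact le_rfl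
    calc r * (Φ i).lip (lvlδ (9 * unitδ η) r) (pushR 0 (pushR 1 0))
        ≤ r ^ 2 * (Cl * r ^ e * (κ ^ m * (9 * unitδ η))) := by
          refine mul_le_mul (le_self_pow₀ hr1 two_ne_zero) (h1.trans ?_)
            ((Φ i).lip_nonneg (fun ℓ => (hpos ℓ).le) hv) (by positivity)
          exact mul_le_mul_of_nonneg_left (le_mul_of_one_le_left hδR.le
            (one_le_pow₀ (by linarith))) (mul_nonneg (by linarith) (by positivity))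
      _ ≤ _ := hweight.trans hsκ
  · obtain ⟨-, -, -, -, -, -, -, hsem⟩ := hΦrest i
    have h := (hsem _ _ _ _ _ (pot_cutPot hV hη hη1 (hρ y)) (norm_cutGrad_le hV hη hη1 (hρ y))
      (abs_cutPot_le hV hη hη1 (hρ y)) (ladder η r (stepRho P0) V y) (fun _ _ => rfl) (hfld V hV y)
      (push ((lvlS r i)⁻¹ • q) fun _ => 0)).1 u hu'.1 hu'.2.1 hu'.2.2
    simp only [push, smul_inv_smul₀ (lvlS_pos hr0 i).ne'] at h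
    exact h.trans (hζ y)
  · exact map_sampler hr2 hκ hx0 hx1 hxr hpos hdec hsmall hCl hCr hCs hCb hfld hΛd' hΛ1 hζ0 hζD
      hleaf (fun j hj => (hls (i + 2) (i + 1) j hj).mono
        (mul_le_mul_of_nonneg_right (le_max_right _ _) (by positivity))
        (fun ℓ => mul_nonneg (mul_nonneg (pow_nonneg hκ0 j) ((hpos ℓ).le.trans
          (LevelSmpAux.le_liftδ (fun ℓ => (hpos ℓ).le) hx0 hx1 _ ℓ))) hr0.le) fun _ => le_rfl)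
      (fun δ ℓ₀ qe ql a b e₁ => hreal δ ℓ₀ qe ql Λ a b e₁) (hΦw i) (hΦl i) (hΦd i) (hΦn i)
      ((mul_le_mul_of_nonneg_left (hΦsize i) (by positivity)).trans hweight)
  · refine zero_bound hd hη hη1 hr1 (by positivity) hbot (fun _ => rfl) hΛ (fun y i _ => ?_) hfin
    have hζM : ζ y ≤ 2 * Cl * Λ y * ((d : ℝ) ^ Mb)⁻¹ := by
      refine (hζle y).trans (mul_le_mul_of_nonneg_left (inv_anti₀ (by positivity)
        (pow_le_pow_right₀ hd1 (hM' ▸ Nat.le_add_right Mb Dp))) ?_)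
      have := hΛ1 y; positivity
    refine (add_le_add le_rfl hζM).trans ((step_level (X := (CZ + 1) * (d : ℝ) ^ e1) (T := 2 ^ J')
      (lvlσ_pos hr0 _).le (lvlσ_le_one hr1 _) (by positivity) (by positivity)
      (zero_le_one.trans (hΛ1 y)) (by positivity) (LevelSmpAux.accR_nonneg κ n m) hacc
      (scale_gain hr2 hx0.le hxgain) hdownR (by positivity) (by positivity)
      (hZ.trans (mul_le_mul_of_nonneg_right (by linarith) (by positivity)))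
      (one_le_mul_of_one_le_of_one_le (by linarith) (one_le_pow₀ hd1))
      (zero_le_one.trans hCl)).trans_eq (by ring))

end Vale.Agent.P347
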