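import Vale.Agent.P347Zero.Ladder
import Vale.Agent.P347Zero.LevelProg
import Vale.Agent.P347Zero.RealComb

/-!
P347 (exponent zero, M19): the kernel of one step down the ladder through the map of the tilt, the
exact ladder on tests, and the sampler of the kernel.
-/

open MeasureTheory ProbabilityTheory Real
open scoped RealInnerProductSpace

namespace Vale.Agent.P347

variable {d : ℕ}

/-- One step down the ladder through the map of the tilt. -/
noncomputable def midStep (r : ℝ) (i : ℕ) (Φ : Prog) (h : ℕ → E d → E d) (q : E d)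
    (v : E d → ℝ) : ℝ :=
  ∫ ξ, ∫ w, v (q + (lvlA r i * √(lvlT r i)) • (ξ + Φ.sem h (push ξ (push ((lvlS r i)⁻¹ • q) fun _ => 0)))
    + √(lvlA r i * (lvlσ r (i + 1) ^ 2 - lvlσ r (i + 2) ^ 2)) • w) ∂gau (Fin d) ∂gau (Fin d)

/-- The exact ladder from level `i`, `k` steps long, on a test. -/
noncomputable def midIter (r : ℝ) (R : E d → ℝ) : ℕ → ℕ → (E d → ℝ) → E d → ℝ
  | _, 0, v => v
  | i, k + 1, v => fun q => midMean r R i (midIter r R (i + 1) k v) q

/-! ### The exact ladder -/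

section exact

variable {r : ℝ} {R : E d → ℝ} {B : ℝ}

/-- The inner mean of a step is a smoothing. -/
lemma midMean_inner (r : ℝ) (i : ℕ) (v : E d → ℝ) (q z : E d) :
    ∫ w, v (q + (lvlA r i * √(lvlT r i)) • z
      + √(lvlA r i * (lvlσ r (i + 1) ^ 2 - lvlσ r (i + 2) ^ 2)) • w) ∂gau (Fin d)
      = Psm (lvlA r i * (lvlσ r (i + 1) ^ 2 - lvlσ r (i + 2) ^ 2)) v
        (q + (lvlA r i * √(lvlT r i)) • z) := rfl

lemma midMean_eq_Psm (r : ℝ) (R : E d → ℝ) (i : ℕ) (v : E d → ℝ) (q : E d) :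
    midMean r R i v q = ∫ z, Psm (lvlA r i * (lvlσ r (i + 1) ^ 2 - lvlσ r (i + 2) ^ 2)) v
        (q + (lvlA r i * √(lvlT r i)) • z)
      ∂tilt fun z => upot (lvlσ r (i + 2)) R (q + √(lvlT r i) • z) := rfl

theorem abs_midMean_le (hR : Continuous R) (hB : ∀ x, |R x| ≤ B) (hr : 1 < r) (i : ℕ) (q : E d)
    {v : E d → ℝ} {Bv : ℝ} (hbv : ∀ y, |v y| ≤ Bv) : |midMean r R i v q| ≤ Bv := by
  have := isProb_tilt_upot hR hB (lvlσ_pos (zero_lt_one.trans hr) (i + 2)).le (lvlT r i) q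
  rw [midMean_eq_Psm]
  exact abs_integral_le fun z => abs_integral_le fun w => hbv _

theorem midMean_mono {r : ℝ} {R : E d → ℝ} {B : ℝ} (hR : Continuous R) (hB : ∀ x, |R x| ≤ B)
    (hr : 1 < r) (i : ℕ) (q : E d) {v w : E d → ℝ} {t Bv : ℝ} (hv : Continuous v)
    (hw : Continuous w) (hbv : ∀ y, |v y| ≤ Bv) (hbw : ∀ y, |w y| ≤ Bv)
    (h : ∀ y, |v y - w y| ≤ t) : |midMean r R i v q - midMean r R i w q| ≤ t := by
  have := isProb_tilt_upot hR hB (lvlσ_pos (zero_lt_one.trans hr) (i + 2)).le (lvlT r i) q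
  rw [midMean_eq_Psm, midMean_eq_Psm]
  have hi : ∀ {u : E d → ℝ}, Continuous u → (∀ y, |u y| ≤ Bv) → ∀ s : ℝ,
      Integrable (fun z => Psm s u (q + (lvlA r i * √(lvlT r i)) • z))
        (tilt fun z => upot (lvlσ r (i + 2)) R (q + √(lvlT r i) • z)) := fun hu hb s =>
    Integrable.of_bound ((continuous_Psm_bdd hu (K := Bv) (fun y => hb y) s).comp
      (by fun_prop)).aestronglyMeasurable Bv (ae_of_all _ fun z => abs_integral_le fun y => hb _)
  rw [← integral_sub (hi hv hbv _) (hi hw hbw _)]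
  refine abs_integral_le fun z => ?_
  simp only [Psm]
  have hs : ∀ {u : E d → ℝ}, Continuous u → (∀ y, |u y| ≤ Bv) → ∀ (x : E d) (s : ℝ),
      Integrable (fun g => u (x + s • g)) (gau (Fin d)) := fun hu hb x s =>
    Integrable.of_bound (hu.comp (by fun_prop)).aestronglyMeasurable Bv (ae_of_all _ fun y => hb _)
  rw [← integral_sub (hs hv hbv _ _) (hs hw hbw _ _)]
  exact abs_integral_le fun y => h _

theorem continuous_midMean (hR : Continuous R) (hB : ∀ x, |R x| ≤ B) (hr : 1 < r) (i : ℕ)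
    {v : E d → ℝ} {Bv : ℝ} (hv : Continuous v) (hbv : ∀ y, |v y| ≤ Bv) :
    Continuous fun q => midMean r R i v q := by
  have hr0 : 0 < r := zero_lt_one.trans hr
  have h1 := lvlσ_pos hr0 (i + 1)
  have h01 := lvlσ_lt hr i
  set t := lvlσ r i ^ 2 - lvlσ r (i + 1) ^ 2 with htd
  have ht : 0 ≤ t := by rw [htd]; nlinarith
  set U := Psm (lvlσ r (i + 1) ^ 2) (wgt R) with hU
  have hUc : Continuous U := continuous_Psm_bdd (continuous_wgt hR) (wgt_bdd hB) _
  have hUb : ∀ x, ‖U x • v x‖ ≤ exp B * Bv := fun x => by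
    rw [norm_smul]
    exact mul_le_mul (norm_Psm_le (wgt_bdd hB) x) (hbv x) (norm_nonneg _) (exp_nonneg _)
  have e : ∀ q, midMean r R i v q = (Psm (t + lvlσ r (i + 1) ^ 2) (wgt R) q)⁻¹ •
      Psm t (fun x => U x • v x) q := fun q => by
    rw [midMean_eq hR hB hr i hv hbv q, integral_tilt_upot hR hB h1.le ht q]
    rfl
  simp only [e]
  exact ((continuous_Psm_bdd (continuous_wgt hR) (wgt_bdd hB) _).inv₀
    fun x => (Psm_wgt_pos hR hB _ x).ne').smul (continuous_Psm_bdd (hUc.smul hv) hUb _)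

theorem midIter_facts (hR : Continuous R) (hB : ∀ x, |R x| ≤ B) (hr : 1 < r) {v : E d → ℝ} {Bv : ℝ}
    (hv : Continuous v) (hbv : ∀ y, |v y| ≤ Bv) :
    ∀ k i, Continuous (midIter r R i k v) ∧ ∀ x, |midIter r R i k v x| ≤ Bv := by
  intro k
  induction k with
  | zero => exact fun i => ⟨hv, hbv⟩
  | succ k ih =>
    exact fun i => ⟨continuous_midMean hR hB hr i (ih (i + 1)).1 (ih (i + 1)).2,
      fun x => abs_midMean_le hR hB hr i x (ih (i + 1)).2⟩

theorem continuous_midIter {r : ℝ} {R : E d → ℝ} {B : ℝ} (hR : Continuous R) (hB : ∀ x, |R x| ≤ B)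
    (hr : 1 < r) {v : E d → ℝ} (hv : IsTest v) (i k : ℕ) :
    Continuous (midIter r R i k v) ∧ ∃ K, ∀ x, |midIter r R i k v x| ≤ K := by
  obtain ⟨K, hK⟩ := hv.2.1
  obtain ⟨h1, h2⟩ := midIter_facts hR hB hr hv.1.continuous hK k i
  exact ⟨h1, K, h2⟩

/-- The exact tower on a bounded continuous test. -/
theorem test_midMean (hd : 0 < d) (hR : Continuous R) (hB : ∀ x, |R x| ≤ B) (hr : 1 < r)
    {v : E d → ℝ} {Bv : ℝ} (hv : Continuous v) (hbv : ∀ y, |v y| ≤ Bv) (i : ℕ) :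
    let sm := fun (σ : ℝ) (q : E d) => ∫ w, v (q + σ • w) ∂tilt fun w => R (q + σ • w)
    Continuous (sm (lvlσ r i)) ∧ (∀ q, |sm (lvlσ r i) q| ≤ Bv) ∧
      ∀ q, midMean r R i (sm (lvlσ r (i + 1))) q = sm (lvlσ r i) q := by
  intro sm
  set j : Fin d := ⟨0, hd⟩
  set e : E d := EuclideanSpace.single j (1 : ℝ) with he
  have hej : e j = 1 := by simp [he]
  have hne : ‖e‖ = 1 := by simp [he]
  have hg : Continuous fun x => v x • e := hv.smul continuous_const
  have hG : ∀ x, ‖v x • e‖ ≤ Bv := fun x => by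
    rw [norm_smul, hne, mul_one]; exact hbv x
  have hs : ∀ σ q, score σ R (fun x => v x • e) q j = sm σ q := fun σ q => by
    simp [sm, score, integral_smul_const, hej]
  refine ⟨?_, fun q => ?_, fun q => ?_⟩
  · refine Continuous.congr ?_ (hs (lvlσ r i))
    exact (EuclideanSpace.proj (𝕜 := ℝ) j).continuous.comp
      (continuous_score hR hB hg hG (lvlσ_pos (zero_lt_one.trans hr) i).le)
  · rw [← hs]
    exact (PiLp.norm_apply_le _ j).trans (norm_score_le hR hB hG _ q)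
  · rw [← hs, score_midMean hR hB hg hG hr i q j]
    simp only [hs]

theorem abs_midIter_sub_le {δ r0 G B r : ℝ} {R : E d → ℝ} {g : E d → E d} (hd : 0 < d)
    (hP : Pot d δ r0 R g) (hG : ∀ x, ‖g x‖ ≤ G) (hB : ∀ x, |R x| ≤ B) (hr : 1 < r)
    {v : E d → ℝ} (hv : IsTest v) (J : ℕ) :
    |midIter r R 0 J v 0 - ∫ x, v x ∂tilt R|
      ≤ 2 * lvlσ r J * (√(d : ℝ) + lvlσ r J * G) := by
  have hR : Continuous R := continuous_iff_continuousAt.2 fun x => (hP.hasGrad x).continuousAt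
  obtain ⟨K, hK⟩ := hv.2.1
  set η := 2 * lvlσ r J * (√(d : ℝ) + lvlσ r J * G)
  have key : ∀ k i, i + k = J → ∀ q, |midIter r R i k v q
      - ∫ w, v (q + lvlσ r i • w) ∂tilt fun w => R (q + lvlσ r i • w)| ≤ η := by
    intro k
    induction k with
    | zero =>
      intro i hi q
      rw [add_zero] at hi
      subst hi
      rw [abs_sub_comm]
      exact hP.abs_bottom_test_le hd hG (lvlσ_pos (zero_lt_one.trans hr) i).le
        (lvlσ_le_one hr.le i) q hv.1 hv.2.2
    | succ k ih =>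
      intro i hi q
      obtain ⟨hc, hb⟩ := midIter_facts hR hB hr hv.1.continuous hK k (i + 1)
      obtain ⟨-, -, htow⟩ := test_midMean hd hR hB hr hv.1.continuous hK i
      obtain ⟨hc', hb', -⟩ := test_midMean hd hR hB hr hv.1.continuous hK (i + 1)
      have e := htow q
      beta_reduce at e
      rw [← e]
      exact midMean_mono hR hB hr i q hc hc' hb hb' (ih (i + 1) (by omega))
  have h := key J 0 (zero_add J) 0
  simpa [lvlσ] using h

end exact

/-! ### The kernel -/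

section kernel

variable {δ : ℕ → ℝ} {r Gb C : ℝ} {N i : ℕ} {h : ℕ → E d → E d} {Φ : Prog}

/-- The inputs of the program as a function of the centre and the Gaussian variable. -/
noncomputable def stepEnv (r : ℝ) (i : ℕ) (p : E d × E d) : Env d :=
  push p.2 (push ((lvlS r i)⁻¹ • p.1) fun _ => 0)

theorem stepEnv_facts (hh : ∀ ℓ, Fld d (δ ℓ) r Gb C N (h ℓ)) (hr : 0 < r) (Φ : Prog) :
    ContDiff ℝ 1 (fun p : E d × E d => Φ.sem h (stepEnv r i p)) ∧
      (∀ q q' w, ‖Φ.sem h (stepEnv r i (q, w)) - Φ.sem h (stepEnv r i (q', w))‖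
        ≤ (lvlS r i)⁻¹ * Φ.lip δ (pushR 0 (pushR 1 0)) * ‖q - q'‖) ∧
      ∀ q w w', ‖Φ.sem h (stepEnv r i (q, w)) - Φ.sem h (stepEnv r i (q, w'))‖
        ≤ Φ.lip δ (pushR 1 0) * ‖w - w'‖ := by
  set s := (lvlS r i)⁻¹ with hs
  have hs0 : 0 ≤ s := (inv_pos.2 (lvlS_pos hr i)).le
  refine ⟨?_, fun q q' w => ?_, fun q w w' => ?_⟩
  · refine Prog.contDiff_sem hh Φ (L := pushR 1 (pushR s 0)) (fun j => ?_)
      (pushR_nonneg zero_le_one (pushR_nonneg hs0 fun _ => le_rfl)) fun p p' j => ?_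
    · rcases j with _ | _ | j
      · exact contDiff_snd
      · exact contDiff_fst.const_smul s
      · exact contDiff_const
    · rcases j with _ | _ | j
      · simpa [stepEnv, push, pushR] using _root_.norm_snd_le (p - p')
      · simp only [stepEnv, push, pushR]
        rw [← smul_sub, norm_smul, norm_eq_abs, abs_of_nonneg hs0]
        exact mul_le_mul_of_nonneg_left ((congrArg norm (Prod.fst_sub p p')).symm.le.trans (_root_.norm_fst_le (p - p'))) hs0
      · simp [stepEnv, push, pushR]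
  · refine (Prog.norm_sem_comp_sub_le hh Φ (F := fun x : E d => stepEnv r i (x, w))
      (L := s • pushR 0 (pushR 1 0)) (fun x x' j => ?_) q q').trans_eq ?_
    · rcases j with _ | _ | j
      · simp [stepEnv, push, pushR]
      · simp only [stepEnv, push, pushR, Pi.smul_apply, smul_eq_mul, mul_one]
        rw [← smul_sub, norm_smul, norm_eq_abs, abs_of_nonneg hs0]
      · simp [stepEnv, push, pushR]
    · rw [Prog.lip_smul_v]
  · refine Prog.norm_sem_comp_sub_le hh Φ (F := fun x : E d => stepEnv r i (q, x))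
      (L := pushR 1 0) (fun x x' j => ?_) w w'
    rcases j with _ | _ | j <;> simp [stepEnv, push, pushR]

theorem midStep_eq_Psm (r : ℝ) (i : ℕ) (Φ : Prog) (h : ℕ → E d → E d) (q : E d) (v : E d → ℝ) :
    midStep r i Φ h q v = ∫ ξ, Psm (lvlA r i * (lvlσ r (i + 1) ^ 2 - lvlσ r (i + 2) ^ 2)) v
      (q + (lvlA r i * √(lvlT r i)) • (ξ + Φ.sem h (stepEnv r i (q, ξ)))) ∂gau (Fin d) := rfl

theorem midStep_facts {δ : ℕ → ℝ} {r Gb C B : ℝ} {N i : ℕ} {h : ℕ → E d → E d} {Φ : Prog}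
    {R : E d → ℝ} {ηΦ : ℝ}
    (hh : ∀ ℓ, Fld d (δ ℓ) r Gb C N (h ℓ)) (hR : Continuous R) (hB : ∀ x, |R x| ≤ B) (hr : 2 ≤ r)
    (hlip : r * Φ.lip δ (pushR 0 (pushR 1 0)) ≤ 1)
    (hmap : ∀ q : E d, ∀ u : E d → ℝ, IsTest u →
      |(∫ ξ, u (ξ + Φ.sem h (push ξ (push ((lvlS r i)⁻¹ • q) fun _ => 0))) ∂gau (Fin d))
        - ∫ z, u z ∂tilt (fun z => upot (lvlσ r (i + 2)) R
            (q + √(lvlσ r i ^ 2 - lvlσ r (i + 2) ^ 2) • z))| ≤ ηΦ)
    {v : E d → ℝ} {Bv L : ℝ} (hv : ContDiff ℝ 1 v) (hb : ∀ x, |v x| ≤ Bv)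
    (hl : ∀ x, ‖fderiv ℝ v x‖ ≤ L) :
    ContDiff ℝ 1 (fun q => midStep r i Φ h q v) ∧ (∀ q, |midStep r i Φ h q v| ≤ Bv) ∧
      (∀ q, ‖fderiv ℝ (fun q => midStep r i Φ h q v) q‖ ≤ 2 * L) ∧
      (∀ q, |midStep r i Φ h q v - midMean r R i v q| ≤ L * ηΦ) ∧
      ∀ (c : ℝ) q, midStep r i Φ h q (fun y => c * v y) = c * midStep r i Φ h q v := by
  have hr0 : 0 < r := by linarith
  obtain ⟨-, -, hst, hA0, hA1, -⟩ := level_facts hr i
  set c0 := lvlA r i * √(lvlT r i) with hc0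
  set τ := lvlA r i * (lvlσ r (i + 1) ^ 2 - lvlσ r (i + 2) ^ 2)
  have hL0 : 0 ≤ L := (norm_nonneg _).trans (hl 0)
  have hc00 : 0 ≤ c0 := mul_nonneg hA0 (sqrt_nonneg _)
  have hc0σ : c0 ≤ lvlσ r i := (mul_le_of_le_one_left (sqrt_nonneg _) hA1).trans hst
  have hc01 : c0 ≤ 1 := hc0σ.trans (lvlσ_le_one (by linarith) i)
  obtain ⟨hG, hGl⟩ := contDiff_Psm_test hv hl τ
  have hGlip : ∀ x y, |Psm τ v x - Psm τ v y| ≤ L * ‖x - y‖ := fun x y =>
    Convex.norm_image_sub_le_of_norm_fderiv_le (𝕜 := ℝ)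
      (fun z _ => hG.differentiable one_ne_zero z) (fun z _ => hGl z) convex_univ
      (Set.mem_univ y) (Set.mem_univ x)
  obtain ⟨hPc, hPq, hPw⟩ := stepEnv_facts (i := i) hh hr0 Φ
  set P := fun p : E d × E d => Φ.sem h (stepEnv r i p)
  have hcoef : c0 * ((lvlS r i)⁻¹ * Φ.lip δ (pushR 0 (pushR 1 0))) ≤ 1 := by
    have hl0 : 0 ≤ Φ.lip δ (pushR 0 (pushR 1 0)) := Prog.lip_nonneg (Prog.delta_nonneg_of_fld hh) Φ
      (pushR_nonneg le_rfl (pushR_nonneg zero_le_one fun _ => le_rfl))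
    have h2 : c0 * (lvlS r i)⁻¹ ≤ r := by
      have := mul_le_mul_of_nonneg_right hc0σ (inv_pos.2 (lvlS_pos hr0 i)).le
      rwa [← div_eq_mul_inv (lvlσ r i), lvlσ_div_lvlS hr0 i] at this
    rw [← mul_assoc]
    exact (mul_le_mul_of_nonneg_right h2 hl0).trans hlip
  have hFc : ContDiff ℝ 1 fun p : E d × E d => Psm τ v (p.1 + c0 • (p.2 + P p)) :=
    hG.comp (contDiff_fst.add ((contDiff_snd.add hPc).const_smul c0))
  suffices key : (∀ w x x', |Psm τ v (x + c0 • (w + P (x, w))) - Psm τ v (x' + c0 • (w + P (x', w)))|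
        ≤ 2 * L * ‖x - x'‖) ∧
      ∀ x w w', |Psm τ v (x + c0 • (w + P (x, w))) - Psm τ v (x + c0 • (w' + P (x, w')))|
        ≤ L * (c0 * (1 + Φ.lip δ (pushR 1 0))) * ‖w - w'‖ by
    obtain ⟨hA, hAl⟩ := contDiff_avg hFc (by linarith : (0 : ℝ) ≤ 2 * L) key.1 key.2
    refine ⟨hA, fun q => abs_integral_le fun ξ => abs_integral_le fun w => hb _, hAl, fun q => ?_,
      fun c q => ?_⟩
    · have := isProb_tilt_upot hR hB (lvlσ_pos hr0 (i + 2)).le
        (lvlσ r i ^ 2 - lvlσ r (i + 2) ^ 2) q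
      rw [midMean_eq_Psm]
      have hu : ContDiff ℝ 1 fun z => Psm τ v (q + c0 • z) := hG.comp (by fun_prop)
      exact lip_test_prod (X := fun ξ => ξ + P (q, ξ)) (Y := fun z => z)
        (fun u hu1 hu2 hu3 => hmap q u ⟨hu1, hu2, hu3⟩) hu
        (fun x => abs_integral_le fun w => hb _) fun z => by
          have h1 : HasFDerivAt (fun z => Psm τ v (q + c0 • z))
              ((fderiv ℝ (Psm τ v) (q + c0 • z)).comp (c0 • ContinuousLinearMap.id ℝ (E d))) z :=
            (hG.differentiable one_ne_zero _).hasFDerivAt.comp z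
              (((hasFDerivAt_id z).const_smul c0).const_add q)
          rw [h1.fderiv, ContinuousLinearMap.comp_smul, ContinuousLinearMap.comp_id, norm_smul,
            norm_eq_abs, abs_of_nonneg hc00]
          exact (mul_le_of_le_one_left (norm_nonneg _) hc01).trans (hGl _)
    · simp only [midStep, integral_const_mul]
  refine ⟨?_, ?_⟩
  · intro w x x'
    refine (hGlip _ _).trans ?_
    rw [mul_comm 2 L, mul_assoc]
    refine mul_le_mul_of_nonneg_left ?_ hL0
    rw [show x + c0 • (w + P (x, w)) - (x' + c0 • (w + P (x', w)))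
      = (x - x') + c0 • (P (x, w) - P (x', w)) by module, two_mul]
    refine (norm_add_le _ _).trans (add_le_add le_rfl ?_)
    rw [norm_smul, norm_eq_abs, abs_of_nonneg hc00]
    refine (mul_le_mul_of_nonneg_left (hPq x x' w) hc00).trans ?_
    rw [← mul_assoc]
    exact mul_le_of_le_one_left (norm_nonneg _) hcoef
  · intro x w w'
    refine (hGlip _ _).trans ?_
    rw [mul_assoc L]
    refine mul_le_mul_of_nonneg_left ?_ hL0
    rw [show x + c0 • (w + P (x, w)) - (x + c0 • (w' + P (x, w')))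
      = c0 • ((w - w') + (P (x, w) - P (x, w'))) by module, norm_smul, norm_eq_abs,
      abs_of_nonneg hc00, mul_assoc c0, add_mul, one_mul]
    exact mul_le_mul_of_nonneg_left ((norm_add_le _ _).trans (add_le_add le_rfl (hPw x w w'))) hc00

theorem smpT_midStep {H : Fam d} {r : ℝ} {i q : ℕ} {Φ : Prog} (hr : 2 ≤ r) {δ : ℕ → ℝ} {C : ℝ}
    {N : ℕ} {Gb : E d → ℝ} (hfld : ∀ V, InClass d V → ∀ y ℓ, Fld d (δ ℓ) r (Gb y) C N (H V y ℓ))
    {b : E d → ℝ}
    (h : Smp d q (fun V (a : (E d × E d) × E d) => (lvlC r i / √(lvlV r i)) •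
      Φ.sem (H V a.1.1) (push a.2 (push ((lvlS r i)⁻¹ • a.1.2) fun _ => 0))) fun a => b a.1.1) :
    SmpT d q (fun V (p : E d × E d) v => midStep r i Φ (H V p.1) p.2 v)
      fun p => lvlσ r (i + 1) * b p.1 := by
  have hr0 : 0 < r := by linarith
  obtain ⟨-, -, -, hA0, hA1, -⟩ := level_facts hr i
  set c0 := lvlA r i * √(lvlT r i) with hc0
  set τ := lvlA r i * (lvlσ r (i + 1) ^ 2 - lvlσ r (i + 2) ^ 2)
  set s := lvlS r (i + 1) with hsd
  have hs : 0 < s := lvlS_pos hr0 (i + 1)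
  have hd2 : 0 ≤ lvlσ r (i + 1) ^ 2 - lvlσ r (i + 2) ^ 2 :=
    sub_nonneg.2 (pow_le_pow_left₀ (lvlσ_pos hr0 _).le (lvlσ_anti (by linarith) (Nat.le_succ _)) 2)
  have hτ1 : √τ ≤ lvlσ r (i + 1) := sqrt_le_iff.2 ⟨(lvlσ_pos hr0 _).le,
    (mul_le_of_le_one_left hd2 hA1).trans (sub_le_self _ (sq_nonneg _))⟩
  have hτpos : 0 < √τ := by
    obtain ⟨-, -, -, -, -, -, -, hV, -⟩ := level_facts hr i
    have e : lvlV r i = τ / s ^ 2 := rfl
    rw [e, le_div_iff₀ (by positivity)] at hV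
    exact sqrt_pos.2 (lt_of_lt_of_le (by positivity) hV)
  have hk : √τ * (lvlC r i / √(lvlV r i)) = c0 := by
    rw [show lvlV r i = τ / s ^ 2 from rfl, sqrt_div' _ (sq_nonneg _), sqrt_sq hs.le,
      show lvlC r i = c0 / s from rfl]
    field_simp
  have hf : Measurable fun a : (E d × E d) × E d => a.1.2 + c0 • a.2 := by fun_prop
  have h1 := Smp.known (d := d) (f := fun _ : E d × E d => (0 : E d)) measurable_const
  have h2 := SmpT.seq (L := fun _ => c0 * (1 + Φ.lip δ (pushR 1 0)))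
    (b := fun p => √τ * b p.1) h1 (h.affine (√τ) hf) ?_
    (fun a x => le_of_eq (by rw [abs_of_pos hτpos]))
  · obtain ⟨S, _, _, law, _, F, hF, herr⟩ := h2
    refine ⟨S, inferInstance, inferInstance, law, inferInstance, F,
      fun β _ g hg => (hF β g hg).mono (le_of_eq (zero_add q)), fun V hV a v hv hb hl => ?_⟩
    have hb0 : 0 ≤ b a.1 := by
      obtain ⟨S', _, _, law', _, F', -, herr'⟩ := h
      simpa using herr' V hV (a, 0) (fun _ => 0) contDiff_const ⟨0, fun _ => by simp⟩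
        (fun _ => by simp)
    refine le_trans ?_ ((herr V hV a v hv hb hl).trans ?_)
    · refine le_of_eq ?_
      congr 2
      simp only [midStep, zero_add]
      refine integral_congr_ae (ae_of_all _ fun ξ => ?_)
      refine integral_congr_ae (ae_of_all _ fun w => ?_)
      beta_reduce
      congr 1
      rw [smul_add (√τ), smul_smul, hk, smul_add c0]
      abel
    · simp only [mul_zero, zero_add]
      exact mul_le_mul_of_nonneg_right hτ1 hb0
  · rintro V hV ⟨y, c⟩ v ⟨hv, ⟨K, hK⟩, hl⟩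
    obtain ⟨hPc, -, hPw⟩ := stepEnv_facts (i := i) (hfld V hV y) hr0 Φ
    have hPx : ContDiff ℝ 1 fun x => Φ.sem (H V y) (stepEnv r i (c, x)) :=
      hPc.comp (contDiff_const.prodMk contDiff_id)
    obtain ⟨hG, hGl⟩ := contDiff_Psm_test hv hl τ
    have e : ∀ x, (∫ w, v (√τ • ((lvlC r i / √(lvlV r i)) •
          Φ.sem (H V y) (stepEnv r i (c, x)) + w) + (c + c0 • x)) ∂gau (Fin d))
        = Psm τ v (c + c0 • x + c0 • Φ.sem (H V y) (stepEnv r i (c, x))) := fun x => by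
      refine integral_congr_ae (ae_of_all _ fun w => ?_)
      beta_reduce
      congr 1
      rw [smul_add (√τ), smul_smul, hk]
      abel
    refine ⟨?_, ⟨K, fun x => ?_⟩, fun x => ?_⟩
    · refine (funext e).symm ▸ ?_
      exact hG.comp ((contDiff_const.add (contDiff_id.const_smul c0)).add (hPx.const_smul c0))
    · exact abs_integral_le fun w => hK _
    · simp only [stepEnv] at e
      simp only [e]
      have hl0 : 0 ≤ Φ.lip δ (pushR 1 0) := Prog.lip_nonneg (Prog.delta_nonneg_of_fld (hfld V hV y)) Φ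
        (pushR_nonneg zero_le_one fun _ => le_rfl)
      refine norm_fderiv_le_of_lip' ℝ (mul_nonneg (mul_nonneg hA0 (sqrt_nonneg _)) (by linarith))
        (Filter.Eventually.of_forall fun x' => ?_)
      refine (Convex.norm_image_sub_le_of_norm_fderiv_le (𝕜 := ℝ)
        (fun z _ => hG.differentiable one_ne_zero z) (fun z _ => hGl z) convex_univ
        (Set.mem_univ _) (Set.mem_univ _)).trans ?_
      rw [one_mul, show ∀ P P' : E d, c + c0 • x' + c0 • P - (c + c0 • x + c0 • P')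
        = c0 • ((x' - x) + (P - P')) from fun P P' => by module, norm_smul, norm_eq_abs,
        abs_of_nonneg (mul_nonneg hA0 (sqrt_nonneg _)), mul_assoc c0, add_mul, one_mul]
      exact mul_le_mul_of_nonneg_left ((norm_add_le _ _).trans (add_le_add le_rfl (hPw c x' x)))
        (mul_nonneg hA0 (sqrt_nonneg _))

end kernel

end Vale.Agent.P347
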