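import Vale.Agent.P347Zero.TiltMapCore
import Vale.Agent.P347Zero.ConvInst
import Vale.Agent.P347Zero.LevelMap

/-!
P347 (exponent zero, M10): the map of a tilt whose score is a program up to an error.
-/

open Real Filter

namespace Vale.Agent.P347

/-- The tilt-map module. -/
theorem tiltMapStmt : TiltMapStmt := by
  intro α hα M
  obtain ⟨Ee, M2, h⟩ := exists_tilt_map_of_conv 3 α hα M
  refine ⟨Ee, M2, fun γ hγ => ?_⟩
  obtain ⟨N₀, h⟩ := h γ hγ
  refine ⟨max N₀ 1, fun N hN A T Cb hT hCb => ?_⟩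
  obtain ⟨conv, Kc, Cc, Tc, -, hc⟩ := exists_conv_syn N (le_trans (le_max_right _ _) hN)
  refine h N ((le_max_left _ _).trans hN) (fun δ r => conv δ r⁻¹) Kc Cc Tc Cc
    (fun δ0 δ r Cb hδ0 hδδ hδ1 hr hCb => ?_) A T Cb hT hCb
  obtain ⟨hs, hn, he⟩ := hc δ r (hδ0.trans hδδ) hδ1 hr
  exact ⟨hs, hn, fun A T B W hT hB hrB hsm hW hd d h Gb hh env =>
    he A T B W hT hB hrB hsm hW hd d δ0 Gb Cb hδ0 hδδ hCb h hh env⟩

end Vale.Agent.P347
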