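import Vale.Agent.P347Zero.StepAtom
import Vale.Agent.P347Zero.Real
import Vale.Agent.P347Zero.LevelSmp
import Vale.Agent.P347Zero.LevelMapLift
import Vale.Agent.P347Zero.TiltMap
import Vale.Agent.P347.Trap

/-!
P347 (exponent zero): the schedule of parameters. A step with `O(d ^ ε)` queries reproduces the
restricted Gaussian oracle at `η = d ^ (-ε)` up to `d ^ (-M)` on Lipschitz test functions.
-/

open MeasureTheory ProbabilityTheory Real Filter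
open scoped Topology

namespace Vale.Agent.P347

lemma unitδ_facts {η : ℝ} (hη : 0 < η) (hη1 : η ≤ 1 / 128) :
    0 < unitδ η ∧ unitδ η ≤ 1 ∧ η ≤ 9 * unitδ η ∧ 9 * unitδ η ≤ 5 * η := by
  obtain ⟨h1, h2, h3, -⟩ := var'_facts hη hη1
  unfold unitδ
  exact ⟨by linarith, by linarith, by linarith, by linarith⟩

lemma lvlδ_facts {δR r : ℝ} (hδR : 0 < δR) (hr : 1 ≤ r) :
    (∀ l, 0 < lvlδ δR r l) ∧ (∀ l, lvlδ δR r l ≤ 2 * δR) ∧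
      ∀ l, lvlδ δR r (l + 1) * r ≤ lvlδ δR r l := by
  have hr0 : 0 < r := one_pos.trans_le hr
  refine ⟨fun l => by unfold lvlδ lvlS; positivity, fun l => ?_, fun l => ?_⟩
  · refine mul_le_of_le_one_right (by positivity) ?_
    exact pow_le_one₀ (by unfold lvlS; positivity) (inv_le_one_of_one_le₀ (one_le_pow₀ hr))
  · have h := lvlS_sq_next hr0 l
    have h0 : 0 ≤ 2 * δR * lvlS r (l + 1) ^ 2 := by positivity
    calc lvlδ δR r (l + 1) * r ≤ 2 * δR * lvlS r (l + 1) ^ 2 * r ^ 2 :=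
          mul_le_mul_of_nonneg_left (le_self_pow₀ hr two_ne_zero) h0
      _ = _ := by rw [mul_assoc (2 * δR), h]; rfl

/-- The accuracy after the last round. -/
lemma accR_top {d m Mb : ℕ} {α : ℝ} (hd : 1 ≤ d) (h : (Mb : ℝ) ≤ α * (m * (m + 1)) / 4) :
    accR ((d : ℝ) ^ α) (m * (m + 1)) m ≤ 2 * ((d : ℝ) ^ Mb)⁻¹ := by
  have hd1 : (1 : ℝ) ≤ d := by exact_mod_cast hd
  have hd0 : (0 : ℝ) < d := one_pos.trans_le hd1
  have e : √(√((d : ℝ) ^ α)) = (d : ℝ) ^ (α / 4) := by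
    rw [sqrt_eq_rpow, sqrt_eq_rpow, ← rpow_mul hd0.le, ← rpow_mul hd0.le]
    ring_nf
  have h1 : (d : ℝ) ^ Mb ≤ √(√((d : ℝ) ^ α)) ^ (m * (m + 1)) := by
    rw [e, ← rpow_natCast, ← rpow_natCast ((d : ℝ) ^ (α / 4)), ← rpow_mul hd0.le]
    refine rpow_le_rpow_of_exponent_le hd1 (h.trans (le_of_eq ?_))
    push_cast
    ring
  rw [accR, two_mul]
  exact add_le_add (inv_anti₀ (pow_pos hd0 _) h1) (inv_anti₀ (pow_pos hd0 _) h1)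

/-- The gain down the ladder and the scale together. -/
lemma scale_gain {r x : ℝ} {J' i : ℕ} (hr : 2 ≤ r) (hx0 : 0 ≤ x) (hx : x ≤ 2 / r) :
    lvlσ r (i + 1) * x ^ ((2 * (J' + 1) - (i + 2)) / 2) ≤ (2 / r) ^ J' := by
  have hr0 : 0 < r := by linarith
  have h1 : r⁻¹ ≤ 2 / r := by rw [inv_eq_one_div]; gcongr; norm_num
  have h2 : lvlσ r (i + 1) ≤ (2 / r) ^ (i + 1) := by
    rw [lvlσ, ← inv_pow]; gcongr
  refine (mul_le_mul h2 (pow_le_pow_left₀ hx0 hx _) (pow_nonneg hx0 _) (by positivity)).trans ?_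
  rw [← pow_add]
  exact pow_le_pow_of_le_one (by positivity) ((div_le_one hr0).2 hr) (by omega)

/-- The error of the sampler of one map. -/
lemma phi_err {Cr C U Mu acc xp qi σ τ L E NW : ℝ} (hCr : 0 ≤ Cr) (hC : 0 ≤ C) (hU : 0 ≤ U)
    (hU1 : U ≤ 1) (hMu : 0 ≤ Mu) (hMu1 : Mu ≤ U) (hacc : 0 ≤ acc) (hxp : 0 ≤ xp) (hqi : qi ≤ 1)
    (hqi0 : 0 ≤ qi) (hσ : 0 ≤ σ) (hσ1 : σ ≤ 1) (hτ : σ * xp ≤ τ) (hL : 0 ≤ L) (hE : 0 ≤ E)
    (hNW : 0 ≤ NW) :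
    σ * (Cr * U * ((1 + C) * acc + C * xp * qi) * L + Cr * Mu * (C * acc + C * xp) * L + NW * E)
      ≤ 2 * Cr * (1 + C) * (acc + τ) * L + NW * E := by
  have h1 : Cr * U * ((1 + C) * acc + C * xp * qi) * L + Cr * Mu * (C * acc + C * xp) * L
      ≤ Cr * 1 * ((1 + C) * acc + C * xp * 1) * L + Cr * 1 * (C * acc + C * xp) * L := by
    gcongr
    exact hMu1.trans hU1
  have h2 : σ * (Cr * U * ((1 + C) * acc + C * xp * qi) * L + Cr * Mu * (C * acc + C * xp) * L)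
      ≤ σ * (2 * Cr * (1 + C) * (acc + xp) * L) := by
    refine mul_le_mul_of_nonneg_left (h1.trans ?_) hσ
    have : 0 ≤ Cr * L := mul_nonneg hCr hL
    nlinarith [mul_nonneg this hacc, mul_nonneg this hxp]
  have h3 : σ * (2 * Cr * (1 + C) * (acc + xp) * L) ≤ 2 * Cr * (1 + C) * (acc + τ) * L := by
    rw [show σ * (2 * Cr * (1 + C) * (acc + xp) * L)
      = 2 * Cr * (1 + C) * (σ * acc + σ * xp) * L by ring]
    gcongr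
    exact mul_le_of_le_one_left hacc hσ1
  have h4 : σ * (NW * E) ≤ NW * E := mul_le_of_le_one_left (mul_nonneg hNW hE) hσ1
  rw [mul_add]
  linarith

/-- Node counts stay below `d ^ ε`. -/
lemma node_pow {Kl E Nr : ℕ} {CR x ε' ε : ℝ} (hx : 1 ≤ x) (hCR : 1 ≤ CR) (hε' : 0 ≤ ε')
    (hNr : (Nr : ℝ) ≤ CR * x ^ ε') (hε : ε' * (((Kl + 1) * E : ℕ) : ℝ) ≤ ε) :
    (((Kl + 1) * (Nr + 1) ^ (Kl + 1) : ℕ) : ℝ) ^ E
      ≤ ((Kl + 1 : ℕ) : ℝ) ^ E * (2 * CR) ^ ((Kl + 1) * E) * x ^ ε := by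
  have hx0 : 0 < x := one_pos.trans_le hx
  have h1 : 1 ≤ CR * x ^ ε' := one_le_mul_of_one_le_of_one_le hCR (one_le_rpow hx hε')
  have h2 : ((Nr + 1 : ℕ) : ℝ) ≤ 2 * CR * x ^ ε' := by push_cast; linarith
  rw [Nat.cast_mul, Nat.cast_pow, mul_pow, ← pow_mul, mul_assoc]
  refine mul_le_mul_of_nonneg_left ?_ (by positivity)
  calc ((Nr + 1 : ℕ) : ℝ) ^ ((Kl + 1) * E) ≤ (2 * CR * x ^ ε') ^ ((Kl + 1) * E) :=
        pow_le_pow_left₀ (Nat.cast_nonneg _) h2 _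
    _ = (2 * CR) ^ ((Kl + 1) * E) * x ^ (ε' * (((Kl + 1) * E : ℕ) : ℝ)) := by
        rw [mul_pow, ← rpow_natCast (x ^ ε'), ← rpow_mul hx0.le]
    _ ≤ _ := mul_le_mul_of_nonneg_left (rpow_le_rpow_of_exponent_le hx hε) (by positivity)

/-- The radius bounds everything known of a field. -/
lemma lambda_le {d P0 : ℕ} {η : ℝ} (hd : 1 ≤ d) (hP : 1 ≤ P0) (hη : 0 < η) (hη1 : η ≤ 1 / 128)
    (y : E d) :
    √(d : ℝ) + cutGb η (stepRho P0) y + 1 ≤ 5 * ((d : ℝ) ^ P0 * (1 + ‖y‖) ^ 2) ∧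
      0 ≤ cutGb η (stepRho P0) y := by
  obtain ⟨hu, hu1, -, -⟩ := unitδ_facts hη hη1
  have hd1 : (1 : ℝ) ≤ d := by exact_mod_cast hd
  have hy : (1 : ℝ) ≤ (1 + ‖y‖) ^ 2 := one_le_pow₀ (by linarith [norm_nonneg y])
  have h1 : √(d : ℝ) ≤ (d : ℝ) ^ P0 :=
    (sqrt_le_iff.2 ⟨by positivity, le_self_pow₀ hd1 two_ne_zero⟩).trans
      (le_self_pow₀ hd1 (by omega))
  have h2 : (d : ℝ) ^ P0 ≤ (d : ℝ) ^ P0 * (1 + ‖y‖) ^ 2 := le_mul_of_one_le_right (by positivity) hy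
  have h3 : (1 : ℝ) ≤ (d : ℝ) ^ P0 := one_le_pow₀ hd1
  unfold cutGb stepRho
  refine ⟨?_, by positivity⟩
  have h4 : 3 * unitδ η * ((d : ℝ) ^ P0 * (1 + ‖y‖) ^ 2) ≤ 3 * ((d : ℝ) ^ P0 * (1 + ‖y‖) ^ 2) := by
    have : 0 ≤ (d : ℝ) ^ P0 * (1 + ‖y‖) ^ 2 := by positivity
    nlinarith
  linarith

/-- The cut-off moves the oracle by little. -/
lemma cut_small {d P0 : ℕ} {η : ℝ} (hd : 1 ≤ d) (hη : 0 < η) (hη1 : η ≤ 1 / 128) (y : E d) :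
    4 * (unitδ η + unitr0 η y) * (1 + 2 * d + 4 * unitr0 η y ^ 2) / stepRho P0 y
      ≤ 28 * d / (d : ℝ) ^ P0 * (1 + ‖y‖) ^ 2 := by
  obtain ⟨hu, hu1, -, -⟩ := unitδ_facts hη hη1
  have hd1 : (1 : ℝ) ≤ d := by exact_mod_cast hd
  have hr : unitr0 η y ≤ ‖y‖ :=
    (unitr0_le hη hη1 y).trans (mul_le_of_le_one_left (norm_nonneg y) hu1)
  have hr0 : 0 ≤ unitr0 η y := by unfold unitr0; positivity
  set t := 1 + ‖y‖ with ht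
  have ht1 : 1 ≤ t := by linarith [norm_nonneg y]
  have h1 : unitδ η + unitr0 η y ≤ t := by linarith
  have h2 : 1 + 2 * (d : ℝ) + 4 * unitr0 η y ^ 2 ≤ 7 * d * t ^ 2 := by
    have a : unitr0 η y ^ 2 ≤ t ^ 2 := pow_le_pow_left₀ hr0 (by linarith) 2
    have b : (1 : ℝ) ≤ t ^ 2 := one_le_pow₀ ht1
    nlinarith [mul_le_mul hd1 b zero_le_one (zero_le_one.trans hd1)]
  rw [stepRho, div_mul_eq_mul_div, div_le_div_iff₀ (by positivity) (by positivity)]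
  calc 4 * (unitδ η + unitr0 η y) * (1 + 2 * d + 4 * unitr0 η y ^ 2) * (d : ℝ) ^ P0
      ≤ 4 * t * (7 * d * t ^ 2) * (d : ℝ) ^ P0 := by gcongr
    _ = 28 * d * t ^ 3 * (d : ℝ) ^ P0 := by ring
    _ ≤ 28 * d * t ^ 4 * (d : ℝ) ^ P0 := by gcongr <;> omega
    _ = _ := by ring

/-- The scales at one dimension. -/
structure Scales (d : ℕ) (ε α γ : ℝ) (e m Mb J' Dp : ℕ) (Cl : ℝ) : Prop where
  two_le : 2 ≤ d
  κ_large : 16 ≤ (d : ℝ) ^ α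
  r_large : 2 ≤ (d : ℝ) ^ γ
  eta_small : etaOf ε d ≤ 1 / 128
  weight : 10 * Cl * (d : ℝ) ^ (γ * (e + 2 : ℕ) + ε / 4) ≤ (d : ℝ) ^ (ε - α / 2)
  inflate : 10 * (d : ℝ) ^ (ε / 4) ≤ (d : ℝ) ^ (ε / 2)
  gain : γ ≤ α / 4
  alpha_pos : 0 < α
  gamma_pos : 0 < γ
  eps_pos : 0 < ε
  mult : α * m = ε / 4
  acc : (Mb : ℝ) ≤ α * (m * (m + 1)) / 4
  down : (Mb : ℝ) ≤ γ * J'
  room : ε + γ * (4 * (J' + 1) + 1) ≤ Dp

variable {d : ℕ} {ε α γ : ℝ} {e m Mb J' Dp : ℕ} {Cl : ℝ}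

/-- What follows from the scales. -/
lemma Scales.facts (h : Scales d ε α γ e m Mb J' Dp Cl) (hCl : 1 ≤ Cl) :
    (∀ j, j ≤ m → ((d : ℝ) ^ α) ^ j * (9 * unitδ (etaOf ε d)) ≤ (d : ℝ) ^ (-(ε / 2))) ∧
    (∀ l, ((d : ℝ) ^ α) ^ m * lvlδ (9 * unitδ (etaOf ε d)) ((d : ℝ) ^ γ) l ≤ 1) ∧
    ((d : ℝ) ^ γ) ^ 2 * (Cl * ((d : ℝ) ^ γ) ^ e * (((d : ℝ) ^ α) ^ m * (9 * unitδ (etaOf ε d))))
      ≤ (√((d : ℝ) ^ α))⁻¹ ∧
    (√((d : ℝ) ^ α))⁻¹ ≤ 1 ∧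
    lvlGain ((d : ℝ) ^ α) ((d : ℝ) ^ γ) ≤ 2 / (d : ℝ) ^ γ ∧
    (∀ i, i < 2 * (J' + 1) → 1 ≤ (d : ℝ) ^ Dp
      * (lvlδ (9 * unitδ (etaOf ε d)) ((d : ℝ) ^ γ) i * (d : ℝ) ^ γ)) ∧
    (2 / (d : ℝ) ^ γ) ^ J' ≤ 2 ^ J' * ((d : ℝ) ^ Mb)⁻¹ ∧
    lvlσ ((d : ℝ) ^ γ) (2 * (J' + 1)) ≤ ((d : ℝ) ^ Mb)⁻¹ := by
  have hd1 : (1 : ℝ) ≤ d := by exact_mod_cast le_trans one_le_two h.two_le
  have hd0 : (0 : ℝ) < d := one_pos.trans_le hd1
  have hη : 0 < etaOf ε d := etaOf_pos ε (by linarith [h.two_le])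
  obtain ⟨hu0, -, hu2, hu3⟩ := unitδ_facts hη h.eta_small
  set δR := 9 * unitδ (etaOf ε d) with hδR
  set r := (d : ℝ) ^ γ with hr
  set κ := (d : ℝ) ^ α with hκ
  have hr1 : 1 ≤ r := one_le_two.trans h.r_large
  have hr0 : 0 < r := one_pos.trans_le hr1
  have hκ1 : 1 ≤ κ := le_trans (by norm_num) h.κ_large
  have hκm : κ ^ m = (d : ℝ) ^ (ε / 4) := by
    rw [hκ, ← rpow_natCast, ← rpow_mul hd0.le, h.mult]
  have hηd : etaOf ε d = (d : ℝ) ^ (-ε) := rfl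
  have h5 : δR ≤ 5 * (d : ℝ) ^ (-ε) := hηd ▸ hu3
  have hc : ∀ j, j ≤ m → κ ^ j * δR ≤ 5 * (d : ℝ) ^ (ε / 4 - ε) := fun j hj => by
    calc κ ^ j * δR ≤ κ ^ m * (5 * (d : ℝ) ^ (-ε)) :=
          mul_le_mul (pow_le_pow_right₀ hκ1 hj) h5 (by rw [hδR]; positivity) (by positivity)
      _ = _ := by rw [hκm, sub_eq_add_neg, rpow_add hd0]; ring
  have hinf : 10 * (d : ℝ) ^ (ε / 4 - ε) ≤ (d : ℝ) ^ (-(ε / 2)) := by
    have h1 := mul_le_mul_of_nonneg_right h.inflate (rpow_nonneg hd0.le (-ε))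
    rw [mul_assoc, ← rpow_add hd0, ← rpow_add hd0, ← sub_eq_add_neg] at h1
    refine h1.trans (le_of_eq ?_)
    ring_nf
  have hhalf : (d : ℝ) ^ (-(ε / 2)) ≤ 1 :=
    rpow_le_one_of_one_le_of_nonpos hd1 (by linarith [h.eps_pos])
  have hpos := rpow_nonneg hd0.le (ε / 4 - ε)
  refine ⟨fun j hj => (hc j hj).trans (le_trans (by linarith) hinf), fun l => ?_, ?_, ?_, ?_, ?_, ?_,
    ?_⟩
  · obtain ⟨-, h2, -⟩ := lvlδ_facts (δR := δR) (by rw [hδR]; positivity) hr1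
    calc κ ^ m * lvlδ δR r l ≤ κ ^ m * (2 * δR) :=
          mul_le_mul_of_nonneg_left (h2 l) (by positivity)
      _ ≤ 1 := by linarith [hc m le_rfl]
  · have hre : r ^ 2 * r ^ e = (d : ℝ) ^ (γ * (e + 2 : ℕ)) := by
      rw [← pow_add, hr, ← rpow_natCast, ← rpow_mul hd0.le, add_comm 2 e]
    have hsκ : (√κ)⁻¹ = (d : ℝ) ^ (-(α / 2)) := by
      rw [rpow_neg hd0.le, hκ, sqrt_eq_rpow, ← rpow_mul hd0.le]; ring_nf
    have h1 := mul_le_mul_of_nonneg_right h.weight (rpow_nonneg hd0.le (-ε))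
    rw [mul_assoc, ← rpow_add hd0, ← rpow_add hd0] at h1
    have he : ε - α / 2 + -ε = -(α / 2) := by ring
    rw [he, ← hsκ] at h1
    calc r ^ 2 * (Cl * r ^ e * (κ ^ m * δR)) = Cl * (r ^ 2 * r ^ e) * (κ ^ m * δR) := by ring
      _ ≤ Cl * (r ^ 2 * r ^ e) * (5 * (d : ℝ) ^ (ε / 4 - ε)) :=
          mul_le_mul_of_nonneg_left (hc m le_rfl) (by positivity)
      _ = 5 * Cl * (d : ℝ) ^ (γ * (e + 2 : ℕ) + ε / 4 + -ε) := by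
          rw [hre, show γ * (e + 2 : ℕ) + ε / 4 + -ε = γ * (e + 2 : ℕ) + (ε / 4 - ε) by ring,
            rpow_add hd0]
          ring
      _ ≤ 10 * Cl * (d : ℝ) ^ (γ * (e + 2 : ℕ) + ε / 4 + -ε) := by gcongr; norm_num
      _ ≤ _ := h1
  · exact inv_le_one_of_one_le₀ (one_le_sqrt.2 hκ1)
  · have h1 : r ≤ √(√κ) := by
      rw [hκ, sqrt_eq_rpow, sqrt_eq_rpow, ← rpow_mul hd0.le, ← rpow_mul hd0.le]
      exact rpow_le_rpow_of_exponent_le hd1 (by linarith [h.gain])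
    rw [lvlGain, show 2 / r = r⁻¹ + r⁻¹ by ring]
    exact add_le_add_left (inv_anti₀ hr0 h1) _
  · intro i hi
    have hS : (r ^ (2 * (2 * (J' + 1)) + 1))⁻¹ ≤ lvlS r i ^ 2 * r := by
      rw [lvlS, inv_pow, ← pow_mul]
      refine (inv_anti₀ (by positivity) (pow_le_pow_right₀ hr1 (by omega))).trans
        (le_mul_of_one_le_right (by positivity) hr1)
    have hD : (d : ℝ) ^ ε * r ^ (2 * (2 * (J' + 1)) + 1) ≤ (d : ℝ) ^ Dp := by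
      rw [hr, ← rpow_natCast ((d : ℝ) ^ γ), ← rpow_mul hd0.le, ← rpow_add hd0, ← rpow_natCast]
      refine rpow_le_rpow_of_exponent_le hd1 (le_trans (le_of_eq ?_) h.room)
      push_cast
      ring
    have hδ : (d : ℝ) ^ (-ε) ≤ δR := hηd ▸ hu2
    calc (1 : ℝ) ≤ (d : ℝ) ^ ε * r ^ (2 * (2 * (J' + 1)) + 1)
          * (2 * (d : ℝ) ^ (-ε) * (r ^ (2 * (2 * (J' + 1)) + 1))⁻¹) := by
          rw [show (d : ℝ) ^ ε * r ^ (2 * (2 * (J' + 1)) + 1)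
            * (2 * (d : ℝ) ^ (-ε) * (r ^ (2 * (2 * (J' + 1)) + 1))⁻¹)
            = 2 * ((d : ℝ) ^ ε * (d : ℝ) ^ (-ε))
              * (r ^ (2 * (2 * (J' + 1)) + 1) * (r ^ (2 * (2 * (J' + 1)) + 1))⁻¹) by ring,
            mul_inv_cancel₀ (pow_ne_zero _ hr0.ne'), ← rpow_add hd0, add_neg_cancel, rpow_zero]
          norm_num
      _ ≤ (d : ℝ) ^ Dp * (2 * δR * (lvlS r i ^ 2 * r)) := by gcongr
      _ = _ := by rw [lvlδ]; ring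
  · rw [div_pow, div_eq_mul_inv]
    refine mul_le_mul_of_nonneg_left (inv_anti₀ (by positivity) ?_) (by positivity)
    rw [hr, ← rpow_natCast ((d : ℝ) ^ γ), ← rpow_mul hd0.le, ← rpow_natCast]
    exact rpow_le_rpow_of_exponent_le hd1 h.down
  · rw [lvlσ]
    refine inv_anti₀ (by positivity) (le_trans ?_ (pow_le_pow_right₀ hr1 (show J' ≤ _ by omega)))
    rw [hr, ← rpow_natCast ((d : ℝ) ^ γ), ← rpow_mul hd0.le, ← rpow_natCast]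
    exact rpow_le_rpow_of_exponent_le hd1 h.down

/-- Counts of nodes and queries stay below a power of `(Kl + 1) (Nr + 1) ^ (Kl + 1)`. -/
lemma step_count {Kl Kr Ks Nr nd : ℕ} (hnd : nd ≤ Kl * (Nr + 1) ^ Kl) :
    let Z := (Kl + 1) * (Nr + 1) ^ (Kl + 1)
    nd + Nr + 1 ≤ Z ∧ Kl * (Nr + 1) ^ Kl + Nr + 1 ≤ Z ∧
      Kr * (nd + Nr + 1) ^ Kr * (6 + Ks * (Kl * (Nr + 1) ^ Kl + Nr + 1) ^ Ks * (6 + 1) + 1)
        ≤ 7 * Kr * (Ks + 1) * Z ^ (Kr + Ks) := by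
  intro Z
  have hP : Kl * (Nr + 1) ^ Kl + Nr + 1 ≤ Z :=
    calc Kl * (Nr + 1) ^ Kl + Nr + 1 = Kl * (Nr + 1) ^ Kl + (Nr + 1) := add_assoc _ _ _
      _ ≤ Kl * (Nr + 1) ^ (Kl + 1) + (Nr + 1) ^ (Kl + 1) :=
          add_le_add (Nat.mul_le_mul_left _ (Nat.pow_le_pow_right (Nat.succ_pos _) (Nat.le_succ _)))
            (Nat.le_self_pow (Nat.succ_ne_zero _) _)
      _ = _ := by ring
  have hn : nd + Nr + 1 ≤ Z := le_trans (by omega) hP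
  refine ⟨hn, hP, ?_⟩
  have h1 : 1 ≤ Z ^ Ks := Nat.one_le_pow _ _ (by omega)
  calc _ ≤ Kr * Z ^ Kr * (6 + Ks * Z ^ Ks * (6 + 1) + 1) := by gcongr
    _ ≤ Kr * Z ^ Kr * (7 * (Ks + 1) * Z ^ Ks) := by gcongr; nlinarith
    _ = _ := by rw [pow_add]; ring

/-- The absolute error of a sampler. -/
lemma step_tail {W W' Z Cr Cs Cl dM L t : ℝ} {Kr Ks : ℕ} (hW : W ≤ Z) (hW0 : 0 ≤ W) (hW' : W' ≤ Z)
    (hW0' : 0 ≤ W') (hZ : 1 ≤ Z) (hCr : 0 ≤ Cr) (hCs : 1 ≤ Cs) (hCl : 1 ≤ Cl) (hdM : 0 ≤ dM)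
    (hL : 1 ≤ L) (ht : t ≤ 2 * Cl * L * dM) (ht0 : 0 ≤ t) :
    Cr * W ^ Kr * (Cs * W' ^ Ks * (t + dM) + dM) ≤ 4 * Cr * Cs * Cl * Z ^ (Kr + Ks) * (L * dM) := by
  have hZ0 : 0 ≤ Z := zero_le_one.trans hZ
  have h0 : 1 ≤ Cl * L := one_le_mul_of_one_le_of_one_le hCl hL
  have h1 : 1 * dM ≤ Cl * L * dM := mul_le_mul_of_nonneg_right h0 hdM
  have h2 : 1 ≤ Cs * Z ^ Ks := one_le_mul_of_one_le_of_one_le hCs (one_le_pow₀ hZ)
  calc Cr * W ^ Kr * (Cs * W' ^ Ks * (t + dM) + dM)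
      ≤ Cr * Z ^ Kr * (Cs * Z ^ Ks * (3 * (Cl * L * dM)) + 1 * (Cl * L * dM)) := by
        gcongr
        · linarith
        · linarith
    _ ≤ Cr * Z ^ Kr * (Cs * Z ^ Ks * (3 * (Cl * L * dM)) + Cs * Z ^ Ks * (Cl * L * dM)) := by
        gcongr
    _ = _ := by rw [pow_add]; ring

/-- All errors of one level, in units of the radius. -/
lemma step_level {σ acc xp τ A B Cl Ze X L dM T : ℝ} (hσ0 : 0 ≤ σ) (hσ1 : σ ≤ 1) (hA : 0 ≤ A)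
    (hB : 0 ≤ B) (hL : 0 ≤ L) (hdM : 0 ≤ dM) (hacc0 : 0 ≤ acc) (hacc : acc ≤ 2 * dM)
    (hτ : σ * xp ≤ τ) (hτ1 : τ ≤ T * dM) (hT : 0 ≤ T) (hZ0 : 0 ≤ Ze) (hZ : Ze ≤ X) (hX : 1 ≤ X)
    (hCl : 0 ≤ Cl) :
    σ * (A * (acc + xp) * L + B * Ze * (L * dM)) + 2 * Cl * L * dM
      ≤ (A * (2 + T) + B + 2 * Cl) * X * (L * dM) := by
  have h1 : σ * acc + σ * xp ≤ (2 + T) * dM := by
    linarith [mul_le_of_le_one_left hacc0 hσ1]
  have hu : 0 ≤ L * dM := mul_nonneg hL hdM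
  have h2 : A * ((σ * acc + σ * xp) * L) ≤ A * ((2 + T) * dM * L) := by gcongr
  have h3 : σ * (B * Ze * (L * dM)) ≤ B * X * (L * dM) :=
    (mul_le_of_le_one_left (by positivity) hσ1).trans (by gcongr)
  have h4 : (A * (2 + T) + 2 * Cl) * (L * dM) * 1 ≤ (A * (2 + T) + 2 * Cl) * (L * dM) * X :=
    mul_le_mul_of_nonneg_left hX (by positivity)
  linarith

/-- A high power of the dimension absorbs every constant. -/
lemma step_final {D Kc : ℝ} {M P0 e1 Mb : ℕ} (hD : 56 ≤ D) (hK : 2 * Kc ≤ D) (hK0 : 0 ≤ Kc)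
    (hP0 : P0 = M + 3) (hMb : Mb = M + P0 + e1 + 2) :
    Kc * (D ^ P0 * D ^ e1) * (D ^ Mb)⁻¹ + 28 * D / D ^ P0 ≤ (D ^ M)⁻¹ := by
  have hD0 : 0 < D := by linarith
  subst hMb
  rw [show M + P0 + e1 + 2 = P0 + e1 + (M + 2) by ring, ← pow_add, pow_add D (P0 + e1)]
  subst hP0
  rw [show M + 3 = M + 2 + 1 from rfl, pow_succ D (M + 2)]
  generalize hY : D ^ (M + 2 + 1 + e1) = Y
  have hY0 : 0 < Y := hY ▸ by positivity
  have e1' : Kc * Y * (Y * D ^ (M + 2))⁻¹ = Kc / D * (D * (D ^ (M + 2))⁻¹) := by field_simp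
  have e2' : 28 * D / (D ^ (M + 2) * D) = 28 / D * (D * (D ^ (M + 2))⁻¹) := by field_simp
  have h1 : Kc / D ≤ 1 / 2 := by rw [div_le_iff₀ hD0]; linarith
  have h2 : 28 / D ≤ 1 / 2 := by rw [div_le_iff₀ hD0]; linarith
  have h3 : 0 ≤ D * (D ^ (M + 2))⁻¹ := by positivity
  have h4 : D * (D ^ (M + 2))⁻¹ ≤ (D ^ M)⁻¹ := by
    rw [pow_succ, mul_inv, mul_left_comm, mul_inv_cancel₀ hD0.ne', mul_one]
    exact inv_anti₀ (by positivity) (pow_le_pow_right₀ (by linarith) (Nat.le_succ M))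
  rw [e1', e2']
  have a := mul_le_mul_of_nonneg_right h1 h3
  have b := mul_le_mul_of_nonneg_right h2 h3
  linarith

/-- A rule at an arbitrary power of the dimension. -/
lemma exists_rule_pow (M : ℕ) {ε' : ℝ} (hε' : 0 < ε') : ∃ C : ℝ, 1 ≤ C ∧ ∀ᶠ d : ℕ in atTop,
    ∃ (Nr : ℕ) (εr : ℝ), εr ≤ ((d : ℝ) ^ M)⁻¹ ∧ (Nr : ℝ) ≤ C * (d : ℝ) ^ ε' ∧
      Nonempty (Rule Nr εr) := by
  obtain ⟨C, hC⟩ := exists_rule (M + 1) ε' hε'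
  refine ⟨max C 1, le_max_right _ _, ?_⟩
  filter_upwards [eventually_ge_atTop 2,
    (tendsto_natCast_atTop_atTop (R := ℝ)).eventually_ge_atTop C] with d hd hdC
  have hd2 : (2 : ℝ) ≤ d := by exact_mod_cast hd
  have hd0 : (0 : ℝ) < d := by linarith
  obtain ⟨N, hN, hR⟩ := hC d hd2
  refine ⟨N, _, ?_, hN.trans (mul_le_mul_of_nonneg_right (le_max_left _ _) (by positivity)), hR⟩
  rw [rpow_neg hd0.le, rpow_natCast, pow_succ, mul_inv]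
  calc C * (((d : ℝ) ^ M)⁻¹ * (d : ℝ)⁻¹) = ((d : ℝ) ^ M)⁻¹ * (C / d) := by ring
    _ ≤ _ := mul_le_of_le_one_right (by positivity) ((div_le_one hd0).2 hdC)

/-- All scales are eventually admissible. -/
lemma eventually_scales {Cl : ℝ} {ε α γ : ℝ} {e m Mb J' Dp : ℕ} (hε : 0 < ε) (hα : 0 < α)
    (hγ : 0 < γ) (hγα : γ ≤ α / 4) (hmul : α * m = ε / 4)
    (hexp : γ * (e + 2 : ℕ) + ε / 4 < ε - α / 2) (hacc : (Mb : ℝ) ≤ α * (m * (m + 1)) / 4)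
    (hdown : (Mb : ℝ) ≤ γ * J') (hroom : ε + γ * (4 * (J' + 1) + 1) ≤ Dp) :
    ∀ᶠ d : ℕ in atTop, Scales d ε α γ e m Mb J' Dp Cl := by
  have hpow : ∀ {a : ℝ}, 0 < a → ∀ c : ℝ, ∀ᶠ d : ℕ in atTop, c ≤ (d : ℝ) ^ a := fun ha c =>
    ((tendsto_rpow_atTop ha).comp tendsto_natCast_atTop_atTop).eventually_ge_atTop c
  filter_upwards [hpow hα 16, hpow hγ 2, eventually_etaOf hε (c := 1 / 128) (by norm_num),
    hpow (sub_pos.2 hexp) (10 * Cl), hpow (by linarith : 0 < ε / 2 - ε / 4) 10,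
    eventually_ge_atTop 2] with d hκ hr hη hw hi hd
  have hd0 : (0 : ℝ) < d := by exact_mod_cast (show 0 < d by omega)
  refine ⟨hd, hκ, hr, hη.2, ?_, ?_, hγα, hα, hγ, hε, hmul, hacc, hdown, hroom⟩
  · refine (mul_le_mul_of_nonneg_right hw (rpow_nonneg hd0.le _)).trans (le_of_eq ?_)
    rw [← rpow_add hd0, sub_add_cancel]
  · refine (mul_le_mul_of_nonneg_right hi (rpow_nonneg hd0.le _)).trans (le_of_eq ?_)
    rw [← rpow_add hd0, sub_add_cancel]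

end Vale.Agent.P347
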