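import Vale.Agent.P347Zero.StepDim

/-!
P347 (exponent zero): the choice of all parameters.
-/

open MeasureTheory ProbabilityTheory Real Filter
open scoped Topology

namespace Vale.Agent.P347

/-- Steps with `O(d ^ ε)` queries exist. -/
theorem stepZero_of (hdb : DebiasGood) : StepZero := by
  intro ε hε M
  set e1 := ⌈ε⌉₊ with he1
  set P0 := M + 3 with hP0
  set Mb := M + P0 + e1 + 2 with hMb
  set m := ⌈16 * (Mb : ℝ) / ε⌉₊ + 1 with hm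
  set α := ε / (4 * (m : ℝ)) with hαd
  have hm1 : (1 : ℝ) ≤ m := by rw [hm]; exact_mod_cast Nat.le_add_left 1 _
  have hα : 0 < α := by rw [hαd]; positivity
  have hmul : α * m = ε / 4 := by rw [hαd]; field_simp
  set Dp := e1 + 4 * Mb + 12 with hDp
  set M' := Mb + Dp with hM'
  set k := ⌈4 * (M' : ℝ) / ε⌉₊ with hk
  have hαL : (0 : ℝ) < ε / 2 := by linarith
  obtain ⟨e, M2l, γl, hγl, hlev⟩ := exists_levelMap tiltMapStmt (ε / 2) hαL M' k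
  obtain ⟨M2r, γr, hγr, hreal⟩ := real_good hdb hα Mb (m * (m + 1)) m e
  obtain ⟨M2s, γs, hγs, hsmp⟩ := leafSmp_levels α hα Mb (m * (m + 1)) m
    (fun j _ => real_good hdb hα Mb (m * (m + 1)) j) e
  set γ := min (min γl (min γr γs)) (min (min (α / 4) 1) (ε / (8 * ((e : ℝ) + 3)))) with hγd
  have hγ : 0 < γ := by rw [hγd]; positivity
  have hγle : γ ≤ γl ∧ γ ≤ γr ∧ γ ≤ γs ∧ γ ≤ α / 4 ∧ γ ≤ 1 ∧ γ ≤ ε / (8 * ((e : ℝ) + 3)) := by
    rw [hγd]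
    exact ⟨(min_le_left _ _).trans (min_le_left _ _),
      (min_le_left _ _).trans ((min_le_right _ _).trans (min_le_left _ _)),
      (min_le_left _ _).trans ((min_le_right _ _).trans (min_le_right _ _)),
      (min_le_right _ _).trans ((min_le_left _ _).trans (min_le_left _ _)),
      (min_le_right _ _).trans ((min_le_left _ _).trans (min_le_right _ _)),
      (min_le_right _ _).trans (min_le_right _ _)⟩
  obtain ⟨hgl, hgr, hgs, hgα, hg1, hge⟩ := hγle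
  obtain ⟨N0l, hlev⟩ := hlev γ hγ hgl
  obtain ⟨N0r, hreal⟩ := hreal γ hγ hgr
  obtain ⟨N0s, hsmp⟩ := hsmp γ hγ hgs
  set N := max N0l (max N0r N0s) + 1 with hN
  obtain ⟨Cf, hCf⟩ := fld_score N (by omega)
  obtain ⟨Kl, Cl, Tl, hCl, hTl, hlev⟩ := hlev N (by omega) |Cf| (abs_nonneg _)
  obtain ⟨Kr, Cr, hCr, hreal⟩ := hreal N (by omega) Kl Tl |Cf| Cl hTl (abs_nonneg _) hCl
  set J' := ⌈(Mb : ℝ) / γ⌉₊ with hJ'
  obtain ⟨Ks, Cs, hCs, hsmp⟩ := hsmp N (by omega) (2 * (J' + 1)) Kl Tl |Cf| (max Cl Cr) hTl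
    (abs_nonneg _) (le_max_of_le_left hCl)
  set J := 2 * (J' + 1) with hJ
  have hkM : (M' : ℝ) ≤ ε / 2 * k / 2 := by
    have := Nat.le_ceil (4 * (M' : ℝ) / ε)
    rw [← hk, div_le_iff₀ hε] at this
    linarith
  set ε' := ε / ((((Kl + 1) * (Kr + Ks) : ℕ) : ℝ) + 1) with hε'd
  have hε' : 0 < ε' := by rw [hε'd]; positivity
  have hεE : ε' * (((Kl + 1) * (Kr + Ks) : ℕ) : ℝ) ≤ ε := by
    rw [hε'd, div_mul_eq_mul_div, div_le_iff₀ (by positivity)]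
    exact mul_le_mul_of_nonneg_left (le_add_of_nonneg_right zero_le_one) hε.le
  obtain ⟨CR, hCR, hrule⟩ := exists_rule_pow (max M2l (max M2r M2s)) hε'
  set CZ := ((Kl + 1 : ℕ) : ℝ) ^ (Kr + Ks) * (2 * CR) ^ ((Kl + 1) * (Kr + Ks)) with hCZ
  have hCZ0 : 0 ≤ CZ := by rw [hCZ]; positivity
  set K0 := (2 * Cr * (1 + Cs) * (2 + 2 ^ J') + 4 * Cr * Cs * Cl + 2 * Cl) * (CZ + 1) with hK0
  set Kc := 5 * ((2 : ℝ) ^ J * J * K0 + 2) with hKc
  have hK00 : 0 ≤ K0 := by rw [hK0]; positivity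
  have hKc0 : 0 ≤ Kc := by rw [hKc]; positivity
  have hexp : γ * (e + 2 : ℕ) + ε / 4 < ε - α / 2 := by
    have h1 : γ * (e + 2 : ℕ) ≤ ε / 8 := by
      calc γ * (e + 2 : ℕ) ≤ γ * ((e : ℝ) + 3) := by gcongr; push_cast; linarith
        _ ≤ ε / (8 * ((e : ℝ) + 3)) * ((e : ℝ) + 3) := by gcongr
        _ = ε / 8 := by field_simp
    have h2 : α ≤ α * m := le_mul_of_one_le_right hα.le hm1
    linarith
  have hacc : (Mb : ℝ) ≤ α * (m * (m + 1)) / 4 := by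
    rw [← mul_assoc, hmul]
    have h1 : 16 * (Mb : ℝ) / ε ≤ m := by
      rw [hm]; push_cast; linarith [Nat.le_ceil (16 * (Mb : ℝ) / ε)]
    rw [div_le_iff₀ hε] at h1
    linarith
  have hdown : (Mb : ℝ) ≤ γ * J' := by
    rw [mul_comm, ← div_le_iff₀ hγ, hJ']; exact Nat.le_ceil _
  have hroom : ε + γ * (4 * (J' + 1) + 1) ≤ Dp := by
    have h1 : (J' : ℝ) * γ ≤ Mb + γ := by
      have h := Nat.ceil_lt_add_one (div_nonneg (Nat.cast_nonneg Mb) hγ.le)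
      rw [← hJ'] at h
      have := mul_le_mul_of_nonneg_right h.le hγ.le
      rwa [add_mul, div_mul_cancel₀ _ hγ.ne', one_mul] at this
    rw [hDp]; push_cast
    linarith [Nat.le_ceil ε]
  refine ⟨(J : ℝ) * (7 * Kr * (Ks + 1) : ℕ) * CZ + 4, ?_⟩
  filter_upwards [hlev, hreal, hsmp, hrule,
    eventually_scales (Cl := Cl) hε hα hγ hgα hmul hexp hacc hdown hroom,
    (tendsto_natCast_atTop_atTop (R := ℝ)).eventually_ge_atTop (max 56 (2 * Kc))]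
    with d hlev hreal hsmp ⟨Nr, εr, hεr, hNr, ⟨Rl⟩⟩ hsc hdc
  have hd56 : (56 : ℝ) ≤ d := (le_max_left _ _).trans hdc
  have hd1 : (1 : ℝ) ≤ d := by linarith
  have hd0 : (0 : ℝ) < d := by linarith
  have hdn : 1 ≤ d := by exact_mod_cast hd1
  have hrl : ∀ M2 : ℕ, M2 ≤ max M2l (max M2r M2s) → εr ≤ ((d : ℝ) ^ M2)⁻¹ := fun M2 h =>
    hεr.trans (inv_anti₀ (pow_pos hd0 _) (pow_le_pow_right₀ hd1 h))
  obtain ⟨hcδ, hsmall, hweight, -, hgain, hDge, hdownR, hbot⟩ := hsc.facts hCl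
  have hη : 0 < etaOf ε d := etaOf_pos ε (by omega)
  have hη1 := hsc.eta_small
  obtain ⟨hu, -, -, -⟩ := unitδ_facts hη hη1
  have hδR : 0 < 9 * unitδ (etaOf ε d) := by linarith
  have hr2 := hsc.r_large
  have hr1 : 1 ≤ (d : ℝ) ^ γ := one_le_two.trans hr2
  obtain ⟨hpos, -, hdec⟩ := lvlδ_facts hδR hr1
  have hfld : ∀ V, InClass d V → ∀ y ℓ, Fld d (lvlδ (9 * unitδ (etaOf ε d)) ((d : ℝ) ^ γ) ℓ)
      ((d : ℝ) ^ γ) (cutGb (etaOf ε d) (stepRho P0) y) |Cf| N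
      (ladder (etaOf ε d) ((d : ℝ) ^ γ) (stepRho P0) V y ℓ) := fun V hV y ℓ =>
    (fld_ladder (hCf d) hV hη hη1 (rhoOk_stepRho hdn hη hη1 P0 y) hr1 ℓ).abs_C
  have hZe : (((Kl + 1) * (Nr + 1) ^ (Kl + 1) : ℕ) : ℝ) ^ (Kr + Ks) ≤ CZ * (d : ℝ) ^ ε :=
    node_pow hd1 hCR hε'.le hNr hεE
  have hdε : (d : ℝ) ^ ε ≤ (d : ℝ) ^ e1 := by
    rw [← rpow_natCast]; exact rpow_le_rpow_of_exponent_le hd1 (Nat.le_ceil ε)
  refine ⟨2 * (J' + 1) * (7 * Kr * (Ks + 1) * ((Kl + 1) * (Nr + 1) ^ (Kl + 1)) ^ (Kr + Ks)) + 4,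
    ?_, stepAt_dim (e1 := e1) (CZ := CZ) (Cs := Cs) hdn hη hη1 hr2 hsc.κ_large rfl hgain hsmall
      hweight hdownR hbot (accR_top hdn hacc) (Nat.le_add_left 1 (M + 2)) hM' hkM hCl hTl hCr hCs
      (abs_nonneg _) hCZ0 (hZe.trans (mul_le_mul_of_nonneg_left hdε hCZ0))
      (step_final hd56 ((le_max_right _ _).trans hdc) hKc0 hP0 hMb) hfld
      (fun j hj => hlev Nr εr Rl (hrl _ (le_max_left _ _)) _ _ _ hδR
        (one_le_pow₀ (le_trans (by norm_num) hsc.κ_large)) (hcδ j hj) rfl)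
      (fun Λ ζ hΛ hζ hleaf => hsmp Nr εr Rl (hrl _ (le_max_of_le_right (le_max_right _ _))) _ _ _
        ((d : ℝ) ^ Dp) _ _ Λ _ ζ hpos hsmall hdec rfl hfld hΛ hζ (by positivity) hDge hleaf)
      fun δ ℓ₀ qe ql Λ a b e₁ hp hs hf => hreal Nr εr Rl
        (hrl _ (le_max_of_le_right (le_max_left _ _))) _ δ _ ℓ₀ qe ql Λ _ a b e₁ hp hs rfl hf⟩
  have h1 : (1 : ℝ) ≤ (d : ℝ) ^ ε := one_le_rpow hd1 hε.le
  push_cast at hZe ⊢
  calc _ ≤ (2 * ((J' : ℝ) + 1)) * (7 * Kr * (Ks + 1) * (CZ * (d : ℝ) ^ ε)) + 4 * (d : ℝ) ^ ε := by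
        gcongr
        linarith
    _ = _ := by rw [hJ]; push_cast; ring

end Vale.Agent.P347
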