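import Vale.Agent.P347Zero.Score
import Vale.Agent.P347.FlowBasic
import Vale.Agent.P347.Gauss

/-!
P347 module M3b, first part: means under the tilted law smoothed at variance `σ²`, as functions of
the centre. They are smooth, and their derivative is a covariance with the variable.
-/

open MeasureTheory ProbabilityTheory Real
open scoped RealInnerProductSpace Topology

namespace Vale.Agent.P347.Appell

variable {d : ℕ}

/-- Continuous functions of at most exponential growth. -/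
def ExpG (Φ : E d → ℝ) : Prop :=
  Continuous Φ ∧ ∃ K b : ℝ, ∀ x, |Φ x| ≤ K * exp (b * ‖x‖)

/-- Continuous functions of at most polynomial growth. -/
def PG (F : E d → ℝ) : Prop :=
  Continuous F ∧ ∃ (K : ℝ) (k : ℕ), ∀ x, |F x| ≤ K * (1 + ‖x‖) ^ k

theorem PG.const (c : ℝ) : PG fun _ : E d => c :=
  ⟨continuous_const, |c|, 0, fun x => by simp⟩

theorem PG.inner (v : E d) : PG fun x : E d => ⟪x, v⟫ :=
  ⟨by fun_prop, ‖v‖, 1, fun x => (abs_real_inner_le_norm x v).trans
    (by rw [pow_one]; nlinarith [norm_nonneg x, norm_nonneg v])⟩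

theorem PG.coord (i : Fin d) : PG fun x : E d => x i :=
  ⟨by fun_prop, 1, 1, fun x => by
    have h := PiLp.norm_apply_le (p := 2) x i
    rw [Real.norm_eq_abs] at h
    rw [pow_one, one_mul]; linarith⟩

theorem PG.exists_nonneg {F : E d → ℝ} (h : PG F) :
    ∃ (K : ℝ) (k : ℕ), 0 ≤ K ∧ ∀ x, |F x| ≤ K * (1 + ‖x‖) ^ k := by
  obtain ⟨_, K, k, hb⟩ := h
  exact ⟨|K|, k, abs_nonneg K, fun x => (hb x).trans
    (mul_le_mul_of_nonneg_right (le_abs_self K) (by positivity))⟩

theorem PG.add {F G : E d → ℝ} (hF : PG F) (hG : PG G) : PG fun x => F x + G x := by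
  obtain ⟨K, k, hK, hF'⟩ := hF.exists_nonneg
  obtain ⟨L, l, hL, hG'⟩ := hG.exists_nonneg
  refine ⟨hF.1.add hG.1, K + L, max k l, fun x => (abs_add_le _ _).trans ?_⟩
  have h1 : (1 : ℝ) ≤ 1 + ‖x‖ := by linarith [norm_nonneg x]
  rw [add_mul]
  exact add_le_add
    ((hF' x).trans (mul_le_mul_of_nonneg_left (pow_le_pow_right₀ h1 (le_max_left k l)) hK))
    ((hG' x).trans (mul_le_mul_of_nonneg_left (pow_le_pow_right₀ h1 (le_max_right k l)) hL))

theorem PG.mul {F G : E d → ℝ} (hF : PG F) (hG : PG G) : PG fun x => F x * G x := by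
  obtain ⟨K, k, hK, hF'⟩ := hF.exists_nonneg
  obtain ⟨L, l, hL, hG'⟩ := hG.exists_nonneg
  refine ⟨hF.1.mul hG.1, K * L, k + l, fun x => ?_⟩
  rw [abs_mul, pow_add, mul_mul_mul_comm]
  exact mul_le_mul (hF' x) (hG' x) (abs_nonneg _) (by positivity)

theorem PG.sub {F G : E d → ℝ} (hF : PG F) (hG : PG G) : PG fun x => F x - G x := by
  simpa only [neg_one_mul, ← sub_eq_add_neg] using hF.add ((PG.const (-1)).mul hG)

theorem PG.congr {F G : E d → ℝ} (hF : PG F) (h : ∀ x, G x = F x) : PG G := by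
  rwa [show G = F from funext h]

theorem PG.sum {α : Type*} (s : Finset α) {F : α → E d → ℝ} (hF : ∀ a ∈ s, PG (F a)) :
    PG fun x => ∑ a ∈ s, F a x := by
  induction s using Finset.cons_induction with
  | empty => exact (PG.const 0).congr fun x => by simp
  | cons a s ha ih =>
    exact ((hF a (Finset.mem_cons_self a s)).add
      (ih fun b hb => hF b (Finset.mem_cons_of_mem hb))).congr fun x => Finset.sum_cons ha

/-- The Gaussian mean of a function around a point. -/
noncomputable def gm (σ : ℝ) (Φ : E d → ℝ) (q : E d) : ℝ := ∫ w, Φ (q + σ • w) ∂gau (Fin d)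

theorem ExpG.shift {Φ : E d → ℝ} (h : ExpG Φ) (σ : ℝ) (q : E d) :
    ∃ K b : ℝ, 0 ≤ K ∧ ∀ w, |Φ (q + σ • w)| ≤ K * exp (b * ‖w‖) := by
  obtain ⟨_, K, b, hb⟩ := h
  refine ⟨|K| * exp (|b| * ‖q‖), |b| * |σ|, by positivity, fun w => (hb _).trans ?_⟩
  refine (mul_le_mul_of_nonneg_right (le_abs_self K) (exp_pos _).le).trans ?_
  rw [mul_assoc |K|, ← Real.exp_add]
  refine mul_le_mul_of_nonneg_left (exp_le_exp.2 ?_) (abs_nonneg K)
  have h1 := norm_add_le q (σ • w)
  rw [norm_smul, Real.norm_eq_abs] at h1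
  have h2 := mul_le_mul_of_nonneg_right (le_abs_self b) (norm_nonneg (q + σ • w))
  nlinarith [mul_le_mul_of_nonneg_left h1 (abs_nonneg b)]

theorem ExpG.integrable {Φ : E d → ℝ} (h : ExpG Φ) (σ : ℝ) (q : E d) :
    Integrable (fun w => Φ (q + σ • w)) (gau (Fin d)) := by
  obtain ⟨K, b, _, hb⟩ := h.shift σ q
  have := h.1
  exact integrable_of_growth (by fun_prop) (a := 0) (b := b) (K := K) (by norm_num)
    fun w => by simpa using hb w

theorem ExpG.mul_inner {Φ : E d → ℝ} (h : ExpG Φ) (v : E d) :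
    ExpG fun x => Φ x * ⟪x, v⟫ := by
  obtain ⟨hc, K, b, hb⟩ := h
  refine ⟨hc.mul (by fun_prop), |K| * ‖v‖, b + 1, fun x => ?_⟩
  have h2 : |⟪x, v⟫| ≤ ‖v‖ * exp ‖x‖ := (abs_real_inner_le_norm x v).trans (by
    rw [mul_comm]
    exact mul_le_mul_of_nonneg_left (by linarith [Real.add_one_le_exp ‖x‖]) (norm_nonneg v))
  rw [abs_mul]
  calc |Φ x| * |⟪x, v⟫| ≤ (|K| * exp (b * ‖x‖)) * (‖v‖ * exp ‖x‖) :=
        mul_le_mul ((hb x).trans (mul_le_mul_of_nonneg_right (le_abs_self K) (exp_pos _).le)) h2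
          (abs_nonneg _) (by positivity)
    _ = _ := by rw [add_mul, one_mul, Real.exp_add]; ring

/-- Gaussian means are differentiable in the centre. -/
theorem hasFDerivAt_gm {σ : ℝ} (hσ : σ ≠ 0) {Φ : E d → ℝ} (hΦ : ExpG Φ) (q : E d) :
    HasFDerivAt (gm σ Φ)
      (∫ w, Φ (q + σ • w) • (σ⁻¹ • innerSL ℝ w) ∂gau (Fin d)) q := by
  obtain ⟨K, b, hK, hb⟩ := hΦ.shift σ q
  have hc := hΦ.1
  have e : ∀ y, gm σ Φ y = ∫ w, cmd (σ⁻¹ • (y - q)) w * Φ (q + σ • w) ∂gau (Fin d) := fun y => by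
    have := gau_shift (σ⁻¹ • (y - q)) fun w : E d => Φ (q + σ • w)
    simp only [smul_eq_mul] at this
    rw [← this, gm]
    refine integral_congr_ae (ae_of_all _ fun w => congrArg Φ ?_)
    rw [smul_add, smul_inv_smul₀ hσ]
    abel
  have h := hasFDerivAt_integral_of_dominated_of_fderiv_le (μ := gau (Fin d)) (x₀ := q)
    (F := fun y w => cmd (σ⁻¹ • (y - q)) w * Φ (q + σ • w))
    (F' := fun y w => (cmd (σ⁻¹ • (y - q)) w * Φ (q + σ • w)) •
      (σ⁻¹ • innerSL ℝ (w - σ⁻¹ • (y - q))))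
    (bound := fun w => |σ⁻¹| * (1 + |σ⁻¹|) * K * exp ((1 + |σ⁻¹| + b) * ‖w‖))
    (Metric.ball_mem_nhds q zero_lt_one)
    (.of_forall fun y => by unfold cmd; fun_prop)
    (by simpa [cmd] using hΦ.integrable σ q)
    (Continuous.aestronglyMeasurable (Continuous.smul
      (f := fun w : E d => cmd (σ⁻¹ • (q - q)) w * Φ (q + σ • w))
      (g := fun w : E d => σ⁻¹ • innerSL ℝ (w - σ⁻¹ • (q - q)))
      (by unfold cmd; fun_prop)
      (Continuous.const_smul ((innerSL ℝ).continuous.comp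
        (continuous_id.sub continuous_const)) σ⁻¹)))
    (ae_of_all _ fun w y hy => ?_)
    (((integrable_gau_exp_sq (ι := Fin d) (a := 0) (by norm_num) (1 + |σ⁻¹| + b)).congr
      (ae_of_all _ fun w => by simp)).const_mul _)
    (ae_of_all _ fun w y _ => ?_)
  · rw [show gm σ Φ = _ from funext e]
    refine h.congr_fderiv ?_
    simp [cmd]
  · rw [Metric.mem_ball, dist_eq_norm] at hy
    have hh : ‖σ⁻¹ • (y - q)‖ ≤ |σ⁻¹| := by
      rw [norm_smul, Real.norm_eq_abs]
      exact mul_le_of_le_one_right (abs_nonneg _) hy.le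
    have h1 : cmd (σ⁻¹ • (y - q)) w ≤ exp (|σ⁻¹| * ‖w‖) := exp_le_exp.2 (by
      have := (le_abs_self _).trans (abs_real_inner_le_norm (σ⁻¹ • (y - q)) w)
      nlinarith [mul_le_mul_of_nonneg_right hh (norm_nonneg w),
        sq_nonneg ‖σ⁻¹ • (y - q)‖])
    have h2 : ‖w - σ⁻¹ • (y - q)‖ ≤ (1 + |σ⁻¹|) * exp ‖w‖ :=
      (norm_sub_le _ _).trans (by
        nlinarith [Real.add_one_le_exp ‖w‖, norm_nonneg w, abs_nonneg σ⁻¹,
          Real.one_le_exp (norm_nonneg w)])
    rw [norm_smul, norm_smul, innerSL_apply_norm, Real.norm_eq_abs, Real.norm_eq_abs, abs_mul,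
      abs_of_pos (show 0 < cmd (σ⁻¹ • (y - q)) w from exp_pos _)]
    calc cmd (σ⁻¹ • (y - q)) w * |Φ (q + σ • w)| * (|σ⁻¹| * ‖w - σ⁻¹ • (y - q)‖)
        ≤ exp (|σ⁻¹| * ‖w‖) * (K * exp (b * ‖w‖)) * (|σ⁻¹| * ((1 + |σ⁻¹|) * exp ‖w‖)) := by
          gcongr
          exact hb w
      _ = |σ⁻¹| * (1 + |σ⁻¹|) * K *
            (exp ‖w‖ * exp (|σ⁻¹| * ‖w‖) * exp (b * ‖w‖)) := by ring
      _ = _ := by rw [← Real.exp_add, ← Real.exp_add]; ring_nf
  · have ha : HasFDerivAt (fun z => σ⁻¹ • (z - q))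
        (σ⁻¹ • ContinuousLinearMap.id ℝ (E d)) y :=
      ((hasFDerivAt_id y).sub_const q).const_smul σ⁻¹
    have hk : HasFDerivAt (fun z => cmd (σ⁻¹ • (z - q)) w)
        (cmd (σ⁻¹ • (y - q)) w • (σ⁻¹ • innerSL ℝ (w - σ⁻¹ • (y - q)))) y := by
      refine HasFDerivAt.congr_fderiv ((ha.inner ℝ (hasFDerivAt_const w y)).sub
        (ha.norm_sq.mul_const (1 / 2)) |>.exp.congr_of_eventuallyEq
          (.of_forall fun z => ?_)) ?_
      · simp [cmd, div_eq_mul_inv]
      · ext u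
        simp [cmd, div_eq_mul_inv, real_inner_smul_right, inner_sub_right, norm_smul,
          real_inner_comm w]
        ring_nf
    refine (hk.mul_const (Φ (q + σ • w))).congr_fderiv ?_
    rw [smul_smul, smul_smul, smul_smul]
    ring_nf

theorem fderiv_gm_apply {σ : ℝ} (hσ : σ ≠ 0) {Φ : E d → ℝ} (hΦ : ExpG Φ) (q v : E d) :
    fderiv ℝ (gm σ Φ) q v =
      (σ ^ 2)⁻¹ * (gm σ (fun x => Φ x * ⟪x, v⟫) q - ⟪q, v⟫ * gm σ Φ q) := by
  rw [(hasFDerivAt_gm hσ hΦ q).fderiv, ContinuousLinearMap.integral_apply]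
  · rw [gm, gm, ← integral_const_mul, ← integral_sub ((hΦ.mul_inner v).integrable σ q)
      ((hΦ.integrable σ q).const_mul _), ← integral_const_mul]
    refine integral_congr_ae (ae_of_all _ fun w => ?_)
    simp only [smul_apply, innerSL_apply_apply, smul_eq_mul, inner_add_left, real_inner_smul_left]
    field_simp
    ring
  · obtain ⟨K, b, hK, hb⟩ := hΦ.shift σ q
    have := hΦ.1
    refine integrable_of_growth (Continuous.aestronglyMeasurable (Continuous.smul
      (f := fun w : E d => Φ (q + σ • w)) (g := fun w : E d => σ⁻¹ • innerSL ℝ w) (by fun_prop)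
      ((innerSL ℝ).continuous.const_smul σ⁻¹))) (a := 0) (b := b + 1) (K := K * |σ⁻¹|)
      (by norm_num) fun w => ?_
    rw [norm_smul, norm_smul, innerSL_apply_norm, zero_mul, zero_add, add_mul, one_mul,
      Real.exp_add]
    calc ‖Φ (q + σ • w)‖ * (‖σ⁻¹‖ * ‖w‖) ≤ K * exp (b * ‖w‖) * (|σ⁻¹| * exp ‖w‖) :=
          mul_le_mul (hb w) (mul_le_mul le_rfl (by linarith [Real.add_one_le_exp ‖w‖])
            (norm_nonneg _) (abs_nonneg _)) (by positivity) (by positivity)
      _ = _ := by ring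

theorem contDiff_gm {σ : ℝ} (hσ : σ ≠ 0) (n : ℕ) :
    ∀ {Φ : E d → ℝ}, ExpG Φ → ContDiff ℝ n (gm σ Φ) := by
  induction n with
  | zero =>
    intro Φ hΦ
    rw [Nat.cast_zero, contDiff_zero]
    exact continuous_iff_continuousAt.2 fun q => (hasFDerivAt_gm hσ hΦ q).continuousAt
  | succ n ih =>
    intro Φ hΦ
    rw [Nat.cast_succ, contDiff_succ_iff_fderiv_apply]
    refine ⟨fun q => (hasFDerivAt_gm hσ hΦ q).differentiableAt, by simp, fun v => ?_⟩
    simp only [fderiv_gm_apply hσ hΦ _ v]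
    exact contDiff_const.mul ((ih (hΦ.mul_inner v)).sub
      ((contDiff_id.inner ℝ contDiff_const).mul (ih hΦ)))

/-- The mean under the tilted law around a point. -/
noncomputable def avg (σ : ℝ) (R : E d → ℝ) (F : E d → ℝ) (q : E d) : ℝ :=
  ∫ w, F (q + σ • w) ∂tilt fun w => R (q + σ • w)

/-- The covariance under the tilted law around a point. -/
noncomputable def cov (σ : ℝ) (R : E d → ℝ) (F G : E d → ℝ) (q : E d) : ℝ :=
  avg σ R (fun x => F x * G x) q - avg σ R F q * avg σ R G q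

theorem cov_comm (σ : ℝ) (R F G : E d → ℝ) (q : E d) : cov σ R F G q = cov σ R G F q := by
  simp only [cov, mul_comm]

/-- The standing hypotheses: a potential with bounded gradient, and a level at most one. -/
structure Ctx (d : ℕ) (σ δ r0 Gb : ℝ) (R : E d → ℝ) (g : E d → E d) : Prop where
  pot : Pot d δ r0 R g
  bdd : ∀ y, ‖g y‖ ≤ Gb
  σ_pos : 0 < σ
  σ_le : σ ≤ 1

namespace Ctx

variable {σ δ r0 Gb : ℝ} {R : E d → ℝ} {g : E d → E d} (h : Ctx d σ δ r0 Gb R g)
include h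

theorem Gb_nonneg : 0 ≤ Gb := (norm_nonneg _).trans (h.bdd 0)

theorem abs_R_sub_le (x : E d) : |R x - R 0| ≤ Gb * ‖x‖ := by
  have := convex_univ.norm_image_sub_le_of_norm_fderiv_le (𝕜 := ℝ) (f := R) (C := Gb)
    (fun y _ => (h.pot.hasGrad y).differentiableAt)
    (fun y _ => by rw [h.pot.fderivR y, innerSL_apply_norm]; exact h.bdd y)
    (Set.mem_univ (0 : E d)) (Set.mem_univ x)
  simpa using this

theorem expG {F : E d → ℝ} (hF : PG F) : ExpG fun x => F x * exp (-R x) := by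
  obtain ⟨K, k, hK, hb⟩ := hF.exists_nonneg
  refine ⟨hF.1.mul h.pot.contR.neg.rexp, K * exp (-R 0), k + Gb, fun x => ?_⟩
  rw [abs_mul, abs_of_pos (exp_pos _)]
  have h1 : (1 + ‖x‖) ^ k ≤ exp (k * ‖x‖) := by
    rw [Real.exp_nat_mul]
    exact pow_le_pow_left₀ (by positivity) (by linarith [Real.add_one_le_exp ‖x‖]) k
  have h2 : exp (-R x) ≤ exp (-R 0) * exp (Gb * ‖x‖) := by
    rw [← Real.exp_add]
    exact exp_le_exp.2 (by linarith [(abs_le.1 (h.abs_R_sub_le x)).1])
  calc |F x| * exp (-R x) ≤ K * exp (k * ‖x‖) * (exp (-R 0) * exp (Gb * ‖x‖)) :=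
        mul_le_mul ((hb x).trans (mul_le_mul_of_nonneg_left h1 hK)) h2 (exp_pos _).le
          (by positivity)
    _ = _ := by rw [add_mul, Real.exp_add]; ring

theorem expG_weight : ExpG fun x => exp (-R x) := by
  simpa using h.expG (PG.const 1)

/-- The potential seen from a point at scale `σ`. -/
theorem pot_shift (q : E d) :
    Pot d δ Gb (fun w => R (q + σ • w)) (fun w => σ • g (q + σ • w)) where
  pos := h.pot.pos
  le_eighth := h.pot.le_eighth
  r0_nonneg := h.Gb_nonneg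
  hasGrad w := by
    refine ((h.pot.hasGrad _).comp w (((hasFDerivAt_id w).const_smul σ).const_add q)).congr_fderiv ?_
    ext u
    simp
  smooth := (h.pot.smooth.comp (contDiff_const.add (contDiff_id.const_smul σ))).const_smul σ
  lip x y := by
    rw [← smul_sub, norm_smul, Real.norm_eq_abs, abs_of_pos h.σ_pos]
    calc σ * ‖g (q + σ • x) - g (q + σ • y)‖ ≤ σ * (δ * ‖(q + σ • x) - (q + σ • y)‖) :=
          mul_le_mul_of_nonneg_left (h.pot.lip _ _) h.σ_pos.le
      _ = δ * (σ * σ * ‖x - y‖) := by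
          rw [add_sub_add_left_eq_sub, ← smul_sub, norm_smul, Real.norm_eq_abs,
            abs_of_pos h.σ_pos]
          ring
      _ ≤ δ * (1 * ‖x - y‖) := mul_le_mul_of_nonneg_left
          (mul_le_mul_of_nonneg_right (mul_le_one₀ h.σ_le h.σ_pos.le h.σ_le) (norm_nonneg _))
          h.pot.pos.le
      _ = _ := by rw [one_mul]
  at_zero := by
    rw [norm_smul, Real.norm_eq_abs, abs_of_pos h.σ_pos]
    exact (mul_le_of_le_one_left (norm_nonneg _) h.σ_le).trans (h.bdd _)

theorem isProb (q : E d) : IsProbabilityMeasure (tilt fun w => R (q + σ • w)) :=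
  (h.pot_shift q).isProb

theorem integrable {F : E d → ℝ} (hF : PG F) (q : E d) :
    Integrable (fun w => F (q + σ • w)) (tilt fun w => R (q + σ • w)) := by
  rw [tilt, integrable_tilted_iff (h.pot_shift q).integrable_exp]
  exact ((h.expG hF).integrable σ q).congr (ae_of_all _ fun w => by simp [mul_comm])

theorem gm_pos (q : E d) : 0 < gm σ (fun x => exp (-R x)) q := (h.pot_shift q).mass_pos

theorem avg_eq (F : E d → ℝ) (q : E d) :
    avg σ R F q = gm σ (fun x => F x * exp (-R x)) q / gm σ (fun x => exp (-R x)) q := by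
  rw [avg, (h.pot_shift q).integral_tilt, smul_eq_mul, ← div_eq_inv_mul]
  simp only [gm, smul_eq_mul, mul_comm]

theorem avg_const (c : ℝ) (q : E d) : avg σ R (fun _ => c) q = c := by
  have := h.isProb q
  simp [avg]

theorem avg_add {F G : E d → ℝ} (hF : PG F) (hG : PG G) (q : E d) :
    avg σ R (fun x => F x + G x) q = avg σ R F q + avg σ R G q :=
  integral_add (h.integrable hF q) (h.integrable hG q)

theorem avg_sub {F G : E d → ℝ} (hF : PG F) (hG : PG G) (q : E d) :
    avg σ R (fun x => F x - G x) q = avg σ R F q - avg σ R G q :=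
  integral_sub (h.integrable hF q) (h.integrable hG q)

omit h in
theorem avg_const_mul (c : ℝ) (F : E d → ℝ) (q : E d) :
    avg σ R (fun x => c * F x) q = c * avg σ R F q :=
  integral_const_mul c _

theorem avg_sum {α : Type*} (s : Finset α) {F : α → E d → ℝ} (hF : ∀ a ∈ s, PG (F a)) (q : E d) :
    avg σ R (fun x => ∑ a ∈ s, F a x) q = ∑ a ∈ s, avg σ R (F a) q :=
  integral_finsetSum s fun a ha => h.integrable (hF a ha) q

theorem contDiff_avg {F : E d → ℝ} (hF : PG F) (n : ℕ) : ContDiff ℝ n (avg σ R F) := by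
  rw [show avg σ R F = _ from funext (h.avg_eq F)]
  exact (contDiff_gm h.σ_pos.ne' n (h.expG hF)).div (contDiff_gm h.σ_pos.ne' n h.expG_weight)
    fun q => (h.gm_pos q).ne'

theorem differentiable_avg {F : E d → ℝ} (hF : PG F) : Differentiable ℝ (avg σ R F) :=
  (h.contDiff_avg hF 1).differentiable one_ne_zero

/-- The derivative of a mean is the covariance with the variable. -/
theorem fderiv_avg {F : E d → ℝ} (hF : PG F) (q v : E d) :
    fderiv ℝ (avg σ R F) q v = (σ ^ 2)⁻¹ * cov σ R F (fun x => ⟪x, v⟫) q := by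
  have hσ := h.σ_pos.ne'
  set A := fderiv ℝ (gm σ fun x => F x * exp (-R x)) q
  set B := fderiv ℝ (gm σ fun x => exp (-R x)) q
  have hA : HasFDerivAt (gm σ fun x => F x * exp (-R x)) A q :=
    ((hasFDerivAt_gm hσ (h.expG hF) q).differentiableAt).hasFDerivAt
  have hB : HasFDerivAt (gm σ fun x => exp (-R x)) B q :=
    ((hasFDerivAt_gm hσ h.expG_weight q).differentiableAt).hasFDerivAt
  have hd := hA.fun_mul ((hasDerivAt_inv (h.gm_pos q).ne').comp_hasFDerivAt q hB)
  rw [show avg σ R F = fun y => gm σ (fun x => F x * exp (-R x)) y *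
    (Inv.inv ∘ gm σ fun x => exp (-R x)) y from
    funext fun y => (h.avg_eq F y).trans (div_eq_mul_inv _ _), hd.fderiv]
  simp only [Function.comp_apply, add_apply, smul_apply, smul_eq_mul, A, B,
    fderiv_gm_apply hσ (h.expG hF), fderiv_gm_apply hσ h.expG_weight, cov, h.avg_eq]
  have e1 : (fun x => F x * exp (-R x) * ⟪x, v⟫) = fun x => F x * ⟪x, v⟫ * exp (-R x) :=
    funext fun x => by ring
  have e2 : (fun x => exp (-R x) * ⟪x, v⟫) = fun x => ⟪x, v⟫ * exp (-R x) :=
    funext fun x => by ring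
  rw [e1, e2]
  have hB0 := (h.gm_pos q).ne'
  field_simp
  ring

end Ctx

end Vale.Agent.P347.Appell
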