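import Vale.Agent.P347Zero.TiltSemantic
import Vale.Agent.P347Zero.PhiSem
import Vale.Agent.P347Zero.PhiWords
import Vale.Agent.P347Zero.Coef

/-!
P347 (exponent zero, M10): the programs of the map of a tilt against the semantic Picard step.
-/

open MeasureTheory ProbabilityTheory Real Filter
open scoped RealInnerProductSpace

set_option maxSynthPendingDepth 3

namespace Vale.Agent.P347

open Quad

noncomputable section

variable {d : ℕ} {h : ℕ → E d → E d} {δ : ℕ → ℝ} {r Gb Cb : ℝ} {N : ℕ} {env : Env d}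

lemma ou_combo {J : Type*} [Fintype J] {f : J → E d → E d} (hf : ∀ k, PG (f k)) (c : J → ℝ)
    (a : ℝ) (x : E d) :
    ou a (fun z => ∑ k, c k • f k z) x = ∑ k, c k • ou a (f k) x := by
  have hi : ∀ k, Integrable (fun g => f k (a • x + √(1 - a ^ 2) • g)) (gau (Fin d)) := fun k => by
    obtain ⟨hc, K, n, hK, h⟩ := hf k
    exact integrable_slice2 hc hK h _ _ x
  show ∫ g, ∑ k, c k • f k (a • x + √(1 - a ^ 2) • g) ∂gau (Fin d) = _
  rw [integral_finsetSum _ fun k _ => (hi k).fun_smul (c k)]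
  exact Finset.sum_congr rfl fun k _ => integral_smul _ _

/-- The word of a tilt is the matrix of the engine. -/
theorem clm_sumTT_eq (hh : ∀ ℓ, Fld d (δ ℓ) r Gb Cb N (h ℓ)) (Φ : Prog) (q : ℕ) :
    (fun y => (sumTT Φ q).clm hh (push y env)) = tiltN (fnT h env Φ) q := by
  funext y
  rw [clm_sumTT env hh, tiltN, blockD, inv_one, one_smul, ContinuousLinearMap.comp_id]

theorem pg_fnT (hh : ∀ ℓ, Fld d (δ ℓ) r Gb Cb N (h ℓ)) (S : Prog) : PG (fnT h env S) :=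
  PG.of_tame (tame_fnT env hh S)

/-- One program step against one semantic step. -/
theorem sdist_iterT_le (hh : ∀ ℓ, Fld d (δ ℓ) r Gb Cb N (h ℓ)) (conv : LProg → Prog) (P : Prog)
    {n : ℕ} {ρ w : Fin n → ℝ} {ρ0 ρ1 R Gp u e : ℝ} (hr : PicardRule R ρ0 ρ1 ρ w) (q j : ℕ)
    (hpb : ∀ x, ‖fnT h env P x‖ ≤ Gp)
    (hu : ∀ x, ‖fderiv ℝ (fnT h env (iterT conv P ρ w ρ0 ρ1 q j)) x‖ ≤ u) (hu1 : u ≤ 1)
    (he0 : 0 ≤ e)
    (he : ∀ env' : Env d, ∫ v, ‖(conv (sumTT (iterT conv P ρ w ρ0 ρ1 q j) q)).sem h (push v env')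
      - (sumTT (iterT conv P ρ w ρ0 ρ1 q j) q).app h env' v‖ ^ 2 ∂gau (Fin d) ≤ e ^ 2) :
    sdist (fnT h env (iterT conv P ρ w ρ0 ρ1 q (j + 1)))
      (ruleSum w ρ ρ1 (tiltF (fnT h env P) (fnT h env (iterT conv P ρ w ρ0 ρ1 q j)) q ρ0)) ≤
      (1 + (√(1 - ρ1 ^ 2))⁻¹) * (R * e) := by
  set Φp := iterT conv P ρ w ρ0 ρ1 q j with hΦp
  set Φ := fnT h env Φp with hΦ
  set p := fnT h env P with hp
  set I := ContinuousLinearMap.id ℝ (E d)
  set Pc := conv (sumTT Φp q)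
  have hΦt : Tame Φ := tame_fnT env hh Φp
  have hpc : Continuous p := (tame_fnT env hh P).continuous
  set pX := fun y => p (y + Φ y) with hpX
  have hpXg : PG pX := ⟨hpc.comp (continuous_id.add hΦt.continuous), Gp, 0,
    (norm_nonneg _).trans (hpb 0), PolyLe.of_bound fun y => hpb _⟩
  have hN : PG (tiltN Φ q) := pg_tiltN hΦt hu hu1 q
  have hF : PG (tiltF p Φ q ρ0) := pg_tiltF hpc hpb hΦt hu hu1 q ρ0
  have hk : ∀ k, (ρ0 * ρ k) ^ 2 < 1 := fun k => by
    have h1 := mul_lt_one_of_nonneg_of_lt_one_left hr.node₀.1 hr.node₀.2 (hr.node k).2.le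
    exact pow_lt_one₀ (mul_nonneg hr.node₀.1 (hr.node k).1) h1 two_ne_zero
  have hρ1 : ρ1 ^ 2 < 1 := pow_lt_one₀ hr.node₁.1 hr.node₁.2 two_ne_zero
  have hn1 : ∀ k, ρ k ^ 2 ≤ 1 := fun k => pow_le_one₀ (hr.node k).1 (hr.node k).2.le
  -- the two inner maps
  set D := fun k z => fnT h env (psiT (ρ0 * ρ k) Pc) z - psi I (ρ0 * ρ k) (tiltN Φ q) z with hD
  have hDk : ∀ k, PG (D k) := fun k => (pg_fnT hh _).subPG (pg_psi hN _)
  set inner := fun z => ∑ k, (w k * ρ k) • D k z with hinner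
  have hin : PG inner := PG.sum _ fun k _ => (hDk k).smul _
  have hS : ∀ x, ruleSum w ρ ρ1 (tiltF p Φ q ρ0) x =
      ou ρ1 (fun z => ∑ k, w k • ou (ρ k) (tiltF p Φ q ρ0) z) x := fun x => by
    rw [ou_combo (fun k => pg_ou hF (ρ k)), ruleSum]
    exact Finset.sum_congr rfl fun k _ => by rw [ou_ou hF hρ1.le (hn1 k)]
  have hin1 : PG fun z => ∑ k, ((-w k) • ou (ρ k) pX z +
      (w k * ρ k) • fnT h env (psiT (ρ0 * ρ k) Pc) z) :=
    PG.sum _ fun k _ => ((pg_ou hpXg _).smul _).add ((pg_fnT hh _).smul _)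
  have hin2 : PG fun z => ∑ k, w k • ou (ρ k) (tiltF p Φ q ρ0) z :=
    PG.sum _ fun k _ => (pg_ou hF _).smul _
  have hnext : fnT h env (iterT conv P ρ w ρ0 ρ1 q (j + 1)) =
      ou ρ1 (fun z => ∑ k, ((-w k) • ou (ρ k) pX z +
        (w k * ρ k) • fnT h env (psiT (ρ0 * ρ k) Pc) z)) := fnT_iterT_succ env h conv P ρ w ρ0 ρ1 q j
  have hdiff : (fun x => fnT h env (iterT conv P ρ w ρ0 ρ1 q (j + 1)) x -
      ruleSum w ρ ρ1 (tiltF p Φ q ρ0) x) = ou ρ1 inner := by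
    funext x
    rw [hnext, hS, ← ou_sub_pgE hin1 hin2]
    congr 1
    funext z
    rw [hinner, ← Finset.sum_sub_distrib]
    refine Finset.sum_congr rfl fun k _ => ?_
    have hneg : PG fun y => -pX y := by simpa using hpXg.smul (-1)
    have e1 : ou (ρ k) (tiltF p Φ q ρ0) z
        = -ou (ρ k) pX z + ρ k • psi I (ρ0 * ρ k) (tiltN Φ q) z := by
      show ou (ρ k) (fun y => -pX y + psi I ρ0 (tiltN Φ q) y) z = _
      rw [ou_add_pg hneg (pg_psi hN ρ0),
        ou_psi hN (hn1 k) (pow_lt_one₀ hr.node₀.1 hr.node₀.2 two_ne_zero), mul_comm (ρ k) ρ0]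
      congr 1
      show ∫ g, -pX _ ∂gau (Fin d) = _
      rw [integral_neg]
      rfl
    rw [e1, hD]
    module
  -- the size of the inner map
  have hl2 : l2 inner ≤ R * e := by
    refine (l2_sum _ fun k _ => (hDk k).smul _).trans ?_
    calc ∑ k, l2 (fun z => (w k * ρ k) • D k z)
        ≤ ∑ k, w k * ρ k / cpl (ρ0 * ρ k) * e := by
          refine Finset.sum_le_sum fun k _ => ?_
          rw [l2_smul, abs_of_nonneg (mul_nonneg (hr.weight k) (hr.node k).1), div_mul_eq_mul_div,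
            mul_div_assoc]
          refine mul_le_mul_of_nonneg_left (l2_le (div_nonneg he0 (Real.sqrt_nonneg _)) ?_)
            (mul_nonneg (hr.weight k) (hr.node k).1)
          have h1 := l2_psiT_sub_le env hh (hk k) Pc (sumTT Φp q) he
          rw [clm_sumTT_eq hh] at h1
          exact h1
      _ ≤ R * e := by rw [← Finset.sum_mul]; exact mul_le_mul_of_nonneg_right hr.kernel he0
  have hb0 : l2 (ou ρ1 inner) ≤ R * e := (l2_ou_le hρ1.le hin).trans hl2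
  have hcoef : |ρ1| / √(1 - ρ1 ^ 2) ≤ (√(1 - ρ1 ^ 2))⁻¹ := by
    rw [div_eq_mul_inv, abs_of_nonneg hr.node₁.1]
    exact mul_le_of_le_one_left (inv_nonneg.2 (Real.sqrt_nonneg _)) hr.node₁.2.le
  have hb1 : l2 (fun x => hentry (fderiv ℝ (ou ρ1 inner) x)) ≤ (√(1 - ρ1 ^ 2))⁻¹ * (R * e) :=
    (l2_fderiv_ou_le hρ1 hin).trans (mul_le_mul hcoef hl2 (l2_nonneg _)
      (inv_nonneg.2 (Real.sqrt_nonneg _)))
  have hNt := tame_fnT env hh (iterT conv P ρ w ρ0 ρ1 q (j + 1))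
  have hSt : Tame (ruleSum w ρ ρ1 (tiltF p Φ q ρ0)) :=
    Tame.sum Finset.univ fun k _ => (tame_ou_pg hF (pow_lt_one₀ (mul_nonneg hr.node₁.1 (hr.node k).1)
      (mul_lt_one_of_nonneg_of_lt_one_left hr.node₁.1 hr.node₁.2 (hr.node k).2.le)
      two_ne_zero)).smul_const _
  have hdd : (fun x => hentry (fderiv ℝ (fnT h env (iterT conv P ρ w ρ0 ρ1 q (j + 1))) x -
      fderiv ℝ (ruleSum w ρ ρ1 (tiltF p Φ q ρ0)) x)) =
      fun x => hentry (fderiv ℝ (ou ρ1 inner) x) := by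
    funext x
    rw [← hdiff, fderiv_fun_sub (hNt.differentiable x) (hSt.differentiable x)]
  rw [sdist, hdiff, hdd]
  exact (add_le_add hb0 hb1).trans_eq (by ring)

/-- A program moves at most by its Lipschitz bound in its Gaussian variable. -/
theorem norm_fderiv_fnT_le (hh : ∀ ℓ, Fld d (δ ℓ) r Gb Cb N (h ℓ)) (S : Prog) (x : E d) :
    ‖fderiv ℝ (fnT h env S) x‖ ≤ S.lip δ (pushR 1 0) := by
  refine norm_fderiv_le_of_lip' ℝ (S.lip_nonneg (Prog.delta_nonneg_of_fld hh)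
    (pushR_nonneg zero_le_one fun _ => le_rfl)) (Eventually.of_forall fun y => ?_)
  rw [mul_comm]
  exact Prog.norm_sem_push_sub_le hh S env y x

/-- The matrix of the engine is Lipschitz in the Hilbert–Schmidt norm. -/
theorem hn_tiltN_lip (hh : ∀ ℓ, Fld d (δ ℓ) r Gb Cb N (h ℓ)) (Φ : Prog) (q : ℕ) {r' X T : ℝ}
    (hT : 0 < T) (hX : 0 ≤ X) (hw : (sumTT Φ q).WF δ r' X T)
    (hs : (sumTT Φ q).SensLe δ X (pushR 1 0)) (x y : E d) :
    hn (tiltN (fnT h env Φ) q x - tiltN (fnT h env Φ) q y) ≤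
      √(d : ℝ) * ((sumTT Φ q).norm' δ * (sumTT Φ q).depth * √T * X * ‖x - y‖) := by
  rw [← clm_sumTT_eq hh]
  refine (hn_le_op _).trans ?_
  rw [Fintype.card_fin]
  refine mul_le_mul_of_nonneg_left (ContinuousLinearMap.opNorm_le_bound _ ?_ fun a => ?_)
    (Real.sqrt_nonneg _)
  · have := LProg.norm'_nonneg (Prog.delta_nonneg_of_fld hh) (sumTT Φ q)
    positivity
  · refine ((sumTT Φ q).norm_app_sub_le hh hT (mul_nonneg (norm_nonneg (x - y)) hX) hw _
      (hs.smul (norm_nonneg (x - y))) (push x env) (push y env) (fun i => ?_) a).trans_eq (by ring)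
    rcases i with _ | i <;> simp [push, pushR]

end

end Vale.Agent.P347
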