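import Vale.Agent.P347Zero.TiltEngine
import Vale.Agent.P347Zero.Coef

/-!
P347 (exponent zero, M10): the Picard map of a tilt contracts in quadratic mean together with the
Hilbert-Schmidt length of the derivative, and so iterates with small conversion errors are almost
fixed points.
-/

open MeasureTheory ProbabilityTheory Real
open scoped RealInnerProductSpace

set_option maxSynthPendingDepth 3

namespace Vale.Agent.P347

open Quad

noncomputable section

variable {d : ℕ} {Φ Φ' Φ'' : E d → E d} {u : ℝ}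

/-- The distance of two maps in quadratic mean, with that of their derivatives. -/
def sdist (Φ Φ' : E d → E d) : ℝ :=
  l2 (fun x => Φ x - Φ' x) + l2 fun x => hentry (fderiv ℝ Φ x - fderiv ℝ Φ' x)

lemma sdist_nonneg (Φ Φ' : E d → E d) : 0 ≤ sdist Φ Φ' := add_nonneg (l2_nonneg _) (l2_nonneg _)

lemma l2_comm {ι F : Type*} [Fintype ι] [NormedAddCommGroup F] [NormedSpace ℝ F]
    (f g : EuclideanSpace ℝ ι → F) : l2 (fun x => f x - g x) = l2 fun x => g x - f x := by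
  simp only [l2, norm_sub_rev]

lemma sdist_comm (Φ Φ' : E d → E d) : sdist Φ Φ' = sdist Φ' Φ := by
  simp only [sdist, map_sub]
  rw [l2_comm, l2_comm (fun x => hentry (fderiv ℝ Φ x))]

lemma PG.subPG {ι F : Type*} [Fintype ι] [NormedAddCommGroup F] [NormedSpace ℝ F]
    {f g : EuclideanSpace ℝ ι → F} (hf : PG f) (hg : PG g) : PG fun x => f x - g x := by
  simpa [sub_eq_add_neg] using hf.add (hg.smul (-1))

lemma Tame.pg_fderiv (hΦ : Tame Φ) : PG fun x => fderiv ℝ Φ x := by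
  obtain ⟨hc, K, n, hK, -, h⟩ := hΦ
  exact ⟨hc.continuous_fderiv one_ne_zero, K, n, hK, h⟩

lemma sdist_triangle (hΦ : Tame Φ) (hΦ' : Tame Φ') (hΦ'' : Tame Φ'') :
    sdist Φ Φ'' ≤ sdist Φ Φ' + sdist Φ' Φ'' := by
  have h1 := l2_add ((PG.of_tame hΦ).subPG (PG.of_tame hΦ')) ((PG.of_tame hΦ').subPG (PG.of_tame hΦ''))
  have h2 := l2_add ((hΦ.pg_fderiv.subPG hΦ'.pg_fderiv).clm hentry)
    ((hΦ'.pg_fderiv.subPG hΦ''.pg_fderiv).clm hentry)
  simp only [sdist, map_sub] at h2 ⊢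
  simp only [sub_add_sub_cancel] at h1 h2
  linarith

/-- The matrix of a tilt moves little with the derivative. -/
theorem hn_tiltN_sub_le (hu : ∀ w, ‖fderiv ℝ Φ w‖ ≤ u) (hu' : ∀ w, ‖fderiv ℝ Φ' w‖ ≤ u)
    (hu1 : u ≤ 1) (q : ℕ) (w : E d) :
    hn (tiltN Φ q w - tiltN Φ' q w) ≤
      ((q : ℝ) + 1) ^ 2 * u * hn (fderiv ℝ Φ w - fderiv ℝ Φ' w) := by
  have hu0 : 0 ≤ u := (norm_nonneg _).trans (hu w)
  set D := fderiv ℝ Φ w with hD
  set D' := fderiv ℝ Φ' w with hD'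
  set e := hn (D - D') with he
  have he0 : 0 ≤ e := hn_nonneg _
  have hA : ‖D.adjoint‖ ≤ u := by rw [LinearIsometryEquiv.norm_map]; exact hu w
  have hA' : ‖D'.adjoint‖ ≤ u := by rw [LinearIsometryEquiv.norm_map]; exact hu' w
  have hM : hn (D.comp D.adjoint - D'.comp D'.adjoint) ≤ 2 * u * e := by
    refine (hn_comp_sub_le _ _ _ _).trans ?_
    rw [← map_sub, hn_adjoint]
    calc e * ‖D.adjoint‖ + ‖D'‖ * e ≤ e * u + u * e := by
          gcongr; exact hu' w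
      _ = _ := by ring
  have hterm : ∀ i < q, hn (D.comp D.adjoint * (-D.adjoint) ^ i
      - D'.comp D'.adjoint * (-D'.adjoint) ^ i) ≤ ((i : ℝ) + 2) * u * e := by
    intro i _
    rw [ContinuousLinearMap.mul_def, ContinuousLinearMap.mul_def]
    refine (hn_comp_sub_le _ _ _ _).trans ?_
    have hp : ‖(-D.adjoint) ^ i‖ ≤ 1 := by
      rcases Nat.eq_zero_or_pos i with rfl | hi
      · rw [pow_zero]; exact ContinuousLinearMap.norm_id_le
      · exact (norm_pow_le' _ hi).trans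
          (pow_le_one₀ (norm_nonneg _) (by rw [norm_neg]; exact hA.trans hu1))
    have hq : hn ((-D.adjoint) ^ i - (-D'.adjoint) ^ i) ≤ i * e := by
      refine (hn_pow_sub_le (u := 1) (by rw [norm_neg]; exact hA.trans hu1)
        (by rw [norm_neg]; exact hA'.trans hu1) i).trans_eq ?_
      rw [one_pow, mul_one, neg_sub_neg, ← map_sub, hn_adjoint, he]
      congr 1
      simp only [hn, map_sub]
      exact norm_sub_rev _ _
    have hM' : ‖D'.comp D'.adjoint‖ ≤ u :=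
      (D'.opNorm_comp_le _).trans ((mul_le_mul (hu' w) (hA'.trans hu1) (norm_nonneg _) hu0).trans_eq
        (mul_one u))
    calc hn (D.comp D.adjoint - D'.comp D'.adjoint) * ‖(-D.adjoint) ^ i‖
          + ‖D'.comp D'.adjoint‖ * hn ((-D.adjoint) ^ i - (-D'.adjoint) ^ i)
        ≤ 2 * u * e * 1 + u * (i * e) :=
          add_le_add (mul_le_mul hM hp (norm_nonneg _) (by positivity))
            (mul_le_mul hM' hq (hn_nonneg _) hu0)
      _ = _ := by ring
  rw [tiltN, tiltN, series, series, ← hD, ← hD', Finset.mul_sum, Finset.mul_sum,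
    ← Finset.sum_sub_distrib]
  refine (hn_sum_le _ _).trans ((Finset.sum_le_sum fun i hi =>
    (hterm i (Finset.mem_range.1 hi)).trans (show ((i : ℝ) + 2) * u * e ≤ ((q : ℝ) + 1) * u * e from
      mul_le_mul_of_nonneg_right (mul_le_mul_of_nonneg_right
        (by have : (i : ℝ) + 1 ≤ q := by exact_mod_cast Finset.mem_range.1 hi
            linarith) hu0) he0)).trans ?_)
  rw [Finset.sum_const, Finset.card_range, nsmul_eq_mul]
  nlinarith [mul_nonneg (mul_nonneg hu0 he0) (Nat.cast_nonneg q (α := ℝ)), mul_nonneg hu0 he0]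

/-- The linearity of the operators on maps of polynomial growth. -/
lemma ou_sub_pgE {F G : E d → E d} (hF : PG F) (hG : PG G) (a : ℝ) (x : E d) :
    ou a (fun y => F y - G y) x = ou a F x - ou a G x := by
  obtain ⟨hc, K, n, hK, h⟩ := hF
  obtain ⟨hc', K', n', hK', h'⟩ := hG
  simp only [ou]
  exact integral_sub (integrable_slice2 hc hK h _ _ x) (integrable_slice2 hc' hK' h' _ _ x)

lemma ou_add_pg {F G : E d → E d} (hF : PG F) (hG : PG G) (a : ℝ) (x : E d) :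
    ou a (fun y => F y + G y) x = ou a F x + ou a G x := by
  obtain ⟨hc, K, n, hK, h⟩ := hF
  obtain ⟨hc', K', n', hK', h'⟩ := hG
  simp only [ou]
  exact integral_add (integrable_slice2 hc hK h _ _ x) (integrable_slice2 hc' hK' h' _ _ x)

/-- Bounds on a rule, enough for the contraction. -/
structure RuleBds {n : ℕ} (w r : Fin n → ℝ) (ρ0 ρ1 R : ℝ) : Prop where
  w_nonneg : ∀ k, 0 ≤ w k
  node : ∀ k, ρ1 * r k ∈ Set.Ico (0 : ℝ) 1
  total : ∑ k, w k ≤ R
  value : ∑ k, w k * (ρ1 * r k / √(1 - (ρ1 * r k * ρ0) ^ 2)) ≤ R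
  gain : ∑ k, w k * (ρ1 * r k / √(1 - (ρ1 * r k) ^ 2)) ≤ R
  log : ∑ k, w k * (ρ1 * r k / (1 - ρ1 * r k * ρ0)) ≤ R

/-- The bounds of a rule. -/
theorem ruleBds_of_rule {n : ℕ} {ε : ℝ} (Rl : Rule n ε) (U : ℝ) {ρ0 ρ1 R : ℝ}
    (h0 : ρ0 ∈ Set.Ico (1 / 2 : ℝ) 1) (h1 : ρ1 ∈ Set.Ioo (0 : ℝ) 1)
    (hR : 4 + 2 * ε / (1 - ρ1) ≤ R) (hR' : 1 + Real.log (1 / (1 - ρ0)) + ε / (1 - ρ0) ≤ R) :
    RuleBds (fun k => Rl.weight k U) (fun k => Rl.node k U) ρ0 ρ1 R := by
  have hε := Rl.eps_nonneg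
  have hr := fun k => Rl.node_unit k U
  have h00 : 0 ≤ ρ0 := by linarith [h0.1]
  have hd1 : 0 < 1 - ρ1 := by linarith [h1.2]
  have he1 : ε ≤ ε / (1 - ρ1) := by
    rw [le_div_iff₀ hd1]; exact mul_le_of_le_one_right hε (by linarith [h1.1])
  refine ⟨fun k => Rl.weight_nonneg k U, fun k => ⟨mul_nonneg h1.1.le (hr k).1,
    lt_of_le_of_lt (mul_le_of_le_one_left (hr k).1 h1.2.le) (hr k).2⟩, ?_, ?_, ?_, ?_⟩
  · have := Rl.moment_le U 0
    simp only [pow_zero, mul_one, Nat.cast_zero, zero_add, div_one] at this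
    rw [mul_div_assoc] at hR
    linarith
  · have h := rule_sum_le Rl (mul_nonneg h00 h1.1.le)
      (lt_of_le_of_lt (mul_le_of_le_one_left h1.1.le h0.2.le) h1.2) U
    have hle : ε / (1 - ρ0 * ρ1) ≤ ε / (1 - ρ1) :=
      div_le_div_of_nonneg_left hε hd1 (by nlinarith [h0.2, h1.1])
    refine le_trans (le_of_eq ?_) ((mul_le_mul_of_nonneg_left h (by positivity : 0 ≤ ρ0⁻¹)).trans ?_)
    · rw [Finset.mul_sum]
      refine Finset.sum_congr rfl fun k _ => ?_
      rw [show ρ1 * Rl.node k U * ρ0 = ρ0 * ρ1 * Rl.node k U by ring,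
        show Rl.weight k U * (ρ0 * ρ1 * Rl.node k U) = ρ0 * (Rl.weight k U * (ρ1 * Rl.node k U)) by ring,
        mul_div_assoc ρ0, ← mul_assoc ρ0⁻¹, inv_mul_cancel₀ (show ρ0 ≠ 0 by linarith [h0.1]),
        one_mul]
      ring
    · have h2 : ρ0⁻¹ ≤ 2 := by
        rw [inv_le_iff_one_le_mul₀ (by linarith [h0.1])]; linarith [h0.1]
      refine (mul_le_mul h2 (add_le_add le_rfl hle) (add_nonneg zero_le_two (div_nonneg hε (by nlinarith [h0.2, h1.1, h1.2]))) zero_le_two).trans ?_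
      rw [mul_div_assoc] at hR
      linarith
  · have h := rule_sum_le Rl h1.1.le h1.2 U
    simp only [← mul_div_assoc] at h ⊢
    rw [mul_div_assoc] at hR
    refine h.trans ?_
    linarith [div_nonneg hε hd1.le]
  · refine le_trans (Finset.sum_le_sum fun k _ => ?_) ((rule_sum_geom_le Rl h00 h0.2 U).trans hR')
    refine mul_le_mul_of_nonneg_left ?_ (Rl.weight_nonneg k U)
    have ha : ρ1 * Rl.node k U ≤ Rl.node k U := mul_le_of_le_one_left (hr k).1 h1.2.le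
    have hb : 0 < 1 - Rl.node k U * ρ0 := by nlinarith [(hr k).1, (hr k).2, h0.2]
    exact div_le_div₀ (hr k).1 ha hb (by nlinarith)

variable {n : ℕ} {w r : Fin n → ℝ} {ρ0 ρ1 R : ℝ}

lemma tame_ruleSum (hb : RuleBds w r ρ0 ρ1 R) {F : E d → E d} (hF : PG F) :
    Tame (ruleSum w r ρ1 F) :=
  Tame.sum Finset.univ fun k _ =>
    (tame_ou_pg hF (pow_lt_one₀ (hb.node k).1 (hb.node k).2 two_ne_zero)).smul_const _

/-- The step in one difference. -/
theorem sdist_ruleSum_le (hb : RuleBds w r ρ0 ρ1 R) (h0 : ρ0 ∈ Set.Ioo (0 : ℝ) 1)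
    {F F' G : E d → E d} {M : E d → E d →L[ℝ] E d} (hF : PG F) (hF' : PG F') (hG : PG G)
    (hM : PG M) (e : ∀ x, F x - F' x = G x + psi (ContinuousLinearMap.id ℝ (E d)) ρ0 M x) :
    sdist (ruleSum w r ρ1 F) (ruleSum w r ρ1 F') ≤
      2 * R * (l2 G + l2 fun x => hentry (M x)) := by
  set I := ContinuousLinearMap.id ℝ (E d)
  obtain ⟨hd, hv, hg⟩ := picard_le (P := I) ContinuousLinearMap.norm_id_le hb.w_nonneg hb.node h0
    hG hM (1 : ℝ)
  have e1 : (fun x => ruleSum w r ρ1 F x - ruleSum w r ρ1 F' x) =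
      fun x => ∑ k, w k • (ou (ρ1 * r k) G x + (1 : ℝ) • ou (ρ1 * r k) (psi I ρ0 M) x) := by
    funext x
    simp only [ruleSum, ← Finset.sum_sub_distrib, ← smul_sub, ← ou_sub_pgE hF hF', e, one_smul,
      ou_add_pg hG (pg_psi hM ρ0)]
  have e2 : ∀ x, fderiv ℝ (ruleSum w r ρ1 F) x - fderiv ℝ (ruleSum w r ρ1 F') x =
      fderiv ℝ (fun x => ∑ k, w k • (ou (ρ1 * r k) G x + (1 : ℝ) • ou (ρ1 * r k) (psi I ρ0 M) x))
        x := fun x => by
    rw [← e1]
    exact (fderiv_fun_sub ((tame_ruleSum hb hF).differentiable x)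
      ((tame_ruleSum hb hF').differentiable x)).symm
  have hG0 := l2_nonneg G
  have hM0 := l2_nonneg fun x => hentry (M x)
  simp only [abs_one, one_mul] at hv hg
  simp only [sdist, e2]
  rw [e1]
  refine (add_le_add hv hg).trans ?_
  have := hb.total
  have := hb.value
  have := hb.gain
  have := hb.log
  calc _ ≤ R * l2 G + R * (l2 fun x => hentry (M x)) + (R * l2 G + R * l2 fun x => hentry (M x)) := by
        gcongr
    _ = _ := by ring

/-- The contraction. -/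
theorem sdist_step_le (hb : RuleBds w r ρ0 ρ1 R) (h0 : ρ0 ∈ Set.Ioo (0 : ℝ) 1)
    {p : E d → E d} (hp : Continuous p) {Gp ℓ : ℝ} (hpb : ∀ x, ‖p x‖ ≤ Gp) (hl0 : 0 ≤ ℓ)
    (hpl : ∀ x y, ‖p x - p y‖ ≤ ℓ * ‖x - y‖) (hΦ : Tame Φ) (hΦ' : Tame Φ')
    (hu : ∀ w, ‖fderiv ℝ Φ w‖ ≤ u) (hu' : ∀ w, ‖fderiv ℝ Φ' w‖ ≤ u) (hu1 : u ≤ 1) (q : ℕ) :
    sdist (ruleSum w r ρ1 (tiltF p Φ q ρ0)) (ruleSum w r ρ1 (tiltF p Φ' q ρ0)) ≤
      2 * R * (ℓ + ((q : ℝ) + 1) ^ 2 * u) * sdist Φ Φ' := by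
  have hu0 : 0 ≤ u := (norm_nonneg _).trans (hu 0)
  have hR : 0 ≤ R := (Finset.sum_nonneg fun k _ => hb.w_nonneg k).trans hb.total
  have hGp : 0 ≤ Gp := (norm_nonneg _).trans (hpb 0)
  have hpX : ∀ {Φ : E d → E d}, Tame Φ → PG fun x => -p (x + Φ x) := fun hΦ =>
    ⟨(hp.comp (continuous_id.add hΦ.continuous)).neg, Gp, 0, hGp,
      PolyLe.of_bound fun x => by rw [norm_neg]; exact hpb _⟩
  set G := fun x => -p (x + Φ x) - -p (x + Φ' x) with hG
  have hGpg : PG G := (hpX hΦ).subPG (hpX hΦ')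
  have hN := pg_tiltN hΦ hu hu1 q
  have hN' := pg_tiltN hΦ' hu' hu1 q
  refine (sdist_ruleSum_le hb h0 (pg_tiltF hp hpb hΦ hu hu1 q ρ0) (pg_tiltF hp hpb hΦ' hu' hu1 q ρ0)
    hGpg (hN.subPG hN') fun x => ?_).trans ?_
  · rw [psi_sub hN hN', hG]
    simp only [tiltF]
    abel
  have g1 : l2 G ≤ ℓ * l2 fun x => Φ x - Φ' x := by
    rw [← abs_of_nonneg hl0, ← l2_smul]
    refine l2_mono (((PG.of_tame hΦ).subPG (PG.of_tame hΦ')).smul ℓ) fun x => ?_
    simp only [hG]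
    rw [norm_smul, Real.norm_eq_abs, abs_of_nonneg hl0, neg_sub_neg, norm_sub_rev]
    exact (hpl _ _).trans_eq (by rw [add_sub_add_left_eq_sub])
  have g2 : (l2 fun x => hentry (tiltN Φ q x - tiltN Φ' q x)) ≤
      ((q : ℝ) + 1) ^ 2 * u * l2 fun x => hentry (fderiv ℝ Φ x - fderiv ℝ Φ' x) := by
    rw [← abs_of_nonneg (show 0 ≤ ((q : ℝ) + 1) ^ 2 * u by positivity), ← l2_smul]
    refine l2_mono (((hΦ.pg_fderiv.subPG hΦ'.pg_fderiv).clm hentry).smul _) fun x => ?_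
    rw [norm_smul, Real.norm_eq_abs, abs_of_nonneg (by positivity)]
    exact hn_tiltN_sub_le hu hu' hu1 q x
  have a1 := l2_nonneg fun x => Φ x - Φ' x
  have a2 := l2_nonneg fun x => hentry (fderiv ℝ Φ x - fderiv ℝ Φ' x)
  have b : 0 ≤ ((q : ℝ) + 1) ^ 2 * u := by positivity
  rw [mul_assoc (2 * R)]
  refine mul_le_mul_of_nonneg_left ((add_le_add g1 g2).trans ?_) (by positivity)
  simp only [sdist]
  nlinarith [mul_nonneg hl0 a2, mul_nonneg b a1]

/-- The first step. -/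
theorem sdist_first_le (hb : RuleBds w r ρ0 ρ1 R) (h0 : ρ0 ∈ Set.Ioo (0 : ℝ) 1)
    {p : E d → E d} (hp : Continuous p) {Gp : ℝ} (hpb : ∀ x, ‖p x‖ ≤ Gp) (q : ℕ) :
    sdist (ruleSum w r ρ1 (tiltF p (fun _ => 0) q ρ0)) (fun _ => 0) ≤ 2 * R * Gp := by
  have hR : 0 ≤ R := (Finset.sum_nonneg fun k _ => hb.w_nonneg k).trans hb.total
  have hGp : 0 ≤ Gp := (norm_nonneg _).trans (hpb 0)
  have hN : ∀ x : E d, tiltN (fun _ => 0) q x = 0 := fun x => by simp [tiltN, series]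
  have hF : PG (fun x => -p x) :=
    ⟨hp.neg, Gp, 0, hGp, PolyLe.of_bound fun x => by rw [norm_neg]; exact hpb x⟩
  have hM : PG (fun _ : E d => (0 : E d →L[ℝ] E d)) := pg_zero
  have e : tiltF p (fun _ => 0) q ρ0 = fun x : E d => -p x := funext fun x => by
    have : tiltN (fun _ : E d => (0 : E d)) q = fun _ => 0 := funext hN
    simp [tiltF, this, psi]
  have e0 : ruleSum w r ρ1 (fun _ : E d => (0 : E d)) = fun _ => 0 := funext fun x => by
    simp [ruleSum, ou]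
  rw [e, ← e0]
  refine (sdist_ruleSum_le hb h0 hF pg_zero hF hM fun x => by simp [psi]).trans ?_
  refine mul_le_mul_of_nonneg_left ?_ (by positivity)
  have h1 : l2 (fun x => -p x) ≤ Gp := by
    refine l2_le hGp ((integral_mono_of_nonneg (ae_of_all _ fun x => sq_nonneg _)
      (integrable_const (Gp ^ 2)) (ae_of_all _ fun x => pow_le_pow_left₀ (norm_nonneg _)
        (by rw [norm_neg]; exact hpb x) 2)).trans_eq (by simp))
  have h2 : (l2 fun _ : E d => hentry (0 : E d →L[ℝ] E d)) = 0 := by simp [l2]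
  linarith

end

end Vale.Agent.P347
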