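import Vale.Agent.P347Zero.TiltStein
import Vale.Agent.P347Zero.Engine
import Vale.Agent.P347Zero.Cut
import Vale.Agent.P347.Smooth

/-!
P347 (exponent zero, M10): from a bound on the Stein operator of an approximate drift, at tests with a
bounded second derivative, to the distance to a tilted law on Lipschitz tests.
-/

open MeasureTheory ProbabilityTheory Real
open scoped RealInnerProductSpace

set_option maxSynthPendingDepth 3

namespace Vale.Agent.P347

noncomputable section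

variable {d : ℕ}

section smooth

variable {F : Type*} [NormedAddCommGroup F] [NormedSpace ℝ F] [FiniteDimensional ℝ F]
  [MeasurableSpace F] [BorelSpace F] {u : E d → F} {K L t : ℝ}

omit [NormedSpace ℝ F] [FiniteDimensional ℝ F] [MeasurableSpace F] [BorelSpace F] in
lemma norm_sub_shift_le (hL0 : 0 ≤ L) (hL : ∀ x y, ‖u x - u y‖ ≤ L * ‖x - y‖) (x g : E d) :
    ‖u x - u (x + √t • g)‖ ≤ L * √t * ‖g‖ := by
  refine (hL _ _).trans (le_of_eq ?_)
  rw [sub_add_cancel_left, norm_neg, norm_smul, Real.norm_eq_abs,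
    abs_of_nonneg (Real.sqrt_nonneg t)]
  ring

/-- A smoothing moves a Lipschitz map little. -/
lemma norm_sub_Psm_lip (hc : Continuous u) (hK : ∀ x, ‖u x‖ ≤ K) (hL0 : 0 ≤ L)
    (hL : ∀ x y, ‖u x - u y‖ ≤ L * ‖x - y‖) (x : E d) :
    ‖u x - Psm t u x‖ ≤ L * √(t : ℝ) * √(d : ℝ) := by
  have hi : Integrable (fun g => u (x + √t • g)) (gau (Fin d)) :=
    integrable_slice hc.measurable hK x √t
  have e : u x - Psm t u x = ∫ g, (u x - u (x + √t • g)) ∂gau (Fin d) := by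
    rw [integral_sub (integrable_const _) hi, integral_const, probReal_univ, one_smul]; rfl
  rw [e]
  refine (norm_integral_le_of_norm_le (integrable_gau_nrm.const_mul (L * √t))
    (ae_of_all _ fun g => norm_sub_shift_le hL0 hL x g)).trans ?_
  rw [integral_const_mul]
  refine mul_le_mul_of_nonneg_left ?_ (mul_nonneg hL0 (Real.sqrt_nonneg t))
  simpa using integral_gau_norm (ι := Fin d)

/-- The derivatives of the smoothing of a bounded Lipschitz map. -/
theorem psm_derivs (ht : 0 < t) (hu : ContDiff ℝ 1 u) (hK : ∀ x, ‖u x‖ ≤ K)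
    (hL : ∀ x, ‖fderiv ℝ u x‖ ≤ L) :
    ContDiff ℝ 2 (Psm t u) ∧ (∀ x, ‖fderiv ℝ (Psm t u) x‖ ≤ L) ∧
      (∀ x, ‖fderiv ℝ (fderiv ℝ (Psm t u)) x‖ ≤ L / √t) ∧
      ∀ x y, ‖fderiv ℝ (fderiv ℝ (Psm t u)) x - fderiv ℝ (fderiv ℝ (Psm t u)) y‖ ≤
        L / √(t / 2) / √(t / 2) * ‖x - y‖ := by
  have hd := hu.differentiable one_ne_zero
  have hm := hu.continuous.measurable
  have hDm : Measurable (fderiv ℝ u) := measurable_fderiv ℝ u
  have h2 : 0 < t / 2 := by linarith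
  have e : fderiv ℝ (Psm t u) = Psm t (fderiv ℝ u) := funext fun x => fderiv_Psm_comm hd hL x
  refine ⟨contDiff_Psm ht hm hK, fun x => ?_, fun x => ?_, ?_⟩
  · rw [e]; exact norm_Psm_le hL x
  · rw [e]; exact norm_fderiv_Psm_le ht hDm hL x
  · intro x y
    rw [e, fderiv_Psm_half ht hDm hL]
    have hm2 : Measurable (fderiv ℝ (Psm (t / 2) (fderiv ℝ u))) := measurable_fderiv ℝ _
    exact Convex.norm_image_sub_le_of_norm_fderiv_le (𝕜 := ℝ)
      (fun z _ => differentiable_Psm h2 hm2 (norm_fderiv_Psm_le h2 hDm hL) z)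
      (fun z _ => norm_fderiv_Psm_le h2 hm2 (norm_fderiv_Psm_le h2 hDm hL) z)
      convex_univ (Set.mem_univ y) (Set.mem_univ x)

end smooth

variable {δ r0 G t : ℝ} {R : E d → ℝ} {g : E d → E d}

/-- A smoothed potential with bounded gradient is a potential. -/
theorem Pot.smoothed (h : Pot d δ r0 R g) (hG : ∀ x, ‖g x‖ ≤ G) (ht : 0 < t) :
    Pot d δ (r0 + δ * √t * √(d : ℝ)) (Psm t R) (Psm t g) := by
  have hd : Differentiable ℝ R := fun x => (h.hasGrad x).differentiableAt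
  have hD : fderiv ℝ R = fun x => innerSL ℝ (g x) := funext fun x => (h.hasGrad x).fderiv
  have hDb : ∀ x, ‖fderiv ℝ R x‖ ≤ G := fun x => by
    rw [hD]; exact (innerSL_apply_norm ℝ (g x)).trans_le (hG x)
  have hgc := h.smooth.continuous
  refine ⟨h.pos, h.le_eighth, by have := h.pos; have := h.r0_nonneg; positivity, fun x => ?_,
    (contDiff_Psm ht hgc.measurable hG).of_le one_le_two, fun x y => ?_, ?_⟩
  · refine (hasFDerivAt_Psm_comm hd hDb x).congr_fderiv ?_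
    rw [hD]
    exact ((innerSL ℝ (E := E d)).toContinuousLinearMap.integral_comp_comm
      (integrable_slice hgc.measurable hG x √t))
  · rw [Psm, Psm, ← integral_sub (integrable_slice hgc.measurable hG x √t)
      (integrable_slice hgc.measurable hG y √t)]
    refine (norm_integral_le_of_norm_le_const (C := δ * ‖x - y‖) (ae_of_all _ fun w => ?_)).trans
      (by simp)
    exact (h.lip _ _).trans_eq (by rw [add_sub_add_right_eq_sub])
  · have h1 := norm_sub_Psm_lip (t := t) hgc hG h.pos.le h.lip 0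
    have h2 := norm_le_norm_add_norm_sub' (Psm t g 0) (g 0)
    rw [norm_sub_rev] at h2
    linarith [h.at_zero]

/-- The transfer from a Stein bound to Lipschitz tests. -/
theorem tilt_transfer (h : Pot d δ r0 R g) (hG : ∀ x, ‖g x‖ ≤ G) (ht : 0 < t)
    {p : E d → E d} (hp : Continuous p) {Gp : ℝ} (hpb : ∀ x, ‖p x‖ ≤ Gp) {ζ : ℝ}
    (hζ : ∀ x, ‖g x - p x‖ ≤ ζ) {X : E d → E d} (hX : Continuous X) {A : ℝ}
    (hXb : ∀ w, ‖X w‖ ≤ A * (1 + ‖w‖)) {e : ℝ}
    (he : ∀ f : E d → ℝ, ContDiff ℝ 2 f → (∀ x, ‖fderiv ℝ f x‖ ≤ 4) →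
      (∀ x, ‖fderiv ℝ (fderiv ℝ f) x‖ ≤ 5 / √t) →
      |∫ w, genOp f 0 0 p (X w) ∂gau (Fin d)| ≤ e)
    {v : E d → ℝ} (hv : ContDiff ℝ 1 v) {Kv : ℝ} (hvb : ∀ x, |v x| ≤ Kv)
    (hv1 : ∀ x, ‖fderiv ℝ v x‖ ≤ 1) :
    |(∫ w, v (X w) ∂gau (Fin d)) - ∫ x, v x ∂tilt R| ≤ e + 4 * ζ + 10 * (√t * √(d : ℝ)) := by
  have := h.isProb
  have hst : 0 < √t := Real.sqrt_pos.2 ht
  have hδ := h.le_eighth
  have hδ0 := h.pos
  set gt := Psm t g with hgt
  have hPt := h.smoothed hG ht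
  have := hPt.isProb
  obtain ⟨hg2, -, hgL2, hgL3⟩ := psm_derivs ht h.smooth hG
    (L := δ) (fun x => norm_fderiv_le_of_lip' ℝ hδ0.le (Filter.Eventually.of_forall fun y => h.lip y x))
  obtain ⟨hv2, hvd, hvD2, hvD3⟩ := psm_derivs ht hv (K := Kv)
    (fun x => (Real.norm_eq_abs _).trans_le (hvb x)) hv1
  have hgd : ∀ x, ‖g x - gt x‖ ≤ √t * √(d : ℝ) := fun x => by
    refine (norm_sub_Psm_lip h.smooth.continuous hG hδ0.le h.lip x).trans ?_
    rw [mul_assoc]
    exact mul_le_of_le_one_left (by positivity) (by linarith)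
  have hgtb : ∀ x, ‖gt x‖ ≤ G := fun x => norm_Psm_le hG x
  have hgtc : Continuous gt := hPt.smooth.continuous
  have hb5 : 4 * (1 / √t) + 16 * (δ / √t) ≤ 5 / √t := by
    rw [show 4 * (1 / √t) + 16 * (δ / √t) = (4 + 16 * δ) / √t by ring]
    exact div_le_div_of_nonneg_right (by linarith) hst.le
  have hvL : ∀ x y, ‖v x - v y‖ ≤ 1 * ‖x - y‖ := fun x y =>
    Convex.norm_image_sub_le_of_norm_fderiv_le (𝕜 := ℝ) (fun z _ => hv.differentiable one_ne_zero z)
      (fun z _ => hv1 z) convex_univ (Set.mem_univ y) (Set.mem_univ x)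
  have hvgap : ∀ x, |v x - Psm t v x| ≤ √t * √(d : ℝ) := fun x => by
    have := norm_sub_Psm_lip (t := t) hv.continuous
      (fun x => (Real.norm_eq_abs _).trans_le (hvb x)) zero_le_one hvL x
    rwa [Real.norm_eq_abs, one_mul] at this
  have i2 : Integrable (fun x : E d => ‖x‖ ^ 2) (tilt R) :=
    h.integrable_tilt (by fun_prop) 1 2 fun x => by
      rw [norm_pow, norm_norm, one_mul]
      exact pow_le_pow_left₀ (norm_nonneg _) (by linarith) 2
  -- a test in a second derivative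
  have hop : ∀ {f : E d → ℝ}, ContDiff ℝ 2 f → (∀ x, ‖fderiv ℝ f x‖ ≤ 4) →
      ∀ (k : E d → E d) (x : E d) {c : ℝ}, ‖k x - gt x‖ ≤ c →
      |((∑ i, fderiv ℝ (fderiv ℝ f) x (EuclideanSpace.single i 1) (EuclideanSpace.single i 1)) -
          fderiv ℝ f x (x + gt x)) - genOp f 0 0 k x| ≤ 4 * c := by
    intro f _ hf1 k x c hc
    have e1 : ((∑ i, fderiv ℝ (fderiv ℝ f) x (EuclideanSpace.single i 1) (EuclideanSpace.single i 1)) -
        fderiv ℝ f x (x + gt x)) - genOp f 0 0 k x = fderiv ℝ f x (k x - gt x) := by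
      simp only [genOp, EuclideanSpace.basisFun_apply, sub_zero, map_add, map_sub]
      ring
    rw [e1, ← Real.norm_eq_abs]
    exact ((fderiv ℝ f x).le_opNorm _).trans
      (mul_le_mul (hf1 x) hc (norm_nonneg _) (by norm_num))
  have hi : ∀ {f : E d → ℝ}, ContDiff ℝ 2 f → (∀ x, ‖fderiv ℝ f x‖ ≤ 4) →
      (∀ x, ‖fderiv ℝ (fderiv ℝ f) x‖ ≤ 5 / √t) → ∀ {k : E d → E d}, Continuous k → ∀ {Gk : ℝ},
      (∀ x, ‖k x‖ ≤ Gk) → ∀ {μ : Measure (E d)}, IsProbabilityMeasure μ →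
      Integrable (fun x => ‖x‖ ^ 2) μ → ∀ {Y : E d → E d}, Continuous Y → ∀ {a : ℝ},
      (∀ w, ‖Y w‖ ≤ a * (1 + ‖w‖)) → Integrable (fun w => genOp f 0 0 k (Y w)) μ := by
    intro f hf hf1 hf2 k hk Gk hkb μ hμ hμ2 Y hY a hYb
    have hc : Continuous fun w => genOp f 0 0 k (Y w) := by
      have h1 : Continuous (fderiv ℝ f) := hf.continuous_fderiv two_ne_zero
      have h2 : Continuous (fderiv ℝ (fderiv ℝ f)) :=
        (hf.fderiv_right (m := 1) le_rfl).continuous_fderiv one_ne_zero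
      simp only [genOp]
      fun_prop
    refine (((integrable_const ((d : ℝ) * (5 / √t) + 4 * (|a| * 2 + Gk))).add
      (hμ2.const_mul (4 * |a|)))).mono' hc.aestronglyMeasurable (ae_of_all _ fun w => ?_)
    refine (norm_sub_le _ _).trans ?_
    have hs : ‖∑ i, fderiv ℝ (fderiv ℝ f) (Y w) (EuclideanSpace.basisFun (Fin d) ℝ i)
        (EuclideanSpace.basisFun (Fin d) ℝ i)‖ ≤ d * (5 / √t) := by
      refine (norm_sum_le _ _).trans ((Finset.sum_le_card_nsmul _ _ (5 / √t) fun i _ => ?_).trans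
        (by simp))
      refine ((fderiv ℝ (fderiv ℝ f) (Y w)).le_opNorm₂ _ _).trans ?_
      rw [OrthonormalBasis.norm_eq_one, mul_one, mul_one]
      exact hf2 _
    have hl : ‖fderiv ℝ f (Y w) (Y w - 0 - 0 + k (Y w))‖ ≤
        4 * (|a| * (2 + ‖w‖ ^ 2) + Gk) := by
      refine ((fderiv ℝ f _).le_opNorm _).trans
        (mul_le_mul (hf1 _) ?_ (norm_nonneg _) (by norm_num))
      rw [sub_zero, sub_zero]
      refine (norm_add_le _ _).trans (add_le_add ((hYb w).trans ?_) (hkb _))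
      exact mul_le_mul (le_abs_self a) (by nlinarith [sq_nonneg (‖w‖ - 1), norm_nonneg w])
        (by positivity) (abs_nonneg a)
    simp only [Pi.add_apply]
    linarith
  have hid : ∀ w : E d, ‖id w‖ ≤ 1 * (1 + ‖w‖) := fun w => by simp
  have est : ∀ (μ : Measure (E d)), IsProbabilityMeasure μ → Integrable (fun x => ‖x‖ ^ 2) μ →
      ∀ (Y : E d → E d), Continuous Y → ∀ (a : ℝ), (∀ w, ‖Y w‖ ≤ a * (1 + ‖w‖)) →
      Integrable (fun w => ‖Y w‖ ^ 2) μ →
      ∀ (k : E d → E d), Continuous k → ∀ (Gk : ℝ), (∀ x, ‖k x‖ ≤ Gk) → ∀ (c e : ℝ),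
      (∀ x, ‖k x - gt x‖ ≤ c) →
      (∀ f : E d → ℝ, ContDiff ℝ 2 f → (∀ x, ‖fderiv ℝ f x‖ ≤ 4) →
        (∀ x, ‖fderiv ℝ (fderiv ℝ f) x‖ ≤ 5 / √t) → |∫ w, genOp f 0 0 k (Y w) ∂μ| ≤ e) →
      |(∫ w, Psm t v (Y w) ∂μ) - ∫ x, Psm t v x ∂tilt (Psm t R)| ≤ e + 4 * c := by
    intro μ hμ hμ2 Y hY a hYb hY2 k hk Gk hkb c e hc hk2
    refine tilt_stein hPt hg2 hgL2 hgL3 μ Y hY.measurable hY2 (K := 1 / √t) (fun f hf hf1 hf2 => ?_)
      hv2 hvd hvD2 hvD3
    have hf2' : ∀ x, ‖fderiv ℝ (fderiv ℝ f) x‖ ≤ 5 / √t := fun x => (hf2 x).trans hb5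
    have i1 := hi hf hf1 hf2' hk hkb hμ hμ2 hY hYb
    have i0 := hi hf hf1 hf2' hgtc hgtb hμ hμ2 hY hYb
    simp only [genOp, EuclideanSpace.basisFun_apply, sub_zero] at i0
    have hdiff : |(∫ w, ((∑ i, fderiv ℝ (fderiv ℝ f) (Y w) (EuclideanSpace.single i 1)
        (EuclideanSpace.single i 1)) - fderiv ℝ f (Y w) (Y w + gt (Y w))) ∂μ) -
        ∫ w, genOp f 0 0 k (Y w) ∂μ| ≤ 4 * c := by
      rw [← integral_sub i0 i1]
      refine abs_integral_le_integral_abs.trans ((integral_mono_of_nonneg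
        (ae_of_all _ fun _ => abs_nonneg _) (integrable_const _)
        (ae_of_all _ fun w => hop hf hf1 k (Y w) (hc _))).trans_eq (by simp))
    have hk3 := abs_le.1 (hk2 f hf hf1 hf2')
    rw [abs_le] at hdiff ⊢
    constructor <;> linarith [hdiff.1, hdiff.2, hk3.1, hk3.2]
  have hXi : Integrable (fun w => ‖X w‖ ^ 2) (gau (Fin d)) :=
    integrable_of_poly (K := A ^ 2) (k := 2) (hX.norm.pow 2).aestronglyMeasurable fun w => by
      rw [Real.norm_of_nonneg (sq_nonneg _), ← mul_pow]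
      exact pow_le_pow_left₀ (norm_nonneg _) (hXb w) 2
  have eX := est (gau (Fin d)) inferInstance integrable_gau_nrm_sq X hX A hXb hXi p hp Gp hpb
    (ζ + √t * √(d : ℝ)) e (fun x => by
      have := norm_sub_le_norm_sub_add_norm_sub (p x) (g x) (gt x)
      rw [norm_sub_rev (p x) (g x)] at this
      linarith [hζ x, hgd x]) he
  have eR := est (tilt R) h.isProb i2 id continuous_id 1 hid i2 g h.smooth.continuous G hG
    (√t * √(d : ℝ)) 0 hgd (fun f hf hf1 hf2 => by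
      have := h.stein_identity hf hf1 hf2
      rw [show ∫ w, genOp f 0 0 g (id w) ∂tilt R = 0 by
        simpa [genOp, EuclideanSpace.basisFun_apply] using this, abs_zero])
  have gap : ∀ {μ : Measure (E d)}, IsProbabilityMeasure μ → ∀ {Y : E d → E d}, Continuous Y →
      |(∫ w, v (Y w) ∂μ) - ∫ w, Psm t v (Y w) ∂μ| ≤ √t * √(d : ℝ) := by
    intro μ hμ Y hY
    rw [← integral_sub (f := fun w => v (Y w)) (g := fun w => Psm t v (Y w))
      (Integrable.of_bound (hv.continuous.comp hY).aestronglyMeasurable Kv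
        (ae_of_all _ fun w => (Real.norm_eq_abs _).trans_le (hvb _)))
      (Integrable.of_bound (hv2.continuous.comp hY).aestronglyMeasurable Kv
        (ae_of_all _ fun w => norm_Psm_le (fun x => (Real.norm_eq_abs _).trans_le (hvb x)) _))]
    exact abs_integral_le_integral_abs.trans ((integral_mono_of_nonneg
      (ae_of_all _ fun _ => abs_nonneg _) (integrable_const _)
      (ae_of_all _ fun w => hvgap _)).trans_eq (by simp))
  have g1 := abs_le.1 (gap (inferInstance : IsProbabilityMeasure (gau (Fin d))) hX)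
  have g2 := abs_le.1 (gap h.isProb continuous_id)
  simp only [id] at g2 eR
  rw [abs_le] at eX eR ⊢
  constructor <;> linarith [g1.1, g1.2, g2.1, g2.2, eX.1, eX.2, eR.1, eR.2]

end

end Vale.Agent.P347
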