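import Vale.Agent.P347Zero.TiltPicard
import Vale.Agent.P347Zero.TiltTests

/-!
P347 (exponent zero, M10): the map of a tilt, semantic level. Iterates of the Picard step with small
errors give a map `w + Φ w` of a Gaussian vector whose law is close to the tilted law on Lipschitz
tests, with all parameters powers of the dimension.
-/

open MeasureTheory ProbabilityTheory Real
open scoped RealInnerProductSpace

set_option maxSynthPendingDepth 3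

namespace Vale.Agent.P347

open Quad

noncomputable section

variable {d : ℕ}

/-- The correlation of the Mehler form at dimension `d`. -/
def tiltρ0 (d M3 : ℕ) : ℝ := 1 - (((d : ℝ) ^ M3) ^ 2)⁻¹

/-- The last smoothing at dimension `d`. -/
def tiltρ1 (d M3 : ℕ) : ℝ := 1 - (((d : ℝ) ^ M3) ^ 4)⁻¹

lemma one_le_pow_dim (hd : 1 ≤ d) (k : ℕ) : (1 : ℝ) ≤ (d : ℝ) ^ k :=
  one_le_pow₀ (by exact_mod_cast hd)

lemma tiltρ_mem (hd : 2 ≤ d) {M3 : ℕ} (hM : 1 ≤ M3) :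
    tiltρ0 d M3 ∈ Set.Ico (1 / 2 : ℝ) 1 ∧ tiltρ1 d M3 ∈ Set.Ico (1 / 2 : ℝ) 1 := by
  have hd' : (2 : ℝ) ≤ d := by exact_mod_cast hd
  have h : (2 : ℝ) ≤ (d : ℝ) ^ M3 :=
    hd'.trans (le_self_pow₀ (by linarith) (Nat.one_le_iff_ne_zero.1 hM))
  have key : ∀ k : ℕ, 1 ≤ k → 1 - (((d : ℝ) ^ M3) ^ k)⁻¹ ∈ Set.Ico (1 / 2 : ℝ) 1 := by
    intro k hk
    have h2 : (2 : ℝ) ≤ ((d : ℝ) ^ M3) ^ k :=
      h.trans (le_self_pow₀ (by linarith) (Nat.one_le_iff_ne_zero.1 hk))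
    have h3 : (((d : ℝ) ^ M3) ^ k)⁻¹ ≤ 2⁻¹ := inv_anti₀ (by norm_num) h2
    have h4 : 0 < (((d : ℝ) ^ M3) ^ k)⁻¹ := by positivity
    constructor <;> linarith
  exact ⟨key 2 (by norm_num), key 4 (by norm_num)⟩

/-- Finitely many iterates with small errors. -/
theorem sdist_iterate_le' {Φs S : ℕ → E d → E d} {κ e A : ℝ} {J : ℕ}
    (hΦ : ∀ j ≤ J, Tame (Φs j)) (hS : ∀ j ≤ J, Tame (S j))
    (hκ0 : 0 ≤ κ) (hκ : κ ≤ 1 / 2) (he : 0 ≤ e)
    (hstep : ∀ j < J, sdist (S (j + 1)) (S j) ≤ κ * sdist (Φs (j + 1)) (Φs j))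
    (herr : ∀ j < J, sdist (Φs (j + 1)) (S j) ≤ e) (h0 : sdist (S 0) (Φs 0) ≤ A) :
    ∀ j ≤ J, sdist (S j) (Φs j) ≤ κ ^ j * A + 3 * e := by
  intro j
  induction j with
  | zero => intro _; linarith [pow_zero κ]
  | succ j ih =>
    intro hj
    have hj' : j < J := hj
    have ih' := ih hj'.le
    have h1 := sdist_triangle (hS (j + 1) hj) (hS j hj'.le) (hΦ (j + 1) hj)
    have h2 := sdist_triangle (hΦ (j + 1) hj) (hS j hj'.le) (hΦ j hj'.le)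
    rw [sdist_comm (S j) (Φs (j + 1))] at h1
    have h3 := herr j hj'
    have h4 := mul_le_mul_of_nonneg_left (h2.trans (add_le_add h3 ih')) hκ0
    have h5 := hstep j hj'
    rw [pow_succ']
    nlinarith [mul_le_mul_of_nonneg_right hκ he]

/-- The field of a Picard step in quadratic mean. -/
theorem l2_tiltF_le {p Φ : E d → E d} {Gp u : ℝ} (hp : Continuous p) (hpb : ∀ x, ‖p x‖ ≤ Gp)
    (hΦ : Tame Φ) (hu : ∀ w, ‖fderiv ℝ Φ w‖ ≤ u) (hu1 : u ≤ 1) (q : ℕ) {ρ0 : ℝ}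
    (h0 : ρ0 ∈ Set.Ico (0 : ℝ) 1) :
    l2 (tiltF p Φ q ρ0) ≤ Gp + (√(1 - ρ0))⁻¹ * (√(d : ℝ) * q) := by
  have hGp : 0 ≤ Gp := (norm_nonneg _).trans (hpb 0)
  have hN := pg_tiltN hΦ hu hu1 q
  have hG : PG fun w => -p (w + Φ w) := ⟨(hp.comp (continuous_id.add hΦ.continuous)).neg, Gp, 0, hGp,
    PolyLe.of_bound fun w => by rw [norm_neg]; exact hpb _⟩
  refine (l2_add hG (pg_psi hN ρ0)).trans (add_le_add ?_ ?_)
  · refine l2_le hGp ((integral_mono_of_nonneg (ae_of_all _ fun x => sq_nonneg _)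
      (integrable_const (Gp ^ 2)) (ae_of_all _ fun x => pow_le_pow_left₀ (norm_nonneg _)
        (by rw [norm_neg]; exact hpb _) 2)).trans_eq (by simp))
  · refine (l2_psi_le ContinuousLinearMap.norm_id_le hN
      (pow_lt_one₀ h0.1 h0.2 two_ne_zero)).trans ?_
    refine mul_le_mul ?_ ?_ (l2_nonneg _) (by positivity)
    · refine inv_anti₀ (Real.sqrt_pos.2 (by linarith [h0.2])) (Real.sqrt_le_sqrt ?_)
      nlinarith [h0.1, h0.2]
    · refine l2_le (by positivity) ((integral_mono_of_nonneg (ae_of_all _ fun x => sq_nonneg _)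
        (integrable_const ((√(d : ℝ) * q) ^ 2)) (ae_of_all _ fun x => pow_le_pow_left₀ (norm_nonneg _)
          ((hn_le_op _).trans ?_) 2)).trans_eq (by simp))
      rw [Fintype.card_fin]
      refine mul_le_mul_of_nonneg_left ((norm_tiltN_le hu hu1 q x).trans ?_) (Real.sqrt_nonneg _)
      have hu0 : 0 ≤ u := (norm_nonneg _).trans (hu 0)
      exact mul_le_of_le_one_right (Nat.cast_nonneg q) (pow_le_one₀ hu0 hu1)

lemma pow_div_le_inv {x : ℝ} (hx : 1 ≤ x) {i j k : ℕ} (h : i + k ≤ j) :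
    x ^ i / x ^ j ≤ (x ^ k)⁻¹ := by
  rw [div_le_iff₀ (by positivity), inv_mul_eq_div, le_div_iff₀ (by positivity), ← pow_add]
  exact pow_le_pow_right₀ hx h

lemma sqrt_two_mul_le {x y e : ℝ} (he : 1 ≤ e) (hy : √x = y) : √(2 * x * e) ≤ 2 * e * y := by
  have hy0 : 0 ≤ y := hy ▸ Real.sqrt_nonneg x
  have h : √(2 * e) ≤ 2 * e := by
    rw [Real.sqrt_le_iff]
    constructor
    · linarith
    · nlinarith
  rw [mul_right_comm, Real.sqrt_mul (by linarith), hy]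
  exact mul_le_mul_of_nonneg_right h hy0

/-- The residual, with the powers of the dimension as variables. -/
lemma tilt_arith_core {a b D m e s eE Q Z L sd up ε F c0 c1 : ℝ} (ha : 1 ≤ a) (hb : 1 ≤ b)
    (hD : 0 < D) (he : 1 ≤ e) (heE : 1 ≤ eE) (hs0 : 0 ≤ s) (hs : s ≤ e) (hm : 0 ≤ m)
    (hQ : 1 ≤ Q) (hZ : 1 ≤ Z) (hL : 0 ≤ L) (hsd0 : 0 ≤ sd) (hD0 : sd ≤ 5 * L * Z / D)
    (huq : up ≤ L / D) (hε0 : 0 ≤ ε) (hF0 : 0 ≤ F) (hF : F ≤ 2 * Z * Q * (b * e))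
    (hc00 : 0 ≤ c0) (hc0 : c0 ≤ 2 * e * b⁻¹) (hc10 : 0 ≤ c1) (hc1 : c1 ≤ 2 * e * (b ^ 2)⁻¹)
    (p1 : a * e / D ≤ m) (p2 : a * e * e * eE / b ≤ m)
    (p3 : ε * (a * e * b ^ 2 * (b * e)) ≤ m) (p4 : s / a ≤ m) :
    4 * sd + 5 * a * (2 * s) * sd + 5 * a * (2 * s) * (L * eE * c0) + 5 * a * e * up +
      (2 * (5 * a) * c1 + (4 + 5 * a * (2 * s) * b ^ 2) * ε) * F + 10 * (s / a) ≤
      173 * ((1 + L) * Q * (Z * m)) := by
  have ha0 : 0 ≤ a := zero_le_one.trans ha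
  have he0 : 0 ≤ e := zero_le_one.trans he
  have hb0 : 0 < b := zero_lt_one.trans_le hb
  have hae : 1 ≤ a * e := one_le_mul_of_one_le_of_one_le ha he
  have hcoef : 4 + 5 * a * (2 * s) ≤ 14 * (a * e) := by
    have := mul_le_mul_of_nonneg_left hs ha0
    linarith
  have hb2 : 1 ≤ b ^ 2 := one_le_pow₀ hb
  have t1 : 4 * sd + 5 * a * (2 * s) * sd ≤ 70 * (L * Z * m) := by
    rw [← add_mul]
    refine (mul_le_mul hcoef hD0 hsd0 (by positivity)).trans ?_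
    rw [show 14 * (a * e) * (5 * L * Z / D) = 70 * (L * Z * (a * e / D)) by ring]
    gcongr
  have t2 : 5 * a * (2 * s) * (L * eE * c0) ≤ 20 * (L * m) := by
    refine (mul_le_mul (show 5 * a * (2 * s) ≤ 5 * a * (2 * e) by gcongr)
      (show L * eE * c0 ≤ L * eE * (2 * e * b⁻¹) by gcongr) (by positivity)
      (by positivity)).trans ?_
    rw [show 5 * a * (2 * e) * (L * eE * (2 * e * b⁻¹)) = 20 * (L * (a * e * e * eE / b)) by ring]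
    gcongr
  have t3 : 5 * a * e * up ≤ 5 * (L * m) := by
    refine (mul_le_mul_of_nonneg_left huq (by positivity)).trans ?_
    rw [show 5 * a * e * (L / D) = 5 * (L * (a * e / D)) by ring]
    gcongr
  have t4 : 2 * (5 * a) * c1 * F ≤ 40 * (Z * Q * m) := by
    refine (mul_le_mul (mul_le_mul_of_nonneg_left hc1 (by positivity)) hF hF0
      (by positivity)).trans ?_
    rw [show 2 * (5 * a) * (2 * e * (b ^ 2)⁻¹) * (2 * Z * Q * (b * e))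
      = 40 * (Z * Q * (a * e * e * (b * (b ^ 2)⁻¹))) by ring,
      show b * (b ^ 2)⁻¹ = b⁻¹ by field_simp, ← div_eq_mul_inv]
    refine mul_le_mul_of_nonneg_left (mul_le_mul_of_nonneg_left (le_trans ?_ p2) (by positivity))
      (by norm_num)
    exact div_le_div_of_nonneg_right (le_mul_of_one_le_right (by positivity) heE) hb0.le
  have t5 : (4 + 5 * a * (2 * s) * b ^ 2) * ε * F ≤ 28 * (Z * Q * m) := by
    have hc : 4 + 5 * a * (2 * s) * b ^ 2 ≤ 14 * (a * e) * b ^ 2 := by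
      have := mul_le_mul_of_nonneg_right hcoef (sq_nonneg b)
      linarith [add_mul 4 (5 * a * (2 * s)) (b ^ 2)]
    refine (mul_le_mul (mul_le_mul_of_nonneg_right hc hε0) hF hF0 (by positivity)).trans ?_
    rw [show 14 * (a * e) * b ^ 2 * ε * (2 * Z * Q * (b * e))
      = 28 * (Z * Q * (ε * (a * e * b ^ 2 * (b * e)))) by ring]
    gcongr
  have hZm : 0 ≤ Z * m := by positivity
  have hm' : m ≤ Z * m := le_mul_of_one_le_left hm hZ
  have hLQ : L ≤ (1 + L) * Q := le_trans (by linarith) (le_mul_of_one_le_right (by linarith) hQ)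
  have hQ' : Q ≤ (1 + L) * Q := le_mul_of_one_le_left (by linarith) (by linarith)
  have q1 := mul_le_mul_of_nonneg_right hLQ hZm
  have q2 := mul_le_mul_of_nonneg_right hQ' hZm
  have q3 := mul_le_mul hLQ hm' hm (by positivity)
  have q4 := mul_le_mul (hQ.trans hQ') hm' hm (by positivity)
  rw [add_mul (2 * (5 * a) * c1)]
  linarith

/-- The powers of the dimension in the residual. -/
lemma tilt_arith {M M3 E' q : ℕ} {G ζ L sd up ε t ρ0 ρ1 : ℝ} (hd : 2 ≤ d)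
    (hE : 2 * M + 4 + E' ≤ M3) (hρ0d : ρ0 = tiltρ0 d M3) (hρ1d : ρ1 = tiltρ1 d M3)
    (htd : t = (((d : ℝ) ^ (M + 1)) ^ 2)⁻¹) (hG0 : 0 ≤ G) (hζ0 : 0 ≤ ζ) (hL : 0 ≤ L) (hsd0 : 0 ≤ sd)
    (hD0 : sd ≤ 5 * L * (1 + G + ζ) / (d : ℝ) ^ (2 * M + 3))
    (huq : up ≤ L / (d : ℝ) ^ (2 * M + 3)) (hε0 : 0 ≤ ε)
    (hε : ε ≤ ((d : ℝ) ^ (3 * M3 + 2 * M + 6))⁻¹) :
    4 * sd + 5 / √t * (2 * √(d : ℝ)) * sd +
      5 / √t * (2 * √(d : ℝ)) * (L * (d : ℝ) ^ E' * √(2 * (1 - ρ0) * d)) + 5 / √t * d * up +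
      (2 * (5 / √t) * √(2 * (1 - ρ1) * d) + (4 + 5 / √t * (2 * √(d : ℝ)) / √(1 - ρ1)) * ε) *
        (G + ζ + (√(1 - ρ0))⁻¹ * (√(d : ℝ) * q)) + 4 * ζ + 10 * (√t * √(d : ℝ)) ≤
      300 * (1 + L) * ((q : ℝ) + 1) * (ζ + (1 + G) / (d : ℝ) ^ M) := by
  have hd0 : (1 : ℝ) ≤ d := by exact_mod_cast (show 1 ≤ d by omega)
  have hd1 := one_le_pow_dim (show 1 ≤ d by omega)
  have hst : √t = ((d : ℝ) ^ (M + 1))⁻¹ := by
    rw [htd, Real.sqrt_inv, Real.sqrt_sq (by positivity)]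
  have hsd : √(d : ℝ) ≤ d := by
    rw [Real.sqrt_le_iff]
    constructor
    · linarith
    · nlinarith
  have hb0 : (0 : ℝ) < (d : ℝ) ^ M3 := by positivity
  have es0 : √(1 - ρ0) = ((d : ℝ) ^ M3)⁻¹ := by
    rw [hρ0d, tiltρ0, sub_sub_cancel, Real.sqrt_inv, Real.sqrt_sq hb0.le]
  have es1 : √(1 - ρ1) = (((d : ℝ) ^ M3) ^ 2)⁻¹ := by
    rw [hρ1d, tiltρ1, sub_sub_cancel, Real.sqrt_inv,
      show ((d : ℝ) ^ M3) ^ 4 = (((d : ℝ) ^ M3) ^ 2) ^ 2 by ring, Real.sqrt_sq (by positivity)]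
  have hF : G + ζ + (√(1 - ρ0))⁻¹ * (√(d : ℝ) * q) ≤
      2 * (1 + G + ζ) * ((q : ℝ) + 1) * ((d : ℝ) ^ M3 * d) := by
    rw [es0, inv_inv]
    have h1 : (d : ℝ) ^ M3 * (√(d : ℝ) * q) ≤ (d : ℝ) ^ M3 * (d * q) := by gcongr
    have h2 : 1 ≤ (d : ℝ) ^ M3 * d := one_le_mul_of_one_le_of_one_le (hd1 M3) hd0
    have h3 := mul_le_mul_of_nonneg_left h2 (show 0 ≤ (1 + G + ζ) * ((q : ℝ) + 1) by positivity)
    have h4 : 0 ≤ ((G + ζ) * q + (1 + G + ζ)) * ((d : ℝ) ^ M3 * d) := by positivity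
    have h5 : 0 ≤ (1 + G + ζ) * (q : ℝ) := by positivity
    linarith
  have key := tilt_arith_core (a := (d : ℝ) ^ (M + 1)) (b := (d : ℝ) ^ M3)
    (D := (d : ℝ) ^ (2 * M + 3)) (m := ((d : ℝ) ^ M)⁻¹) (e := (d : ℝ)) (eE := (d : ℝ) ^ E')
    (Q := (q : ℝ) + 1) (ε := ε) (hd1 _) (hd1 _) (by positivity) hd0 (hd1 _)
    (Real.sqrt_nonneg (d : ℝ)) hsd (by positivity) (by linarith [Nat.cast_nonneg (α := ℝ) q])
    (show (1 : ℝ) ≤ 1 + G + ζ by linarith) hL hsd0 hD0 huq hε0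
    (show 0 ≤ G + ζ + (√(1 - ρ0))⁻¹ * (√(d : ℝ) * q) by positivity) hF
    (Real.sqrt_nonneg _) (sqrt_two_mul_le hd0 es0) (Real.sqrt_nonneg _) (sqrt_two_mul_le hd0 es1)
    (by rw [← pow_succ]; exact pow_div_le_inv hd0 (by omega))
    (by rw [← pow_succ, ← pow_succ, ← pow_add]; exact pow_div_le_inv hd0 (by omega))
    (by
      refine (mul_le_mul_of_nonneg_right hε (by positivity)).trans ?_
      rw [inv_mul_eq_div, ← pow_mul, ← pow_succ, ← pow_succ, ← pow_add, ← pow_add]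
      exact pow_div_le_inv hd0 (by omega))
    (by
      refine (div_le_div_of_nonneg_right hsd (by positivity)).trans ?_
      calc (d : ℝ) / (d : ℝ) ^ (M + 1) = (d : ℝ) ^ 1 / (d : ℝ) ^ (M + 1) := by rw [pow_one]
        _ ≤ _ := pow_div_le_inv hd0 (by omega))
  rw [hst, es1, div_inv_eq_mul, div_inv_eq_mul]
  rw [show ((d : ℝ) ^ (M + 1))⁻¹ * √(d : ℝ) = √(d : ℝ) / (d : ℝ) ^ (M + 1) by ring]
  have hZm : (1 + G + ζ) * ((d : ℝ) ^ M)⁻¹ ≤ ζ + (1 + G) / (d : ℝ) ^ M := by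
    have := mul_le_mul_of_nonneg_left (inv_le_one_of_one_le₀ (hd1 M)) hζ0
    rw [div_eq_mul_inv, add_mul]
    linarith
  have hX : 0 ≤ (1 + G) / (d : ℝ) ^ M := by positivity
  have hLQ : 0 ≤ (1 + L) * ((q : ℝ) + 1) := by positivity
  have hLQ1 : 1 ≤ (1 + L) * ((q : ℝ) + 1) := by
    refine one_le_mul_of_one_le_of_one_le (by linarith) ?_
    linarith [Nat.cast_nonneg (α := ℝ) q]
  have q1 := mul_le_mul_of_nonneg_left hZm hLQ
  have q2 := mul_le_mul_of_nonneg_right hLQ1 (add_nonneg hζ0 hX)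
  have q3 := mul_nonneg hLQ (add_nonneg hζ0 hX)
  linarith

/-- The map of a tilt from approximate Picard iterates. -/
theorem tilt_map_semantic {M M3 : ℕ} (hM3 : 1 ≤ M3) (hd : 2 ≤ d) {n : ℕ} {ε : ℝ} (Rl : Rule n ε)
    (U : ℝ) {δg r1 G ζ : ℝ} {R : E d → ℝ} {g p : E d → E d} (hR : Pot d δg r1 R g)
    (hG : ∀ x, ‖g x‖ ≤ G) (hζ : ∀ x, ‖g x - p x‖ ≤ ζ) (hp : Continuous p) {ℓ : ℝ} (hl0 : 0 ≤ ℓ)
    (hpl : ∀ x y, ‖p x - p y‖ ≤ ℓ * ‖x - y‖) {J q E' : ℕ} (hE : 2 * M + 4 + E' ≤ M3)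
    {Φs : ℕ → E d → E d} (hΦ : ∀ j ≤ J, Tame (Φs j)) (h0 : Φs 0 = fun _ => 0) {u : ℝ}
    (hu : ∀ j ≤ J, ∀ w, ‖fderiv ℝ (Φs j) w‖ ≤ u) (hu1 : u ≤ 1)
    {Rb : ℝ} (hb : RuleBds (fun k => Rl.weight k U) (fun k => Rl.node k U)
      (tiltρ0 d M3) (tiltρ1 d M3) Rb)
    {L : ℝ} (hL : 0 ≤ L) (hκ : 2 * Rb * (ℓ + ((q : ℝ) + 1) ^ 2 * u) ≤ 1 / 2)
    (hκJ : (2 * Rb * (ℓ + ((q : ℝ) + 1) ^ 2 * u)) ^ J * Rb ≤ L / (d : ℝ) ^ (2 * M + 3))
    (huq : u ^ (q + 2) ≤ L / (d : ℝ) ^ (2 * M + 3))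
    (herr : ∀ j < J, sdist (Φs (j + 1))
      (ruleSum (fun k => Rl.weight k U) (fun k => Rl.node k U) (tiltρ1 d M3)
        (tiltF p (Φs j) q (tiltρ0 d M3))) ≤ L * (1 + G + ζ) / (d : ℝ) ^ (2 * M + 3))
    (hN : ∀ x y, hn (tiltN (Φs J) q x - tiltN (Φs J) q y) ≤ L * (d : ℝ) ^ E' * ‖x - y‖)
    (hε : ε ≤ ((d : ℝ) ^ (3 * M3 + 2 * M + 6))⁻¹)
    {v : E d → ℝ} (hv : ContDiff ℝ 1 v) {Kv : ℝ} (hvb : ∀ x, |v x| ≤ Kv)
    (hv1 : ∀ x, ‖fderiv ℝ v x‖ ≤ 1) :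
    |(∫ w, v (w + Φs J w) ∂gau (Fin d)) - ∫ x, v x ∂tilt R| ≤
      300 * (1 + L) * ((q : ℝ) + 1) * (ζ + (1 + G) / (d : ℝ) ^ M) := by
  have hd0 : (1 : ℝ) ≤ d := by exact_mod_cast (show 1 ≤ d by omega)
  have hd1 := one_le_pow_dim (show 1 ≤ d by omega)
  have hdpos : (0 : ℝ) < d := by linarith
  obtain ⟨hρ0, hρ1⟩ := tiltρ_mem hd hM3
  set ρ0 := tiltρ0 d M3 with hρ0d
  set ρ1 := tiltρ1 d M3 with hρ1d
  have hG0 : 0 ≤ G := (norm_nonneg _).trans (hG 0)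
  have hζ0 : 0 ≤ ζ := (norm_nonneg _).trans (hζ 0)
  have hpb : ∀ x, ‖p x‖ ≤ G + ζ := fun x => by
    have := norm_le_norm_add_norm_sub' (p x) (g x)
    rw [norm_sub_rev] at this
    linarith [hG x, hζ x]
  have hε0 : 0 ≤ ε := (abs_nonneg _).trans (Rl.moment 0 0)
  have hu0 : 0 ≤ u := (norm_nonneg _).trans (hu 0 (Nat.zero_le J) 0)
  have hRb : 0 ≤ Rb := (Finset.sum_nonneg fun k _ => hb.w_nonneg k).trans hb.total
  set w := fun k => Rl.weight k U with hwd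
  set r := fun k => Rl.node k U with hrd
  set S := fun j => ruleSum w r ρ1 (tiltF p (Φs j) q ρ0) with hSd
  have hS : ∀ j ≤ J, Tame (S j) := fun j hj =>
    tame_ruleSum hb (pg_tiltF hp hpb (hΦ j hj) (hu j hj) hu1 q ρ0)
  have h0' : ρ0 ∈ Set.Ioo (0 : ℝ) 1 := ⟨by linarith [hρ0.1], hρ0.2⟩
  set κ := 2 * Rb * (ℓ + ((q : ℝ) + 1) ^ 2 * u) with hκd
  set e := L * (1 + G + ζ) / (d : ℝ) ^ (2 * M + 3) with hed
  have hfix := sdist_iterate_le' hΦ hS (κ := κ) (e := e) (A := 2 * Rb * (G + ζ))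
    (by positivity) hκ (by positivity) (fun j hj => sdist_step_le hb h0' hp hpb hl0 hpl
      (hΦ (j + 1) hj) (hΦ j hj.le) (hu (j + 1) hj) (hu j hj.le) hu1 q) herr
    (by simp only [hSd, h0]; exact sdist_first_le hb h0' hp hpb q) J le_rfl
  set D := (d : ℝ) ^ (2 * M + 3) with hDd
  have hD : 0 < D := by positivity
  have hD0 : sdist (S J) (Φs J) ≤ 5 * L * (1 + G + ζ) / D := by
    refine hfix.trans ?_
    have h := mul_le_mul_of_nonneg_right hκJ (show 0 ≤ 2 * (G + ζ) by positivity)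
    have h' : L / D * (2 * (G + ζ)) ≤ 2 * (L * (1 + G + ζ) / D) := by
      rw [show 2 * (L * (1 + G + ζ) / D) = L / D * (2 * (1 + G + ζ)) by ring]
      exact mul_le_mul_of_nonneg_left (by linarith) (by positivity)
    rw [show 5 * L * (1 + G + ζ) / D = 2 * (L * (1 + G + ζ) / D) + 3 * e by rw [hed]; ring]
    linarith
  -- the transfer
  set t := (((d : ℝ) ^ (M + 1)) ^ 2)⁻¹ with htd
  have ht : 0 < t := by positivity
  have hst : √t = ((d : ℝ) ^ (M + 1))⁻¹ := by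
    rw [htd, Real.sqrt_inv, Real.sqrt_sq (by positivity)]
  have hsd : √(d : ℝ) ≤ d := by
    rw [Real.sqrt_le_iff]; exact ⟨hdpos.le, by nlinarith⟩
  obtain ⟨-, KΦ, nΦ, hKΦ, -, -⟩ := id (hΦ J le_rfl)
  have hXb : ∀ x, ‖x + Φs J x‖ ≤ (2 + ‖Φs J 0‖) * (1 + ‖x‖) := fun x => by
    have h := Convex.norm_image_sub_le_of_norm_fderiv_le (𝕜 := ℝ)
      (fun z _ => (hΦ J le_rfl).differentiable z) (fun z _ => hu J le_rfl z) convex_univ
      (Set.mem_univ (0 : E d)) (Set.mem_univ x)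
    rw [sub_zero] at h
    have h2 := norm_le_norm_add_norm_sub' (Φs J x) (Φs J 0)
    have h3 := mul_le_mul_of_nonneg_right hu1 (norm_nonneg x)
    nlinarith [norm_add_le x (Φs J x), norm_nonneg x,
      mul_nonneg (norm_nonneg (Φs J 0)) (norm_nonneg x), norm_nonneg (Φs J 0)]
  set F2 := G + ζ + (√(1 - ρ0))⁻¹ * (√(d : ℝ) * q) with hF2
  set K2 := 5 / √t with hK2
  set res := 4 * sdist (S J) (Φs J) + K2 * (2 * √(d : ℝ)) * sdist (S J) (Φs J) +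
    K2 * (2 * √(d : ℝ)) * (L * (d : ℝ) ^ E' * √(2 * (1 - ρ0) * d)) + K2 * d * u ^ (q + 2) +
    (2 * K2 * √(2 * (1 - ρ1) * d) + (4 + K2 * (2 * √(d : ℝ)) / √(1 - ρ1)) * ε) * F2 with hres
  have key := tilt_transfer hR hG ht hp hpb hζ (X := fun x => x + Φs J x)
    (continuous_id.add (hΦ J le_rfl).continuous) hXb (e := res) (fun f hf hf1 hf2 => by
      refine (tilt_residual hf hf1 hf2 (hΦ J le_rfl) (hu J le_rfl) hu1 hp hpb q h0'
        ⟨by linarith [hρ1.1], hρ1.2⟩ Rl U rfl).trans ?_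
      have ha : l2 (fun w => S J w - Φs J w) ≤ sdist (S J) (Φs J) :=
        le_add_of_nonneg_right (l2_nonneg _)
      have hb' : (l2 fun w => hentry (fderiv ℝ (S J) w - fderiv ℝ (Φs J) w)) ≤
          sdist (S J) (Φs J) := le_add_of_nonneg_left (l2_nonneg _)
      have hc := l2_sub_ou_le (pg_tiltN (hΦ J le_rfl) (hu J le_rfl) hu1 q)
        (show 0 ≤ L * (d : ℝ) ^ E' by positivity) hN (ρ := ρ0) ⟨h0'.1.le, h0'.2.le⟩
      rw [Fintype.card_fin] at hc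
      have hd' := l2_tiltF_le hp hpb (hΦ J le_rfl) (hu J le_rfl) hu1 q (ρ0 := ρ0)
        ⟨h0'.1.le, h0'.2⟩
      simp only [hSd, hwd, hrd] at ha hb' ⊢
      rw [hres, hK2]
      refine add_le_add (add_le_add (add_le_add (add_le_add ?_ ?_) ?_) le_rfl) ?_
      · exact mul_le_mul_of_nonneg_left ha (by norm_num)
      · exact mul_le_mul_of_nonneg_left hb' (by positivity)
      · exact mul_le_mul_of_nonneg_left hc (by positivity)
      · exact mul_le_mul_of_nonneg_left hd' (by positivity)) hv hvb hv1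
  exact key.trans (tilt_arith hd hE rfl rfl htd hG0 hζ0 hL (sdist_nonneg _ _) hD0 huq hε0 hε)

end

end Vale.Agent.P347
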