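import Vale.Agent.P347Zero.Tilt

/-!
P347: the Stein operator of a tilted law controls smooth Lipschitz tests. The Stein solution is
the truncated sum of the iterates of one explicit Langevin step; the step goes to zero at the end.
-/

open MeasureTheory ProbabilityTheory Real Set Filter
open scoped RealInnerProductSpace Topology

set_option maxSynthPendingDepth 3

namespace Vale.Agent.P347

variable {d : ℕ}

namespace TiltAux

noncomputable section

variable {δ r0 : ℝ} {R : E d → ℝ} {g : E d → E d}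

/-- Two bounded derivatives, the second one Lipschitz. -/
structure B2 (u : E d → ℝ) (a b c : ℝ) : Prop where
  diff : Differentiable ℝ u
  diff2 : Differentiable ℝ (fderiv ℝ u)
  d1 : ∀ x, ‖fderiv ℝ u x‖ ≤ a
  d2 : ∀ x, ‖fderiv ℝ (fderiv ℝ u) x‖ ≤ b
  d3 : ∀ x y, ‖fderiv ℝ (fderiv ℝ u) x - fderiv ℝ (fderiv ℝ u) y‖ ≤ c * ‖x - y‖

/-- The Stein operator of the tilted law. -/
def stein (g : E d → E d) (f : E d → ℝ) (x : E d) : ℝ :=
  (∑ i, fderiv ℝ (fderiv ℝ f) x (EuclideanSpace.single i 1) (EuclideanSpace.single i 1))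
    - fderiv ℝ f x (x + g x)

lemma lip_of_fderiv {G : Type*} [NormedAddCommGroup G] [NormedSpace ℝ G] {F : E d → G} {C : ℝ}
    (hF : Differentiable ℝ F) (hC : ∀ x, ‖fderiv ℝ F x‖ ≤ C) (x y : E d) :
    ‖F x - F y‖ ≤ C * ‖x - y‖ :=
  Convex.norm_image_sub_le_of_norm_fderiv_le (𝕜 := ℝ) (fun z _ => hF z) (fun z _ => hC z)
    convex_univ (mem_univ y) (mem_univ x)

lemma abs_form_le {L : E d →L[ℝ] E d →L[ℝ] ℝ} {b x y : ℝ} (hL : ‖L‖ ≤ b) {v w : E d}
    (hv : ‖v‖ ≤ x) (hw : ‖w‖ ≤ y) : |L v w| ≤ b * x * y :=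
  (L.le_opNorm₂ v w).trans (mul_le_mul (mul_le_mul hL hv (norm_nonneg _)
    ((norm_nonneg L).trans hL)) hw (norm_nonneg _)
    (mul_nonneg ((norm_nonneg L).trans hL) ((norm_nonneg v).trans hv)))

/-- Telescoping of the second derivative of a composition. -/
lemma form_lip {P P' : E d →L[ℝ] ℝ} {A A' : E d →L[ℝ] E d →L[ℝ] ℝ} {M M' : E d →L[ℝ] E d}
    {N N' : E d →L[ℝ] E d →L[ℝ] E d} {p a n q r b m ρ : ℝ} (hP : ‖P - P'‖ ≤ p) (hP' : ‖P'‖ ≤ a)
    (hN : ‖N‖ ≤ n) (hN' : ‖N - N'‖ ≤ q) (hA : ‖A - A'‖ ≤ r) (hA' : ‖A'‖ ≤ b)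
    (hM : ‖M - M'‖ ≤ m) (hMn : ‖M‖ ≤ ρ) (hMn' : ‖M'‖ ≤ ρ) (v w : E d) :
    |P (N v w) + A (M v) (M w) - (P' (N' v w) + A' (M' v) (M' w))|
      ≤ (p * n + a * q + r * ρ * ρ + 2 * (b * m * ρ)) * ‖v‖ * ‖w‖ := by
  have e : P (N v w) + A (M v) (M w) - (P' (N' v w) + A' (M' v) (M' w))
      = (P - P') (N v w) + P' ((N - N') v w) + (A - A') (M v) (M w) + A' ((M - M') v) (M w)
        + A' (M' v) ((M - M') w) := by
    simp only [sub_apply, map_sub]
    ring
  rw [e]
  have t1 : |(P - P') (N v w)| ≤ p * (n * ‖v‖ * ‖w‖) :=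
    ((P - P').le_opNorm _).trans (mul_le_mul hP ((N.le_opNorm₂ v w).trans (by gcongr))
      (norm_nonneg _) ((norm_nonneg _).trans hP))
  have t2 : |P' ((N - N') v w)| ≤ a * (q * ‖v‖ * ‖w‖) :=
    (P'.le_opNorm _).trans (mul_le_mul hP' (((N - N').le_opNorm₂ v w).trans (by gcongr))
      (norm_nonneg _) ((norm_nonneg _).trans hP'))
  have mz : ∀ x, ‖M x‖ ≤ ρ * ‖x‖ := fun x => (M.le_opNorm x).trans (by gcongr)
  have my : ∀ x, ‖M' x‖ ≤ ρ * ‖x‖ := fun x => (M'.le_opNorm x).trans (by gcongr)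
  have md : ∀ x, ‖(M - M') x‖ ≤ m * ‖x‖ := fun x => ((M - M').le_opNorm x).trans (by gcongr)
  have t3 := abs_form_le hA (mz v) (mz w)
  have t4 := abs_form_le hA' (md v) (mz w)
  have t5 := abs_form_le hA' (my v) (md w)
  refine (abs_add_le _ _).trans ((add_le_add ((abs_add_le _ _).trans (add_le_add ((abs_add_le _ _).trans
    (add_le_add ((abs_add_le _ _).trans (add_le_add t1 t2)) t3)) t4)) t5).trans (le_of_eq ?_))
  ring

namespace B2

variable {u u' : E d → ℝ} {a b c a' b' c' : ℝ}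

lemma a_nonneg (h : B2 u a b c) : 0 ≤ a := (norm_nonneg _).trans (h.d1 0)

lemma b_nonneg (h : B2 u a b c) : 0 ≤ b := (norm_nonneg (fderiv ℝ (fderiv ℝ u) 0)).trans (h.d2 0)

lemma continuous_d2 (h : B2 u a b c) : Continuous (fderiv ℝ (fderiv ℝ u)) :=
  (LipschitzWith.of_dist_le' (K := c) fun x y => by
    simpa [dist_eq_norm] using h.d3 x y).continuous

lemma smooth (h : B2 u a b c) : ContDiff ℝ 2 u := by
  rw [show (2 : WithTop ℕ∞) = 1 + 1 from rfl, contDiff_succ_iff_fderiv]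
  refine ⟨h.diff, by simp, ?_⟩
  rw [contDiff_one_iff_fderiv]
  exact ⟨h.diff2, h.continuous_d2⟩

lemma mono (h : B2 u a b c) (ha : a ≤ a') (hb : b ≤ b') (hc : c ≤ c') : B2 u a' b' c' :=
  ⟨h.diff, h.diff2, fun x => (h.d1 x).trans ha, fun x => (h.d2 x).trans hb,
    fun x y => (h.d3 x y).trans (mul_le_mul_of_nonneg_right hc (norm_nonneg _))⟩

lemma zero : B2 (fun _ : E d => (0 : ℝ)) 0 0 0 := by
  refine ⟨differentiable_const _, ?_, fun x => by simp, fun x => ?_, fun x y => ?_⟩ <;> simp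

lemma fderiv_comb (h : B2 u a b c) (h' : B2 u' a' b' c') (t : ℝ) (x : E d) :
    fderiv ℝ (fun x => u x + t * u' x) x = fderiv ℝ u x + t • fderiv ℝ u' x :=
  ((h.diff x).hasFDerivAt.add ((h'.diff x).hasFDerivAt.const_mul t)).fderiv

lemma fderiv2_comb (h : B2 u a b c) (h' : B2 u' a' b' c') (t : ℝ) (x : E d) :
    fderiv ℝ (fderiv ℝ fun x => u x + t * u' x) x
      = fderiv ℝ (fderiv ℝ u) x + t • fderiv ℝ (fderiv ℝ u') x := by
  rw [show fderiv ℝ (fun x => u x + t * u' x) = fun x => fderiv ℝ u x + t • fderiv ℝ u' x from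
    funext (h.fderiv_comb h' t)]
  exact ((h.diff2 x).hasFDerivAt.add ((h'.diff2 x).hasFDerivAt.const_smul t)).fderiv

lemma comb (h : B2 u a b c) (h' : B2 u' a' b' c') {t : ℝ} (ht : 0 ≤ t) :
    B2 (fun x => u x + t * u' x) (a + t * a') (b + t * b') (c + t * c') := by
  refine ⟨h.diff.add (h'.diff.const_mul t), ?_, fun x => ?_, fun x => ?_, fun x y => ?_⟩
  · rw [show fderiv ℝ (fun x => u x + t * u' x) = fun x => fderiv ℝ u x + t • fderiv ℝ u' x from
      funext (h.fderiv_comb h' t)]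
    exact h.diff2.add (h'.diff2.const_smul t)
  · rw [h.fderiv_comb h']
    refine (norm_add_le _ _).trans (add_le_add (h.d1 x) ?_)
    rw [norm_smul, norm_eq_abs, abs_of_nonneg ht]
    exact mul_le_mul_of_nonneg_left (h'.d1 x) ht
  · rw [h.fderiv2_comb h']
    refine (norm_add_le _ _).trans (add_le_add (h.d2 x) ?_)
    rw [norm_smul, norm_eq_abs, abs_of_nonneg ht]
    exact mul_le_mul_of_nonneg_left (h'.d2 x) ht
  · rw [h.fderiv2_comb h', h.fderiv2_comb h', add_sub_add_comm, ← smul_sub, add_mul]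
    refine (norm_add_le _ _).trans (add_le_add (h.d3 x y) ?_)
    rw [norm_smul, norm_eq_abs, abs_of_nonneg ht, mul_assoc]
    exact mul_le_mul_of_nonneg_left (h'.d3 x y) ht

lemma stein_comb (h : B2 u a b c) (h' : B2 u' a' b' c') (t : ℝ) (x : E d) :
    stein g (fun x => u x + t * u' x) x = stein g u x + t * stein g u' x := by
  simp only [stein, h.fderiv_comb h', h.fderiv2_comb h', add_apply, smul_apply, smul_eq_mul,
    Finset.sum_add_distrib, ← Finset.mul_sum]
  ring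

/-- The second order Taylor estimate. -/
lemma taylor_two (h : B2 u a b c) (y v : E d) :
    |u (y + v) - u y - fderiv ℝ u y v| ≤ b * ‖v‖ ^ 2 := by
  have hs := (convex_closedBall y ‖v‖).norm_image_sub_le_of_norm_fderiv_le' (𝕜 := ℝ) (f := u)
    (φ := fderiv ℝ u y) (C := b * ‖v‖) (fun x _ => h.diff x) (fun x hx => ?_)
    (Metric.mem_closedBall_self (norm_nonneg v))
    (show y + v ∈ Metric.closedBall y ‖v‖ by simp)
  · rw [add_sub_cancel_left] at hs
    rw [sq, ← mul_assoc]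
    exact hs
  · rw [Metric.mem_closedBall, dist_eq_norm] at hx
    exact (lip_of_fderiv h.diff2 h.d2 x y).trans (mul_le_mul_of_nonneg_left hx h.b_nonneg)

/-- The third order Taylor estimate. -/
lemma taylor_three (h : B2 u a b c) (hc : 0 ≤ c) (y v : E d) :
    |u (y + v) - u y - fderiv ℝ u y v - fderiv ℝ (fderiv ℝ u) y v v / 2| ≤ c * ‖v‖ ^ 3 := by
  set H := fderiv ℝ (fderiv ℝ u) y
  have h2 : ∀ w : E d, ‖fderiv ℝ u (y + w) - fderiv ℝ u y - H w‖ ≤ c * ‖w‖ ^ 2 := fun w => by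
    have hs := (convex_closedBall y ‖w‖).norm_image_sub_le_of_norm_fderiv_le' (𝕜 := ℝ)
      (f := fderiv ℝ u) (φ := H) (C := c * ‖w‖) (fun x _ => h.diff2 x) (fun x hx => ?_)
      (Metric.mem_closedBall_self (norm_nonneg w))
      (show y + w ∈ Metric.closedBall y ‖w‖ by simp)
    · rw [add_sub_cancel_left] at hs
      rw [sq, ← mul_assoc]
      exact hs
    · rw [Metric.mem_closedBall, dist_eq_norm] at hx
      exact (h.d3 x y).trans (mul_le_mul_of_nonneg_left hx hc)
  set F : ℝ → ℝ := fun s => u (y + s • v) - s * fderiv ℝ u y v - s ^ 2 * (H v v / 2)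
  have hd : ∀ s, HasDerivAt F
      (fderiv ℝ u (y + s • v) v - fderiv ℝ u y v - s * H v v) s := fun s => by
    have e1 : HasDerivAt (fun s : ℝ => y + s • v) v s := by
      simpa using ((hasDerivAt_id s).smul_const v).const_add y
    refine (((h.diff _).hasFDerivAt.comp_hasDerivAt s e1).sub
      ((hasDerivAt_id s).mul_const _)).sub ((hasDerivAt_pow 2 s).mul_const _) |>.congr_deriv ?_
    simp
    ring
  have := norm_image_sub_le_of_norm_deriv_le_segment_01' (f := F)
    (fun s _ => (hd s).hasDerivWithinAt) (C := c * ‖v‖ ^ 3) fun s hs => by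
    have h3 := h2 (s • v)
    have e : fderiv ℝ u (y + s • v) v - fderiv ℝ u y v - s * H v v
        = (fderiv ℝ u (y + s • v) - fderiv ℝ u y - H (s • v)) v := by
      simp
    rw [e]
    refine (ContinuousLinearMap.le_opNorm _ _).trans ?_
    rw [show c * ‖v‖ ^ 3 = c * ‖v‖ ^ 2 * ‖v‖ by ring]
    refine mul_le_mul_of_nonneg_right (h3.trans (mul_le_mul_of_nonneg_left ?_ hc)) (norm_nonneg _)
    rw [norm_smul, norm_eq_abs, abs_of_nonneg hs.1]
    exact pow_le_pow_left₀ (mul_nonneg hs.1 (norm_nonneg _))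
      (mul_le_of_le_one_left (norm_nonneg _) hs.2.le) 2
  simp only [F, one_smul, one_mul, one_pow, zero_smul, add_zero, zero_mul, sub_zero, norm_eq_abs,
    ne_eq, OfNat.ofNat_ne_zero, not_false_eq_true, zero_pow] at this
  convert this using 2
  ring

/-- Smoothing at small variance is a Laplacian up to the third order. -/
lemma psm_expand (h : B2 u a b c) (hc : 0 ≤ c) {τ : ℝ} (hτ : 0 ≤ τ) (y : E d) :
    |Psm (2 * τ) u y - u y
        - τ * ∑ i, fderiv ℝ (fderiv ℝ u) y (EuclideanSpace.single i 1) (EuclideanSpace.single i 1)|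
      ≤ 4 * c * (∫ w, ‖w‖ ^ 3 ∂gau (Fin d)) * (τ * √τ) := by
  classical
  set H := fderiv ℝ (fderiv ℝ u) y
  set e : Fin d → E d := fun i => EuclideanSpace.single i 1
  set p : Fin d → Fin d → E d → ℝ := fun i j w => H (e i) (e j) * (⟪w, e i⟫ * ⟪w, e j⟫)
  have he : ∀ i, ‖e i‖ = 1 := fun i => by simp [e]
  have hp : ∀ i j, Integrable (p i j) (gau (Fin d)) := fun i j =>
    (integrable_gau_of_poly (by fun_prop) 1 2 fun w => by
      rw [norm_mul, one_mul, sq]
      refine mul_le_mul ?_ ?_ (norm_nonneg _) (by positivity) <;>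
        refine (norm_inner_le_norm _ _).trans ?_ <;> rw [he, mul_one] <;> linarith).const_mul _
  have hq : ∀ w, H w w = ∑ i, ∑ j, p i j w := fun w => by
    conv_lhs => rw [← (EuclideanSpace.basisFun (Fin d) ℝ).sum_repr' w]
    simp only [map_sum, map_smul, sum_apply, smul_apply, smul_eq_mul, Finset.mul_sum,
      EuclideanSpace.basisFun_apply, p, e, real_inner_comm w]
    rw [Finset.sum_comm]
    exact Finset.sum_congr rfl fun i _ => Finset.sum_congr rfl fun j _ => by ring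
  have hHi : Integrable (fun w => H w w) (gau (Fin d)) := by
    simp only [hq]
    exact integrable_finsetSum _ fun i _ => integrable_finsetSum _ fun j _ => hp i j
  have e2 : ∫ w, H w w ∂gau (Fin d) = ∑ i, H (e i) (e i) := by
    simp only [hq]
    rw [integral_finsetSum _ fun i _ => integrable_finsetSum _ fun j _ => hp i j]
    refine Finset.sum_congr rfl fun i _ => ?_
    rw [integral_finsetSum _ fun j _ => hp i j]
    simp [p, e, integral_const_mul, integral_gau_inner_mul, EuclideanSpace.inner_single_left]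
  set ℓ := (InnerProductSpace.toDual ℝ (E d)).symm (fderiv ℝ u y) with hℓ
  have hl : ∀ w, fderiv ℝ u y w = ⟪w, ℓ⟫ := fun w => by
    rw [real_inner_comm, hℓ, InnerProductSpace.toDual_symm_apply]
  set s := √(2 * τ)
  have hs : s * s = 2 * τ := Real.mul_self_sqrt (by linarith)
  have il : Integrable (fun w => ⟪w, ℓ⟫) (gau (Fin d)) :=
    integrable_gau_of_poly (by fun_prop) ‖ℓ‖ 1 fun w => by
      rw [pow_one]
      exact (norm_inner_le_norm _ _).trans (by nlinarith [norm_nonneg w, norm_nonneg ℓ])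
  have iu : Integrable (fun w => u (y + s • w)) (gau (Fin d)) :=
    integrable_gau_of_poly (h.diff.continuous.comp (by fun_prop)) (|u y| + a * s) 1 fun w => by
      have h1 := lip_of_fderiv h.diff h.d1 (y + s • w) y
      rw [add_sub_cancel_left, norm_smul, norm_eq_abs, norm_eq_abs,
        abs_of_nonneg (sqrt_nonneg _)] at h1
      rw [pow_one, norm_eq_abs]
      nlinarith [abs_sub_abs_le_abs_sub (u (y + s • w)) (u y), norm_nonneg w, abs_nonneg (u y),
        mul_nonneg h.a_nonneg (sqrt_nonneg (2 * τ))]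
  have i3 : Integrable (fun w : E d => ‖w‖ ^ 3) (gau (Fin d)) :=
    integrable_gau_of_poly (by fun_prop) 1 3 fun w => by
      rw [norm_pow, norm_norm, one_mul]
      exact pow_le_pow_left₀ (norm_nonneg _) (by linarith) 3
  have j1 : Integrable (fun w => u (y + s • w) - u y) (gau (Fin d)) := iu.sub' (integrable_const _)
  have j2 : Integrable (fun w => u (y + s • w) - u y - s * ⟪w, ℓ⟫) (gau (Fin d)) :=
    j1.sub' (il.const_mul s)
  have key : Psm (2 * τ) u y - u y - τ * ∑ i, H (e i) (e i)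
      = ∫ w, (u (y + s • w) - u y - s * ⟪w, ℓ⟫ - τ * H w w) ∂gau (Fin d) := by
    rw [integral_sub j2 (hHi.const_mul τ), integral_sub j1 (il.const_mul s),
      integral_sub iu (integrable_const _), integral_const_mul, integral_const_mul,
      integral_gau_inner, e2, integral_const, probReal_univ, one_smul]
    simp [Psm, s]
  rw [key, ← norm_eq_abs]
  refine (norm_integral_le_of_norm_le (i3.const_mul (4 * c * (τ * √τ)))
    (ae_of_all _ fun w => ?_)).trans_eq (by rw [integral_const_mul]; ring)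
  have h1 := h.taylor_three hc y (s • w)
  simp only [map_smul, smul_apply, smul_eq_mul] at h1
  rw [← mul_assoc s s, hs, hl] at h1
  rw [norm_eq_abs]
  refine le_trans (le_of_eq ?_) (h1.trans ?_)
  · congr 1
    ring
  · rw [norm_smul, norm_eq_abs, abs_of_nonneg (sqrt_nonneg _), mul_pow, mul_comm (4 * c),
      ← mul_assoc c]
    refine mul_le_mul_of_nonneg_right ?_ (by positivity)
    have h5 : s ≤ 2 * √τ := by
      rw [sqrt_le_iff]
      exact ⟨by positivity, by rw [mul_pow, sq_sqrt hτ]; linarith⟩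
    have h6 : s ^ 3 ≤ 4 * (τ * √τ) := by
      rw [pow_succ, sq, hs]
      nlinarith [mul_le_mul_of_nonneg_left h5 (show 0 ≤ 2 * τ by linarith)]
    nlinarith [mul_le_mul_of_nonneg_left h6 hc]

/-- One explicit step is the Stein operator to first order. -/
lemma op_expand (h : B2 u a b c) (hc : 0 ≤ c) {τ : ℝ} (hτ : 0 ≤ τ) (hτ1 : τ ≤ 1) (z : E d) :
    |op g τ u z - u z - τ * stein g u z| ≤ τ * √τ *
      (b * ‖z + g z‖ ^ 2 + c * (d * ‖z + g z‖ + 4 * ∫ w, ‖w‖ ^ 3 ∂gau (Fin d))) := by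
  set q := z + g z
  set y := stp g τ z
  have hy : y = z + (-τ) • q := by simp only [y, stp, q]; module
  have h1 := h.taylor_two z ((-τ) • q)
  rw [← hy, map_smul, smul_eq_mul, norm_smul, norm_eq_abs, abs_neg, abs_of_nonneg hτ] at h1
  have h2 := h.psm_expand hc hτ y
  have h3 : |∑ i, fderiv ℝ (fderiv ℝ u) y (EuclideanSpace.single i 1) (EuclideanSpace.single i 1)
      - ∑ i, fderiv ℝ (fderiv ℝ u) z (EuclideanSpace.single i 1) (EuclideanSpace.single i 1)|
      ≤ d * (c * (τ * ‖q‖)) := by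
    rw [← Finset.sum_sub_distrib]
    refine (Finset.abs_sum_le_sum_abs _ _).trans
      ((Finset.sum_le_card_nsmul _ _ (c * (τ * ‖q‖)) fun i _ => ?_).trans_eq (by simp))
    rw [← sub_apply, ← sub_apply]
    refine (abs_form_le (x := 1) (y := 1) ((h.d3 y z).trans (le_of_eq ?_)) (by simp)
      (by simp)).trans_eq (by rw [mul_one, mul_one])
    rw [hy, add_sub_cancel_left, norm_smul, norm_eq_abs, abs_neg, abs_of_nonneg hτ]
  set l1 := ∑ i, fderiv ℝ (fderiv ℝ u) y (EuclideanSpace.single i 1) (EuclideanSpace.single i 1)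
  set l2 := ∑ i, fderiv ℝ (fderiv ℝ u) z (EuclideanSpace.single i 1) (EuclideanSpace.single i 1)
  have e : op g τ u z - u z - τ * stein g u z = (Psm (2 * τ) u y - u y - τ * l1)
      + (u y - u z - -τ * fderiv ℝ u z q) + τ * (l1 - l2) := by
    simp only [op, stein, y, q, l2]
    ring
  rw [e]
  refine (abs_add_le _ _).trans ((add_le_add ((abs_add_le _ _).trans (add_le_add h2 h1))
    (le_of_eq (abs_mul _ _))).trans ?_)
  rw [abs_of_nonneg hτ]
  have h4 := mul_le_mul_of_nonneg_left h3 hτ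
  have h5 : τ * τ ≤ τ * √τ := mul_le_mul_of_nonneg_left
    (le_sqrt_of_sq_le (by nlinarith)) hτ
  have h6 : 0 ≤ b * ‖q‖ ^ 2 + (d : ℝ) * (c * ‖q‖) := by
    have := h.b_nonneg; positivity
  nlinarith [mul_le_mul_of_nonneg_right h5 h6]

end B2

section step

variable (hP : Pot d δ r0 R g) (hg : ContDiff ℝ 2 g) {L2 L3 : ℝ}
  (hL2 : ∀ x, ‖fderiv ℝ (fderiv ℝ g) x‖ ≤ L2)
  (hL3 : ∀ x y, ‖fderiv ℝ (fderiv ℝ g) x - fderiv ℝ (fderiv ℝ g) y‖ ≤ L3 * ‖x - y‖)
  (hL3' : 0 ≤ L3) {τ : ℝ} (hτ : 0 < τ) (hτ1 : τ ≤ 1 / 2)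

include hP hg hL2 hL3 hL3' hτ hτ1

lemma b2_op {u : E d → ℝ} {a b c : ℝ} (h : B2 u a b c) (hc : 0 ≤ c) :
    B2 (op g τ u) (rate δ τ * a) (rate δ τ ^ 2 * b + τ * L2 * a)
      (rate δ τ * c + τ * (3 * b * L2 + a * L3)) := by
  obtain ⟨h0, hρ1, -, -⟩ := rate_bounds hP hτ hτ1
  set ρ := rate δ τ
  have hL20 : 0 ≤ L2 := (norm_nonneg (fderiv ℝ (fderiv ℝ g) 0)).trans (hL2 0)
  have hg1 : Differentiable ℝ (fderiv ℝ g) :=
    (hg.fderiv_right (m := 1) le_rfl).differentiable one_ne_zero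
  set M : E d → E d →L[ℝ] E d := fun z =>
    ContinuousLinearMap.id ℝ (E d) - τ • (ContinuousLinearMap.id ℝ (E d) + fderiv ℝ g z)
  set N : E d → E d →L[ℝ] E d →L[ℝ] E d := fun z => -(τ • fderiv ℝ (fderiv ℝ g) z)
  set T := stp g τ
  set P1 : E d → E d →L[ℝ] ℝ := fun y => Psm (2 * τ) (fderiv ℝ u) y
  set A : E d → E d →L[ℝ] E d →L[ℝ] ℝ := fun y => Psm (2 * τ) (fderiv ℝ (fderiv ℝ u)) y
  have hT : ∀ z, HasFDerivAt T (M z) z ∧ ‖M z‖ ≤ ρ := hasFDerivAt_stp hP hτ hτ1
  have hM : ∀ z, HasFDerivAt M (N z) z := fun z =>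
    (((hg1 z).hasFDerivAt.const_add _).const_smul τ).const_sub _
  have hd1 : ∀ z, HasFDerivAt (op g τ u) ((P1 (T z)).comp (M z)) z := fun z =>
    (hasFDerivAt_Psm_comm h.diff h.d1 _).comp z (hT z).1
  have hP1 : ∀ z, HasFDerivAt (fun z => P1 (T z)) ((A (T z)).comp (M z)) z := fun z =>
    (hasFDerivAt_Psm_comm h.diff2 h.d2 _).comp z (hT z).1
  have e1 : fderiv ℝ (op g τ u) = fun z => (P1 (T z)).comp (M z) := funext fun z => (hd1 z).fderiv
  set Q := fun z => ((ContinuousLinearMap.compL ℝ (E d) (E d) ℝ) (P1 (T z))).comp (N z)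
    + ((ContinuousLinearMap.compL ℝ (E d) (E d) ℝ).flip (M z)).comp ((A (T z)).comp (M z))
  have hd2 : ∀ z, HasFDerivAt (fderiv ℝ (op g τ u)) (Q z) z := fun z => by
    rw [e1]
    exact (hP1 z).clm_comp (hM z)
  have hQ : ∀ z v w, Q z v w = P1 (T z) (N z v w) + A (T z) (M z v) (M z w) := fun z v w => by
    simp [Q]
  have bP1 : ∀ y, ‖P1 y‖ ≤ a := fun y =>
    (norm_integral_le_of_norm_le_const (C := a) (ae_of_all _ fun x => h.d1 _)).trans_eq (by simp)
  have bA : ∀ y, ‖A y‖ ≤ b := fun y =>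
    (norm_integral_le_of_norm_le_const (C := b) (ae_of_all _ fun x => h.d2 _)).trans_eq (by simp)
  have bN : ∀ z, ‖N z‖ ≤ τ * L2 := fun z => by
    rw [norm_neg, norm_smul, norm_eq_abs, abs_of_pos hτ]
    exact mul_le_mul_of_nonneg_left (hL2 z) hτ.le
  refine ⟨fun z => (hd1 z).differentiableAt, fun z => (hd2 z).differentiableAt, fun z => ?_,
    fun z => ?_, fun z y => ?_⟩
  · rw [(hd1 z).fderiv, mul_comm ρ]
    exact (ContinuousLinearMap.opNorm_comp_le _ _).trans
      (mul_le_mul (bP1 _) (hT z).2 (norm_nonneg _) h.a_nonneg)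
  · rw [(hd2 z).fderiv]
    have hnn : 0 ≤ ρ ^ 2 * b + τ * L2 * a := by
      have := h.a_nonneg; have := h.b_nonneg; positivity
    refine ContinuousLinearMap.opNorm_le_bound₂ _ hnn fun v w => ?_
    rw [hQ]
    refine (norm_add_le _ _).trans ?_
    have t1 : ‖P1 (T z) (N z v w)‖ ≤ a * (τ * L2 * ‖v‖ * ‖w‖) :=
      ((P1 (T z)).le_opNorm _).trans (mul_le_mul (bP1 _) (((N z).le_opNorm₂ v w).trans
        (by gcongr; exact bN z)) (norm_nonneg _) h.a_nonneg)
    have t2 : ‖A (T z) (M z v) (M z w)‖ ≤ b * (ρ * ‖v‖) * (ρ * ‖w‖) :=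
      abs_form_le (bA _) (((M z).le_opNorm v).trans (by gcongr; exact (hT z).2))
        (((M z).le_opNorm w).trans (by gcongr; exact (hT z).2))
    linarith
  · rw [(hd2 z).fderiv, (hd2 y).fderiv]
    set D := ‖z - y‖
    have hnn : 0 ≤ (ρ * c + τ * (3 * b * L2 + a * L3)) * D := by
      have := h.a_nonneg; have := h.b_nonneg; positivity
    refine ContinuousLinearMap.opNorm_le_bound₂ _ hnn fun v w => ?_
    have dT : ‖T z - T y‖ ≤ ρ * D :=
      lip_of_fderiv (fun x => (hT x).1.differentiableAt) (fun x => by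
        rw [(hT x).1.fderiv]; exact (hT x).2) z y
    have dP : ‖P1 (T z) - P1 (T y)‖ ≤ b * (ρ * D) := by
      refine (lip_of_fderiv (F := P1)
        (fun x => (hasFDerivAt_Psm_comm h.diff2 h.d2 x).differentiableAt) (fun x => ?_) _ _).trans
        (mul_le_mul_of_nonneg_left dT h.b_nonneg)
      rw [(hasFDerivAt_Psm_comm h.diff2 h.d2 x).fderiv]
      exact bA x
    have dA : ‖A (T z) - A (T y)‖ ≤ c * (ρ * D) := by
      have hi : ∀ p, Integrable (fun w => fderiv ℝ (fderiv ℝ u) (p + √(2 * τ) • w)) (gau (Fin d)) :=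
        fun p => Integrable.of_bound
          (h.continuous_d2.comp (by fun_prop)).aestronglyMeasurable b (ae_of_all _ fun w => h.d2 _)
      simp only [A, Psm]
      rw [← integral_sub (hi _) (hi _)]
      refine (norm_integral_le_of_norm_le_const (C := c * (ρ * D)) (ae_of_all _ fun w => ?_)).trans_eq
        (by simp)
      refine (h.d3 _ _).trans (mul_le_mul_of_nonneg_left ?_ hc)
      rwa [add_sub_add_right_eq_sub]
    have dM : ‖M z - M y‖ ≤ τ * L2 * D :=
      lip_of_fderiv (fun x => (hM x).differentiableAt) (fun x => by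
        rw [(hM x).fderiv]; exact bN x) z y
    have dN : ‖N z - N y‖ ≤ τ * L3 * D := by
      simp only [N]
      rw [neg_sub_neg, ← smul_sub, norm_smul, norm_eq_abs, abs_of_pos hτ, mul_assoc, norm_sub_rev]
      exact mul_le_mul_of_nonneg_left (hL3 z y) hτ.le
    rw [sub_apply, sub_apply, hQ, hQ, norm_eq_abs]
    refine (form_lip dP (bP1 _) (bN z) dN dA (bA _) dM (hT z).2 (hT y).2 v w).trans ?_
    have hvw : 0 ≤ D * ‖v‖ * ‖w‖ := by positivity
    have q1 := mul_le_mul_of_nonneg_right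
      (mul_le_mul_of_nonneg_left (mul_le_one₀ hρ1 h0 hρ1) (mul_nonneg hc h0)) hvw
    have q2 := mul_le_mul_of_nonneg_right (mul_le_mul_of_nonneg_left hρ1
      (show 0 ≤ 3 * b * (τ * L2) by have := h.b_nonneg; positivity)) hvw
    linarith

/-- The iterates and their partial sums. -/
lemma b2_iter {v : E d → ℝ} {K L : ℝ} (hv : B2 v 1 K L) (hL : 0 ≤ L) :
    ∀ n, ∃ (f : E d → ℝ) (β : ℝ),
      B2 ((op g τ)^[n] v) (rate δ τ ^ n) β (L + 2 * (3 * (K + 2 * L2) * L2 + L3)) ∧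
      B2 f (2 * (1 - rate δ τ ^ n)) (K + 2 * L2 - β - 2 * L2 * rate δ τ ^ n)
        (n * τ * (L + 2 * (3 * (K + 2 * L2) * L2 + L3))) ∧
      ∀ z, |(op g τ)^[n] v z - v z - stein g f z| ≤ n * (τ * √τ) *
        ((K + 2 * L2) * ‖z + g z‖ ^ 2 + (L + 2 * (3 * (K + 2 * L2) * L2 + L3))
          * (d * ‖z + g z‖ + 4 * ∫ w, ‖w‖ ^ 3 ∂gau (Fin d))) := by
  have hK := hv.b_nonneg
  have hL20 : 0 ≤ L2 := (norm_nonneg (fderiv ℝ (fderiv ℝ g) 0)).trans (hL2 0)
  set C0 := 3 * (K + 2 * L2) * L2 + L3 with hC0def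
  have hC0 : 0 ≤ C0 := by positivity
  intro n
  induction n with
  | zero =>
    refine ⟨fun _ => 0, K, ?_, ?_, fun z => ?_⟩
    · simpa using hv.mono le_rfl le_rfl (show L ≤ L + 2 * C0 by linarith)
    · refine B2.zero.mono ?_ ?_ ?_ <;> simp
    · simp [stein]
  | succ n ih =>
    obtain ⟨f, β, hu, hf, herr⟩ := ih
    obtain ⟨h0, h1, h2, h3⟩ := rate_bounds hP hτ hτ1
    set ρ := rate δ τ
    set C := L + 2 * C0 with hC
    have hC' : 0 ≤ C := by positivity
    have hρn : 0 ≤ ρ ^ n := pow_nonneg h0 n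
    have hρn1 : ρ ^ n ≤ 1 := pow_le_one₀ h0 h1
    have hβ : β ≤ K + 2 * L2 := by
      have := hf.b_nonneg
      have := mul_nonneg hL20 hρn
      linarith
    refine ⟨fun x => f x + τ * (op g τ)^[n] v x, ρ ^ 2 * β + τ * L2 * ρ ^ n, ?_, ?_, fun z => ?_⟩
    · rw [Function.iterate_succ_apply', pow_succ']
      refine (b2_op hP hg hL2 hL3 hL3' hτ hτ1 hu hC').mono le_rfl le_rfl ?_
      have e1 : 3 * β * L2 + ρ ^ n * L3 ≤ C0 := by
        rw [hC0def]
        nlinarith [mul_le_mul_of_nonneg_right hβ hL20, mul_le_mul_of_nonneg_right hρn1 hL3']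
      have e2 := mul_le_mul_of_nonneg_left e1 hτ.le
      have e3 : τ * C0 ≤ (1 - ρ) * C := by
        rw [hC]
        nlinarith [mul_le_mul_of_nonneg_right h3 hC0, mul_nonneg (sub_nonneg.2 h1) hL]
      linarith
    · refine (hf.comb hu hτ.le).mono ?_ ?_ (le_of_eq (by push_cast; ring))
      · rw [pow_succ ρ n]
        nlinarith [mul_le_mul_of_nonneg_right h3 hρn]
      · have e1 := mul_le_mul_of_nonneg_right h2 hu.b_nonneg
        have e2 := mul_le_mul_of_nonneg_right h3 (mul_nonneg hL20 hρn)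
        rw [pow_succ ρ n]
        linarith
    · rw [hf.stein_comb hu, Function.iterate_succ_apply']
      have e := hu.op_expand (g := g) hC' hτ.le (hτ1.trans (by norm_num)) z
      have e' : τ * √τ * (β * ‖z + g z‖ ^ 2) ≤ τ * √τ * ((K + 2 * L2) * ‖z + g z‖ ^ 2) :=
        mul_le_mul_of_nonneg_left (mul_le_mul_of_nonneg_right hβ (sq_nonneg _)) (by positivity)
      have := abs_add_le ((op g τ)^[n] v z - v z - stein g f z)
        (op g τ ((op g τ)^[n] v) z - (op g τ)^[n] v z - τ * stein g ((op g τ)^[n] v) z)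
      refine le_trans (le_of_eq (congrArg abs ?_)) (this.trans ?_)
      · ring
      · push_cast
        linarith [herr z]

end step

/-- The Stein operator has mean zero under the tilted law. -/
lemma integral_stein (hP : Pot d δ r0 R g) {f : E d → ℝ} {a b c : ℝ} (hf : B2 f a b c) :
    ∫ x, stein g f x ∂tilt R = 0 := by
  set e : Fin d → E d := fun i => EuclideanSpace.single i 1
  set φ : Fin d → E d → ℝ := fun i x => fderiv ℝ f x (e i)
  have he : ∀ i, ‖e i‖ = 1 := fun i => by simp [e]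
  have hd : ∀ i x, HasFDerivAt (φ i) ((ContinuousLinearMap.apply ℝ ℝ (e i)).comp
      (fderiv ℝ (fderiv ℝ f) x)) x := fun i x =>
    (ContinuousLinearMap.apply ℝ ℝ (e i)).hasFDerivAt.comp x (hf.diff2 x).hasFDerivAt
  have hφc : ∀ i, ContDiff ℝ 1 (φ i) := fun i =>
    (hf.smooth.fderiv_right (m := 1) le_rfl).clm_apply contDiff_const
  have hφb : ∀ i x, |φ i x| ≤ a := fun i x =>
    ((fderiv ℝ f x).le_opNorm _).trans (by rw [he, mul_one]; exact hf.d1 x)
  have hab : 0 ≤ a + b := add_nonneg hf.a_nonneg hf.b_nonneg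
  have hib := fun i => hP.ibp (hφc i) (a + b) 0
    (fun x => by simpa using (hφb i x).trans (le_add_of_nonneg_right hf.b_nonneg))
    (fun x => by
      rw [pow_zero, mul_one, (hd i x).fderiv]
      refine ContinuousLinearMap.opNorm_le_bound _ hab fun v => ?_
      exact (abs_form_le (hf.d2 x) le_rfl (he i).le).trans (by
        rw [mul_one]
        exact mul_le_mul_of_nonneg_right (le_add_of_nonneg_left hf.a_nonneg) (norm_nonneg v)))
    (e i)
  have hr := hP.r0_nonneg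
  have i1 : ∀ i, Integrable (fun x => ⟪x, e i⟫ * φ i x) (tilt R) := fun i =>
    hP.integrable_tilt (by have := (hφc i).continuous; fun_prop) a 1 fun x => by
      rw [norm_mul, pow_one, mul_comm a]
      refine mul_le_mul ((norm_inner_le_norm _ _).trans ?_) (hφb i x) (norm_nonneg _) (by positivity)
      rw [he, mul_one]; linarith [norm_nonneg x]
  have i2 : ∀ i, Integrable (fun x => φ i x * ⟪g x, e i⟫) (tilt R) := fun i =>
    hP.integrable_tilt (by have := (hφc i).continuous; have := hP.contg; fun_prop)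
      (a * (δ + r0)) 1 fun x => by
      rw [norm_mul, pow_one, mul_assoc]
      refine mul_le_mul (hφb i x) ((norm_inner_le_norm _ _).trans ?_) (norm_nonneg _) hf.a_nonneg
      rw [he, mul_one]
      nlinarith [hP.norm_le x, hP.pos, norm_nonneg x, mul_nonneg hr (norm_nonneg x)]
  have i3 : ∀ i, Integrable (fun x => fderiv ℝ (φ i) x (e i)) (tilt R) := fun i =>
    hP.integrable_tilt (((hφc i).continuous_fderiv one_ne_zero).clm_apply continuous_const) b 0
      fun x => by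
      rw [pow_zero, mul_one, (hd i x).fderiv]
      exact (abs_form_le (hf.d2 x) (he i).le (he i).le).trans_eq (by rw [mul_one, mul_one])
  have e1 : ∀ x, stein g f x
      = ∑ i, (fderiv ℝ (φ i) x (e i) - (⟪x, e i⟫ * φ i x + φ i x * ⟪g x, e i⟫)) := fun x => by
    have : fderiv ℝ f x (x + g x) = ∑ i, ⟪x + g x, e i⟫ * φ i x := by
      conv_lhs => rw [← (EuclideanSpace.basisFun (Fin d) ℝ).sum_repr' (x + g x)]
      simp [φ, e, map_sum, map_smul, real_inner_comm (x + g x), EuclideanSpace.basisFun_apply]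
    simp only [stein, this, (hd _ x).fderiv, ← Finset.sum_sub_distrib]
    refine Finset.sum_congr rfl fun i _ => ?_
    rw [inner_add_left]
    simp [e]
    ring
  simp only [e1]
  rw [integral_finsetSum _ fun i _ => (i3 i).sub' ((i1 i).fun_add (i2 i))]
  refine Finset.sum_eq_zero fun i _ => ?_
  rw [integral_sub (i3 i) ((i1 i).fun_add (i2 i)), integral_add (i1 i) (i2 i), hib i,
    integral_sub (i3 i) (i2 i)]
  ring

/-- The test mean is the value of the smoothed test at one point, up to the Stein error. -/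
lemma abs_mean_sub_le (hP : Pot d δ r0 R g) {Ω : Type} [MeasurableSpace Ω] {μ : Measure Ω}
    [IsProbabilityMeasure μ] {X : Ω → E d} (hX : Measurable X)
    (hXi : Integrable (fun w => ‖X w‖ ^ 2) μ) {v u f : E d → ℝ} {av bv cv au bu cu af bf cf : ℝ}
    (hv : B2 v av bv cv) (hu : B2 u au bu cu) (hf : B2 f af bf cf) {e η W : ℝ}
    (herr : ∀ z, |u z - v z - stein g f z| ≤ η * (W * (1 + ‖z‖ ^ 2)))
    (he : |∫ w, stein g f (X w) ∂μ| ≤ e) :
    |∫ w, v (X w) ∂μ - u 0|
      ≤ e + η * (W * (1 + ∫ w, ‖X w‖ ^ 2 ∂μ)) + au * (1 + ∫ w, ‖X w‖ ^ 2 ∂μ) := by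
  have iN : Integrable (fun w => 1 + ‖X w‖ ^ 2) μ := (integrable_const _).fun_add hXi
  have lin : ∀ {p : E d → ℝ} {a b c : ℝ}, B2 p a b c → Integrable (fun w => p (X w)) μ :=
    fun {p a b c} hp => (iN.const_mul (|p 0| + a)).mono'
      ((hp.diff.continuous.measurable.comp hX).aestronglyMeasurable) (ae_of_all _ fun w => by
      have h1 := lip_of_fderiv hp.diff hp.d1 (X w) 0
      rw [sub_zero, norm_eq_abs] at h1
      rw [norm_eq_abs]
      nlinarith [abs_sub_abs_le_abs_sub (p (X w)) (p 0), sq_nonneg (‖X w‖ - 1), hp.a_nonneg,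
        abs_nonneg (p 0), mul_nonneg (abs_nonneg (p 0)) (sq_nonneg ‖X w‖),
        mul_nonneg hp.a_nonneg (sq_nonneg (‖X w‖ - 1))])
  have iv := lin hv
  have iu := lin hu
  have iA : Integrable (fun w => stein g f (X w)) μ := by
    have hA : Continuous (stein g f) := by
      have := hf.continuous_d2
      have := hf.smooth.continuous_fderiv two_ne_zero
      have := hP.contg
      unfold stein
      fun_prop
    refine ((iu.norm.fun_add iv.norm).fun_add (iN.const_mul (η * W))).mono'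
      (hA.measurable.comp hX).aestronglyMeasurable (ae_of_all _ fun w => ?_)
    have := abs_le.1 (herr (X w))
    rw [norm_eq_abs, abs_le]
    simp only [norm_eq_abs, mul_assoc]
    constructor <;> linarith [le_abs_self (u (X w)), neg_abs_le (u (X w)), le_abs_self (v (X w)),
      neg_abs_le (v (X w))]
  have j1 : Integrable (fun w => u (X w) - v (X w)) μ := iu.sub' iv
  have j2 : Integrable (fun w => u (X w) - v (X w) - stein g f (X w)) μ := j1.sub' iA
  have h1 : |∫ w, (u (X w) - v (X w) - stein g f (X w)) ∂μ|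
      ≤ η * (W * (1 + ∫ w, ‖X w‖ ^ 2 ∂μ)) := by
    rw [← norm_eq_abs]
    refine (norm_integral_le_of_norm_le ((iN.const_mul W).const_mul η)
      (ae_of_all _ fun w => herr _)).trans_eq ?_
    rw [integral_const_mul, integral_const_mul, integral_add (integrable_const _) hXi,
      integral_const, probReal_univ, one_smul]
  have h2 : |∫ w, (u (X w) - u 0) ∂μ| ≤ au * (1 + ∫ w, ‖X w‖ ^ 2 ∂μ) := by
    rw [← norm_eq_abs]
    refine (norm_integral_le_of_norm_le (iN.const_mul au) (ae_of_all _ fun w => ?_)).trans_eq ?_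
    · refine (lip_of_fderiv hu.diff hu.d1 _ _).trans (mul_le_mul_of_nonneg_left ?_ hu.a_nonneg)
      rw [sub_zero]
      nlinarith [sq_nonneg (‖X w‖ - 1), norm_nonneg (X w)]
    · rw [integral_const_mul, integral_add (integrable_const _) hXi, integral_const,
        probReal_univ, one_smul]
  rw [integral_sub j1 iA, integral_sub iu iv] at h1
  rw [integral_sub iu (integrable_const _), integral_const, probReal_univ, one_smul] at h2
  rw [abs_le] at h1 h2 he ⊢
  constructor <;> linarith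

end

end TiltAux

open TiltAux in
/-- A bound on the Stein operator of a tilted law bounds the means of smooth Lipschitz tests. -/
theorem tilt_stein {δ r0 : ℝ} {R : E d → ℝ} {g : E d → E d} (h : Pot d δ r0 R g)
    (hg : ContDiff ℝ 2 g) {L2 L3 : ℝ} (hL2 : ∀ x, ‖fderiv ℝ (fderiv ℝ g) x‖ ≤ L2)
    (hL3 : ∀ x y, ‖fderiv ℝ (fderiv ℝ g) x - fderiv ℝ (fderiv ℝ g) y‖ ≤ L3 * ‖x - y‖)
    {Ω : Type} [MeasurableSpace Ω] (μ : Measure Ω) [IsProbabilityMeasure μ] (X : Ω → E d)
    (hX : Measurable X) (hXi : Integrable (fun w => ‖X w‖ ^ 2) μ) {e K : ℝ}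
    (he : ∀ f : E d → ℝ, ContDiff ℝ 2 f → (∀ x, ‖fderiv ℝ f x‖ ≤ 4) →
      (∀ x, ‖fderiv ℝ (fderiv ℝ f) x‖ ≤ 4 * K + 16 * L2) →
      |∫ w, ((∑ i, fderiv ℝ (fderiv ℝ f) (X w) (EuclideanSpace.single i 1)
          (EuclideanSpace.single i 1)) - fderiv ℝ f (X w) (X w + g (X w))) ∂μ| ≤ e)
    {v : E d → ℝ} (hv : ContDiff ℝ 2 v) {L : ℝ} (hv1 : ∀ x, ‖fderiv ℝ v x‖ ≤ 1)
    (hv2 : ∀ x, ‖fderiv ℝ (fderiv ℝ v) x‖ ≤ K)
    (hv3 : ∀ x y, ‖fderiv ℝ (fderiv ℝ v) x - fderiv ℝ (fderiv ℝ v) y‖ ≤ L * ‖x - y‖) :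
    |∫ w, v (X w) ∂μ - ∫ x, v x ∂tilt R| ≤ e := by
  have := h.isProb
  set L' := max L 0
  set L3' := max L3 0
  have hL3' : ∀ x y, ‖fderiv ℝ (fderiv ℝ g) x - fderiv ℝ (fderiv ℝ g) y‖ ≤ L3' * ‖x - y‖ :=
    fun x y => (hL3 x y).trans (mul_le_mul_of_nonneg_right (le_max_left _ _) (norm_nonneg _))
  have hB : B2 v 1 K L' := ⟨hv.differentiable two_ne_zero,
    (hv.fderiv_right (m := 1) le_rfl).differentiable one_ne_zero, hv1, hv2,
    fun x y => (hv3 x y).trans (mul_le_mul_of_nonneg_right (le_max_left _ _) (norm_nonneg _))⟩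
  have hK := hB.b_nonneg
  have hL20 : 0 ≤ L2 := (norm_nonneg (fderiv ℝ (fderiv ℝ g) 0)).trans (hL2 0)
  have hL' : 0 ≤ L' := le_max_right _ _
  have hL30 : 0 ≤ L3' := le_max_right _ _
  set C := L' + 2 * (3 * (K + 2 * L2) * L2 + L3')
  set M3 := ∫ w, ‖w‖ ^ 3 ∂gau (Fin d)
  have hM3 : 0 ≤ M3 := integral_nonneg fun w => by positivity
  have hC : 0 ≤ C := by positivity
  set W := 2 * (K + 2 * L2) * (2 + r0) ^ 2 + C * (2 * d * (2 + r0) + 4 * M3) with hW
  have hr := h.r0_nonneg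
  have hW0 : 0 ≤ W := by positivity
  have bound : ∀ z : E d, (K + 2 * L2) * ‖z + g z‖ ^ 2 + C * (d * ‖z + g z‖ + 4 * M3)
      ≤ W * (1 + ‖z‖ ^ 2) := fun z => by
    have q0 := Asm0.norm_drift_le h z
    have q1 : ‖z + g z‖ ^ 2 ≤ (2 + r0) ^ 2 * (2 * (1 + ‖z‖ ^ 2)) := by
      refine (pow_le_pow_left₀ (norm_nonneg _) q0 2).trans ?_
      rw [mul_pow]
      exact mul_le_mul_of_nonneg_left (by nlinarith [sq_nonneg (‖z‖ - 1)]) (sq_nonneg _)
    have q2 : ‖z + g z‖ ≤ (2 + r0) * (2 * (1 + ‖z‖ ^ 2)) :=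
      q0.trans (mul_le_mul_of_nonneg_left (by nlinarith [sq_nonneg (‖z‖ - 1), norm_nonneg z])
        (by linarith))
    have q3 : (d : ℝ) * ‖z + g z‖ + 4 * M3 ≤ (2 * d * (2 + r0) + 4 * M3) * (1 + ‖z‖ ^ 2) := by
      nlinarith [mul_le_mul_of_nonneg_left q2 (Nat.cast_nonneg (α := ℝ) d),
        mul_nonneg hM3 (sq_nonneg ‖z‖)]
    have q4 := mul_le_mul_of_nonneg_left q3 hC
    have q5 := mul_le_mul_of_nonneg_left q1 (show 0 ≤ K + 2 * L2 by positivity)
    rw [hW]
    linarith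
  have i2 : Integrable (fun x : E d => ‖x‖ ^ 2) (tilt R) :=
    h.integrable_tilt (by fun_prop) 1 2 fun x => by
      rw [norm_pow, norm_norm, one_mul]
      exact pow_le_pow_left₀ (norm_nonneg _) (by linarith) 2
  set Y := (1 + ∫ w, ‖X w‖ ^ 2 ∂μ) + (1 + ∫ x, ‖x‖ ^ 2 ∂tilt R)
  have hY : 0 ≤ Y := by positivity
  have key : ∀ m : ℕ, 2 ≤ m → |∫ w, v (X w) ∂μ - ∫ x, v x ∂tilt R|
      ≤ e + (W * Y * (1 / √(m : ℝ)) + 2 * Y * (1 / (m : ℝ))) := by
    intro m hm
    have hm2 : (2 : ℝ) ≤ m := by exact_mod_cast hm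
    have hm0 : (0 : ℝ) < m := by linarith
    set τ := 1 / (m : ℝ) ^ 3 with hτd
    have hτ : 0 < τ := by positivity
    have hτ1 : τ ≤ 1 / 2 :=
      one_div_le_one_div_of_le two_pos (hm2.trans (le_self_pow₀ (by linarith) (by norm_num)))
    set n := m ^ 4
    obtain ⟨h0, h1, -, h3⟩ := rate_bounds h hτ hτ1
    have hnτ : (n : ℝ) * τ = m := by simp only [n, hτd, Nat.cast_pow]; field_simp
    have hsm : √τ = 1 / ((m : ℝ) * √m) := by
      rw [hτd, sqrt_eq_iff_mul_self_eq (by positivity) (by positivity)]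
      field_simp
      rw [sq_sqrt hm0.le]
    have hη : (n : ℝ) * (τ * √τ) = 1 / √(m : ℝ) := by
      rw [← mul_assoc, hnτ, hsm]; field_simp
    have hdecay : rate δ τ ^ n ≤ 2 * (1 / (m : ℝ)) := by
      have hh : rate δ τ ≤ exp (-(τ * (1 / 2))) := by
        linarith [add_one_le_exp (-(τ * (1 / 2)))]
      refine (pow_le_pow_left₀ h0 hh n).trans ?_
      rw [← exp_nat_mul, mul_neg, ← mul_assoc, hnτ, exp_neg, mul_one_div,
        inv_le_comm₀ (exp_pos _) (by positivity), mul_one_div, inv_div]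
      linarith [add_one_le_exp ((m : ℝ) / 2)]
    obtain ⟨f, β, hu, hf, herr⟩ := b2_iter h hg hL2 hL3' hL30 hτ hτ1 hB hL' n
    have hρn : 0 ≤ rate δ τ ^ n := pow_nonneg h0 n
    have herr' : ∀ z, |(op g τ)^[n] v z - v z - stein g f z|
        ≤ 1 / √(m : ℝ) * (W * (1 + ‖z‖ ^ 2)) := fun z => by
      refine (herr z).trans ?_
      rw [hη]
      exact mul_le_mul_of_nonneg_left (bound z) (by positivity)
    have hef : |∫ w, stein g f (X w) ∂μ| ≤ e :=
      he f hf.smooth (fun x => (hf.d1 x).trans (by linarith)) fun x => (hf.d2 x).trans (by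
        linarith [hu.b_nonneg, mul_nonneg hL20 hρn])
    have a1 := abs_mean_sub_le h hX hXi hB hu hf herr' hef
    have a2 := abs_mean_sub_le h measurable_id (μ := tilt R) i2 hB hu hf (e := 0)
      herr' (by simp only [id]; rw [integral_stein h hf, abs_zero])
    simp only [id] at a2
    have a3 := mul_le_mul_of_nonneg_right hdecay hY
    rw [abs_le] at a1 a2 ⊢
    simp only [Y] at a3 ⊢
    constructor <;> linarith
  have hlim : Tendsto (fun m : ℕ => e + (W * Y * (1 / √(m : ℝ)) + 2 * Y * (1 / (m : ℝ)))) atTop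
      (𝓝 e) := by
    have h1 : Tendsto (fun m : ℕ => 1 / √(m : ℝ)) atTop (𝓝 0) :=
      tendsto_const_nhds.div_atTop (tendsto_sqrt_atTop.comp tendsto_natCast_atTop_atTop)
    simpa using tendsto_const_nhds.add
      ((h1.const_mul (W * Y)).add (tendsto_one_div_atTop_nhds_zero_nat.const_mul (2 * Y)))
  exact ge_of_tendsto hlim (eventually_atTop.2 ⟨2, key⟩)

end Vale.Agent.P347
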